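import Vale.Agent.P235.T.K1O10C

namespace Vale.Agent.P235

set_option maxRecDepth 100000

namespace K1O10M00000
noncomputable def a0 : TT := .leaf ⟨false,1,0,0,1,0,15,[[0,0,0,8],[],[],[0,0,0,0,0,0,0,5],[],[],[],[],[],[],[]]⟩ [.leaf 0 [(0,[])], .leaf 0 [(0,[])], .leaf 0 [(0,[])], .leaf 0 [(0,[])], .leaf 0 [(0,[])], .leaf 0 [(0,[])], .leaf 0 [(0,[])], .leaf 0 [(0,[])], .leaf 0 [(0,[])], .leaf 0 [(0,[])], .leaf 0 [(0,[])], .leaf 0 [(0,[])], .leaf 0 [(0,[])], .leaf 0 [(0,[])], .leaf 0 [(0,[])], .leaf 0 [(0,[])], .leaf 0 [(0,[(5,512)])], .leaf 0 [(0,[(6,2048)])], .leaf 0 [(2,[(20,704),(21,704),(24,704),(27,704),(33,4736),(6,3328),(35,2816)])], .leaf 0 [(0,[])], .leaf 0 [(0,[(17,64),(23,64),(5,512),(36,2048)])], .leaf 0 [(0,[(19,64),(28,64),(5,512),(36,2048)])], .leaf 0 [(0,[(5,512),(36,2048)])], .leaf 4 [(66,[(20,3072),(21,3072),(27,3072),(6,21504),(1,224),(0,1216),(35,12288)]),(16,[(34,4096),(1,64),(0,320)]),(168,[(20,2944),(21,5888),(33,70656),(6,50048),(1,562),(0,1984),(35,11776)]),(0,[(0,64)]),(0,[(0,64)])],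 .leaf 2 [(0,[(1,16)])], .leaf 2 [(14,[(20,1376),(21,1376),(24,2912),(27,1376),(33,17216),(6,11392),(0,192),(35,5504)])], .split 1 0 (.leaf 1 [(0,[(0,1)])]) (.leaf 2 [(12,[(22,1152),(27,128),(29,128),(7,18688),(3,256),(0,4)])]), .leaf 2 [(0,[(36,2048)])], .leaf 4 [(50,[(16,19712),(20,6400),(21,6400),(24,7168),(33,14336),(0,96),(35,25600)]),(50,[(16,19712),(20,6400),(21,6400),(24,7168),(33,14336),(0,96),(35,25600)]),(0,[(5,128)]),(8,[(21,1024),(33,2048),(0,128),(36,18432)]),(0,[(16,512),(21,64),(33,512)])], .leaf 0 [(0,[])], .leaf 1 [(0,[(19,64),(5,528),(36,2048)])], .leaf 2 [(14,[(20,1376),(21,1376),(24,2912),(27,1376),(33,17216),(6,11392),(0,192),(35,5504)])], .leaf 1 [(0,[(36,2048)])], .leaf 3 [(0,[(14,512),(6,512),(5,128)]),(6,[(20,256),(2,512),(35,1024)]),(0,[(14,512),(6,512),(5,128)]),(0,[(14,512),(34,512),(36,2048)]),(0,[(14,512),(19,64),(6,512),(5,640),(36,2048)])], .leaf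 1 [(0,[])], .split 0 0 (.leaf 0 [(0,[(0,1)])]) (.leaf 1 [(30,[(18,1984),(0,33),(37,63488)])]), .leaf 0 [(0,[(17,64),(5,528),(36,2048)])]]
noncomputable def a1 : TT := .leaf ⟨false,1,0,0,1,0,15,[[0,0,0,8],[],[],[0,0,0,0,0,0,0,5],[],[],[],[],[],[],[]]⟩ [.leaf 0 [(0,[])], .leaf 0 [(0,[])], .leaf 0 [(0,[])], .leaf 0 [(0,[])], .leaf 0 [(0,[])], .leaf 0 [(0,[])], .leaf 0 [(0,[])], .leaf 0 [(0,[])], .leaf 0 [(0,[])], .leaf 0 [(0,[])], .leaf 0 [(0,[])], .leaf 0 [(0,[])], .leaf 0 [(0,[])], .leaf 0 [(0,[])], .leaf 0 [(0,[])], .leaf 0 [(0,[])], .leaf 0 [(0,[(6,512)])], .leaf 0 [(0,[(7,2048)])], .leaf 0 [(2,[(21,704),(22,704),(25,704),(28,704),(34,4736),(7,3328),(36,2816)])], .leaf 0 [(0,[])], .leaf 0 [(0,[(18,64),(24,64),(6,512),(37,2048)])], .leaf 0 [(4,[(27,160),(1,28),(0,8)])], .leaf 0 [(0,[(6,512),(37,2048)])], .leaf 3 [(764,[(21,14336),(22,14336),(25,131072),(28,14336),(34,45056),(7,243712),(2,4800),(0,5952),(36,57344)]),(2,[(21,96),(22,192),(7,832),(0,64),(36,384)]),(8,[(25,1984),(7,1408),(2,62),(0,80)]),(0,[(0,64)]),(0,[(0,64)])],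 .leaf 1 [(4,[(26,160),(1,36),(0,16)])], .leaf 0 [(0,[(26,96),(7,128),(1,12)])], .leaf 0 [(4,[(25,160),(1,36),(0,16)])], .leaf 2 [(0,[(37,2048)])], .leaf 4 [(98,[(17,38912),(21,12544),(22,13312),(25,17920),(34,31232),(2,48),(36,50176)]),(0,[(16,64),(17,384),(21,128),(22,128),(25,192),(34,320),(36,512)]),(0,[(6,128)]),(0,[(17,512),(25,192),(34,256),(2,2),(37,2048)]),(0,[(17,512),(22,64),(34,512)])], .leaf 0 [(0,[])], .leaf 0 [(10,[(16,448),(27,32),(7,640),(2,2),(1,84)])], .leaf 1 [(10,[(26,672),(35,1344),(1,84)])], .leaf 1 [(0,[(37,2048)])], .leaf 3 [(0,[(15,512),(7,512),(6,128)]),(6,[(21,256),(3,512),(36,1024)]),(0,[(15,512),(7,512),(6,128)]),(0,[(15,512),(35,512),(37,2048)]),(4,[(15,2400),(28,160),(7,2720),(1,28),(0,8)])], .leaf 1 [(0,[])], .split 2 0 (.leaf 2 [(0,[(0,1)])]) (.leaf 0 [(31,[(36,4608),(0,3)])]), .leaf 0 [(0,[(18,64),(6,528),(37,2048)])]]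
noncomputable def a2 : TT := .leaf ⟨false,1,0,1,2,1,31,[[0,0,0,8],[],[0,0,0,2,0,0,0,5],[0,0,0,-10,0,0,0,12],[],[0,0,0,12],[],[],[],[],[]]⟩ [.leaf 0 [(0,[])], .leaf 0 [(0,[])], .leaf 0 [(0,[])], .leaf 0 [(0,[])], .leaf 0 [(0,[])], .leaf 0 [(879,[(35,6400),(36,1440),(8,11360),(3,65),(2,752),(1,48)])], .leaf 0 [(0,[(7,640)])], .leaf 0 [(0,[])], .leaf 0 [(0,[])], .leaf 0 [(0,[])], .leaf 0 [(0,[])], .leaf 0 [(0,[])], .leaf 0 [(0,[])], .leaf 0 [(0,[])], .leaf 0 [(0,[])], .leaf 0 [(0,[])], .leaf 0 [(0,[(7,1024)])], .leaf 0 [(0,[(8,4096)])], .leaf 0 [(4,[(26,2304),(29,7168),(35,3072),(3,24),(0,448)])], .leaf 0 [(0,[])], .leaf 0 [(0,[(17,64),(35,64),(7,32),(1,8)])], .leaf 0 [(0,[(28,16),(8,96),(7,264),(3,1),(2,14)])], .leaf 0 [(0,[(7,1152),(38,4096)])], .split 0 4 (.leaf 0 [(0,[(36,1024),(9,2048),(4,8)]),(0,[(18,1024),(36,1024),(7,512)]),(0,[(18,256),(28,768),(37,864),(9,928)]),(0,[(23,1024),(24,1024),(30,1024)]),(0,[(0,1)])])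 (.split 3 3 (.leaf 3 [(6,[(37,4544),(38,4512),(10,6176),(5,64),(0,1)]),(2890,[(37,2663424),(10,7418368),(5,45676),(4,271040),(0,365)]),(2824,[(24,167680),(25,167680),(28,1862784),(31,167680),(10,131072),(5,43940),(0,361),(39,670720)]),(0,[(0,1)]),(1756,[(25,297472),(31,72576),(37,902656),(38,2104320),(5,16372),(0,293)])]) (.leaf 4 [(124,[(37,384000),(10,686080),(5,4000),(1,241),(0,9)]),(3119,[(25,870400),(28,4725760),(37,235520),(6,174080),(5,106880),(1,1583),(0,532)]),(1032,[(25,2032640),(28,529920),(37,1016320),(6,406528),(5,24484),(0,477)]),(74,[(37,1152000),(10,2160640),(5,12000),(1,1003),(0,47)]),(0,[(37,15360),(10,30720),(5,160),(1,13),(0,1)])])), .leaf 0 [(0,[(23,576),(30,64),(35,256),(7,160),(4,128),(3,4),(1,40)])], .leaf 0 [(10,[(27,1248),(8,1088),(2,156)])], .leaf 0 [(0,[(26,448),(7,480),(3,8),(2,56)])], .leaf 2 [(0,[(38,4096)])], .leaf 2 [(136,[(18,122880),(22,4096),(23,4096),(26,53248),(35,57344),(3,512),(0,832),(37,16384)]),(0,[(31,448),(35,320),(8,320)]),(0,[(18,1024),(26,384),(35,512),(3,4)]),(0,[(0,64),(38,4096)]),(0,[(0,64)])],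 .leaf 0 [(0,[(7,320)])], .leaf 0 [(10,[(27,160),(36,1728),(3,11),(2,196)])], .leaf 1 [(10,[(27,1248),(8,2496),(2,156)])], .leaf 1 [(0,[(38,4096)])], .leaf 3 [(0,[(16,1024),(8,1024),(7,128)]),(0,[(8,1024),(7,128)]),(0,[(16,1024),(8,1024),(7,640)]),(0,[(16,1024),(8,1024),(38,4096)]),(0,[(16,1024),(8,1024),(7,768)])], .leaf 1 [(0,[(7,64)])], .leaf 0 [(10,[(17,1568),(35,1568),(6,3136),(1,196)])], .leaf 0 [(6,[(23,832),(29,64),(35,384),(7,448),(3,4),(1,56)])]]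
noncomputable def a3 : TT := .leaf ⟨false,1,0,0,1,0,15,[[0,0,0,8],[],[],[0,0,0,0,0,0,0,5],[],[],[],[],[],[],[]]⟩ [.leaf 0 [(0,[])], .leaf 0 [(0,[])], .leaf 0 [(0,[])], .leaf 0 [(0,[])], .leaf 0 [(0,[])], .leaf 0 [(0,[])], .leaf 0 [(0,[])], .leaf 0 [(0,[])], .leaf 0 [(0,[])], .leaf 0 [(0,[])], .leaf 0 [(0,[])], .leaf 0 [(0,[])], .leaf 0 [(0,[])], .leaf 0 [(0,[])], .leaf 0 [(0,[])], .leaf 0 [(0,[])], .leaf 0 [(0,[(7,512)])], .leaf 0 [(0,[(8,2048)])], .leaf 0 [(2,[(22,704),(23,704),(26,704),(29,704),(35,4736),(8,3328),(37,2816)])], .leaf 0 [(0,[])], .leaf 0 [(0,[(30,32),(35,64),(0,2)])], .leaf 0 [(0,[(30,32),(0,2)])], .leaf 0 [(0,[(7,512),(38,2048)])], .leaf 0 [(15,[(22,2176),(23,2176),(29,2176),(35,6016),(8,12032),(3,47),(37,8704)]),(0,[(22,32),(29,64),(35,448),(8,544),(3,4),(37,128)]),(0,[(17,416),(22,32),(27,32),(29,64),(8,544),(37,128)]),(0,[(18,736),(22,16),(35,1280),(8,1792),(5,32),(3,4),(0,48),(38,1984)]),(10,[(17,640),(35,6400),(8,12800),(3,60),(2,48),(1,48)])],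 .leaf 0 [(6,[(23,640),(35,1728),(4,128),(3,24),(1,272)])], .leaf 0 [(10,[(35,672),(8,640),(5,384),(1,84)])], .leaf 0 [(0,[(26,224),(3,4),(2,28)])], .leaf 2 [(0,[(38,2048)])], .leaf 4 [(19,[(18,9472),(22,2304),(23,2416),(26,3088),(29,1424),(35,5504),(3,7),(37,9216)]),(0,[(17,64),(18,384),(22,128),(23,128),(26,192),(35,320),(37,512)]),(0,[(7,128)]),(0,[(18,512),(26,192),(35,256),(3,2),(38,2048)]),(0,[(18,512),(23,64),(35,512)])], .leaf 0 [(0,[])], .leaf 0 [(26,[(17,1664),(30,32),(8,1664),(2,208),(0,2)])], .leaf 1 [(10,[(27,672),(36,1344),(2,84)])], .leaf 1 [(0,[(38,2048)])], .leaf 3 [(0,[(16,512),(8,512),(7,128)]),(6,[(22,256),(4,512),(37,1024)]),(82,[(16,34304),(22,4096),(29,4096),(8,42496),(0,256),(37,16384)]),(0,[(16,512),(36,512),(38,2048)]),(0,[(16,512),(29,32),(36,387),(8,125),(0,2)])], .leaf 1 [(0,[])], .leaf 0 [(10,[(17,672),(35,672),(8,1344),(1,84)])], .leaf 0 [(0,[(23,64),(30,32),(35,64),(0,2)])]]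
noncomputable def a4 : TT := .leaf ⟨true,33,31,0,64,3,8183,[[0,0,0,4092],[0,0,0,2046],[],[0,0,0,-4092,0,0,0,5115],[],[],[0,0,0,7161],[0,0,0,124],[0,0,0,66],[],[0,0,0,248]]⟩ [.leaf 0 [(0,[])], .leaf 0 [(0,[])], .leaf 0 [(0,[])], .leaf 0 [(0,[])], .leaf 0 [(0,[])], .leaf 0 [(0,[(7,7688)])], .leaf 0 [(0,[])], .leaf 0 [(0,[]),(0,[]),(0,[]),(0,[]),(0,[]),(0,[])], .leaf 0 [(0,[(9,261888)])], .leaf 0 [(0,[])], .leaf 0 [(0,[])], .leaf 0 [(0,[])], .leaf 0 [(0,[])], .leaf 0 [(0,[])], .leaf 0 [(0,[])], .leaf 0 [(0,[])], .leaf 0 [(0,[])], .leaf 0 [(0,[])], .leaf 0 [(0,[(9,130944)])], .leaf 0 [(0,[(38,654720),(10,392832)])], .leaf 0 [(0,[(19,196416),(28,196416),(37,851136),(38,196416),(10,458304)])], .leaf 0 [(0,[])], .leaf 0 [(0,[(1,32736)])], .leaf 0 [(0,[(23,32736),(32,32736),(9,392832),(40,1047552)])], .leaf 0 [(0,[(40,1047552)])], .leaf 0 [(0,[(19,255936),(37,226176),(10,482112),(3,372)]),(0,[(19,261888),(37,261888),(10,491040)]),(0,[(19,32736),(29,229152),(38,376464),(10,114576)]),(0,[(19,261888),(37,261888),(38,523776),(40,1047552)]),(0,[(19,261888),(37,261888),(38,523776)])],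 .leaf 1 [(0,[(0,32736)])], .leaf 1 [(694,[(32,19821648),(37,16940880),(9,425310204),(5,267003),(4,4955412),(3,180048)])], .leaf 0 [(8,[(25,87296),(9,377828),(5,3069),(2,10912),(0,163680)])], .leaf 2 [(0,[(40,1047552)])], .leaf 4 [(130,[(20,29347824),(24,4959504),(25,4959504),(28,5745168),(37,23848176),(10,12357840),(3,49104),(39,19838016)]),(0,[(20,174592),(24,87296),(25,87296),(28,87296),(37,174592),(39,349184)]),(0,[(33,65472)]),(0,[(19,98208),(20,261888),(28,98208),(37,163680),(10,65472),(40,1047552)]),(0,[(20,261888),(37,261888),(38,261888)])], .leaf 0 [(0,[])], .leaf 1 [(0,[(23,32736),(9,396924),(40,1047552)])], .split 0 0 (.leaf 0 [(0,[(0,1)])]) (.leaf 1 [(154,[(24,425568),(0,13),(41,13618176)])]), .leaf 1 [(0,[(40,1047552)])], .leaf 1 [(0,[(18,261888),(38,196416),(10,65472)]),(0,[(18,261888),(10,261888)]),(0,[(8,229152)]),(0,[(18,261888),(38,261888),(40,1047552)]),(14,[(18,3131744),(32,491040),(38,3546400),(5,5115),(2,38192)])],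 .leaf 1 [(0,[(9,147312)])], .split 1 0 (.leaf 1 [(0,[(0,1)])]) (.leaf 0 [(154,[(22,425568),(0,13),(41,13618176)])]), .leaf 2 [(0,[(9,130944)])]]
noncomputable def a5 : TT := .leaf ⟨false,1,0,0,1,0,15,[[0,0,0,8],[],[],[0,0,0,0,0,0,0,5],[],[],[],[],[],[],[]]⟩ [.leaf 0 [(0,[])], .leaf 0 [(0,[])], .leaf 0 [(0,[])], .leaf 0 [(0,[])], .leaf 0 [(0,[])], .leaf 0 [(0,[])], .leaf 0 [(0,[])], .leaf 0 [(0,[])], .leaf 0 [(0,[])], .leaf 0 [(0,[])], .leaf 0 [(0,[])], .leaf 0 [(0,[])], .leaf 0 [(0,[])], .leaf 0 [(0,[])], .leaf 0 [(0,[])], .leaf 0 [(0,[])], .leaf 0 [(0,[(9,512)])], .leaf 0 [(0,[(10,2048)])], .leaf 0 [(2,[(24,704),(25,704),(28,704),(31,704),(37,4736),(10,3328),(39,2816)])], .leaf 0 [(0,[])], .leaf 0 [(4,[(21,192),(27,192),(1,128),(40,6144)])], .leaf 0 [(0,[(23,64),(32,64),(9,512),(40,2048)])], .leaf 0 [(0,[(9,512),(40,2048)])], .leaf 0 [(12844,[(19,6273168),(24,747520),(25,1275792),(31,1191568),(10,5053440),(2,10528),(0,173712),(39,2990080)]),(80,[(24,9232),(25,18464),(10,15744),(0,2080),(39,36928)]),(0,[(19,416),(24,32),(29,32),(31,64),(10,544),(39,128)]),(5186,[(24,233280),(29,2113408),(31,542336),(10,4546560),(9,4402976),(2,9472),(0,156288),(40,9689856)]),(28,[(19,9236),(25,320),(29,5612),(10,19200),(2,40),(0,660)])],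 .leaf 0 [(0,[(32,64),(9,512),(4,16)])], .leaf 0 [(0,[(23,86),(32,86),(37,86),(9,334),(7,1940),(0,22),(40,2752)])], .leaf 1 [(6,[(23,1572),(32,1572),(37,1124),(9,20768),(0,1124),(40,50304)])], .leaf 2 [(0,[(40,2048)])], .leaf 4 [(294,[(20,124928),(24,41600),(25,47088),(28,45296),(31,11792),(37,93952),(2,224),(39,166400)]),(0,[(19,64),(20,384),(24,128),(25,128),(28,192),(37,320),(39,512)]),(0,[(9,128)]),(8,[(20,4608),(28,512),(37,1024),(3,32),(40,18432)]),(30,[(20,13888),(28,1984),(37,13888),(0,128)])], .leaf 0 [(0,[])], .leaf 1 [(0,[(23,64),(9,528),(40,2048)])], .leaf 1 [(3078,[(23,148260),(32,75684),(37,75684),(5,756),(2,9072),(0,12180),(40,4744320)])], .leaf 1 [(0,[(40,2048)])], .leaf 3 [(0,[(18,512),(10,512),(9,128)]),(0,[(9,128)]),(0,[(18,512),(10,512),(9,128)]),(0,[(18,512),(38,512),(40,2048)]),(98,[(18,40768),(10,47552),(9,7040),(5,66),(2,448)])], .leaf 1 [(0,[])], .leaf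 0 [(18,[(21,84),(27,84),(0,84),(40,2688)])], .leaf 0 [(4,[(21,188),(25,132),(1,132),(40,6016)])]]
noncomputable def a6 : TT := .leaf ⟨false,1,0,0,1,0,15,[[0,0,0,8],[],[],[0,0,0,0,0,0,0,5],[],[],[],[],[],[],[]]⟩ [.leaf 0 [(0,[])], .leaf 0 [(0,[])], .leaf 0 [(0,[])], .leaf 0 [(0,[])], .leaf 0 [(0,[])], .leaf 0 [(0,[])], .leaf 0 [(0,[])], .leaf 0 [(0,[])], .leaf 0 [(0,[])], .leaf 0 [(0,[])], .leaf 0 [(0,[])], .leaf 0 [(0,[])], .leaf 0 [(0,[])], .leaf 0 [(0,[])], .leaf 0 [(0,[])], .leaf 0 [(0,[])], .leaf 0 [(0,[(8,512)])], .leaf 0 [(0,[(37,512),(9,1536)])], .leaf 0 [(2,[(18,1728),(23,128),(24,128),(27,1856),(30,128),(36,4160),(9,2176),(38,512)])], .leaf 0 [(0,[])], .leaf 0 [(0,[(20,64),(26,64),(8,512),(39,2048)])], .leaf 0 [(0,[(22,64),(31,64),(8,512),(39,2048)])], .leaf 0 [(0,[(8,512),(39,2048)])], .leaf 0 [(0,[(18,688),(23,32),(24,32),(27,208),(30,32),(36,272),(9,544),(38,128)]),(6,[(18,4328),(23,48),(24,840),(30,840),(36,2744),(9,5040),(38,192)]),(0,[(18,416),(23,32),(28,32),(30,64),(9,544),(38,128)]),(182,[(18,49088),(23,44608),(24,44608),(30,44608),(36,49088),(9,93408),(6,147808),(0,4768),(39,196352)]),(18,[(18,9728),(36,9728),(9,19360),(0,96)])],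 .leaf 0 [(0,[(31,64),(8,512),(3,16)])], .leaf 1 [(228,[(31,14112),(36,12832),(8,118568),(4,166),(3,3528),(2,80)])], .leaf 0 [(92,[(22,448),(31,448),(36,448),(4,62),(0,448),(39,14336)])], .leaf 2 [(0,[(39,2048)])], .leaf 4 [(4,[(18,224),(19,2368),(23,576),(24,576),(27,800),(30,384),(36,1376),(38,2304)]),(0,[(18,64),(19,384),(23,128),(24,128),(27,192),(36,320),(38,512)]),(0,[(8,128)]),(0,[(18,256),(19,512),(27,256),(36,256),(39,2048)]),(0,[(19,512),(24,64),(36,512)])], .leaf 0 [(0,[])], .leaf 1 [(0,[(22,64),(8,528),(39,2048)])], .leaf 1 [(18,[(20,84),(26,84),(0,84),(39,2688)])], .leaf 1 [(0,[(39,2048)])], .leaf 3 [(0,[(17,512),(9,512),(8,128)]),(0,[(8,128)]),(0,[(17,512),(9,512),(8,128)]),(0,[(17,512),(37,512),(39,2048)]),(92,[(17,41664),(37,30720),(9,16448),(4,62),(0,448)])], .leaf 1 [(0,[])], .leaf 0 [(208,[(22,56),(31,924),(36,924),(3,217),(0,924),(39,1792)])], .leaf 0 [(527,[(22,1376),(24,24288),(31,24288),(36,24288),(8,278784),(4,99),(3,8104),(39,44032)])]]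
noncomputable def a7 : TT := .leaf ⟨true,33,31,0,64,3,8183,[[0,0,0,4092],[0,0,0,2046],[],[0,0,0,-4092,0,0,0,5115],[],[],[0,0,0,7161],[0,0,0,124],[0,0,0,66],[],[0,0,0,248]]⟩ [.leaf 0 [(0,[])], .leaf 0 [(0,[])], .leaf 0 [(0,[])], .leaf 0 [(0,[])], .leaf 0 [(0,[])], .leaf 0 [(0,[(5,7688)])], .leaf 0 [(0,[])], .leaf 0 [(0,[]),(0,[]),(0,[]),(0,[]),(0,[]),(0,[])], .leaf 0 [(0,[(7,261888)])], .leaf 0 [(0,[])], .leaf 0 [(0,[])], .leaf 0 [(0,[])], .leaf 0 [(0,[])], .leaf 0 [(0,[])], .leaf 0 [(0,[])], .leaf 0 [(0,[])], .leaf 0 [(0,[])], .leaf 0 [(0,[])], .leaf 0 [(0,[(7,130944)])], .leaf 0 [(0,[(8,1047552)])], .leaf 0 [(0,[(17,196416),(26,196416),(35,851136),(36,196416),(8,458304)])], .leaf 0 [(0,[])], .leaf 0 [(4,[(25,87296),(0,10912)])], .leaf 0 [(0,[(21,32736),(30,32736),(7,392832),(38,1047552)])], .leaf 0 [(0,[(38,1047552)])], .leaf 0 [(0,[(17,255936),(35,226176),(8,482112),(1,372)]),(0,[(17,261888),(35,261888),(8,491040)]),(0,[(17,32736),(27,229152),(36,376464),(8,114576)]),(0,[(17,261888),(35,261888),(36,523776),(38,1047552)]),(0,[(17,261888),(35,261888),(8,523776)])],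 .leaf 0 [(64,[(28,916608),(30,2356992),(3,46035),(1,71610),(0,294624)])], .leaf 1 [(64,[(25,76384),(30,1145760),(7,1332287),(3,46035),(1,71610),(0,152768)])], .split 0 0 (.leaf 0 [(0,[(0,1)])]) (.leaf 1 [(774,[(29,11839520),(31,13530880),(4,289168),(1,1691360),(0,73)])]), .leaf 2 [(0,[(38,1047552)])], .leaf 4 [(6,[(17,294624),(18,1636800),(22,196416),(23,196416),(26,491040),(35,1342176),(8,654720),(37,785664)]),(0,[(18,174592),(22,87296),(23,87296),(26,87296),(35,174592),(37,349184)]),(0,[(31,65472)]),(0,[(18,261888),(35,261888),(8,261888),(38,1047552)]),(0,[(18,130944),(26,43648),(35,87296),(1,2728)])], .leaf 0 [(0,[])], .leaf 1 [(0,[(21,32736),(7,396924),(38,1047552)])], .split 2 0 (.leaf 2 [(0,[(0,1)])]) (.leaf 0 [(87,[(27,1833216),(30,2880768),(36,3666432),(2,114576),(0,13)])]), .leaf 1 [(0,[(38,1047552)])], .leaf 1 [(0,[(16,261888),(36,196416),(8,65472)]),(0,[(16,261888),(36,261888)]),(0,[(24,229152)]),(0,[(16,261888),(8,261888),(38,1047552)]),(0,[(16,261888),(21,32736),(30,32736),(36,261888),(38,1047552)])],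 .leaf 1 [(0,[(7,147312)])], .split 0 0 (.leaf 0 [(0,[(0,1)])]) (.leaf 1 [(154,[(24,2367904),(1,338272),(0,21)])]), .leaf 0 [(4,[(23,76384),(0,10912)])]]
noncomputable def a8 : TT := .leaf ⟨true,33,31,0,64,3,8183,[[0,0,0,4092],[0,0,0,2046],[],[0,0,0,-4092,0,0,0,5115],[],[],[0,0,0,7161],[0,0,0,124],[0,0,0,66],[],[0,0,0,248]]⟩ [.leaf 0 [(0,[])], .leaf 0 [(0,[])], .leaf 0 [(0,[])], .leaf 0 [(0,[])], .leaf 0 [(0,[])], .leaf 0 [(0,[(4,7688)])], .leaf 0 [(0,[])], .leaf 0 [(0,[]),(0,[]),(0,[]),(0,[]),(0,[]),(0,[])], .leaf 0 [(0,[(6,261888)])], .leaf 0 [(0,[])], .leaf 0 [(0,[])], .leaf 0 [(0,[])], .leaf 0 [(0,[])], .leaf 0 [(0,[])], .leaf 0 [(0,[])], .leaf 0 [(0,[])], .leaf 0 [(0,[])], .leaf 0 [(0,[])], .leaf 0 [(0,[(6,130944)])], .leaf 0 [(0,[(7,1047552)])], .leaf 0 [(0,[(16,196416),(25,196416),(34,851136),(7,654720)])], .leaf 0 [(0,[])], .leaf 0 [(108,[(29,3377760),(34,3472992),(6,67843872),(1,844440),(0,5952)])],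 .leaf 0 [(0,[(16,32736),(35,32736),(0,2046)])], .leaf 0 [(0,[(37,1047552)])], .leaf 0 [(0,[(16,278256),(25,16368),(34,245520),(35,245520),(7,245520)]),(0,[(16,261888),(34,261888),(7,491040)]),(0,[(16,32736),(26,229152),(35,376464),(7,114576)]),(0,[(16,261888),(34,261888),(7,523776),(37,1047552)]),(0,[(16,261888),(34,261888),(35,523776)])], .split 0 0 (.leaf 0 [(0,[(0,1)])]) (.leaf 1 [(14,[(27,229152),(1,16368),(0,1)])]), .leaf 0 [(1,[(26,212784),(35,360096),(0,13299)])], .leaf 1 [(1,[(34,147312),(7,360096),(0,13299)])], .leaf 2 [(0,[(37,1047552)])], .leaf 4 [(6,[(16,294624),(17,1636800),(21,196416),(22,196416),(25,491040),(34,1342176),(7,654720),(36,785664)]),(0,[(17,174592),(21,87296),(22,87296),(25,87296),(34,174592),(36,349184)]),(0,[(30,65472)]),(0,[(16,98208),(17,261888),(25,98208),(34,163680),(7,65472),(37,1047552)]),(0,[(16,98208),(17,261888),(25,98208),(34,163680),(35,65472)])],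 .leaf 0 [(0,[])], .leaf 0 [(1,[(16,65472),(26,147312),(7,360096),(0,13299)])], .leaf 1 [(1,[(26,212784),(7,425568),(0,13299)])], .leaf 1 [(0,[(37,1047552)])], .leaf 1 [(0,[(15,261888),(7,261888)]),(0,[(15,261888),(7,261888)]),(0,[(35,180048),(7,49104)]),(0,[(15,261888),(7,261888),(37,1047552)]),(0,[(15,261888),(16,65472),(35,327360),(0,4092)])], .leaf 1 [(0,[(6,147312)])], .split 0 0 (.leaf 0 [(0,[(0,1)])]) (.leaf 1 [(30,[(23,1014816),(30,1014816),(35,1014816),(2,253704),(0,33)])]), .leaf 0 [(420,[(22,12821600),(29,10901088),(34,11861344),(6,241860388),(1,2965336),(0,60016)])]]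
noncomputable def a9 : TT := .leaf ⟨false,1,0,0,1,0,15,[[0,0,0,8],[],[],[0,0,0,0,0,0,0,5],[],[],[],[],[],[],[]]⟩ [.leaf 0 [(0,[])], .leaf 0 [(0,[])], .leaf 0 [(0,[])], .leaf 0 [(0,[])], .leaf 0 [(0,[])], .leaf 0 [(0,[])], .leaf 0 [(0,[])], .leaf 0 [(0,[])], .leaf 0 [(0,[])], .leaf 0 [(0,[])], .leaf 0 [(0,[])], .leaf 0 [(0,[])], .leaf 0 [(0,[])], .leaf 0 [(0,[])], .leaf 0 [(0,[])], .leaf 0 [(0,[])], .leaf 0 [(0,[(7,512)])], .leaf 0 [(0,[(36,512),(8,1536)])], .leaf 0 [(2,[(22,704),(23,704),(26,704),(29,704),(35,4736),(8,3328),(37,2816)])], .leaf 0 [(0,[])], .leaf 0 [(0,[(19,64),(25,64),(7,512),(38,2048)])], .leaf 0 [(0,[(21,64),(30,64),(7,512),(38,2048)])], .leaf 0 [(0,[(7,512),(38,2048)])], .leaf 3 [(30,[(17,7680),(29,512),(8,7680),(2,128),(0,512)]),(30,[(17,13888),(29,576),(36,9216),(8,6656),(2,144)]),(20,[(17,5120),(29,512),(2,128),(0,352)]),(30,[(17,6656),(29,2560),(8,6656),(2,640),(0,576)]),(30,[(17,6656),(29,2560),(36,6656),(2,640),(0,576)])],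 .leaf 1 [(0,[(25,64),(7,512),(1,16)])], .split 2 0 (.leaf 2 [(0,[(0,1)])]) (.leaf 0 [(31,[(36,4608),(9,2560),(6,1536),(0,3)])]), .leaf 0 [(92,[(21,448),(3,62),(2,112),(38,14336)])], .leaf 2 [(0,[(38,2048)])], .leaf 4 [(54,[(18,27616),(22,6056),(23,6056),(26,6952),(29,5512),(35,13904),(0,56),(37,24224)]),(458,[(18,177152),(22,57856),(23,57856),(26,70144),(35,140288),(0,768),(37,231424)]),(0,[(7,128)]),(4,[(18,2560),(26,512),(35,1024),(0,32),(38,10240)]),(0,[(18,512),(23,64),(35,512)])], .leaf 0 [(0,[])], .leaf 1 [(0,[(21,64),(7,528),(38,2048)])], .split 2 0 (.leaf 2 [(0,[(0,1)])]) (.leaf 1 [(31,[(36,4608),(9,4608),(0,3)])]), .leaf 1 [(0,[(38,2048)])], .leaf 3 [(0,[(16,512),(8,512),(7,128)]),(0,[(7,128)]),(0,[(22,8),(8,512),(7,100),(4,32),(2,4),(37,32)]),(0,[(16,512),(8,512),(38,2048)]),(30,[(8,15872),(4,2496),(2,128)])], .leaf 1 [(0,[])], .leaf 2 [(34,[(23,5888),(28,256),(36,18104),(8,29256),(4,1280),(2,192),(0,16)])],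 .leaf 0 [(0,[(19,64),(7,528),(38,2048)])]]
noncomputable def a10 : TT := .leaf ⟨true,33,31,0,64,3,8183,[[0,0,0,4092],[0,0,0,2046],[],[0,0,0,-4092,0,0,0,5115],[],[],[0,0,0,7161],[0,0,0,124],[0,0,0,66],[],[0,0,0,248]]⟩ [.leaf 0 [(0,[])], .leaf 0 [(0,[])], .leaf 0 [(0,[])], .leaf 0 [(0,[])], .leaf 0 [(0,[])], .leaf 0 [(0,[(8,7688)])], .leaf 0 [(0,[])], .leaf 0 [(0,[]),(0,[]),(0,[]),(0,[]),(0,[]),(0,[])], .leaf 0 [(0,[(10,261888)])], .leaf 0 [(0,[])], .leaf 0 [(0,[])], .leaf 0 [(0,[])], .leaf 0 [(0,[])], .leaf 0 [(0,[])], .leaf 0 [(0,[])], .leaf 0 [(0,[])], .leaf 0 [(0,[])], .leaf 0 [(0,[])], .leaf 0 [(0,[(10,130944)])], .leaf 0 [(0,[(11,1047552)])], .leaf 0 [(0,[(20,196416),(29,196416),(38,851136),(39,196416),(11,458304)])], .leaf 0 [(0,[])], .leaf 0 [(0,[(28,16368),(33,16368),(38,16368),(10,130944),(2,16368),(0,16368)])], .leaf 0 [(0,[(31,15840),(39,1056),(5,264),(3,1056),(2,528)])],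 .leaf 0 [(0,[(41,1047552)])], .leaf 0 [(0,[(20,278256),(29,16368),(38,245520),(39,245520),(11,245520)]),(0,[(20,261888),(38,261888),(11,491040)]),(0,[(20,32736),(30,229152),(39,376464),(11,114576)]),(0,[(20,261888),(38,261888),(11,523776),(41,1047552)]),(0,[(20,261888),(38,261888),(39,523776)])], .leaf 0 [(0,[(20,40920),(26,8184),(33,40920),(38,8184),(10,130944),(2,16368),(0,81840)])], .leaf 0 [(6,[(30,425568),(39,189255),(11,432729),(3,26598)])], .leaf 0 [(12,[(32,32736),(6,4092),(5,8184),(3,2046)])], .leaf 2 [(0,[(41,1047552)])], .leaf 4 [(6,[(20,294624),(21,1636800),(25,196416),(26,196416),(29,491040),(38,1342176),(11,654720),(40,785664)]),(0,[(21,174592),(25,87296),(26,87296),(29,87296),(38,174592),(40,349184)]),(0,[(34,65472)]),(0,[(20,98208),(21,261888),(29,98208),(38,163680),(11,65472),(41,1047552)]),(0,[(20,98208),(21,261888),(29,98208),(38,163680),(39,65472)])], .leaf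 0 [(0,[])], .leaf 0 [(6,[(20,229152),(30,196416),(39,621984),(3,26598)])], .leaf 0 [(0,[(20,40920),(26,8184),(33,8184),(38,8184),(2,16368),(0,81840)])], .leaf 1 [(0,[(41,1047552)])], .leaf 3 [(24,[(25,567424),(39,2324256),(11,4222944),(7,1309440),(5,43648),(40,2269696)]),(6,[(25,130944),(11,458304),(7,261888),(40,523776)]),(24,[(25,567424),(11,6547200),(10,4222944),(7,1309440),(5,43648),(40,2269696)]),(0,[(19,261888),(11,261888),(41,1047552)]),(3,[(25,188672),(11,1047552),(10,785664),(7,159456),(6,2607),(5,8096),(40,754688)])], .leaf 0 [(3,[(20,37851),(28,97185),(33,33759),(38,33759),(5,1023),(2,67518),(0,75702)])], .leaf 1 [(96,[(20,1145760),(21,1080288),(5,16368),(2,2160576),(0,2291520)])], .leaf 0 [(0,[(20,8184),(26,8184),(33,8184),(38,8184),(10,135036),(2,16368),(0,16368)])]]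
noncomputable def a11 : TT := .leaf ⟨true,33,31,0,64,3,8183,[[0,0,0,4092],[0,0,0,2046],[],[0,0,0,-4092,0,0,0,5115],[],[],[0,0,0,7161],[0,0,0,124],[0,0,0,66],[],[0,0,0,248]]⟩ [.leaf 0 [(0,[])], .leaf 0 [(0,[])], .leaf 0 [(0,[])], .leaf 0 [(0,[])], .leaf 0 [(0,[])], .leaf 0 [(1278,[(26,69192),(6,11532),(3,92256),(1,61504),(0,246016),(41,276768)])], .leaf 0 [(0,[])], .leaf 0 [(0,[]),(0,[]),(0,[]),(0,[]),(0,[]),(0,[])], .leaf 0 [(0,[(11,261888)])], .leaf 0 [(0,[])], .leaf 0 [(0,[])], .leaf 0 [(0,[])], .leaf 0 [(0,[])], .leaf 0 [(0,[])], .leaf 0 [(0,[])], .leaf 0 [(0,[])], .leaf 0 [(0,[])], .leaf 0 [(0,[])], .leaf 0 [(0,[(11,130944)])], .leaf 0 [(0,[(40,654720),(12,392832)])], .leaf 0 [(0,[(26,65472),(27,65472),(30,65472),(33,65472),(39,916608),(40,491040),(12,294624),(41,261888)])], .leaf 0 [(0,[])], .leaf 0 [(0,[(21,16368),(29,32736),(3,16368),(0,16368)])], .leaf 0 [(9,[(32,158224),(6,2728),(4,10571),(3,5456)])],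 .leaf 0 [(0,[(42,1047552)])], .leaf 0 [(0,[(21,253704),(26,8184),(27,8184),(33,8184),(39,253704),(40,282348),(12,225060),(41,32736)]),(0,[(21,261888),(39,261888),(40,114576),(12,376464)]),(0,[(12,261888),(6,2112),(3,4224),(1,57288)]),(0,[(21,261888),(39,261888),(12,523776),(42,1047552)]),(0,[(21,261888),(39,261888),(40,523776)])], .leaf 1 [(9,[(29,321904),(33,5456),(6,2728),(4,341),(3,163680)])], .leaf 0 [(13,[(26,30690),(31,31713),(39,197439),(4,14322),(3,30690),(1,136059),(41,122760)])], .leaf 0 [(4,[(30,76384),(33,10912),(6,2728),(4,5456)])], .leaf 2 [(0,[(42,1047552)])], .leaf 4 [(6,[(21,294624),(22,1636800),(26,196416),(27,196416),(30,491040),(39,1342176),(12,654720),(41,785664)]),(0,[(22,174592),(26,87296),(27,87296),(30,87296),(39,174592),(41,349184)]),(0,[(35,65472)]),(0,[(21,98208),(22,261888),(30,98208),(39,163680),(12,65472),(42,1047552)]),(0,[(21,98208),(22,261888),(30,98208),(39,163680),(40,65472)])],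 .leaf 0 [(0,[])], .leaf 0 [(0,[(12,32736),(6,264),(4,2046),(3,528),(1,6138)])], .leaf 1 [(2847,[(7,412269),(6,425568),(3,851136),(1,37875552)])], .leaf 1 [(0,[(42,1047552)])], .leaf 3 [(150,[(21,7070976),(12,39545088),(8,8118528),(6,261888)]),(0,[(12,196416)]),(24,[(26,567424),(12,6547200),(11,4222944),(8,1309440),(6,43648),(41,2269696)]),(150,[(21,7070976),(12,39545088),(8,8118528),(6,261888),(42,158180352)]),(16,[(20,2269696),(26,109120),(12,4452096),(11,3339072),(8,436480),(6,54560),(41,436480)])], .leaf 1 [(0,[(11,147312)])], .leaf 0 [(0,[(1,17732),(0,17732)])], .leaf 0 [(0,[(21,16368),(3,16368),(0,16368)])]]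
noncomputable def a12 : TT := .leaf ⟨false,1,0,1,2,3,7,[[0,0,0,2],[],[0,0,0,-2,0,0,0,3],[0,0,0,-2,0,0,0,3],[],[0,0,0,7],[],[],[],[],[]]⟩ [.leaf 0 [(0,[])], .leaf 0 [(0,[])], .leaf 0 [(0,[(11,1)])], .leaf 0 [(0,[])], .leaf 0 [(0,[])], .leaf 0 [(61,[(7,1),(1,92),(0,4)])], .leaf 0 [(0,[(11,128)])], .leaf 0 [(0,[])], .leaf 0 [(0,[])], .leaf 0 [(0,[(11,896)])], .leaf 0 [(0,[])], .leaf 0 [(0,[])], .leaf 0 [(0,[(11,1344)])], .leaf 0 [(0,[])], .leaf 0 [(0,[])], .leaf 0 [(0,[])], .leaf 0 [(0,[(11,128)])], .leaf 0 [(150,[(21,3456),(27,19328),(40,95168),(12,40128),(8,3968),(6,128)])], .leaf 0 [(2,[(26,512),(27,512),(30,512),(33,512),(39,2048),(12,1024),(41,2048)])], .leaf 0 [(0,[])], .leaf 0 [(0,[(23,32),(29,32),(11,640),(42,1024)])], .leaf 0 [(141,[(32,1936),(12,672),(4,163),(1,530),(0,142)])], .leaf 0 [(0,[(11,1536),(42,1024)])], .leaf 0 [(0,[(21,368),(30,112),(39,144),(40,144),(12,144)]),(6,[(21,1616),(26,256),(27,336),(33,336),(39,1456),(41,1024)]),(92,[(31,18688),(12,42496),(1,4960),(0,160)]),(0,[(26,256),(27,256),(33,256),(11,640)]),(0,[(21,512),(30,256)])],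 .leaf 1 [(124,[(31,1232),(39,768),(4,125),(1,494),(0,274)])], .leaf 0 [(13,[(26,30),(39,224),(4,14),(3,30),(1,63),(41,120)])], .leaf 0 [(1423,[(7,605),(6,992),(3,1984),(1,8544)])], .leaf 2 [(0,[(11,640),(42,1024)])], .leaf 2 [(6,[(21,720),(22,1760),(26,32),(27,32),(30,752),(39,1040),(12,256),(41,128)]),(2,[(35,608),(1,160)]),(0,[(21,128),(22,256),(30,128),(39,128)]),(2,[(22,512),(26,256),(27,256),(30,256),(39,512),(11,864),(42,2048)]),(0,[(22,256),(39,256)])], .leaf 0 [(92,[(7,8),(1,736),(0,32)])], .leaf 0 [(3,[(40,128),(4,8),(1,27),(0,4)])], .leaf 1 [(92,[(7,8),(1,736),(0,32)])], .leaf 1 [(0,[(42,1024)])], .leaf 3 [(74,[(26,1664),(40,6816),(12,12384),(8,3840),(6,128),(41,6656)]),(6,[(26,64),(12,896),(8,128),(41,256)]),(74,[(26,1664),(12,19200),(11,12384),(8,3840),(6,128),(41,6656)]),(0,[(20,256),(40,256),(42,1024)]),(74,[(26,1664),(12,19200),(11,89184),(8,3840),(6,128),(41,6656)])],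 .leaf 1 [(0,[(11,144)])], .split 2 0 (.leaf 2 [(0,[(0,1)])]) (.leaf 1 [(487,[(28,31744),(35,1792),(40,1792),(9,3584),(1,1792),(0,39)])]), .leaf 0 [(0,[(23,32),(11,644),(42,1024)])]]
noncomputable def a13 : TT := .leaf ⟨false,1,0,1,2,3,7,[[0,0,0,2],[],[0,0,0,-2,0,0,0,3],[0,0,0,-2,0,0,0,3],[],[0,0,0,7],[],[],[],[],[]]⟩ [.leaf 0 [(0,[])], .leaf 0 [(0,[])], .leaf 0 [(0,[(9,1)])], .leaf 0 [(0,[])], .leaf 0 [(0,[])], .leaf 0 [(57,[(37,288),(38,389),(10,283),(2,18),(0,96)])], .leaf 0 [(0,[(9,128)])], .leaf 0 [(0,[])], .leaf 0 [(0,[])], .leaf 0 [(0,[(9,896)])], .leaf 0 [(0,[])], .leaf 0 [(0,[])], .leaf 0 [(0,[(9,1344)])], .leaf 0 [(0,[])], .leaf 0 [(0,[])], .leaf 0 [(0,[])], .leaf 0 [(0,[(9,128)])], .leaf 0 [(0,[(38,640),(10,384)])], .leaf 0 [(8,[(19,3840),(24,256),(25,256),(28,4096),(31,256),(37,4864),(10,512),(39,1024)])], .leaf 0 [(0,[])], .leaf 0 [(0,[(21,32),(27,32),(9,640),(40,1024)])],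 .leaf 0 [(2,[(30,16),(10,96),(2,5),(0,32)])], .leaf 0 [(0,[(9,1536),(40,1024)])], .leaf 0 [(0,[(37,256),(38,320),(10,320),(0,128)]),(0,[(24,48),(25,96),(37,256),(0,80),(39,192)]),(28,[(37,9056),(10,22368),(2,160),(0,3328)]),(0,[(24,256),(25,256),(31,256),(9,640)]),(0,[(19,512),(28,256)])], .leaf 1 [(216,[(37,7936),(38,8928),(4,176),(2,496),(1,352)])], .leaf 0 [(6,[(37,256),(10,168),(8,120),(2,16)])], .leaf 0 [(14,[(37,424),(10,936),(4,8),(2,32),(1,16)])], .leaf 2 [(0,[(9,640),(40,1024)])], .leaf 2 [(0,[(20,256),(37,256),(10,256)]),(11,[(33,3072),(10,2352),(5,37),(2,24),(0,1968)]),(0,[(20,256),(28,128),(37,128),(0,64)]),(0,[(24,128),(25,256),(37,256),(9,224),(40,512)]),(0,[(20,256),(37,256)])], .leaf 0 [(2,[(38,96),(5,2),(0,96)])], .leaf 0 [(3,[(38,240),(5,1),(2,8),(0,112)])], .leaf 1 [(28,[(37,768),(38,1792),(2,48),(0,256)])], .leaf 1 [(0,[(40,1024)])], .leaf 3 [(0,[(18,256),(38,32),(10,224)]),(6,[(24,64),(10,896),(6,128),(39,256)]),(0,[(24,8),(9,196),(6,32),(4,4),(39,32)]),(74,[(24,1664),(38,19200),(6,3840),(4,128),(40,70144)]),(74,[(24,1664),(10,19200),(9,89184),(6,3840),(4,128),(39,6656)])],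 .leaf 1 [(0,[(9,144)])], .split 1 0 (.leaf 1 [(0,[(0,1)])]) (.leaf 0 [(92,[(22,224),(0,7),(41,7168)])]), .leaf 0 [(0,[(21,32),(9,644),(40,1024)])]]
noncomputable def a14 : TT := .leaf ⟨false,1,0,1,2,3,7,[[0,0,0,2],[],[0,0,0,-2,0,0,0,3],[0,0,0,-2,0,0,0,3],[],[0,0,0,7],[],[],[],[],[]]⟩ [.leaf 0 [(0,[])], .leaf 0 [(0,[])], .leaf 0 [(0,[(8,1)])], .leaf 0 [(0,[])], .leaf 0 [(0,[])], .leaf 0 [(6,[(18,44),(28,4),(36,44),(9,96),(1,3)])], .leaf 0 [(0,[(8,128)])], .leaf 0 [(0,[])], .leaf 0 [(0,[])], .leaf 0 [(0,[(8,896)])], .leaf 0 [(0,[])], .leaf 0 [(0,[])], .leaf 0 [(0,[(8,1344)])], .leaf 0 [(0,[])], .leaf 0 [(0,[])], .leaf 0 [(0,[])], .leaf 0 [(0,[(8,128)])], .leaf 0 [(0,[(9,1024)])], .leaf 0 [(8,[(18,3840),(23,256),(24,256),(27,4096),(30,256),(36,4864),(9,512),(38,1024)])], .leaf 0 [(0,[])], .leaf 0 [(0,[(20,32),(26,32),(8,640),(39,1024)])], .leaf 0 [(6,[(18,224),(28,32),(9,288),(1,16)])],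 .leaf 0 [(0,[(8,1536),(39,1024)])], .leaf 0 [(0,[(18,368),(27,112),(36,144),(37,144),(9,144)]),(6,[(18,1616),(23,256),(24,336),(30,336),(36,1456),(38,1024)]),(6,[(18,624),(28,2704),(36,400),(9,6432),(1,96)]),(0,[(23,256),(24,256),(30,256),(8,640)]),(0,[(18,512),(27,256)])], .leaf 1 [(30,[(18,64),(28,1216),(30,64),(37,1504),(3,16),(1,80)])], .leaf 0 [(6,[(36,256),(9,288),(1,16)])], .leaf 0 [(216,[(28,7456),(30,448),(37,21856),(3,112),(1,900)])], .leaf 2 [(0,[(8,640),(39,1024)])], .leaf 2 [(6,[(18,720),(19,1760),(23,32),(24,32),(27,752),(36,1040),(9,256),(38,128)]),(6,[(18,624),(28,912),(32,1792),(36,400),(37,1760),(9,1088),(1,96)]),(0,[(23,128),(24,256),(36,256),(38,512)]),(2,[(19,512),(23,256),(24,256),(27,256),(36,512),(8,864),(39,2048)]),(0,[(19,256),(36,256)])], .leaf 0 [(6,[(28,256),(37,512),(1,16)])], .leaf 0 [(0,[(18,32),(28,32),(9,96),(1,4)])], .leaf 1 [(6,[(28,256),(37,512),(1,16)])],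 .leaf 1 [(0,[(39,1024)])], .leaf 3 [(74,[(23,1664),(37,6816),(9,12384),(5,3840),(3,128),(38,6656)]),(0,[(9,192)]),(0,[(17,256),(9,256),(8,224)]),(0,[(17,256),(9,256),(39,1024)]),(0,[(17,256),(9,256),(8,1248)])], .leaf 1 [(0,[(8,144)])], .split 1 0 (.leaf 1 [(0,[(0,1)])]) (.leaf 0 [(92,[(21,224),(0,7),(40,7168)])]), .leaf 0 [(0,[(20,32),(8,644),(39,1024)])]]
noncomputable def t0 : TT := (.w 0 (.split [0,8,8,-8,-16,-56,0,-5,8,8] a0 (.split [0,8,8,-8,-56,-16,0,-5,8,8] a1 (.split [16,0,16,3,0,-32,0,-26,0,16] a2 a3))) (.split [0,16,16,159,-32,-112,0,-24,16,16] (.split [8,8,0,172,-48,0,0,-10,7,0] (.split [0,0,0,-8,32,0,0,20,-1,0] (.split [0,0,0,8,-1,31,0,20,-1,0] a4 a5) a6) a7) a8) (.split [0,16,16,-7,-32,-48,0,-18,16,16] a9 (.split [-2,-2,0,0,0,1,0,0,0,0] (.split [0,-2,-2,0,2,2,0,0,1,0] (.split [0,0,-1,0,0,0,0,4,0,0] a10 (.split [0,-1,-1,-32,32,0,0,1,0,0] a11 a12)) a13) a14)))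
theorem c0 : chkT (([4,4,-1,0,0,0,0,0,0,0] : Fm) :: ([0,0,0,-1,1,0,0,0,0,0] : Fm) :: ([0,0,0,0,0,0,0,-1,1,0] : Fm) :: ([0,0,0,-2,0,0,0,1,0,0] : Fm) :: ([0,0,0,-1,-1,0,0,-1,1,0] : Fm) :: K1O10.C0) t0 = true := by decide +kernel
end K1O10M00000

namespace K1O10M00001
noncomputable def a0 : TT := .leaf ⟨true,33,31,0,64,3,16367,[[0,0,0,6138],[0,0,0,5115],[],[0,0,0,-4092,0,0,0,10230],[],[],[0,0,0,18414],[0,0,0,186],[0,0,0,165],[],[0,0,0,496]]⟩ [.leaf 0 [(0,[])], .leaf 0 [(0,[])], .leaf 0 [(0,[])], .leaf 0 [(0,[])], .leaf 0 [(0,[])], .leaf 0 [(0,[(1,15376)])], .leaf 0 [(0,[])], .leaf 0 [(0,[]),(0,[]),(0,[]),(0,[]),(0,[]),(0,[])], .leaf 0 [(0,[(3,261888)])], .leaf 0 [(0,[])], .leaf 0 [(0,[])], .leaf 0 [(0,[])], .leaf 0 [(0,[])], .leaf 0 [(0,[])], .leaf 0 [(0,[])], .leaf 0 [(0,[])], .leaf 0 [(0,[])], .leaf 0 [(0,[])], .leaf 0 [(0,[(3,720192)])], .leaf 0 [(0,[(32,1243968),(4,851136)])],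 .leaf 0 [(0,[(13,392832),(22,392832),(31,1702272),(32,196416),(4,1113024)])], .leaf 0 [(0,[])], .leaf 0 [(0,[(15,65472),(21,65472),(3,1243968),(34,2095104)])], .leaf 0 [(0,[(17,65472),(26,65472),(3,589248),(34,2095104)])], .leaf 0 [(0,[(34,2095104)])], .leaf 0 [(0,[(13,556512),(22,32736),(31,491040),(32,392832),(4,589248)]),(0,[(13,523776),(31,523776),(4,982080)]),(0,[(12,65472),(23,458304),(4,982080),(0,16368)]),(0,[(13,523776),(31,523776),(32,1047552),(34,2095104)]),(0,[(13,523776),(31,523776),(4,1047552)])], .leaf 1 [(0,[(12,65472),(17,32736),(21,65472),(3,32736),(0,32736),(34,1047552)])], .split 0 0 (.leaf 0 [(0,[(0,1)])]) (.leaf 1 [(214,[(17,16237056),(18,2160576),(22,19445184),(4,84131520),(1,4321152),(0,297),(35,69138432)])]), .split 0 0 (.leaf 0 [(0,[(0,1)])]) (.leaf 1 [(76,[(17,3339072),(18,5041344),(27,5041344),(4,56502336),(0,51),(35,161323008)])]), .leaf 2 [(0,[(34,2095104)])],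 .leaf 4 [(4,[(14,2226048),(18,392832),(19,392832),(22,392832),(31,2226048),(4,1440384),(3,392832),(33,1571328)]),(0,[(13,65472),(14,392832),(18,130944),(19,130944),(22,196416),(31,327360),(33,523776)]),(6,[(18,654720),(27,916608),(0,327360),(33,2618880)]),(0,[(13,196416),(14,523776),(22,196416),(31,327360),(4,130944),(34,2095104)]),(0,[(13,196416),(14,523776),(22,196416),(31,327360),(32,130944)])], .leaf 0 [(0,[])], .leaf 1 [(0,[(17,65472),(3,611754),(34,2095104)])], .split 1 0 (.leaf 1 [(0,[(0,1)])]) (.leaf 0 [(30,[(18,2029632),(0,33),(35,64948224)])]), .leaf 1 [(0,[(34,2095104)])], .leaf 1 [(0,[(12,523776),(4,523776)]),(0,[(12,523776),(32,523776)]),(0,[(12,65472),(4,458304)]),(0,[(12,523776),(4,523776),(34,2095104)]),(0,[(12,523776),(17,65472),(26,65472),(4,523776),(34,2095104)])], .leaf 1 [(0,[(3,229152)])], .split 0 0 (.leaf 0 [(0,[(0,1)])]) (.leaf 1 [(30,[(16,2029632),(0,33),(35,64948224)])]),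 .leaf 0 [(0,[(15,65472),(3,1266474),(34,2095104)])]]
noncomputable def t0 : TT := a0
theorem c0 : chkT (fsm (-1) ([4,4,-1,0,0,0,0,0,0,0] : Fm) :: ([0,0,0,-1,1,0,0,0,0,0] : Fm) :: ([0,0,0,0,0,0,0,-1,1,0] : Fm) :: ([0,0,0,-2,0,0,0,1,0,0] : Fm) :: ([0,0,0,-1,-1,0,0,-1,1,0] : Fm) :: K1O10.C0) t0 = true := by decide +kernel
end K1O10M00001

namespace K1O10M00010
noncomputable def a0 : TT := .leaf ⟨false,1,0,0,1,3,15,[[0,0,0,8],[],[],[0,0,0,7,0,0,0,1],[],[],[],[],[],[],[]]⟩ [.leaf 0 [(0,[])], .leaf 0 [(0,[])], .leaf 0 [(0,[])], .leaf 0 [(0,[])], .leaf 0 [(0,[])], .leaf 0 [(0,[])], .leaf 0 [(0,[])], .leaf 0 [(0,[])], .leaf 0 [(0,[])], .leaf 0 [(0,[])], .leaf 0 [(0,[])], .leaf 0 [(0,[])], .leaf 0 [(0,[])], .leaf 0 [(0,[])], .leaf 0 [(0,[])], .leaf 0 [(0,[])], .leaf 0 [(0,[(5,960)])], .leaf 0 [(0,[(6,2048)])], .leaf 0 [(0,[(20,320),(21,320),(24,320),(27,320),(33,1408),(6,768),(35,1280)])],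 .leaf 0 [(0,[])], .leaf 0 [(0,[(17,64),(23,64),(5,64),(36,2048)])], .leaf 0 [(0,[(19,64),(28,64),(5,64),(36,2048)])], .leaf 0 [(0,[(5,64),(36,2048)])], .leaf 0 [(36,[(20,3936),(21,6080),(27,1792),(33,12864),(6,25728),(1,134),(35,15744)]),(108,[(15,32768),(33,32768),(4,3264),(0,1440)]),(13,[(20,1856),(27,3712),(6,7168),(1,27),(35,7424)]),(0,[(0,32),(36,2048)]),(0,[(33,512),(34,1024),(1,4)])], .leaf 2 [(0,[(1,16)])], .split 2 0 (.leaf 2 [(0,[(0,1)])]) (.leaf 0 [(607,[(34,99840),(7,60928),(6,50176),(0,65)])]), .leaf 2 [(0,[(6,1536),(5,448),(3,512)])], .leaf 2 [(0,[(36,2048)])], .leaf 4 [(2,[(16,1024),(20,512),(21,512),(24,512),(33,1024),(5,288),(35,2048)]),(2,[(16,1024),(20,512),(21,512),(24,512),(33,1024),(35,2048)]),(0,[(5,352)]),(0,[(16,512),(24,192),(33,256),(1,2),(36,2048)]),(4,[(16,2368),(20,192),(21,192),(24,192),(33,2368),(6,1984),(5,4032),(35,768)])], .leaf 0 [(0,[])],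 .leaf 1 [(0,[(19,64),(5,94),(36,2048)])], .split 1 0 (.leaf 1 [(0,[(0,1)])]) (.leaf 0 [(30,[(20,1984),(0,33),(37,63488)])]), .leaf 1 [(0,[(36,2048)])], .leaf 3 [(0,[(14,512),(6,512),(5,352)]),(0,[(5,352)]),(0,[(14,512),(6,512)]),(0,[(14,512),(34,512),(36,2048)]),(0,[(14,512),(6,512),(5,864)])], .leaf 1 [(0,[])], .leaf 2 [(0,[(6,1536),(5,448),(3,512)])], .leaf 0 [(0,[(17,64),(5,94),(36,2048)])]]
noncomputable def a1 : TT := .leaf ⟨false,1,1,0,2,0,7,[[0,0,0,4],[0,0,0,0,2],[],[0,0,0,4,5],[],[],[],[],[],[],[]]⟩ [.leaf 0 [(0,[])], .leaf 0 [(0,[])], .leaf 0 [(0,[])], .leaf 0 [(0,[])], .leaf 0 [(0,[])], .leaf 0 [(0,[])], .leaf 0 [(0,[])], .leaf 0 [(0,[])], .leaf 0 [(0,[])], .leaf 0 [(0,[])], .leaf 0 [(0,[])], .leaf 0 [(0,[])], .leaf 0 [(0,[])], .leaf 0 [(0,[])], .leaf 0 [(0,[])], .leaf 0 [(0,[])], .leaf 0 [(0,[(5,960),(3,896)])], .leaf 0 [(0,[(6,1024),(5,192),(3,384)])], .leaf 0 [(0,[(20,128),(21,128),(24,128),(27,128),(33,768),(6,512),(5,256),(3,896),(35,512)])],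 .leaf 0 [(26,[(15,512),(33,512),(6,1024),(0,32)])], .leaf 0 [(26,[(33,512),(34,160),(1,4),(0,32)])], .leaf 0 [(26,[(26,352),(4,160),(0,32)])], .leaf 1 [(26,[(15,512),(33,512),(6,160),(0,32)])], .leaf 1 [(16,[(20,1120),(21,2240),(33,4352),(6,6464),(5,4224),(3,9696),(1,22),(35,4480)]),(55,[(20,6144),(21,8096),(27,4192),(33,8064),(4,12288),(1,65),(35,24576)]),(8,[(20,992),(27,1984),(6,2304),(3,2336),(35,3968)]),(2,[(20,256),(21,512),(33,768),(6,512),(1,2),(35,1024)]),(0,[(24,128),(6,128),(3,992),(1,4)])], .leaf 0 [(58,[(24,4672),(33,96),(6,2080),(1,118),(0,416)])], .leaf 1 [(58,[(24,6048),(33,1120),(4,2240),(1,118),(0,448)])], .leaf 0 [(58,[(24,864),(33,160),(4,320),(0,64)])], .leaf 2 [(26,[(33,512),(34,1024),(1,4),(0,32),(36,27648)])], .leaf 4 [(4,[(16,1088),(20,192),(21,192),(24,192),(33,1088),(6,704),(5,1792),(3,2240),(35,768)]),(14,[(16,4864),(20,128),(21,1280),(24,1280),(33,2560),(35,512)]),(0,[(20,64),(24,128),(33,128),(5,192),(3,448),(35,256)]),(0,[(21,192),(33,256),(3,448),(1,2),(36,1024)]),(2,[(16,928),(20,32),(21,320),(24,224),(33,544),(35,128)])],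 .leaf 0 [(26,[(33,512),(34,1024),(0,32)])], .leaf 0 [(26,[(26,352),(34,160),(3,1620),(0,32)])], .leaf 0 [(58,[(24,4160),(27,1888),(33,1120),(4,4128),(1,118),(0,448)])], .leaf 1 [(26,[(15,512),(33,512),(6,1024),(0,32),(36,27648)])], .leaf 3 [(0,[(14,256),(6,256),(5,384),(3,384)]),(0,[(14,224),(5,80)]),(4,[(20,128),(6,1024),(2,256),(35,512)]),(0,[(36,1024)]),(1,[(14,480),(27,32),(6,544),(5,141),(3,320),(0,2)])], .leaf 0 [(26,[(15,512),(33,512),(34,160),(0,32)])], .leaf 0 [(26,[(33,512),(6,1024),(1,4),(0,32)])], .leaf 0 [(26,[(15,1024),(21,864),(33,1024),(6,1184),(0,64)])]]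
noncomputable def a2 : TT := .leaf ⟨false,1,1,0,2,1,255,[[0,-2,-3,116,0,0,0,-1],[0,0,0,0,55],[],[0,0,0,-7,-7,0,0,41,3],[],[],[0,0,0,0,100],[],[],[],[]]⟩ [.leaf 0 [(31,[(5,2688),(3,5),(0,32)])], .leaf 0 [(0,[])], .leaf 0 [(0,[])], .leaf 0 [(0,[])], .leaf 0 [(0,[])], .leaf 0 [(0,[])], .leaf 0 [(0,[(8,384),(7,512),(5,512)])], .leaf 0 [(0,[])], .leaf 0 [(0,[])], .leaf 0 [(0,[])], .leaf 0 [(0,[])], .leaf 0 [(0,[(5,75264),(3,140),(0,896)])], .leaf 0 [(0,[])], .leaf 0 [(0,[])], .leaf 0 [(0,[(5,75264),(3,40),(0,896)])], .leaf 0 [(0,[])], .leaf 0 [(376,[(19,90688),(25,97088),(30,47680),(35,47680),(7,10182016),(5,8178816),(3,1072),(2,22384),(38,2902016)])], .leaf 0 [(0,[(17,256),(8,24576)])], .leaf 0 [(8,[(17,78528),(22,15104),(23,15680),(26,90752),(29,14528),(35,186176),(8,76288),(5,56448),(37,60416)])], .leaf 0 [(0,[])], .leaf 0 [(988,[(19,603136),(25,632960),(7,4439488),(3,2948),(2,24192),(0,8768),(38,19300352)])],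 .leaf 0 [(23,[(21,17184),(28,9216),(30,15360),(7,107520),(3,173),(38,549888)])], .leaf 1 [(2,[(25,192),(30,1728),(35,1728),(7,9792),(3,10),(2,480)])], .leaf 1 [(0,[(17,12208),(22,736),(23,784),(26,4512),(29,688),(35,2704),(8,5312),(37,2944)]),(0,[(17,7008),(22,736),(23,1472),(35,7904),(8,5312),(37,2944)]),(0,[(17,1888),(22,736),(29,1472),(8,5312),(37,2944)]),(0,[(17,7696),(22,736),(23,784),(29,688),(35,7216),(8,5312),(37,2944)]),(1,[(17,16503),(26,3831),(29,1856),(35,10697),(8,21906),(5,13056),(0,174)])], .leaf 0 [(74,[(28,28416),(30,48384),(7,338888),(3,596),(2,12096),(0,3272)])], .leaf 1 [(23,[(3,349),(0,2164)])], .leaf 0 [(23,[(3,349)])], .leaf 2 [(100,[(23,38784),(29,11904),(5,93696),(4,12672),(3,2976),(1,11904),(38,3309568)])], .leaf 4 [(2,[(18,16096),(22,8000),(23,8384),(26,7808),(35,16768),(5,10560),(0,9),(37,32000)]),(14,[(18,100928),(22,31456),(23,40960),(26,42400),(35,80480),(0,45),(37,125824)]),(2,[(35,576),(7,13888),(5,11072),(3,10)]),(2,[(18,19744),(22,3248),(23,1664),(26,11168),(35,13408),(5,35136),(0,297),(38,85312)]),(4,[(18,38418),(22,2142),(23,1742),(26,4142),(35,36818),(8,29974),(7,55347),(0,75),(37,8568)])],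 .leaf 0 [(0,[(3,4)])], .leaf 1 [(239,[(21,170208),(23,75552),(7,1112928),(3,1777),(38,5446656)])], .leaf 2 [(0,[(22,2344),(23,2408),(26,2024),(29,2280),(35,20272),(8,15456),(7,5892),(5,21888),(0,244),(37,9376)])], .leaf 1 [(0,[(23,384),(4,96),(3,31),(0,124),(38,32768)])], .leaf 4 [(0,[(16,8096),(22,48),(8,8000),(7,4696),(5,6176),(37,192)]),(0,[(16,8096),(22,48),(8,7360),(7,6232),(5,7712),(37,192)]),(0,[(16,7168),(17,320),(36,6640),(8,1200)]),(120,[(23,554816),(4,333216),(3,280),(0,1120)]),(0,[(8,4800),(4,1312)])], .leaf 1 [(0,[(3,4),(0,16)])], .leaf 2 [(0,[(17,256),(22,64),(23,128),(36,5088),(8,18976),(5,384),(37,256)])], .leaf 0 [(7,[(19,5216),(23,2976),(7,31888),(3,33),(0,132),(38,166912)])]]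
noncomputable def a3 : TT := .leaf ⟨false,1,1,0,2,1,255,[[0,0,-3,121],[0,0,0,0,65],[],[2,2,0,-7,-7,0,0,6,3],[],[],[0,0,0,0,100],[],[],[],[]]⟩ [.leaf 0 [(6399,[(29,384),(35,384),(36,384),(5,46464),(4,96),(3,195),(1,768)])], .leaf 0 [(0,[])], .leaf 0 [(0,[])], .leaf 0 [(0,[])], .leaf 0 [(0,[])], .leaf 0 [(0,[])], .leaf 0 [(0,[(16,256),(8,384),(7,256),(5,256)])], .leaf 0 [(0,[])], .leaf 0 [(0,[])], .leaf 0 [(0,[])], .leaf 0 [(0,[])], .leaf 0 [(49,[(29,2688),(35,2688),(36,2688),(5,325248),(4,672),(3,1365),(1,5376)])], .leaf 0 [(0,[])], .leaf 0 [(0,[])], .leaf 0 [(49,[(29,2688),(35,2688),(36,2688),(5,965248),(4,672),(3,1365),(1,5376)])], .leaf 0 [(0,[])], .leaf 0 [(46,[(19,6752),(25,3744),(30,14304),(35,14304),(7,1485152),(5,1263296),(3,94),(2,5832),(0,800),(38,216064)])], .leaf 0 [(0,[(22,192),(23,640),(8,23168),(37,768)])], .leaf 0 [(8,[(17,75072),(22,21632),(23,25664),(26,94976),(29,19904),(35,176576),(8,52480),(5,72576),(37,86528)])],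 .leaf 0 [(0,[(36,256)])], .leaf 0 [(32,[(21,320),(25,14784),(30,6336),(35,6336),(3,66),(2,3088),(38,10240)])], .leaf 0 [(11,[(21,5472),(28,4608),(30,7680),(3,119),(38,175104)])], .leaf 1 [(24,[(19,9216),(25,16000),(29,384),(3,96),(1,384),(38,294912)])], .leaf 0 [(2,[(17,37104),(22,3392),(23,4400),(26,15488),(29,2960),(35,5264),(8,9088),(37,13568)]),(2,[(17,21616),(22,3392),(23,4400),(29,2960),(35,20752),(8,9088),(37,13568)]),(4,[(22,3552),(23,8064),(8,29856),(37,14208)]),(8,[(17,73728),(22,416),(23,2560),(35,72896),(8,141472),(7,124512),(38,293248)]),(296,[(17,3813712),(26,1762960),(29,382272),(35,310960),(36,781440),(5,764864),(4,62304),(1,23168)])], .leaf 1 [(0,[(19,192),(21,264),(25,640),(3,2),(38,14592)])], .leaf 1 [(23,[(23,8928),(29,2356),(3,397),(1,2356)])], .leaf 0 [(23,[(3,349)])], .leaf 2 [(200,[(23,896),(29,23936),(6,76288),(4,19072),(3,5984),(1,23936),(38,6586368)])],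 .leaf 4 [(32,[(18,182656),(22,86096),(23,88736),(26,87680),(35,182752),(7,16344),(5,135744),(1,96),(37,344384)]),(164,[(18,1109536),(22,349952),(23,436640),(26,473600),(35,878560),(1,480),(37,1399808)]),(0,[(26,128),(35,320),(7,1376),(0,63)]),(0,[(17,3920),(18,5152),(26,4048),(35,4240),(5,6720),(1,96),(38,32768)]),(54,[(18,359248),(22,78112),(23,71952),(26,91312),(35,360048),(8,186224),(7,543712),(1,800),(37,312448)])], .leaf 0 [(2,[(36,768),(4,192),(3,10)])], .leaf 1 [(23,[(21,10560),(23,8064),(3,245),(38,337920)])], .leaf 2 [(296,[(22,272896),(23,405952),(26,215872),(29,215872),(35,6937600),(8,6201728),(7,5351808),(5,4362624),(1,70272),(37,1091584)])], .leaf 1 [(100,[(29,12032),(6,37888),(4,9472),(3,3008),(1,12032),(38,3309568)])], .leaf 4 [(0,[(16,7968),(22,48),(8,8000),(7,4744),(5,5984),(37,192)]),(0,[(16,8224),(22,48),(8,7360),(7,6024),(5,7264),(37,192)]),(0,[(16,7040),(8,6688)]),(0,[(23,3840),(4,2976)]),(0,[(8,4320),(4,1312)])],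 .leaf 0 [(1054,[(17,202560),(21,13184),(25,67520),(30,607680),(35,607680),(7,110656),(5,4242560),(2,97984),(0,24384),(38,421888)])], .leaf 2 [(0,[(23,256),(36,4480),(8,19072)])], .leaf 0 [(63,[(23,35712),(30,11904),(35,11904),(3,295),(2,6464)])]]
noncomputable def a4 : TT := .leaf ⟨false,1,1,0,2,1,255,[[0,0,-3,121],[0,0,0,0,65],[],[2,2,0,-7,-7,0,0,6,3],[],[],[0,0,0,0,100],[],[],[],[]]⟩ [.leaf 0 [(247,[(5,12288),(4,72),(3,3),(2,96)])], .leaf 0 [(0,[])], .leaf 0 [(0,[])], .leaf 0 [(0,[])], .leaf 0 [(0,[])], .leaf 0 [(0,[])], .leaf 0 [(0,[(16,256),(8,384),(7,256),(5,256)])], .leaf 0 [(0,[])], .leaf 0 [(0,[])], .leaf 0 [(0,[])], .leaf 0 [(0,[])], .leaf 0 [(30,[(5,1376256),(4,8064),(3,336),(2,10752)])], .leaf 0 [(0,[])], .leaf 0 [(0,[])], .leaf 0 [(30,[(5,1773056),(4,8064),(3,336),(2,10752)])], .leaf 0 [(0,[])], .leaf 0 [(1284,[(19,82240),(21,12864),(30,508928),(35,493440),(7,40611072),(5,35586560),(3,2570),(2,185696),(1,15488),(38,3043328)])],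 .leaf 0 [(0,[(23,256),(8,23552)])], .leaf 0 [(8,[(17,75072),(22,21632),(23,25664),(26,94976),(29,19904),(35,176576),(8,52480),(5,72576),(37,86528)])], .leaf 0 [(0,[(24,256)])], .leaf 0 [(32,[(21,320),(25,14784),(30,6336),(35,6336),(3,66),(2,3088),(38,10240)])], .leaf 0 [(11,[(21,5472),(28,4608),(30,7680),(3,119),(38,175104)])], .leaf 1 [(0,[(30,640),(35,640),(3,8),(2,96)])], .leaf 0 [(2,[(17,37104),(22,3392),(23,4400),(26,15488),(29,2960),(35,5264),(8,9088),(37,13568)]),(2,[(17,21616),(22,3392),(23,4400),(29,2960),(35,20752),(8,9088),(37,13568)]),(2,[(17,6304),(22,3392),(29,7360),(8,9088),(37,13568)]),(2,[(17,24576),(22,432),(23,1440),(35,24064),(8,46336),(7,40096),(1,11),(38,96576)]),(640,[(17,8324032),(26,3837504),(29,764544),(35,695360),(36,1660800),(5,543520),(4,116448),(0,5792)])], .leaf 1 [(7,[(21,3648),(25,3296),(30,1824),(35,1824),(3,13),(38,116736)])], .leaf 1 [(360,[(23,102400),(26,22064),(29,4144),(4,47380),(3,3664),(0,3276)])],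 .leaf 0 [(47,[(4,2976),(3,667)])], .leaf 2 [(294,[(29,16896),(35,14848),(36,116224),(4,21120),(3,8052),(0,3968),(38,9666560)])], .leaf 4 [(8,[(18,39965),(22,25957),(23,34129),(26,18943),(35,54809),(5,36477),(0,3),(37,103828)]),(14,[(18,101557),(22,31504),(23,39775),(26,43005),(35,79915),(0,5),(37,126016)]),(42,[(23,5504),(35,13760),(5,111776),(1,2200)]),(0,[(18,4589),(22,2151),(23,849),(26,3603),(35,4677),(5,4725),(0,11),(38,24164)]),(14,[(18,96844),(22,22736),(23,21406),(26,26036),(35,97044),(8,46647),(7,142211),(0,25),(37,90944)])], .leaf 0 [(2,[(8,768),(4,192),(3,10)])], .leaf 1 [(23,[(21,10560),(23,8064),(3,245),(38,337920)])], .leaf 0 [(2490,[(17,1309074),(23,827282),(30,111342),(35,104594),(7,506752),(5,11349908),(2,338263),(1,550652),(0,67988)])], .leaf 1 [(294,[(29,16896),(35,14848),(8,116224),(4,21120),(3,8052),(0,3968),(38,9666560)])], .leaf 3 [(0,[(16,7680),(8,8000),(7,3456),(5,2336),(4,96)]),(0,[(7,2384),(4,480)]),(0,[(16,7936),(8,8384),(7,3712),(5,2592),(4,96)]),(450,[(29,18432),(4,912672),(3,4608),(0,2304),(38,14778368)]),(0,[(16,8024),(8,7940),(7,12402),(5,7052),(1,160),(0,20)])],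 .leaf 0 [(106,[(17,20544),(19,21952),(25,28800),(30,42240),(35,39680),(7,11136),(5,637696),(2,5424),(1,2560),(38,702464)])], .leaf 1 [(1713,[(19,1198412),(23,384180),(30,133452),(35,125364),(5,9962040),(2,33363),(1,1018200),(0,126264),(38,38349184)])], .leaf 0 [(4159,[(19,987679),(23,1431585),(3,8448),(2,202752),(0,1056),(38,31605728)])]]
noncomputable def a5 : TT := .leaf ⟨true,33,0,31,64,1,8183,[[0,0,0,3069],[],[0,0,0,3069],[0,0,0,-4092,0,0,0,3069],[],[0,0,0,9207],[],[0,0,0,93],[],[0,0,0,99],[0,0,0,248]]⟩ [.leaf 0 [(0,[])], .leaf 0 [(0,[])], .leaf 0 [(0,[])], .leaf 0 [(0,[])], .leaf 0 [(0,[])], .leaf 0 [(0,[])], .leaf 0 [(76303,[(21,11127264),(28,2559360),(30,5118720),(3,177351),(1,853120),(0,853120),(38,356072448)])], .leaf 0 [(0,[]),(0,[]),(0,[]),(0,[]),(0,[]),(0,[])], .leaf 0 [(0,[(7,261888)])], .leaf 0 [(0,[])], .leaf 0 [(0,[])], .leaf 0 [(0,[])], .leaf 0 [(0,[])], .leaf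 0 [(0,[])], .leaf 0 [(0,[])], .leaf 0 [(0,[])], .leaf 0 [(0,[])], .leaf 0 [(0,[])], .leaf 0 [(0,[(7,261888)])], .leaf 0 [(0,[(36,392832),(8,654720)])], .leaf 0 [(0,[(17,327360),(26,327360),(35,720192),(36,392832)])], .leaf 0 [(0,[])], .leaf 0 [(866,[(21,1152704),(25,916608),(30,27792864),(35,27269088),(7,312268704),(3,8184),(2,6856456),(0,65472),(38,36886528)])], .leaf 0 [(3954,[(21,72182880),(28,19445184),(30,161879520),(7,1430661408),(5,2253415296),(3,1958022),(2,19183296),(0,6481728),(38,2309852160)])], .leaf 0 [(0,[(38,1047552)])], .leaf 3 [(0,[(17,392832),(22,10912),(23,10912),(26,141856),(29,10912),(35,109120),(8,218240),(5,261888),(37,43648)]),(4,[(22,229152),(27,687456),(29,458304),(8,1996896),(5,1473120),(37,916608)]),(6,[(17,2586144),(18,229152),(22,425568),(23,425568),(26,1178496),(29,654720),(5,2062368),(37,1702272)]),(0,[(17,425568),(26,163680),(35,98208),(36,196416),(5,1309440)]),(0,[(17,392832),(23,32736),(26,130944),(35,130944),(36,229152),(5,294624)])],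 .leaf 1 [(1692,[(21,31590240),(25,38497536),(30,30673632),(35,8675040),(7,612392352),(5,943124160),(3,343728),(2,8020320),(0,2749824),(38,1010887680)])], .split 1 0 (.leaf 1 [(0,[(0,1)])]) (.leaf 0 [(11620,[(20,430118304),(26,330731808),(31,132515328),(4,5975343),(1,16564416),(0,1331),(39,13763785728)])]), .leaf 0 [(0,[(7,304172),(5,76384),(3,341)])], .leaf 2 [(0,[(38,1047552)])], .split 2 4 (.leaf 2 [(12,[(18,1571328),(19,3142656),(27,1571328),(36,1571328),(0,1)]),(6,[(23,98208),(27,196416),(36,425568),(9,229152),(38,392832)]),(0,[(0,1)]),(12,[(18,1440384),(19,2880768),(27,1440384),(36,1440384),(0,2),(39,13618176)]),(0,[(0,1)])]) (.leaf 4 [(0,[(18,65472),(19,218240),(23,43648),(24,43648),(27,109120),(36,152768),(38,174592)]),(0,[(19,174592),(23,87296),(24,87296),(27,87296),(36,174592),(8,130944),(38,349184)]),(3300,[(23,75030912),(9,2356992),(8,223194048),(4,1546776),(1,785664),(38,300123648)]),(0,[(18,130944),(19,261888),(27,130944),(36,130944),(39,1047552)]),(2,[(19,1309440),(36,1309440),(9,1309440),(8,654720),(0,2)])]),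 .leaf 0 [(0,[(7,278256)])], .leaf 1 [(1284,[(21,29253708),(30,13638636),(7,475375824),(5,438089520),(2,6612672),(1,13638636),(38,936118656)])], .split 2 0 (.leaf 2 [(0,[(0,1)])]) (.leaf 1 [(95,[(36,8642304),(37,8642304),(0,11)])]), .leaf 1 [(0,[(38,1047552)])], .leaf 3 [(0,[(16,261888),(8,261888),(7,49104)]),(6,[(22,98208),(7,458304),(4,196416),(37,392832)]),(0,[(16,261888),(8,261888),(7,114576)]),(0,[(16,261888),(8,261888),(38,1047552)]),(0,[(8,261888),(5,261888)])], .leaf 1 [(0,[])], .leaf 2 [(0,[(8,785664),(5,261888)])], .leaf 0 [(6153,[(23,133628352),(30,138456912),(35,130731216),(7,2075650632),(5,50937216),(3,686433),(2,51088620),(0,965712)])]]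
noncomputable def a6 : TT := .leaf ⟨false,1,0,0,1,3,15,[[0,0,0,8],[],[],[0,0,0,7,0,0,0,1],[],[],[],[],[],[],[]]⟩ [.leaf 0 [(0,[])], .leaf 0 [(0,[])], .leaf 0 [(0,[])], .leaf 0 [(0,[])], .leaf 0 [(0,[])], .leaf 0 [(0,[])], .leaf 0 [(0,[])], .leaf 0 [(0,[])], .leaf 0 [(0,[])], .leaf 0 [(0,[])], .leaf 0 [(0,[])], .leaf 0 [(0,[])], .leaf 0 [(0,[])], .leaf 0 [(0,[])], .leaf 0 [(0,[])], .leaf 0 [(0,[])], .leaf 0 [(0,[(7,960)])], .leaf 0 [(0,[(8,2048)])], .leaf 0 [(8,[(17,3264),(22,1792),(23,1792),(26,5056),(29,1792),(35,11584),(8,4736),(37,7168)])], .leaf 0 [(0,[])], .leaf 0 [(0,[(19,64),(25,64),(7,64),(38,2048)])], .leaf 0 [(0,[(21,64),(30,64),(7,64),(38,2048)])], .leaf 0 [(0,[(7,64),(38,2048)])], .leaf 0 [(2,[(17,1584),(22,448),(23,448),(26,496),(29,448),(35,592),(8,1184),(37,1792)]),(2,[(17,640),(22,448),(23,896),(35,1536),(8,1184),(37,1792)]),(74,[(22,5984),(23,13248),(8,25152),(2,320),(37,23936)]),(0,[(0,32),(38,2048)]),(0,[(17,944),(26,432),(35,80),(36,160)])],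 .leaf 1 [(0,[(25,64),(7,64),(1,16)])], .split 0 0 (.leaf 0 [(0,[(0,1)])]) (.leaf 1 [(92,[(20,448),(26,448),(4,62),(0,7),(39,14336)])]), .leaf 0 [(2,[(5,448),(3,2)])], .leaf 2 [(0,[(38,2048)])], .leaf 4 [(2,[(18,1024),(22,512),(23,512),(26,512),(35,1024),(7,288),(37,2048)]),(2,[(17,528),(18,1376),(22,160),(23,160),(26,688),(35,848),(37,640)]),(0,[(7,352)]),(0,[(17,256),(18,512),(26,256),(35,256),(38,2048)]),(4,[(18,2368),(22,192),(23,192),(26,192),(35,2368),(8,1984),(7,4032),(37,768)])], .leaf 0 [(0,[])], .leaf 1 [(98,[(19,116),(7,12276),(5,5940),(3,66),(1,1555),(38,3712)])], .split 1 0 (.leaf 1 [(0,[(0,1)])]) (.leaf 0 [(30,[(22,1984),(0,33),(39,63488)])]), .leaf 1 [(0,[(38,2048)])], .leaf 3 [(74,[(22,3328),(8,38400),(7,17568),(4,7680),(2,256),(37,13312)]),(0,[(7,352)]),(24,[(22,896),(4,2560),(2,192),(37,3584)]),(0,[(5,1024),(38,2048)]),(0,[(16,512),(8,512),(7,864)])], .leaf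 1 [(0,[])], .leaf 2 [(22,[(17,512),(23,4608),(36,1472),(8,29248),(4,1024),(2,128)])], .leaf 0 [(0,[(19,64),(7,94),(38,2048)])]]
noncomputable def a7 : TT := .leaf ⟨true,33,0,31,64,1,8183,[[0,0,0,3069],[],[0,0,0,3069],[0,0,0,-4092,0,0,0,3069],[],[0,0,0,9207],[],[0,0,0,93],[],[0,0,0,99],[0,0,0,248]]⟩ [.leaf 0 [(0,[])], .leaf 0 [(0,[])], .leaf 0 [(0,[])], .leaf 0 [(0,[])], .leaf 0 [(0,[])], .leaf 0 [(0,[])], .leaf 0 [(682,[(27,38440),(29,207576),(8,284456),(2,51894),(0,15376)])], .leaf 0 [(0,[]),(0,[]),(0,[]),(0,[]),(0,[]),(0,[])], .leaf 0 [(0,[(7,261888)])], .leaf 0 [(0,[])], .leaf 0 [(0,[])], .leaf 0 [(0,[])], .leaf 0 [(0,[])], .leaf 0 [(0,[])], .leaf 0 [(0,[])], .leaf 0 [(0,[])], .leaf 0 [(0,[])], .leaf 0 [(0,[])], .leaf 0 [(0,[(7,261888)])], .leaf 0 [(0,[(8,1047552)])], .leaf 0 [(0,[(17,327360),(26,327360),(35,720192),(36,392832)])], .leaf 0 [(0,[])], .leaf 0 [(0,[(17,16368),(35,16368),(0,1023)])],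 .leaf 0 [(19,[(23,21824),(28,316448),(7,6040815),(2,5456),(0,21142)])], .leaf 0 [(0,[(38,1047552)])], .leaf 0 [(0,[(17,376464),(26,114576),(35,147312),(36,196416),(8,98208)]),(0,[(17,261888),(35,261888),(36,294624)]),(0,[(17,229152),(27,32736),(8,294624)]),(0,[(17,360096),(26,98208),(35,163680),(8,327360),(38,1047552)]),(8,[(17,3229952),(35,3229952),(8,6459904),(0,54560)])], .leaf 1 [(4,[(27,76384),(29,10912),(7,1432200),(2,2728),(0,5456)])], .leaf 0 [(682,[(29,3907860),(35,18941868),(8,19432908),(2,976965),(0,1428108)])], .leaf 0 [(12,[(29,32736),(7,3045471),(3,4092),(2,8184),(0,2046)])], .leaf 2 [(0,[(38,1047552)])], .leaf 2 [(0,[(17,114576),(18,261888),(26,114576),(35,147312),(8,32736)]),(64,[(22,1107072),(31,2127840),(3,23064),(2,5952),(37,4428288)]),(0,[(18,212784),(22,49104),(23,49104),(26,49104),(35,212784),(36,114576),(37,196416)]),(0,[(17,98208),(18,261888),(26,98208),(35,163680),(36,65472),(38,1047552)]),(8,[(17,872960),(18,2356992),(35,3229952),(36,2024176),(8,2078736),(0,54560)])],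 .leaf 0 [(0,[(7,278256)])], .leaf 0 [(8,[(17,185504),(28,54560),(36,185504),(5,109120),(0,15004)])], .leaf 1 [(8,[(27,240064),(8,480128),(0,15004)])], .leaf 1 [(0,[(38,1047552)])], .leaf 3 [(2,[(22,54560),(8,785664),(4,130944),(2,5456),(37,218240)]),(0,[(8,229152)]),(0,[(22,8184),(7,85932),(4,32736),(2,4092),(37,32736)]),(0,[(16,261888),(36,261888),(38,1047552)]),(0,[(16,261888),(8,261888)])], .leaf 0 [(0,[(17,16368),(35,16368),(5,65472),(0,1023)])], .leaf 0 [(8,[(17,240064),(35,240064),(8,480128),(0,15004)])], .leaf 0 [(0,[(17,16368),(23,32736),(35,16368),(0,1023)])]]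
noncomputable def t0 : TT := (.w 0 (.split [0,16,16,-109,-32,-32,0,-5,16,16] a0 a1) (.split [0,0,0,144,28,-32,0,0,0,-1] (.split [0,0,0,32,64,-32,0,-1,0,0] a2 a3) (.split [2,2,-24,961,58,-256,0,6,3,-8] a4 a5)) (.split [0,16,16,-109,-32,-32,0,-5,16,16] a6 a7))
theorem c0 : chkT (([4,4,-1,0,0,0,0,0,0,0] : Fm) :: fsm (-1) ([0,0,0,-1,1,0,0,0,0,0] : Fm) :: ([0,0,0,0,0,0,0,-1,1,0] : Fm) :: ([0,0,0,-2,0,0,0,1,0,0] : Fm) :: ([0,0,0,-1,-1,0,0,-1,1,0] : Fm) :: K1O10.C0) t0 = true := by decide +kernel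
end K1O10M00010

namespace K1O10M00011
noncomputable def a0 : TT := .leaf ⟨false,1,0,0,1,0,255,[[-1,0,0,128,0,0,0,-2,2],[],[],[-28,-7,-18,0,0,0,0,57,12,18],[],[],[],[],[],[],[]]⟩ [.leaf 0 [(0,[(16,1),(5,2),(2,30),(35,32)])], .leaf 0 [(0,[])], .leaf 0 [(0,[])], .leaf 0 [(0,[(16,2),(22,2),(2,64),(35,64)])], .leaf 0 [(0,[])], .leaf 0 [(0,[])], .leaf 0 [(0,[(20,1280),(26,2304)])], .leaf 0 [(0,[])], .leaf 0 [(0,[])], .leaf 0 [(0,[])], .leaf 0 [(0,[])], .leaf 0 [(0,[(16,896),(5,1792),(2,26880),(35,28672)])], .leaf 0 [(0,[])], .leaf 0 [(0,[])], .leaf 0 [(0,[(16,896),(5,1792),(2,26880),(35,28672)])], .leaf 0 [(0,[])], .leaf 0 [(18,[(18,1024),(22,26112),(27,45056),(4,180224),(1,2048),(0,128),(35,32768)])], .leaf 0 [(0,[(13,896),(27,2304),(5,30976),(2,896)])], .leaf 0 [(1932,[(19,6193152),(23,7208960),(32,30408704),(5,18022400),(1,720896),(0,80256),(34,24772608)])], .leaf 0 [(0,[(20,1152),(26,2304)])],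 .leaf 0 [(76,[(18,5120),(20,50176),(26,171008),(1,10240),(0,640),(35,163840)])], .leaf 0 [(0,[(0,128)])], .leaf 2 [(0,[(0,128)])], .leaf 3 [(270,[(13,2719744),(14,2203648),(19,192512),(23,524288),(33,1136640),(5,215040),(1,598016),(0,7232),(34,770048)]),(12,[(14,67232),(19,18784),(5,94848),(2,119840),(1,3360),(34,75136)]),(1318,[(14,19398656),(26,12238336),(5,10515456),(2,2501632),(1,2280960),(0,8640)]),(1332,[(14,3809552),(19,7164576),(23,940912),(26,6056864),(32,2333104),(5,11042944),(2,49591008),(1,1410816),(0,5344),(34,28658304)]),(118,[(14,1096192),(32,837120),(5,1917696),(2,4647168),(1,16896),(0,64)])], .leaf 0 [(0,[(0,128)])], .leaf 1 [(64,[(17,33216),(20,24048),(23,27024),(26,73936),(1,1952),(0,4412)])], .leaf 2 [(0,[(13,896),(27,2304),(5,22784),(4,896),(2,9088)])], .leaf 2 [(0,[(20,2304),(26,2304),(33,384),(35,32768)])], .leaf 4 [(5612,[(15,16334848),(19,15159296),(32,30318592),(1,6848512),(0,58560),(34,60637184)]),(8,[(19,28672),(23,25472),(32,57344),(1,8752),(0,128),(34,114688)]),(6,[(19,4096),(32,3136),(1,1264),(34,16384)]),(58,[(19,204800),(32,409600),(1,94784),(0,576),(35,1114112)]),(1062,[(15,9790976),(32,7477760),(1,152064),(0,576)])],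 .leaf 0 [(0,[(20,1408),(26,2304)])], .leaf 2 [(18,[(18,1024),(22,26112),(27,45056),(4,180224),(1,2048),(0,128),(35,32768)])], .leaf 2 [(1932,[(19,6193152),(23,7208960),(32,30408704),(33,9715712),(5,8306688),(1,720896),(0,80256),(34,24772608)])], .leaf 1 [(0,[(20,2304),(26,2304),(33,384),(35,32768)])], .leaf 3 [(0,[(13,8640),(27,1152),(5,7488),(4,2304),(2,256)]),(0,[(25,1152),(4,2048)]),(0,[(13,7520),(26,1152),(5,9024),(4,1968)]),(0,[(13,7488),(25,1152),(2,8896),(35,32768)]),(0,[(13,8640),(18,1024),(27,1152),(5,7744),(4,10240),(35,32768)])], .leaf 0 [(4,[(18,512),(26,10880),(2,5120),(1,1008),(0,64),(35,16384)])], .leaf 1 [(76,[(18,7264),(20,81536),(26,162784),(2,78848),(1,14528),(0,908),(35,232448)])], .leaf 0 [(10,[(18,736),(20,17984),(26,23632),(1,1472),(0,92),(35,23552)])]]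
noncomputable def a1 : TT := .leaf ⟨false,1,0,0,1,0,255,[[-1,0,0,128,0,0,0,-2,2],[],[],[-28,-7,-18,0,0,0,0,57,12,18],[],[],[],[],[],[],[]]⟩ [.leaf 0 [(0,[(18,1),(7,2),(4,30),(37,32)])], .leaf 0 [(0,[])], .leaf 0 [(0,[])], .leaf 0 [(0,[(18,2),(24,2),(4,64),(37,64)])], .leaf 0 [(0,[])], .leaf 0 [(0,[])], .leaf 0 [(0,[(22,1280),(28,2304)])], .leaf 0 [(0,[])], .leaf 0 [(0,[])], .leaf 0 [(0,[])], .leaf 0 [(0,[])], .leaf 0 [(0,[(18,896),(7,1792),(4,26880),(37,28672)])], .leaf 0 [(0,[])], .leaf 0 [(0,[])], .leaf 0 [(0,[(18,896),(7,1792),(4,26880),(37,28672)])], .leaf 0 [(0,[])], .leaf 0 [(0,[(18,384),(24,1280),(29,2304),(6,20480),(4,12288),(37,12288)])], .leaf 0 [(0,[(15,896),(29,2304),(35,7296),(7,23680),(4,896)])], .leaf 0 [(848,[(21,1548288),(25,5226496),(34,14450688),(7,4505600),(3,180224),(0,26752),(36,6193152)])], .leaf 0 [(0,[(22,1152),(28,2304)])], .leaf 0 [(0,[(18,640),(22,768),(28,2304),(6,2048),(37,20480)])],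 .leaf 0 [(0,[(20,1024),(29,1024),(1,128),(37,32768)])], .leaf 0 [(0,[(1,128),(37,32768)])], .leaf 3 [(1350,[(16,8364032),(21,1294336),(28,3383296),(7,6537216),(4,8257536),(3,802816),(0,29120),(36,5177344)]),(12,[(16,67232),(21,18784),(7,94848),(4,119840),(3,3360),(36,75136)]),(922,[(16,57344),(7,2970624),(4,9612288),(3,712704),(0,39232)]),(5930,[(21,31506432),(28,26304512),(34,7938048),(7,43425792),(4,224124928),(3,6920192),(0,68288),(36,126025728)]),(848,[(25,52864),(7,1570688),(4,33433728),(3,183680),(0,53440)])], .leaf 1 [(0,[(20,480),(22,768),(28,1952),(4,1024),(3,128),(37,15360)])], .leaf 0 [(58,[(19,21680),(20,3968),(24,46528),(28,8032),(3,15824),(2,1228),(37,126976)])], .leaf 2 [(0,[(15,896),(29,2304),(7,22784),(6,896),(4,9088)])], .leaf 2 [(0,[(22,2304),(28,2304),(35,384),(37,32768)])], .leaf 4 [(650,[(21,1822720),(34,3604480),(3,1138688),(0,8896),(36,7290880)]),(30024,[(17,128897024),(21,66678784),(25,91705952),(34,171884544),(3,18854944),(0,150496),(36,266715136)]),(6,[(21,4096),(34,3136),(3,1264),(36,16384)]),(136,[(34,450560),(3,142336),(0,4672),(37,4489216)]),(376,[(17,3364864),(34,2590720),(3,73728),(0,576)])],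 .leaf 0 [(0,[(22,1408),(28,2304)])], .leaf 1 [(1328,[(19,1736),(20,1359160),(22,183440),(28,279936),(7,55552),(6,1620224),(1,149244),(37,43493120)])], .leaf 1 [(68,[(20,22528),(7,14336),(3,1792),(2,1300),(37,720896)])], .leaf 1 [(0,[(22,2304),(28,2304),(7,384),(37,32768)])], .leaf 3 [(0,[(15,8640),(29,1152),(7,7488),(6,2304),(4,256)]),(0,[(29,1152),(6,2048)]),(124,[(15,983296),(28,73152),(7,1072896),(1,3936)]),(0,[(29,1152),(4,16384),(37,32768)]),(0,[(15,8640),(20,1024),(29,1152),(7,7744),(6,10240),(37,32768)])], .leaf 1 [(0,[(22,1408),(28,2304)])], .leaf 2 [(0,[(15,896),(29,2304),(7,22784),(6,896),(4,9088)])], .leaf 0 [(0,[(18,644),(22,1752),(28,2232),(6,2368),(37,20608)])]]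
noncomputable def a2 : TT := .leaf ⟨false,1,0,1,2,3,7,[[0,0,0,2],[],[0,0,0,-2,0,0,0,3],[0,0,0,-2,0,0,0,3],[],[0,0,0,7],[],[],[],[],[]]⟩ [.leaf 0 [(0,[])], .leaf 0 [(0,[])], .leaf 0 [(0,[(6,1)])], .leaf 0 [(0,[])], .leaf 0 [(0,[])], .leaf 0 [(84895,[(16,280176),(21,17388),(34,272440),(35,451758),(7,108218),(3,2024),(2,1427),(0,2347),(36,69552)])], .leaf 0 [(0,[(6,128)])], .leaf 0 [(0,[])], .leaf 0 [(0,[])], .leaf 0 [(0,[(6,896)])], .leaf 0 [(0,[])], .leaf 0 [(0,[])], .leaf 0 [(0,[(6,1344)])], .leaf 0 [(0,[])], .leaf 0 [(0,[])], .leaf 0 [(0,[])], .leaf 0 [(0,[(6,128)])], .leaf 0 [(0,[(35,640),(7,384)])], .leaf 0 [(2,[(21,512),(22,512),(25,512),(28,512),(34,2048),(7,1024),(36,2048)])], .leaf 0 [(0,[])], .leaf 0 [(0,[(18,32),(24,32),(6,640),(37,1024)])], .leaf 0 [(844,[(21,5088),(29,9440),(7,18240),(4,12544),(3,3744),(0,160),(36,20352)])], .leaf 0 [(0,[(6,1536),(37,1024)])], .leaf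 0 [(0,[(16,200),(21,56),(22,56),(28,56),(34,200),(35,396),(7,4),(36,224)]),(6,[(16,1616),(21,256),(22,336),(28,336),(34,1456),(36,1024)]),(78,[(16,2232),(26,13144),(34,6472),(7,42528),(4,2160),(3,1392),(2,192)]),(0,[(21,256),(22,256),(28,256),(6,640)]),(0,[(16,256),(34,256),(4,512)])], .leaf 1 [(30,[(26,480),(4,2016),(2,4),(0,4)])], .leaf 0 [(216,[(21,248),(26,2964),(34,396),(3,124),(2,28),(0,28),(36,992)])], .leaf 0 [(2282,[(25,9784),(34,38616),(35,78992),(4,145320),(3,968),(0,440)])], .leaf 2 [(0,[(6,640),(37,1024)])], .leaf 2 [(4,[(16,368),(17,1184),(21,96),(22,96),(25,464),(34,816),(35,256),(36,384)]),(168,[(16,12320),(26,10144),(30,48832),(7,32032),(4,4800),(0,192)]),(0,[(16,256),(22,256),(34,256)]),(2,[(17,512),(21,256),(22,256),(25,256),(34,512),(6,864),(37,2048)]),(0,[(17,256),(34,256)])], .leaf 0 [(8186,[(34,68960),(7,149344),(4,23040),(3,14848),(2,2452),(0,404)])],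 .leaf 0 [(168,[(30,752),(35,6384),(4,7952),(0,56)])], .leaf 1 [(8186,[(34,68960),(7,149344),(4,23040),(3,14848),(2,2452),(0,404)])], .leaf 1 [(0,[(37,1024)])], .leaf 3 [(0,[(15,256),(7,256)]),(0,[(7,192)]),(0,[(15,256),(7,256),(6,224)]),(0,[(15,256),(35,256),(37,1024)]),(0,[(15,256),(7,256),(6,1248)])], .leaf 1 [(0,[(6,144)])], .leaf 2 [(0,[(7,768),(4,256)])], .leaf 0 [(0,[(18,32),(6,644),(37,1024)])]]
noncomputable def a3 : TT := .leaf ⟨false,1,1,0,2,3,7,[[0,0,0,3],[0,0,0,0,2],[],[0,0,0,-4,-1,0,0,6],[],[],[0,0,0,0,3],[],[],[],[]]⟩ [.leaf 0 [(0,[])], .leaf 0 [(0,[])], .leaf 0 [(0,[])], .leaf 0 [(0,[])], .leaf 0 [(0,[])], .leaf 0 [(0,[])], .leaf 0 [(0,[(5,320),(3,128)])], .leaf 0 [(0,[])], .leaf 0 [(0,[])], .leaf 0 [(0,[])], .leaf 0 [(0,[])], .leaf 0 [(0,[])], .leaf 0 [(0,[])], .leaf 0 [(0,[])], .leaf 0 [(0,[(3,384)])], .leaf 0 [(0,[])], .leaf 0 [(0,[(5,128),(3,128)])], .leaf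 0 [(0,[(34,448),(6,320)])], .leaf 0 [(0,[(15,128),(24,128),(33,896),(6,768),(3,128)])], .leaf 0 [(0,[])], .leaf 0 [(6,[(17,176),(27,288),(5,4864),(3,1152),(0,16),(36,5632)])], .leaf 0 [(0,[(19,32),(28,32),(5,576),(36,1024)])], .leaf 0 [(0,[(5,576),(36,1024)])], .leaf 1 [(20,[(15,4272),(21,1808),(27,48),(33,6480),(6,10944),(0,64)]),(6,[(15,1216),(21,928),(33,2368),(34,16),(6,3440),(0,32)]),(78,[(33,19424),(34,18144),(6,22848),(2,696),(0,96)]),(6,[(15,1216),(21,928),(33,2368),(34,16),(6,3440),(0,32)]),(6,[(15,1216),(21,928),(33,2368),(34,3680),(0,32)])], .leaf 1 [(3,[(18,12),(19,17),(23,128),(5,528),(2,29),(36,544)])], .leaf 0 [(1087,[(18,13634),(23,18016),(27,16936),(2,8970),(1,583),(0,617)])], .leaf 0 [(0,[(18,32),(5,520),(3,916)])], .leaf 2 [(0,[(36,1024)])], .leaf 2 [(60,[(15,128),(16,14336),(21,576),(33,16768),(34,5008),(6,12080),(3,5408),(0,64)]),(78,[(25,96),(29,18208),(33,1120),(34,2176),(6,384),(3,6144),(2,192),(0,96)]),(60,[(15,192),(16,13696),(21,864),(33,17344),(34,17824),(3,5184),(0,96)]),(60,[(15,192),(16,13696),(21,864),(33,17344),(34,17824),(3,5184),(0,96),(36,62464)]),(60,[(15,192),(16,13696),(21,864),(33,17344),(34,15872),(0,96)])],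 .leaf 0 [(0,[(5,80)])], .leaf 1 [(0,[(19,32),(5,578),(36,1024)])], .leaf 1 [(60,[(19,1232),(34,784),(2,98),(0,56),(36,39424)])], .leaf 1 [(0,[(36,1024)])], .leaf 1 [(42,[(14,7136),(24,1152),(34,2096),(6,8656),(0,64)]),(42,[(22,3744),(24,1728),(34,6880),(0,96)]),(42,[(24,1728),(6,9248),(0,96)]),(42,[(24,1728),(4,10624),(0,96),(36,44032)]),(236,[(14,54592),(18,5312),(19,2272),(26,2400),(6,62304),(0,288),(36,72704)])], .leaf 0 [(2,[(17,9),(21,310),(27,522),(5,1856),(0,29),(36,288)])], .leaf 0 [(2,[(21,88),(27,144),(34,24),(0,8)])], .leaf 0 [(23,[(17,477),(21,1164),(26,194),(27,1940),(5,15424),(0,97),(36,15264)])]]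
noncomputable def t0 : TT := (.split [-29,-7,-18,128,0,-256,0,55,14,10] a0 (.split [-29,-7,-18,-128,0,0,0,47,14,18] (.split [29,135,146,-128,-256,-384,0,-55,114,110] a1 a2) a3))
theorem c0 : chkT (fsm (-1) ([4,4,-1,0,0,0,0,0,0,0] : Fm) :: fsm (-1) ([0,0,0,-1,1,0,0,0,0,0] : Fm) :: ([0,0,0,0,0,0,0,-1,1,0] : Fm) :: ([0,0,0,-2,0,0,0,1,0,0] : Fm) :: ([0,0,0,-1,-1,0,0,-1,1,0] : Fm) :: K1O10.C0) t0 = true := by decide +kernel
end K1O10M00011

namespace K1O10M00100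
noncomputable def a0 : TT := .leaf ⟨true,8,1,0,9,1,63,[[0,0,0,8],[0,0,0,8],[],[8,8,0,-16,-32,0,0,16,8],[],[],[0,0,0,24],[0,0,0,1],[0,0,0,8],[],[0,0,0,8]]⟩ [.leaf 0 [(0,[])], .leaf 0 [(0,[])], .leaf 0 [(0,[])], .leaf 0 [(0,[(4,1),(2,1)])], .leaf 0 [(0,[])], .leaf 0 [(0,[(1,8)])], .leaf 0 [(0,[])], .leaf 0 [(0,[]),(0,[]),(0,[]),(0,[]),(0,[]),(0,[])], .leaf 0 [(0,[(12,1024),(32,1024),(4,2048),(2,2048)])], .leaf 0 [(0,[])], .leaf 0 [(0,[])], .leaf 0 [(0,[])], .leaf 0 [(0,[])], .leaf 0 [(0,[])], .leaf 0 [(0,[])], .leaf 0 [(0,[])], .leaf 0 [(0,[])], .leaf 0 [(0,[])], .leaf 0 [(0,[(19,1024),(3,3072),(2,2048)])], .leaf 0 [(0,[(19,1024),(32,3072),(4,1024)])], .leaf 0 [(0,[(13,1536),(19,1024),(22,1536),(31,6656),(4,3072)])], .leaf 0 [(0,[(12,1024),(32,3072),(2,2048)])], .leaf 0 [(0,[(3,1024)])], .leaf 0 [(0,[(19,256),(24,256),(32,2048),(4,2048),(2,3584),(0,256)])], .leaf 0 [(0,[(12,1024),(32,1536),(4,1536),(2,2048),(34,8192)])],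 .leaf 3 [(0,[(13,2816),(19,512),(22,768),(31,1280),(32,1664),(4,896),(2,1024)]),(0,[(13,1280),(25,512),(4,2816),(2,1280)]),(0,[(12,512),(13,4096),(22,2048),(32,1920),(4,1664),(2,3328)]),(0,[(13,2816),(19,512),(22,768),(31,1280),(32,9856),(4,896),(2,9216)]),(0,[(13,2560),(19,768),(22,512),(31,1536),(32,3072),(2,1280)])], .leaf 0 [(0,[(18,128),(19,1408),(24,128),(26,128),(2,512),(1,1152),(0,512),(33,512)])], .leaf 1 [(0,[(14,256),(19,1312),(3,352),(2,320),(1,1088),(0,512)])], .leaf 0 [(0,[(19,288),(4,4224),(2,3520),(0,256)])], .leaf 2 [(0,[(12,1024),(32,1536),(4,1536),(2,2048),(34,8192)])], .leaf 4 [(0,[(14,2048),(19,512),(31,2048),(4,1024),(3,1152)]),(6,[(13,5632),(14,14336),(18,4352),(19,768),(22,9984),(25,4352),(2,7168),(33,17408)]),(0,[(14,768),(22,512),(27,512),(31,1024),(3,1536),(1,512)]),(2,[(14,5120),(18,1024),(19,2560),(22,1024),(31,5120),(3,512),(1,2816),(34,20480)]),(4,[(14,9472),(18,768),(19,3328),(22,768),(31,9472),(4,2816),(3,4608),(33,3072)])],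 .leaf 0 [(0,[(12,1024),(4,3072),(2,2048)])], .leaf 1 [(0,[(19,288),(32,1888),(4,2080),(2,3264),(0,256)])], .leaf 0 [(0,[(13,256),(19,1312),(32,3712),(2,4032),(0,512)])], .leaf 1 [(0,[(12,1024),(32,3072),(2,2048),(34,8192)])], .leaf 3 [(0,[(12,1536),(4,1536),(3,1024)]),(0,[(4,1536),(3,1792)]),(0,[(12,2560),(4,3584),(3,512),(2,1024)]),(0,[(12,1536),(4,512),(34,8192)]),(0,[(12,1536),(4,6656),(3,2560),(2,5120)])], .leaf 0 [(0,[(12,1024),(32,3328),(2,2560)])], .leaf 1 [(0,[(12,736),(4,3488),(2,2496)])], .leaf 0 [(0,[(3,1120)])]]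
noncomputable def t0 : TT := a0
theorem c0 : chkT (([4,4,-1,0,0,0,0,0,0,0] : Fm) :: ([0,0,0,-1,1,0,0,0,0,0] : Fm) :: fsm (-1) ([0,0,0,0,0,0,0,-1,1,0] : Fm) :: ([0,0,0,-2,0,0,0,1,0,0] : Fm) :: ([0,0,0,-1,-1,0,0,-1,1,0] : Fm) :: K1O10.C0) t0 = true := by decide +kernel
end K1O10M00100

namespace K1O10M00101
noncomputable def a0 : TT := .leaf ⟨false,0,1,0,1,1,7,[[],[0,0,0,0,4],[],[1,1,0,3,-6,0,0,2,1],[],[],[],[],[],[],[]]⟩ [.leaf 0 [(0,[])], .leaf 0 [(0,[])], .leaf 0 [(0,[])], .leaf 0 [(0,[])], .leaf 0 [(0,[])], .leaf 0 [(0,[])], .leaf 0 [(0,[(12,128),(32,576),(4,64),(2,512)])], .leaf 0 [(0,[])], .leaf 0 [(0,[])], .leaf 0 [(0,[])], .leaf 0 [(0,[])], .leaf 0 [(0,[])], .leaf 0 [(0,[])], .leaf 0 [(0,[])], .leaf 0 [(0,[])], .leaf 0 [(0,[])], .leaf 0 [(0,[(19,128),(4,640),(3,384),(2,896)])], .leaf 0 [(0,[(19,128),(4,384)])], .leaf 0 [(0,[(13,192),(19,128),(22,192),(31,832),(4,384)])],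 .leaf 0 [(0,[(12,128),(32,128)])], .leaf 0 [(0,[(12,128),(32,128),(2,32)])], .leaf 0 [(0,[(12,128),(17,32),(26,32),(4,128),(3,192),(34,1024)])], .leaf 0 [(0,[(4,128),(3,256),(34,1024)])], .leaf 3 [(0,[(13,272),(19,80),(25,16),(31,240),(4,224)]),(6,[(18,64),(4,896),(0,144),(33,256)]),(0,[(13,512),(22,192),(25,64),(4,512),(2,416)]),(0,[(13,256),(19,64),(31,256),(4,192)]),(0,[(13,256),(19,96),(31,256),(32,224)])], .leaf 1 [(0,[(12,128),(32,160),(2,64)])], .split 0 0 (.leaf 0 [(0,[(0,1)])]) (.leaf 1 [(42,[(17,1376),(0,53)])]), .leaf 0 [(0,[(12,92),(17,32),(4,156),(3,202),(2,32),(34,1024)])], .leaf 2 [(0,[(12,128),(4,128),(3,192),(34,1024)])], .leaf 4 [(0,[(14,256),(19,64),(31,256),(4,320),(3,192),(2,192)]),(0,[(14,384),(18,64),(22,64),(25,192),(33,256)]),(8,[(18,640),(31,576),(3,1152),(1,1856),(0,464),(33,2560)]),(0,[(14,256),(19,64),(31,256),(4,1344),(3,192),(2,1216),(34,1024)]),(2,[(14,640),(18,128),(19,320),(22,128),(31,640),(3,64),(1,4288),(33,512)])],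 .leaf 0 [(0,[(12,128),(32,128)])], .leaf 1 [(0,[(12,124),(17,32),(4,124),(3,218),(34,1024)])], .split 2 0 (.leaf 2 [(0,[(0,1)])]) (.leaf 1 [(735,[(23,1792),(26,1792),(32,75520),(5,57600),(1,3584),(0,103)])]), .leaf 1 [(0,[(4,128),(3,256),(34,1024)])], .leaf 3 [(0,[(12,192),(4,192),(3,288)]),(0,[(12,160),(4,192),(3,304)]),(0,[(12,320),(32,224),(4,480),(2,384)]),(0,[(12,192),(4,192),(3,320),(1,960),(34,1024)]),(0,[(12,192),(4,1152),(3,320),(2,960)])], .leaf 0 [(0,[(12,128),(32,160),(2,64)])], .leaf 1 [(0,[(12,92),(32,156),(2,32)])], .leaf 0 [(0,[(12,92),(32,156),(2,32)])]]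
noncomputable def t0 : TT := a0
theorem c0 : chkT (fsm (-1) ([4,4,-1,0,0,0,0,0,0,0] : Fm) :: ([0,0,0,-1,1,0,0,0,0,0] : Fm) :: fsm (-1) ([0,0,0,0,0,0,0,-1,1,0] : Fm) :: ([0,0,0,-2,0,0,0,1,0,0] : Fm) :: ([0,0,0,-1,-1,0,0,-1,1,0] : Fm) :: K1O10.C0) t0 = true := by decide +kernel
end K1O10M00101

namespace K1O10M00110
noncomputable def a0 : TT := .leaf ⟨true,8,1,0,9,1,63,[[0,0,0,8],[0,0,0,8],[],[8,8,0,-16,-32,0,0,16,8],[],[],[0,0,0,24],[0,0,0,1],[0,0,0,8],[],[0,0,0,8]]⟩ [.leaf 0 [(0,[])], .leaf 0 [(0,[])], .leaf 0 [(0,[])], .leaf 0 [(0,[(4,1),(2,1)])], .leaf 0 [(0,[])], .leaf 0 [(0,[(4,8),(2,8)])], .leaf 0 [(0,[])], .leaf 0 [(0,[]),(0,[]),(0,[]),(0,[]),(0,[]),(0,[])], .leaf 0 [(0,[(12,1024),(4,3072),(2,2048)])], .leaf 0 [(0,[])], .leaf 0 [(0,[])], .leaf 0 [(0,[])], .leaf 0 [(0,[])], .leaf 0 [(0,[])], .leaf 0 [(0,[])], .leaf 0 [(0,[])], .leaf 0 [(0,[])], .leaf 0 [(0,[])], .leaf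 0 [(0,[(19,1024),(3,3072),(2,2048)])], .leaf 0 [(0,[(19,1024),(32,3072),(4,1024)])], .leaf 0 [(0,[(13,1536),(19,1024),(22,1536),(31,6656),(4,3072)])], .leaf 0 [(0,[(32,1024),(1,3072)])], .leaf 0 [(0,[(3,1024)])], .leaf 0 [(0,[(19,256),(24,256),(4,4096),(2,3584),(0,256)])], .leaf 0 [(0,[(12,1024),(4,3072),(2,2048),(34,8192)])], .leaf 3 [(0,[(13,2816),(19,512),(22,768),(31,1280),(32,640),(4,896),(1,1024)]),(0,[(13,1280),(25,512),(4,1536),(1,1280)]),(6,[(13,19968),(18,4352),(19,3456),(22,12672),(25,1664),(1,28672),(33,17408)]),(0,[(13,2816),(19,512),(22,768),(31,1280),(32,640),(4,896),(1,9216)]),(0,[(13,2560),(19,768),(22,512),(31,1536),(32,1792),(1,1280)])], .leaf 0 [(0,[(18,128),(19,1408),(24,128),(26,128),(4,1152),(2,1664),(0,512),(33,512)])], .leaf 1 [(0,[(14,256),(19,1312),(4,1088),(3,352),(2,1408),(0,512)])], .leaf 0 [(0,[(19,288),(4,4224),(2,3520),(0,256)])], .leaf 2 [(0,[(12,1024),(4,1024),(3,512),(1,2048),(34,8192)])],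 .leaf 4 [(0,[(14,2048),(19,512),(31,2048),(4,1024),(3,1152)]),(0,[(14,2048),(18,768),(19,256),(22,768),(25,768),(31,512),(1,1024),(33,3072)]),(0,[(14,1280),(22,512),(31,1536),(4,512),(3,1280)]),(4,[(14,9472),(18,768),(19,3328),(22,768),(31,9472),(4,2816),(3,4608),(34,37888)]),(4,[(14,9472),(18,768),(19,3328),(22,768),(31,9472),(4,2816),(3,4608),(33,3072)])], .leaf 0 [(0,[(12,1024),(4,1024),(3,128),(1,2048)])], .leaf 1 [(0,[(19,288),(4,3968),(2,3264),(0,256)])], .leaf 0 [(0,[(13,256),(19,1312),(2,320),(1,3712),(0,512)])], .leaf 1 [(0,[(12,1024),(1,3072),(34,8192)])], .leaf 3 [(0,[(12,1536),(4,1536),(3,1024)]),(0,[(4,1536),(3,1792)]),(0,[(12,2560),(4,2560),(3,1536),(1,1024)]),(0,[(12,1536),(1,512),(34,8192)]),(0,[(4,8192),(3,2560),(2,6656)])], .leaf 0 [(0,[(12,1024),(32,768),(1,2560)])], .leaf 1 [(0,[(1,4224)])], .leaf 0 [(0,[(3,1120)])]]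
noncomputable def t0 : TT := a0
theorem c0 : chkT (([4,4,-1,0,0,0,0,0,0,0] : Fm) :: fsm (-1) ([0,0,0,-1,1,0,0,0,0,0] : Fm) :: fsm (-1) ([0,0,0,0,0,0,0,-1,1,0] : Fm) :: ([0,0,0,-2,0,0,0,1,0,0] : Fm) :: ([0,0,0,-1,-1,0,0,-1,1,0] : Fm) :: K1O10.C0) t0 = true := by decide +kernel
end K1O10M00110

namespace K1O10M00111
noncomputable def a0 : TT := .leaf ⟨false,0,1,0,1,1,7,[[],[0,0,0,0,4],[],[1,1,0,3,-6,0,0,2,1],[],[],[],[],[],[],[]]⟩ [.leaf 0 [(0,[])], .leaf 0 [(0,[])], .leaf 0 [(0,[])], .leaf 0 [(0,[])], .leaf 0 [(0,[])], .leaf 0 [(0,[])], .leaf 0 [(0,[(12,128),(32,64),(4,64),(1,512)])], .leaf 0 [(0,[])], .leaf 0 [(0,[])], .leaf 0 [(0,[])], .leaf 0 [(0,[])], .leaf 0 [(0,[])], .leaf 0 [(0,[])], .leaf 0 [(0,[])], .leaf 0 [(0,[])], .leaf 0 [(0,[])], .leaf 0 [(0,[(19,128),(4,640),(3,384),(2,896)])], .leaf 0 [(0,[(19,128),(4,384)])], .leaf 0 [(0,[(13,192),(19,128),(22,192),(31,832),(4,384)])],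 .leaf 0 [(0,[(32,128),(1,128)])], .leaf 0 [(0,[(1,256)])], .leaf 0 [(0,[(12,128),(17,32),(26,32),(4,128),(3,192),(34,1024)])], .leaf 0 [(0,[(4,128),(3,256),(34,1024)])], .leaf 3 [(0,[(13,272),(19,80),(25,16),(31,240),(4,224)]),(6,[(18,64),(4,896),(0,144),(33,256)]),(6,[(13,3328),(18,128),(22,1344),(25,448),(4,672),(1,2912),(33,512)]),(0,[(13,256),(19,64),(31,256),(4,192)]),(0,[(13,256),(19,96),(31,256),(32,224)])], .leaf 1 [(0,[(12,128),(32,96),(1,64)])], .split 0 0 (.leaf 0 [(0,[(0,1)])]) (.leaf 1 [(42,[(17,1376),(0,53)])]), .leaf 0 [(0,[(12,92),(17,32),(4,156),(3,202),(2,32),(34,1024)])], .leaf 2 [(0,[(12,128),(4,128),(3,192),(34,1024)])], .leaf 4 [(0,[(14,256),(19,64),(31,256),(4,320),(3,192),(2,192)]),(0,[(14,384),(18,64),(22,64),(25,192),(33,256)]),(6,[(18,704),(22,672),(31,1120),(3,896),(0,296),(33,2816)]),(0,[(14,256),(19,64),(31,256),(4,1344),(3,192),(2,1216),(34,1024)]),(0,[(14,256),(19,64),(31,256),(4,1344),(3,192),(2,1216)])],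 .leaf 0 [(0,[(32,128),(1,128)])], .leaf 1 [(0,[(12,124),(17,32),(4,124),(3,218),(34,1024)])], .split 2 0 (.leaf 2 [(0,[(0,1)])]) (.leaf 1 [(735,[(23,1792),(26,1792),(32,75520),(5,57600),(1,3584),(0,103)])]), .leaf 1 [(0,[(4,128),(3,256),(34,1024)])], .leaf 3 [(0,[(12,192),(4,192),(3,288)]),(0,[(12,160),(4,192),(3,304)]),(0,[(12,320),(4,704),(2,384)]),(0,[(12,192),(4,1152),(3,320),(2,960),(34,1024)]),(0,[(12,192),(4,1152),(3,320),(2,960)])], .leaf 0 [(0,[(1,288)])], .leaf 1 [(0,[(32,124),(1,124)])], .leaf 0 [(0,[(32,124),(1,124)])]]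
noncomputable def t0 : TT := a0
theorem c0 : chkT (fsm (-1) ([4,4,-1,0,0,0,0,0,0,0] : Fm) :: fsm (-1) ([0,0,0,-1,1,0,0,0,0,0] : Fm) :: fsm (-1) ([0,0,0,0,0,0,0,-1,1,0] : Fm) :: ([0,0,0,-2,0,0,0,1,0,0] : Fm) :: ([0,0,0,-1,-1,0,0,-1,1,0] : Fm) :: K1O10.C0) t0 = true := by decide +kernel
end K1O10M00111

namespace K1O10M00000
theorem top : ∃ t, chkT (([4,4,-1,0,0,0,0,0,0,0] : Fm) :: ([0,0,0,-1,1,0,0,0,0,0] : Fm) :: ([0,0,0,0,0,0,0,-1,1,0] : Fm) :: ([0,0,0,-2,0,0,0,1,0,0] : Fm) :: ([0,0,0,-1,-1,0,0,-1,1,0] : Fm) :: K1O10.C0) t = true := ⟨_, c0⟩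
end K1O10M00000
namespace K1O10M00001
theorem top : ∃ t, chkT (fsm (-1) ([4,4,-1,0,0,0,0,0,0,0] : Fm) :: ([0,0,0,-1,1,0,0,0,0,0] : Fm) :: ([0,0,0,0,0,0,0,-1,1,0] : Fm) :: ([0,0,0,-2,0,0,0,1,0,0] : Fm) :: ([0,0,0,-1,-1,0,0,-1,1,0] : Fm) :: K1O10.C0) t = true := ⟨_, c0⟩
end K1O10M00001
namespace K1O10M00010
theorem top : ∃ t, chkT (([4,4,-1,0,0,0,0,0,0,0] : Fm) :: fsm (-1) ([0,0,0,-1,1,0,0,0,0,0] : Fm) :: ([0,0,0,0,0,0,0,-1,1,0] : Fm) :: ([0,0,0,-2,0,0,0,1,0,0] : Fm) :: ([0,0,0,-1,-1,0,0,-1,1,0] : Fm) :: K1O10.C0) t = true := ⟨_, c0⟩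
end K1O10M00010
namespace K1O10M00011
theorem top : ∃ t, chkT (fsm (-1) ([4,4,-1,0,0,0,0,0,0,0] : Fm) :: fsm (-1) ([0,0,0,-1,1,0,0,0,0,0] : Fm) :: ([0,0,0,0,0,0,0,-1,1,0] : Fm) :: ([0,0,0,-2,0,0,0,1,0,0] : Fm) :: ([0,0,0,-1,-1,0,0,-1,1,0] : Fm) :: K1O10.C0) t = true := ⟨_, c0⟩
end K1O10M00011
namespace K1O10M00100
theorem top : ∃ t, chkT (([4,4,-1,0,0,0,0,0,0,0] : Fm) :: ([0,0,0,-1,1,0,0,0,0,0] : Fm) :: fsm (-1) ([0,0,0,0,0,0,0,-1,1,0] : Fm) :: ([0,0,0,-2,0,0,0,1,0,0] : Fm) :: ([0,0,0,-1,-1,0,0,-1,1,0] : Fm) :: K1O10.C0) t = true := ⟨_, c0⟩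
end K1O10M00100
namespace K1O10M00101
theorem top : ∃ t, chkT (fsm (-1) ([4,4,-1,0,0,0,0,0,0,0] : Fm) :: ([0,0,0,-1,1,0,0,0,0,0] : Fm) :: fsm (-1) ([0,0,0,0,0,0,0,-1,1,0] : Fm) :: ([0,0,0,-2,0,0,0,1,0,0] : Fm) :: ([0,0,0,-1,-1,0,0,-1,1,0] : Fm) :: K1O10.C0) t = true := ⟨_, c0⟩
end K1O10M00101
namespace K1O10M00110
theorem top : ∃ t, chkT (([4,4,-1,0,0,0,0,0,0,0] : Fm) :: fsm (-1) ([0,0,0,-1,1,0,0,0,0,0] : Fm) :: fsm (-1) ([0,0,0,0,0,0,0,-1,1,0] : Fm) :: ([0,0,0,-2,0,0,0,1,0,0] : Fm) :: ([0,0,0,-1,-1,0,0,-1,1,0] : Fm) :: K1O10.C0) t = true := ⟨_, c0⟩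
end K1O10M00110
namespace K1O10M00111
theorem top : ∃ t, chkT (fsm (-1) ([4,4,-1,0,0,0,0,0,0,0] : Fm) :: fsm (-1) ([0,0,0,-1,1,0,0,0,0,0] : Fm) :: fsm (-1) ([0,0,0,0,0,0,0,-1,1,0] : Fm) :: ([0,0,0,-2,0,0,0,1,0,0] : Fm) :: ([0,0,0,-1,-1,0,0,-1,1,0] : Fm) :: K1O10.C0) t = true := ⟨_, c0⟩
end K1O10M00111
def K1O10P00 := (splE (splE (splE K1O10M00000.top K1O10M00001.top) (splE K1O10M00010.top K1O10M00011.top)) (splE (splE K1O10M00100.top K1O10M00101.top) (splE K1O10M00110.top K1O10M00111.top)))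

end Vale.Agent.P235
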