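import Vale.Agent.P235.T.K1O10C

namespace Vale.Agent.P235

set_option maxRecDepth 100000

namespace K1O10M01010
noncomputable def a0 : TT := .leaf ⟨false,1,1,0,2,0,7,[[0,0,0,5,0,0,0,-1],[0,0,0,0,2],[],[-1,0,-1,1,-2,0,0,2,0,1],[],[],[0,0,0,0,2],[],[],[],[]]⟩ [.leaf 0 [(0,[(7,1)])], .leaf 0 [(0,[])], .leaf 0 [(0,[])], .leaf 0 [(0,[(3,2)])], .leaf 0 [(0,[])], .leaf 0 [(0,[])], .leaf 0 [(0,[(29,128),(5,256),(3,128)])], .leaf 0 [(0,[])], .leaf 0 [(0,[])], .leaf 0 [(0,[])], .leaf 0 [(0,[])], .leaf 0 [(0,[(7,896)])], .leaf 0 [(0,[])], .leaf 0 [(0,[])], .leaf 0 [(0,[(7,896),(5,256)])], .leaf 0 [(0,[])], .leaf 0 [(0,[(30,128),(3,512)])], .leaf 0 [(0,[(30,128),(8,768)])], .leaf 0 [(10,[(22,1536),(23,1664),(26,2432),(35,7168),(8,3072),(1,8),(37,6144)])], .leaf 0 [(0,[(29,128)])], .leaf 0 [(0,[(29,96),(35,32),(0,32)])], .leaf 0 [(0,[(29,96),(0,32)])], .leaf 1 [(0,[(29,96),(35,32),(0,32)])], .leaf 1 [(6,[(17,1248),(22,384),(23,224),(35,1120),(8,1344),(2,448),(37,1536)]),(39,[(18,8064),(22,768),(23,5760),(35,6400),(8,9600),(1,35),(37,3072)]),(0,[(22,64),(23,32),(8,128),(37,256)]),(39,[(18,8064),(22,768),(23,5760),(35,6400),(8,9600),(1,35),(37,3072)]),(0,[(18,224),(35,32),(36,288),(7,1088),(1,2)])],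 .leaf 0 [(0,[(29,96),(7,64),(2,64),(0,32)])], .leaf 1 [(0,[(26,32),(29,60),(35,32),(7,64),(2,64),(0,64)])], .leaf 0 [(0,[(26,32),(29,60),(35,32),(5,48),(0,64)])], .leaf 2 [(0,[(29,128),(7,928),(38,1024)])], .leaf 4 [(2,[(18,784),(22,176),(23,176),(26,176),(35,352),(2,48),(37,704)]),(2,[(18,400),(22,176),(23,176),(26,176),(35,352),(2,432),(37,704)]),(6,[(22,32),(26,64),(31,224),(35,64),(37,128)]),(0,[(18,320),(35,192),(8,192),(7,736),(38,1024)]),(0,[(18,320),(23,32),(35,192),(8,64)])], .leaf 0 [(0,[(29,128),(7,32)])], .leaf 0 [(0,[(30,36),(7,80),(0,32)])], .leaf 0 [(0,[(29,124),(2,64),(0,32)])], .leaf 1 [(0,[(29,128),(7,928),(38,1024)])], .leaf 3 [(2,[(16,160),(22,208),(30,192),(8,768),(4,48),(0,368),(37,832)]),(0,[(28,64),(8,32)]),(2,[(16,512),(22,224),(26,192),(8,576),(5,576),(0,448),(37,896)]),(0,[(24,192),(28,64),(7,736),(38,1024)]),(0,[(28,64),(8,32),(4,32)])], .leaf 0 [(0,[(29,96),(35,32),(5,64),(0,32)])],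 .leaf 0 [(0,[(30,4),(7,40)])], .leaf 0 [(0,[(23,32),(29,92),(35,32),(7,40),(0,32)])]]
noncomputable def a1 : TT := .leaf ⟨false,1,0,0,1,3,15,[[0,0,0,16,0,0,0,-4],[],[],[0,0,0,0,0,0,0,5],[],[],[],[],[],[],[]]⟩ [.leaf 0 [(0,[(8,4)])], .leaf 0 [(0,[])], .leaf 0 [(0,[])], .leaf 0 [(0,[])], .leaf 0 [(0,[])], .leaf 0 [(0,[])], .leaf 0 [(0,[])], .leaf 0 [(0,[])], .leaf 0 [(0,[])], .leaf 0 [(0,[])], .leaf 0 [(0,[])], .leaf 0 [(0,[(8,3584)])], .leaf 0 [(0,[])], .leaf 0 [(0,[])], .leaf 0 [(0,[(8,3584)])], .leaf 0 [(0,[])], .leaf 0 [(0,[])], .leaf 0 [(0,[(9,2048)])], .leaf 0 [(0,[(36,2048),(9,2048)])], .leaf 0 [(0,[])], .leaf 0 [(0,[(20,64),(26,64),(39,2048)])], .leaf 0 [(0,[(22,64),(31,64),(39,2048)])], .leaf 0 [(0,[(39,2048)])], .leaf 0 [(4,[(36,2048),(9,4096),(2,16),(0,32)]),(0,[(18,192),(23,160),(24,320),(36,512),(9,416),(38,640)]),(6,[(23,1024),(30,2048),(9,3584),(2,12),(38,4096)]),(0,[(0,32),(39,2048)]),(0,[(18,512),(36,512),(9,1024),(8,2720)])],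 .leaf 2 [(0,[(2,16)])], .leaf 2 [(0,[(23,128),(24,128),(27,128),(30,128),(36,1280),(9,1024),(4,128),(3,512),(38,512)])], .leaf 2 [(0,[(9,1536),(6,512),(4,1024)])], .leaf 2 [(0,[(8,3520),(39,2048)])], .leaf 4 [(4,[(23,544),(27,1088),(36,1088),(3,1632),(1,1312),(38,2176)]),(6,[(23,1024),(24,3200),(36,3584),(2,12),(38,4096)]),(0,[(32,448)]),(0,[(36,512),(37,512),(8,3008),(1,512),(39,2048)]),(8,[(23,512),(24,1600),(36,4608),(9,2816),(2,6),(1,2816),(38,2048)])], .leaf 0 [(0,[])], .leaf 1 [(0,[(22,64),(39,2048)])], .leaf 1 [(0,[(8,68)])], .leaf 1 [(0,[(8,3520),(39,2048)])], .leaf 3 [(0,[(17,512),(9,512)]),(0,[(25,448)]),(0,[(17,512),(9,512)]),(0,[(17,512),(9,512),(8,3520),(39,2048)]),(0,[(17,512),(9,512)])], .leaf 1 [(0,[])], .leaf 0 [(0,[(8,68)])], .leaf 0 [(0,[(20,64),(39,2048)])]]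
noncomputable def a2 : TT := .leaf ⟨false,1,1,0,2,0,7,[[0,0,0,5,0,0,0,-1],[0,0,0,0,2],[],[-1,0,-1,1,-2,0,0,2,0,1],[],[],[0,0,0,0,2],[],[],[],[]]⟩ [.leaf 0 [(0,[(8,1)])], .leaf 0 [(0,[])], .leaf 0 [(0,[])], .leaf 0 [(0,[(4,2)])], .leaf 0 [(0,[])], .leaf 0 [(0,[])], .leaf 0 [(0,[(30,128),(6,256),(4,128)])], .leaf 0 [(0,[])], .leaf 0 [(0,[])], .leaf 0 [(0,[])], .leaf 0 [(0,[])], .leaf 0 [(0,[(8,896)])], .leaf 0 [(0,[])], .leaf 0 [(0,[])], .leaf 0 [(0,[(8,896),(6,256)])], .leaf 0 [(0,[])], .leaf 0 [(0,[(31,128),(4,512)])], .leaf 0 [(0,[(31,128),(9,768)])], .leaf 0 [(0,[(23,128),(24,128),(27,224),(36,640),(9,256),(2,1),(38,512)])], .leaf 0 [(0,[(30,128)])], .leaf 0 [(0,[(18,16),(30,128),(36,16),(8,5),(0,1)])], .leaf 0 [(0,[(24,16),(30,112),(8,5),(6,32),(0,1)])], .leaf 1 [(0,[(24,16),(30,112),(36,32),(8,5),(0,1)])], .leaf 1 [(36,[(23,2304),(24,1280),(36,5920),(9,4960),(2,64),(1,224),(38,9216)]),(68,[(23,3200),(24,5152),(30,5568),(9,10304),(2,171),(1,7040),(38,12800)]),(0,[(23,64),(24,32),(9,128),(38,256)]),(27,[(23,2304),(24,1920),(36,4480),(7,4608),(2,41),(38,9216)]),(2,[(9,768),(8,2848),(2,8),(1,512)])],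 .leaf 0 [(0,[(24,16),(30,112),(8,69),(3,64),(0,1)])], .leaf 1 [(0,[(27,16),(30,124),(8,69),(3,64),(0,1)])], .leaf 0 [(0,[(27,16),(30,124),(8,5),(6,48),(0,1)])], .leaf 2 [(0,[(30,128),(8,928),(39,1024)])], .leaf 4 [(0,[(23,80),(24,128),(27,32),(36,160),(3,80),(1,112),(38,320)]),(6,[(23,544),(24,832),(27,256),(36,1088),(3,1408),(38,2176)]),(0,[(1,32)]),(0,[(36,192),(37,192),(8,416),(1,320),(39,1024)]),(0,[(19,256),(24,32),(36,192),(1,64)])], .leaf 0 [(0,[(30,128),(8,32)])], .leaf 0 [(0,[(29,16),(31,4),(8,21),(6,32),(0,1)])], .leaf 0 [(0,[(24,16),(30,140),(6,32),(3,64),(0,1)])], .leaf 1 [(0,[(30,128),(8,928),(39,1024)])], .leaf 3 [(0,[(17,176),(23,8),(31,64),(9,256),(5,16),(4,184),(38,32)]),(0,[(29,64),(9,32)]),(0,[(17,256),(30,64),(9,256),(6,192),(4,224)]),(0,[(25,192),(29,64),(8,736),(39,1024)]),(0,[(29,64),(9,32),(5,32)])], .leaf 0 [(6,[(28,16),(30,896),(36,96),(6,416),(2,1),(0,7)])], .leaf 0 [(0,[(31,4),(8,40)])],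 .leaf 0 [(0,[(24,48),(30,108),(36,32),(8,45),(0,1)])]]
noncomputable def a3 : TT := .leaf ⟨false,1,0,1,2,0,31,[[0,0,0,13],[],[0,0,0,0,0,8],[0,0,0,-13,0,-5,0,21],[],[0,0,0,0,0,45],[],[],[],[],[]]⟩ [.leaf 0 [(0,[])], .leaf 0 [(0,[])], .leaf 0 [(0,[])], .leaf 0 [(0,[])], .leaf 0 [(0,[])], .leaf 0 [(0,[])], .leaf 0 [(0,[(6,1664),(5,640)])], .leaf 0 [(0,[])], .leaf 0 [(0,[])], .leaf 0 [(0,[])], .leaf 0 [(0,[])], .leaf 0 [(0,[(10,5760),(5,5760)])], .leaf 0 [(0,[])], .leaf 0 [(0,[])], .leaf 0 [(0,[])], .leaf 0 [(0,[])], .leaf 0 [(0,[(6,768),(5,384)])], .leaf 0 [(0,[(39,2048),(11,2048),(5,384)])], .leaf 0 [(0,[(38,2432),(39,960),(11,1472),(10,256)])], .leaf 0 [(0,[])], .leaf 0 [(22,[(28,192),(6,18432),(4,2),(1,192),(0,2752)])], .leaf 0 [(2,[(33,384),(8,256),(6,4096),(4,8),(1,384)])], .leaf 2 [(2,[(33,384),(8,256),(6,4096),(4,8),(1,384)])], .leaf 2 [(0,[(20,800),(30,224),(38,768),(39,1008),(11,1008)]),(0,[(38,1024),(11,1920),(10,96)]),(0,[(30,896),(11,1920),(10,96),(8,128)]),(0,[(20,128),(30,896),(11,1920),(10,96)]),(0,[(20,1024),(39,1024),(10,3680)])],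 .leaf 0 [(2,[(31,384),(5,512),(4,4),(2,72),(0,384)])], .leaf 1 [(2,[(4,4)])], .leaf 0 [(2,[(8,896),(4,4),(2,28)])], .leaf 2 [(0,[(41,4096)])], .leaf 4 [(0,[(21,992),(25,32),(26,32),(29,32),(38,672),(11,608),(5,256),(40,128)]),(2,[(21,2048),(25,1024),(26,1024),(29,1024),(38,2048),(5,1728),(2,39),(40,4096)]),(0,[(34,160),(38,160),(11,160)]),(0,[(34,320),(41,4096)]),(2,[(34,480),(38,480),(11,480),(4,4)])], .leaf 0 [(0,[(2,4)])], .leaf 0 [(2,[(33,384),(10,3324),(8,256),(4,8),(1,384)])], .leaf 1 [(0,[(10,212)])], .leaf 1 [(0,[(41,4096)])], .leaf 3 [(0,[(19,1024),(39,112),(11,912),(5,192)]),(4,[(25,448),(10,1168),(9,496),(7,896),(5,64),(40,1792)]),(0,[(19,1024),(11,1024),(2,45)]),(0,[(25,96),(39,1024),(8,832),(7,192),(41,3712)]),(0,[(19,384),(11,1024),(8,640),(7,128)])], .leaf 1 [(0,[(6,128)])], .leaf 0 [(0,[(10,224),(5,12)])], .leaf 0 [(3,[(26,512),(2,99),(0,512)])]]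
noncomputable def a4 : TT := .leaf ⟨false,1,0,0,1,3,15,[[0,0,0,16,0,0,0,-4],[],[],[0,0,0,0,0,0,0,5],[],[],[],[],[],[],[]]⟩ [.leaf 0 [(0,[(10,4)])], .leaf 0 [(0,[])], .leaf 0 [(0,[])], .leaf 0 [(0,[])], .leaf 0 [(0,[])], .leaf 0 [(0,[])], .leaf 0 [(0,[])], .leaf 0 [(0,[])], .leaf 0 [(0,[])], .leaf 0 [(0,[])], .leaf 0 [(0,[])], .leaf 0 [(0,[(10,3584)])], .leaf 0 [(0,[])], .leaf 0 [(0,[])], .leaf 0 [(0,[(10,3584)])], .leaf 0 [(0,[])], .leaf 0 [(0,[])], .leaf 0 [(0,[(11,2048)])], .leaf 0 [(0,[(38,2048),(11,2048)])], .leaf 0 [(0,[])], .leaf 0 [(0,[(22,64),(28,64),(41,2048)])], .leaf 0 [(2,[(33,192),(10,1152),(8,128),(4,4),(1,192)])], .leaf 0 [(0,[(41,2048)])], .leaf 0 [(0,[(20,280),(25,232),(26,232),(32,232),(38,280),(39,324),(11,236),(40,928)]),(24,[(20,7760),(25,4416),(26,5040),(32,3792),(38,6512),(0,1248),(40,17664)]),(6,[(20,1536),(25,1024),(32,2048),(11,3584),(40,4096)]),(83,[(25,34720),(26,31168),(32,38272),(38,4736),(11,8288),(4,37),(0,8288),(41,33152)]),(0,[(20,512),(38,512),(11,1024),(10,2720)])],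 .leaf 0 [(0,[(33,64),(3,16)])], .leaf 1 [(2,[(10,76),(5,448),(4,2)])], .leaf 0 [(2,[(8,448),(4,2)])], .leaf 2 [(0,[(10,3520),(41,2048)])], .leaf 4 [(0,[(21,512),(38,512),(11,512)]),(4,[(21,1536),(25,512),(29,1024),(38,1024),(5,1536),(40,2048)]),(0,[(34,448)]),(0,[(21,512),(38,512),(39,512),(10,3520),(41,2048)]),(4,[(21,2528),(25,32),(26,32),(29,32),(38,2432),(11,2368),(5,96),(40,128)])], .leaf 0 [(0,[])], .leaf 0 [(2,[(33,192),(10,1644),(8,128),(4,4),(1,192)])], .leaf 1 [(0,[(10,68)])], .leaf 1 [(0,[(10,3520),(41,2048)])], .leaf 3 [(1596,[(25,84992),(11,773120),(7,154624),(4,160),(0,44544),(40,339968)]),(0,[(9,448)]),(0,[(19,512),(11,512)]),(0,[(19,512),(11,512),(10,3520),(41,2048)]),(0,[(19,512),(11,512)])], .leaf 1 [(0,[])], .leaf 0 [(0,[(10,68)])], .leaf 0 [(60,[(26,2764),(33,2764),(38,2764),(4,12),(3,973),(1,12)])]]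
noncomputable def a5 : TT := .leaf ⟨false,1,0,0,1,3,15,[[0,0,0,16,0,0,0,-4],[],[],[0,0,0,0,0,0,0,5],[],[],[],[],[],[],[]]⟩ [.leaf 0 [(0,[(9,4)])], .leaf 0 [(0,[])], .leaf 0 [(0,[])], .leaf 0 [(0,[])], .leaf 0 [(0,[])], .leaf 0 [(0,[])], .leaf 0 [(0,[])], .leaf 0 [(0,[])], .leaf 0 [(0,[])], .leaf 0 [(0,[])], .leaf 0 [(0,[])], .leaf 0 [(0,[(9,3584)])], .leaf 0 [(0,[])], .leaf 0 [(0,[])], .leaf 0 [(0,[(9,3584)])], .leaf 0 [(0,[])], .leaf 0 [(0,[])], .leaf 0 [(0,[(10,2048)])], .leaf 0 [(18,[(24,3584),(25,4672),(28,1472),(31,4096),(37,6144),(7,2176),(0,1600),(39,14336)])], .leaf 0 [(0,[])], .leaf 0 [(32,[(23,128),(32,2112),(37,2112),(2,496),(40,4096)])], .leaf 0 [(0,[(23,64),(32,64),(40,2048)])], .leaf 0 [(0,[(40,2048)])], .leaf 0 [(70,[(19,30848),(24,10944),(25,11568),(28,3568),(31,11568),(10,21216),(7,1248),(0,1248),(39,43776)]),(16,[(24,2368),(31,5528),(10,1616),(0,792),(39,9472)]),(6,[(19,1536),(24,1024),(31,2048),(10,3584),(39,4096)]),(56,[(19,11840),(24,19712),(25,16160),(31,29184),(10,13024),(7,5920),(0,5920),(40,37888)]),(16,[(19,9216),(31,512),(38,8704),(9,51872),(7,512),(0,512)])],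 .leaf 0 [(0,[(32,64),(2,16)])], .leaf 1 [(583,[(21,608),(4,76672),(3,383),(0,608),(40,19456)])], .leaf 0 [(2,[(7,448),(3,2)])], .leaf 2 [(0,[(9,3520),(40,2048)])], .leaf 4 [(118,[(20,56320),(24,9472),(25,15456),(28,13216),(37,28672),(7,11968),(0,1120),(39,37888)]),(2582,[(20,1277440),(24,33792),(25,45056),(37,939520),(7,916992),(1,56960),(0,22528),(39,135168)]),(0,[(33,448)]),(18,[(24,512),(33,7680),(37,2048),(38,2048),(9,59712),(7,1024),(0,1024),(40,36864)]),(186,[(24,14464),(28,23296),(37,72448),(10,44352),(7,10432),(0,5632),(39,57856)])], .leaf 0 [(0,[])], .leaf 1 [(0,[(23,64),(40,2048)])], .leaf 1 [(0,[(9,68)])], .leaf 1 [(0,[(9,3520),(40,2048)])], .leaf 3 [(0,[(18,512),(10,512)]),(0,[(9,448)]),(0,[(18,512),(10,512)]),(0,[(38,512),(9,3520),(7,512),(40,2048)]),(0,[(18,512),(10,512)])], .leaf 1 [(0,[])], .leaf 0 [(0,[(9,68)])], .leaf 0 [(527,[(23,1376),(25,24288),(32,24288),(37,24288),(3,99),(2,8104),(40,44032)])]]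
noncomputable def a6 : TT := .leaf ⟨false,1,0,0,1,3,15,[[0,0,0,16,0,0,0,-4],[],[],[0,0,0,0,0,0,0,5],[],[],[],[],[],[],[]]⟩ [.leaf 0 [(0,[(9,4)])], .leaf 0 [(0,[])], .leaf 0 [(0,[])], .leaf 0 [(0,[])], .leaf 0 [(0,[])], .leaf 0 [(0,[])], .leaf 0 [(0,[])], .leaf 0 [(0,[])], .leaf 0 [(0,[])], .leaf 0 [(0,[])], .leaf 0 [(0,[])], .leaf 0 [(0,[(9,3584)])], .leaf 0 [(0,[])], .leaf 0 [(0,[])], .leaf 0 [(0,[(9,3584)])], .leaf 0 [(0,[])], .leaf 0 [(0,[])], .leaf 0 [(0,[(10,2048)])], .leaf 0 [(0,[(37,2048),(10,2048)])], .leaf 0 [(0,[])], .leaf 0 [(0,[(21,64),(27,64),(40,2048)])], .leaf 0 [(0,[(23,64),(32,64),(40,2048)])], .leaf 0 [(0,[(40,2048)])], .split 1 3 (.leaf 1 [(358,[(20,129680),(25,52832),(26,52832),(32,52832),(38,90800),(11,181600),(1,1296),(40,211328)]),(0,[(20,352),(25,160),(26,160),(32,160),(38,352),(11,416),(40,640)]),(0,[(20,96),(25,208),(32,416),(39,216),(11,296),(40,832)]),(0,[(0,1)]),(30,[(20,15872),(38,15872),(39,31744),(2,2720)])])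 (.split 4 3 (.leaf 4 [(9728,[(21,2553856),(26,524288),(33,1048576),(12,3670016),(2,67584),(0,2561),(41,2097152)]),(1318,[(21,535552),(40,556032),(2,20480),(0,233)]),(2,[(26,416),(33,832),(39,192),(12,960),(0,1),(41,1664)]),(0,[(0,1)]),(0,[(11,3584),(0,1)])]) (.leaf 3 [(30,[(21,7424),(31,7936),(39,7936),(12,31744),(2,512)]),(6,[(21,960),(26,1088),(33,2176),(12,3584),(9,4032),(41,4352)]),(0,[(21,512),(39,512),(12,960),(9,576)]),(2246,[(26,2055680),(27,2055680),(33,2055680),(39,174080),(12,348160),(9,355840),(3,310080),(2,174080),(0,2108),(41,8222720)]),(960,[(21,476160),(40,492032),(9,1968128),(3,113600),(2,15872)])])), .leaf 0 [(0,[(32,64),(2,16)])], .leaf 1 [(92,[(4,13888),(3,62),(1,76)])], .leaf 0 [(2,[(7,448),(3,2)])], .leaf 2 [(0,[(9,3520),(40,2048)])], .leaf 4 [(8,[(20,3584),(24,1024),(25,1024),(28,1024),(37,3584),(38,1536),(39,4096)]),(860,[(20,422912),(24,65536),(25,113152),(28,116224),(37,229376),(0,3072),(39,262144)]),(30,[(1,448)]),(0,[(20,512),(37,512),(38,512),(9,3520),(40,2048)]),(636,[(20,325024),(24,4096),(25,7072),(28,7264),(37,312928),(10,298592),(0,192),(39,16384)])],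 .leaf 0 [(0,[])], .leaf 1 [(0,[(23,64),(40,2048)])], .leaf 1 [(30,[(1,68)])], .leaf 1 [(30,[(1,3520),(40,63488)])], .leaf 3 [(0,[(18,512),(10,512)]),(0,[(38,448)]),(0,[(18,512),(10,512)]),(0,[(38,512),(9,3520),(7,512),(40,2048)]),(0,[(18,512),(10,512)])], .leaf 1 [(0,[])], .leaf 0 [(0,[(9,68)])], .leaf 0 [(0,[(21,64),(40,2048)])]]
noncomputable def a7 : TT := .leaf ⟨false,1,0,1,2,0,31,[[0,0,0,13],[],[0,0,0,0,0,8],[0,0,0,-13,0,-5,0,21],[],[0,0,0,0,0,45],[],[],[],[],[]]⟩ [.leaf 0 [(0,[])], .leaf 0 [(0,[])], .leaf 0 [(0,[])], .leaf 0 [(0,[])], .leaf 0 [(0,[])], .leaf 0 [(0,[])], .leaf 0 [(0,[(6,1664),(5,640)])], .leaf 0 [(0,[])], .leaf 0 [(0,[])], .leaf 0 [(0,[])], .leaf 0 [(0,[])], .leaf 0 [(0,[(10,5760),(5,5760)])], .leaf 0 [(0,[])], .leaf 0 [(0,[])], .leaf 0 [(0,[])], .leaf 0 [(0,[])], .leaf 0 [(0,[(6,768),(5,384)])], .leaf 0 [(0,[(39,2048),(11,2048),(5,384)])], .leaf 0 [(0,[(38,2432),(39,960),(11,1472),(10,256)])],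 .leaf 0 [(0,[])], .leaf 0 [(71,[(28,4608),(33,7680),(38,4608),(4,43),(3,1536),(1,480),(0,3072)])], .leaf 0 [(80,[(24,4736),(33,16000),(8,45056),(4,176),(2,5120),(0,5632),(41,151552)])], .leaf 2 [(80,[(24,4736),(33,16000),(8,45056),(4,176),(2,5120),(0,5632),(41,151552)])], .leaf 2 [(0,[(20,1024),(38,544),(39,336),(11,1232),(10,448)]),(30,[(38,31744),(11,59520),(2,96)]),(0,[(30,896),(11,1920),(10,96),(8,128)]),(0,[(30,896),(39,800),(11,1120),(10,96),(8,128)]),(30,[(20,28768),(30,2976),(39,34720),(2,3584)])], .leaf 0 [(48,[(22,2784),(33,8736),(4,106),(3,256),(2,1120),(0,2464),(41,89088)])], .leaf 0 [(11,[(22,431),(24,485),(28,1456),(33,700),(38,80),(2,324),(1,1025),(0,620),(41,29312)])], .leaf 0 [(2,[(8,896),(6,896),(4,4)])], .leaf 2 [(0,[(41,4096)])], .leaf 4 [(0,[(21,944),(25,40),(29,80),(38,680),(11,600),(5,280),(40,160)]),(0,[(21,128),(25,480),(26,896),(29,64),(38,960),(5,576),(40,1920)]),(18,[(25,480),(34,6080),(8,320),(4,10),(40,1920)]),(0,[(34,320),(41,4096)]),(20,[(25,480),(34,6720),(4,38),(40,1920)])],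 .leaf 0 [(0,[(6,128)])], .leaf 0 [(2591,[(24,301664),(33,361888),(8,240896),(4,941),(2,80864),(0,30112),(41,9653248)])], .leaf 0 [(1448,[(33,128896),(8,2785024),(5,12716),(4,4028),(3,14144),(2,148960),(0,128896)])], .leaf 1 [(0,[(41,4096)])], .leaf 3 [(0,[(19,1024),(11,1024),(5,192)]),(4,[(21,896),(9,1664),(7,896),(5,64)]),(88,[(19,93296),(33,2160),(11,91136),(8,12240),(4,45),(0,2160)]),(0,[(19,1024),(39,1024),(5,192),(41,4096)]),(0,[(19,384),(11,1024),(8,640),(7,128)])], .leaf 0 [(36218,[(24,272928),(28,4636032),(33,3143776),(8,61404032),(4,49951),(3,304832),(2,3600800),(0,3143776),(41,8733696)])], .leaf 0 [(0,[(10,224),(5,12)])], .leaf 0 [(36863,[(22,3136512),(33,1582080),(4,30733),(1,213792),(0,1582080),(41,100368384)])]]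
noncomputable def a8 : TT := .leaf ⟨false,1,0,0,1,3,511,[[-5,1,-4,-88,94,6,0,257,3,5],[],[],[-5,0,-5,-600,94,6,0,768,3,5],[],[],[],[],[],[],[]]⟩ [.leaf 0 [(1,[(26,1),(27,2),(33,10),(7,169),(41,4)])], .leaf 0 [(0,[])], .leaf 0 [(0,[])], .leaf 0 [(2975,[(34,23808),(39,8928),(9,569408),(6,3968),(5,31),(4,2232),(3,25568)])], .leaf 0 [(0,[])], .leaf 0 [(0,[])], .leaf 0 [(0,[(33,640),(7,76800)])], .leaf 0 [(0,[])], .leaf 0 [(0,[])], .leaf 0 [(0,[])], .leaf 0 [(0,[])], .leaf 0 [(0,[(26,448),(27,896),(33,4480),(7,75712),(41,1792)])], .leaf 0 [(0,[])], .leaf 0 [(0,[])], .leaf 0 [(0,[(26,448),(27,896),(33,4480),(7,75712),(41,1792)])], .leaf 0 [(0,[])], .leaf 0 [(0,[])], .leaf 0 [(15798,[(27,13221888),(32,6881280),(40,487161856),(12,512147456),(9,337461248),(1,16605184),(0,7808)])], .leaf 0 [(329514,[(27,5639323648),(39,21620260864),(12,15651422208),(9,11606016000),(1,511631360),(0,154752)])], .leaf 0 [(2,[(9,512),(7,512),(6,512),(5,4)])],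 .leaf 0 [(0,[(39,1280),(7,129024),(4,320)])], .leaf 0 [(2,[(25,3840),(32,2304),(7,387072),(5,20),(42,122880)])], .split 1 0 (.leaf 1 [(0,[(0,1)])]) (.split 0 0 (.leaf 0 [(0,[(0,1)])]) (.leaf 2 [(582,[(23,3198976),(29,952320),(35,36898816),(9,3839754240),(6,60416),(4,342016),(1,10695),(0,18482),(44,1211236352)])])), .leaf 2 [(0,[(0,32)]),(2204,[(12,10912768),(11,37687808),(2,1482432),(0,39328)]),(0,[(0,32)]),(0,[(0,32)]),(0,[(33,3520),(6,28544)])], .leaf 0 [(2,[(32,2304),(7,387072),(6,256),(5,20),(4,960)])], .leaf 1 [(23,[(33,29760),(12,17856),(7,2029632),(6,75008),(5,481)])], .leaf 0 [(23,[(33,29760),(12,17856),(7,2029632),(5,481)])], .leaf 2 [(0,[(26,512),(27,1024),(33,5760),(7,228864),(42,63488)])], .leaf 4 [(4404,[(22,71747368),(30,157314),(39,71620144),(12,70750466),(9,10966606),(1,555686),(0,586)]),(11,[(22,41920),(26,148928),(27,148928),(30,28448),(39,173920),(6,32736),(5,1251),(41,595712)]),(20,[(26,74496),(27,6048),(5,1454),(41,297984)]),(0,[(26,9464),(27,17872),(33,6448),(39,14896),(7,102968),(42,27680)]),(78854,[(22,230332448),(26,1020204832),(27,1020204832),(30,111853936),(39,1168178000),(6,4587728),(5,9961978),(0,119088),(41,4080819328)])],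 .leaf 0 [(0,[(26,64),(27,128),(33,1280),(7,89664),(41,256)])], .leaf 1 [(767,[(25,983040),(27,589824),(33,983040),(7,99090432),(5,4609),(2,45984),(42,31457280)])], .leaf 1 [(743,[(25,17856),(34,47616),(39,17856),(9,581312),(5,31),(3,149088),(42,571392)])], .leaf 1 [(0,[(26,512),(27,1024),(33,5760),(7,228864),(42,63488)])], .leaf 3 [(64,[(20,1046048),(26,6240),(32,1984),(12,1056736),(9,176512),(1,8416),(41,24960)]),(83,[(26,297984),(30,40320),(8,141984),(5,4589),(41,1191936)]),(0,[(20,16352),(26,16),(33,480),(12,16672),(7,57232),(41,64)]),(0,[(26,528),(33,4960),(7,165520),(42,63424)]),(4,[(26,36832),(33,10656),(12,83360),(9,3808),(7,642848),(5,587),(1,8256),(41,147328)])], .leaf 1 [(0,[(26,64),(27,128),(33,1280),(12,640),(7,89024),(41,256)])], .leaf 0 [(743,[(23,17856),(29,17856),(34,29760),(6,39680),(5,31),(3,150368),(42,571392)])], .leaf 0 [(1055,[(25,63620),(27,1960068),(33,202620),(39,1149060),(7,136249344),(4,322015),(2,63228),(42,2035840)])]]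
noncomputable def a9 : TT := .leaf ⟨false,1,0,1,2,0,31,[[0,0,0,13],[],[0,0,0,0,0,8],[0,0,0,-13,0,-5,0,21],[],[0,0,0,0,0,45],[],[],[],[],[]]⟩ [.leaf 0 [(0,[])], .leaf 0 [(0,[])], .leaf 0 [(0,[])], .leaf 0 [(0,[])], .leaf 0 [(0,[])], .leaf 0 [(0,[])], .leaf 0 [(0,[(7,1664),(6,640)])], .leaf 0 [(0,[])], .leaf 0 [(0,[])], .leaf 0 [(0,[])], .leaf 0 [(0,[])], .leaf 0 [(0,[(11,5760),(6,5760)])], .leaf 0 [(0,[])], .leaf 0 [(0,[])], .leaf 0 [(0,[])], .leaf 0 [(0,[])], .leaf 0 [(0,[(7,768),(6,384)])], .leaf 0 [(0,[(12,4096),(6,384)])], .leaf 0 [(14,[(27,128),(39,36480),(40,16128),(12,20224),(1,64)])], .leaf 0 [(0,[])], .leaf 0 [(470,[(29,1920),(31,8704),(39,18048),(0,64)])], .leaf 0 [(470,[(32,31616),(34,1920),(9,101632),(0,64)])], .leaf 0 [(4691860,[(21,1209022336),(26,4219571328),(27,4422136320),(33,4009053952),(9,20805449600),(2,508632960),(1,135043328),(0,9267968),(42,2339577344)])], .leaf 0 [(0,[(21,1024),(39,544),(40,336),(12,1232),(11,448)]),(30,[(39,31744),(12,59520),(3,96)]),(0,[(21,1024),(12,1024),(3,32)]),(73156,[(21,52714848),(26,144698912),(27,169618496),(33,147254080),(9,45699296),(1,16613056),(0,191712),(41,279144576)]),(2,[(21,2784),(27,368),(40,2704),(1,184)])],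 .leaf 0 [(470,[(21,960),(32,31616),(34,1920),(6,77376),(0,64)])], .leaf 0 [(7415,[(31,443392),(2,87147),(1,15360),(0,1024)])], .leaf 0 [(2,[(9,896),(7,896),(5,4)])], .leaf 2 [(0,[(42,4096)])], .leaf 4 [(6,[(21,1280),(22,6688),(26,480),(27,480),(30,1760),(39,4960),(12,2720),(41,1920)]),(4,[(22,192),(26,2464),(27,4928),(39,4928),(6,3072),(41,9856)]),(0,[(35,160),(39,160),(12,160)]),(0,[(35,320),(42,4096)]),(20,[(26,480),(35,6720),(5,38),(41,1920)])], .leaf 0 [(0,[(7,128)])], .leaf 0 [(14600,[(32,980096),(34,59520),(9,3150592),(3,238284),(0,1984)])], .leaf 0 [(470,[(21,960),(27,31616),(33,26752),(9,100672),(6,52884),(0,64)])], .leaf 1 [(0,[(42,4096)])], .leaf 3 [(10,[(20,9024),(26,224),(12,11264),(9,1792),(8,448),(6,1664),(41,896)]),(0,[(26,48),(28,416),(8,96),(6,96),(41,192)]),(0,[(20,1024),(12,1024),(7,1440)]),(0,[(20,1024),(12,1024),(6,192),(42,4096)]),(0,[(20,384),(12,1024),(9,640),(8,128)])], .leaf 0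 [(470,[(21,30656),(29,1920),(39,26752),(9,158016),(0,64)])], .leaf 0 [(0,[(11,224),(6,12)])], .leaf 0 [(470,[(27,55316),(33,3052),(39,23700),(0,64)])]]
noncomputable def a10 : TT := .leaf ⟨false,1,0,0,1,3,15,[[0,0,0,16,0,0,0,-4],[],[],[0,0,0,0,0,0,0,5],[],[],[],[],[],[],[]]⟩ [.leaf 0 [(0,[(8,4)])], .leaf 0 [(0,[])], .leaf 0 [(0,[])], .leaf 0 [(0,[])], .leaf 0 [(0,[])], .leaf 0 [(0,[])], .leaf 0 [(0,[])], .leaf 0 [(0,[])], .leaf 0 [(0,[])], .leaf 0 [(0,[])], .leaf 0 [(0,[])], .leaf 0 [(0,[(8,3584)])], .leaf 0 [(0,[])], .leaf 0 [(0,[])], .leaf 0 [(0,[(8,3584)])], .leaf 0 [(0,[])], .leaf 0 [(0,[])], .leaf 0 [(0,[(9,2048)])], .leaf 0 [(0,[(36,2048),(9,2048)])], .leaf 0 [(0,[])], .leaf 0 [(0,[(20,64),(26,64),(39,2048)])], .leaf 0 [(2,[(31,192),(6,64),(4,64),(3,64),(2,2),(0,48)])], .leaf 0 [(0,[(39,2048)])], .leaf 0 [(6,[(18,2608),(23,976),(24,976),(30,976),(36,1312),(9,3920),(3,1296),(38,3904)]),(0,[(18,352),(23,160),(24,160),(30,160),(36,352),(9,416),(38,640)]),(50,[(23,5120),(30,10752),(9,26112),(1,128),(38,20480)]),(12,[(18,1780),(23,2068),(24,4876),(36,6656),(9,8436),(3,1480),(1,185),(39,18352)]),(0,[(18,512),(36,512),(37,1024),(8,2720)])],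 .leaf 1 [(0,[(22,32),(26,32),(31,32),(36,32),(6,64),(4,64),(0,8),(39,1024)])], .leaf 1 [(2,[(8,76),(3,448),(2,2)])], .leaf 0 [(2,[(6,448),(2,2)])], .leaf 2 [(0,[(8,3520),(39,2048)])], .leaf 4 [(0,[(19,512),(36,512),(9,512)]),(2,[(19,1280),(23,256),(24,256),(27,256),(36,512),(3,768),(38,1024)]),(0,[(8,448)]),(0,[(19,512),(36,512),(9,512),(8,3520),(39,2048)]),(6,[(18,96),(19,3520),(23,64),(24,64),(27,160),(36,3424),(9,3200),(38,256)])], .leaf 0 [(0,[])], .leaf 1 [(2,[(6,64),(4,64),(3,64),(2,2),(0,48)])], .leaf 1 [(0,[(8,68)])], .leaf 1 [(0,[(8,3520),(39,2048)])], .leaf 3 [(584,[(23,22016),(6,62976),(5,59904),(1,3968),(38,88064)]),(0,[(8,448)]),(0,[(17,512),(9,512)]),(150,[(18,13824),(9,77312),(8,531520),(5,15872),(1,512),(39,309248)]),(0,[(17,512),(9,512)])], .leaf 1 [(0,[])], .leaf 0 [(0,[(8,68)])], .leaf 0 [(0,[(20,64),(39,2048)])]]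
noncomputable def a11 : TT := .leaf ⟨true,33,0,31,64,3,8183,[[0,0,0,8184,0,0,0,-2046],[],[0,0,0,0,0,0,0,1023],[0,0,0,0,0,0,0,4092],[],[0,0,0,0,0,0,0,2046],[],[0,0,0,248,0,0,0,-62],[],[0,0,0,0,0,0,0,33],[0,0,0,248]]⟩ [.leaf 0 [(0,[(5,62)])], .leaf 0 [(0,[])], .leaf 0 [(0,[])], .leaf 0 [(0,[])], .leaf 0 [(0,[])], .leaf 0 [(0,[])], .leaf 0 [(0,[(1,7688),(0,7688)])], .leaf 0 [(0,[]),(0,[]),(0,[]),(0,[]),(0,[]),(0,[])], .leaf 0 [(0,[])], .leaf 0 [(0,[])], .leaf 0 [(0,[])], .leaf 0 [(0,[])], .leaf 0 [(0,[])], .leaf 0 [(0,[(5,2095104)])], .leaf 0 [(0,[])], .leaf 0 [(0,[])], .leaf 0 [(0,[(5,1833216)])], .leaf 0 [(0,[])], .leaf 0 [(0,[])], .leaf 0 [(0,[(6,1047552)])], .leaf 0 [(2,[(15,458304),(20,305536),(21,305536),(24,763840),(27,305536),(33,2073280),(6,1003904),(35,1222144)])], .leaf 0 [(0,[])], .leaf 0 [(0,[(17,32736),(23,32736),(36,1047552)])], .leaf 0 [(0,[(19,32736),(28,32736),(36,1047552)])], .leaf 0 [(0,[(36,1047552)])],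 .leaf 0 [(0,[(15,229152),(20,65472),(21,65472),(24,32736),(27,65472),(33,163680),(6,327360),(35,261888)]),(2,[(15,545600),(20,240064),(21,240064),(27,240064),(33,545600),(6,676544),(35,960256)]),(4,[(15,163680),(20,294624),(25,556512),(27,589248),(6,1865952),(0,360096),(35,1178496)]),(0,[(20,261888),(21,261888),(27,261888)]),(0,[(15,261888),(33,261888),(6,523776),(5,1407648)])], .leaf 1 [(0,[(19,32736),(28,32736),(33,32736),(3,65472),(1,65472),(36,1047552)])], .split 0 0 (.leaf 0 [(0,[(0,1)])]) (.leaf 1 [(30,[(18,1080288),(19,1014816),(24,1080288),(2,4190208),(0,33),(37,34569216)])]), .leaf 0 [(0,[(18,32736),(3,1080288),(1,65472)])], .leaf 2 [(0,[(5,556512),(36,1047552)])], .leaf 2 [(0,[(16,229152),(20,32736),(21,32736),(24,32736),(33,229152),(34,49104),(6,114576),(35,130944)]),(0,[(0,523776)]),(0,[(16,174592),(20,87296),(21,87296),(24,87296),(33,174592),(35,349184)]),(0,[(16,261888),(33,261888),(6,261888),(5,949344),(36,1047552)]),(0,[(16,261888),(33,261888)])],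 .leaf 0 [(0,[])], .leaf 1 [(0,[(19,32736),(36,1047552)])], .leaf 1 [(0,[(5,36828)])], .leaf 1 [(0,[(5,1473120),(36,1047552)])], .leaf 3 [(0,[(14,261888),(6,261888)]),(0,[(22,229152),(5,163680)]),(0,[(14,261888),(6,261888)]),(0,[(14,261888),(34,261888),(5,1964160),(36,1047552)]),(0,[(14,261888),(6,261888)])], .leaf 1 [(0,[])], .leaf 0 [(0,[(5,45012)])], .leaf 0 [(0,[(17,32736),(36,1047552)])]]
noncomputable def a12 : TT := .leaf ⟨false,1,0,0,1,3,15,[[0,0,0,16,0,0,0,-4],[],[],[0,0,0,0,0,0,0,5],[],[],[],[],[],[],[]]⟩ [.leaf 0 [(0,[(6,4)])], .leaf 0 [(0,[])], .leaf 0 [(0,[])], .leaf 0 [(0,[])], .leaf 0 [(0,[])], .leaf 0 [(0,[])], .leaf 0 [(0,[])], .leaf 0 [(0,[])], .leaf 0 [(0,[])], .leaf 0 [(0,[])], .leaf 0 [(0,[])], .leaf 0 [(0,[(6,3584)])], .leaf 0 [(0,[])], .leaf 0 [(0,[])], .leaf 0 [(0,[(6,3584)])], .leaf 0 [(0,[])], .leaf 0 [(0,[])], .leaf 0 [(0,[(7,2048)])], .leaf 0 [(0,[(34,2048),(7,2048)])], .leaf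 0 [(0,[])], .leaf 0 [(0,[(18,64),(24,64),(37,2048)])], .leaf 0 [(0,[(20,64),(29,64),(37,2048)])], .leaf 0 [(0,[(37,2048)])], .leaf 2 [(76,[(16,18432),(21,10240),(22,6144),(28,14336),(7,26624),(0,416),(36,40960)]),(2,[(21,440),(22,880),(34,1424),(7,1144),(0,8),(36,1760)]),(6,[(16,1536),(21,1024),(28,2048),(7,3584),(36,4096)]),(0,[(0,32)]),(0,[(16,512),(34,512),(35,1024),(6,2720)])], .split 1 0 (.leaf 1 [(0,[(0,1)])]) (.split 0 0 (.leaf 0 [(0,[(0,1)])]) (.split 2 0 (.leaf 2 [(0,[(0,1)])]) (.w 0 (.leaf 2 [(0,[(0,16)])]) (.leaf 0 [(0,[(34,64),(0,16)])]) (.leaf 1 [(0,[(30,64),(0,16)])])))), .split 2 0 (.leaf 2 [(0,[(0,1)])]) (.leaf 0 [(12895,[(20,788992),(22,555520),(23,788992),(29,322048),(35,3058688),(8,1444352),(0,2201),(37,2222080)])]), .split 0 0 (.leaf 0 [(0,[(0,1)])]) (.leaf 2 [(4,[(23,1280),(8,6400),(5,4096),(4,256),(0,4)])]), .leaf 2 [(0,[(2,3520),(37,2048)])], .leaf 4 [(38,[(17,17408),(21,2560),(22,2560),(25,4096),(34,8192),(0,96),(36,10240)]),(38,[(17,17408),(21,2560),(22,2560),(25,4096),(34,8192),(0,96),(36,10240)]),(0,[(30,448)]),(0,[(17,512),(34,512),(35,512),(6,3520),(37,2048)]),(694,[(17,350720),(21,5120),(22,5120),(25,8192),(34,332288),(7,315904),(0,192),(36,20480)])],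 .leaf 0 [(0,[])], .leaf 1 [(0,[(20,64),(37,2048)])], .leaf 1 [(0,[(2,68)])], .leaf 1 [(0,[(2,3520),(37,2048)])], .leaf 3 [(0,[(15,512),(7,512)]),(0,[(6,448)]),(0,[(15,512),(7,512)]),(0,[(7,512),(6,3520),(4,512),(37,2048)]),(0,[(15,512),(7,512)])], .leaf 1 [(0,[])], .leaf 0 [(0,[(2,68)])], .leaf 0 [(0,[(18,64),(37,2048)])]]
noncomputable def a13 : TT := .leaf ⟨true,8,0,1,9,0,1023,[[-112,16,-128,1024,0,0,0,-568,-16,128],[],[16,0,16,0,0,0,0,64,0,-16],[64,48,16,0,0,0,0,184,-48,-16],[],[0,0,0,0,0,0,0,80],[],[-14,2,-16,128,0,0,0,-71,-2,16],[],[16,0,16,0,0,0,0,64,0,-16],[0,0,0,128]]⟩ [.leaf 0 [(0,[(26,2),(30,16),(4,89)])], .leaf 0 [(0,[])], .leaf 0 [(0,[(31,16)])], .leaf 0 [(0,[(24,2)])], .leaf 0 [(0,[])], .leaf 0 [(0,[])], .leaf 0 [(22,[(18,256),(23,1792),(24,1792),(30,1792),(9,256),(4,3712),(2,128),(38,7168)])], .leaf 0 [(0,[]),(0,[]),(0,[]),(0,[]),(0,[]),(0,[])], .leaf 0 [(0,[(26,6144),(31,2048)])], .leaf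 0 [(0,[])], .leaf 0 [(0,[])], .leaf 0 [(0,[(31,14336)])], .leaf 0 [(0,[])], .leaf 0 [(0,[(26,14336),(30,114688),(8,269312),(4,378880)])], .leaf 0 [(0,[(31,14336)])], .leaf 0 [(0,[])], .leaf 0 [(0,[(26,14336),(30,114688),(4,637952)])], .leaf 0 [(0,[])], .leaf 0 [(0,[(24,4096),(30,20480)])], .leaf 0 [(0,[(24,8192),(31,12288),(9,131072)])], .leaf 0 [(0,[(23,16640),(24,25600),(27,23552),(30,1792),(36,47872),(3,768),(0,768),(38,66560)])], .leaf 0 [(0,[(26,4096),(31,20480)])], .leaf 0 [(1324,[(26,8687616),(30,16388096),(36,1703936),(4,78159872),(2,798720),(1,1241088),(0,1171456)])], .leaf 0 [(14,[(26,90112),(30,212992),(6,65536),(4,1169408),(2,2048)])], .leaf 0 [(0,[(26,8192),(31,2048),(39,131072)])], .leaf 0 [(538,[(18,16334848),(23,6799360),(24,16425472),(30,7402752),(9,3790080),(0,84224),(38,27197440)]),(6,[(18,122368),(23,98304),(24,150016),(36,139776),(38,393216)]),(2,[(18,65536),(23,32768),(24,51200),(30,6656),(9,65536),(38,131072)]),(0,[(23,32768),(24,38912),(30,5632)]),(0,[(18,28672),(30,118272),(36,36864),(9,65536),(8,386560),(6,8192),(4,234496)])],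 .leaf 0 [(194,[(24,1078016),(30,2878720),(4,11912448),(2,690560),(1,6528),(0,1048320)])], .leaf 0 [(0,[(23,5632),(24,4352),(30,6656),(4,10752),(2,512),(38,22528)])], .leaf 0 [(18,[(26,109824),(30,339840),(8,607360),(6,159744),(5,1024),(4,915200),(2,2560)])], .leaf 2 [(0,[(26,22528),(30,112640),(4,631808),(39,131072)])], .leaf 4 [(498,[(19,11033216),(23,2342912),(24,3785088),(27,3386240),(36,9954688),(9,3182208),(0,109824),(38,9371648)]),(504,[(23,4194304),(24,8544768),(36,12124160),(0,196608),(38,16777216)]),(0,[(27,512),(32,4096),(36,52224),(9,52224),(4,23808)]),(0,[(27,13824),(30,73728),(36,65536),(37,37888),(6,27648),(4,551168),(39,131072)]),(0,[(19,8192),(27,4608),(36,48128),(8,36864),(7,16640),(3,9216)])], .leaf 0 [(0,[(26,8192),(30,16384),(4,86016)])], .leaf 0 [(14,[(24,11520),(29,23168),(6,65536),(4,66624),(2,2048)])], .leaf 1 [(0,[(24,256),(31,512),(4,3072)])], .leaf 1 [(0,[(26,22528),(30,126976),(8,214016),(4,489472),(39,131072)])],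 .leaf 3 [(0,[(17,30208),(30,6144),(9,35328)]),(0,[(30,16896),(8,7936),(7,33280),(5,5632),(4,49664)]),(0,[(17,36352),(30,2048),(9,29184)]),(4,[(27,94720),(30,563712),(8,453888),(6,327680),(5,27648),(4,3024384),(39,655360)]),(0,[(30,8192),(37,33280),(6,32256),(5,4096)])], .leaf 1 [(0,[(26,8192),(30,12288),(8,61440),(4,4096)])], .leaf 0 [(0,[(24,256),(31,384),(4,3456)])], .leaf 0 [(1324,[(26,3162496),(30,17234176),(36,1673216),(4,77794432),(2,784320),(1,1251328),(0,1150336)])]]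
noncomputable def a14 : TT := .leaf ⟨true,8,0,1,9,0,2047,[[-320,-128,-192,2048,0,0,0,-640,128,192],[],[48,21,27,0,0,0,0,71,-21,-27],[0,64,-64,0,0,0,0,777,-64,64],[],[0,0,0,0,0,0,0,128],[],[-40,-16,-24,256,0,0,0,-80,16,24],[],[48,21,27,0,0,0,0,71,-21,-27],[0,0,0,256]]⟩ [.leaf 0 [(0,[(25,16),(31,24),(9,120)])], .leaf 0 [(0,[])], .leaf 0 [(0,[(27,21),(32,27)])], .leaf 0 [(0,[(25,5),(31,3)])], .leaf 0 [(0,[])], .leaf 0 [(0,[])], .leaf 0 [(2,[(24,160),(31,224),(37,32),(10,288),(7,32),(1,32),(39,640)])], .leaf 0 [(0,[]),(0,[]),(0,[]),(0,[]),(0,[]),(0,[])], .leaf 0 [(0,[(27,8192),(31,8192)])], .leaf 0 [(0,[])], .leaf 0 [(0,[])], .leaf 0 [(0,[(27,18816),(32,24192)])], .leaf 0 [(0,[])], .leaf 0 [(0,[(25,114688),(31,172032),(9,876544)])], .leaf 0 [(0,[(27,18816),(32,24192)])], .leaf 0 [(0,[])], .leaf 0 [(0,[(25,114688),(31,172032),(9,860160)])], .leaf 0 [(0,[])], .leaf 0 [(0,[(25,27264),(31,19840)])], .leaf 0 [(0,[(18,5504),(32,29312),(10,256640)])],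 .leaf 0 [(126,[(20,604288),(24,3653632),(25,2614400),(28,5366272),(37,14419840),(10,3687296),(0,685056),(39,14614528)])], .leaf 0 [(0,[(27,27264),(32,19840)])], .leaf 0 [(16,[(21,128512),(27,31360),(31,501888),(5,82432),(3,1792),(2,3584),(0,10752),(40,4112384)])], .leaf 0 [(14,[(25,228736),(31,477824),(9,592128),(7,131072),(3,4096)])], .leaf 0 [(0,[(27,13312),(31,5120),(40,262144)])], .leaf 0 [(6,[(19,249168),(24,141584),(25,129024),(10,221088),(0,32816),(39,566336)]),(8,[(24,229408),(25,127040),(37,337536),(10,163616),(4,383296),(39,917632)]),(2,[(24,67840),(31,61952),(10,186240),(7,71296),(39,271360)]),(0,[(24,65536),(25,37888),(31,13312)]),(0,[(19,65536),(25,133120),(31,163840),(37,65536),(38,81952),(10,49120),(9,933856)])], .leaf 1 [(18,[(25,272256),(31,598144),(37,155648),(7,466944),(5,726272),(1,8192)])], .leaf 0 [(58,[(24,280152),(29,9036),(31,308672),(37,54928),(5,434104),(1,54928),(39,1120608)])],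 .leaf 0 [(14,[(25,160620),(28,57344),(31,529620),(38,8192),(7,245760),(5,580096),(3,4096)])], .leaf 2 [(0,[(25,101376),(31,177152),(9,769920),(40,262144)])], .leaf 4 [(126,[(20,7032048),(24,842240),(25,2046928),(28,1237040),(37,5402896),(10,2928816),(0,157920),(39,3368960)]),(218,[(20,9238208),(24,2452480),(25,2829568),(28,3602080),(37,7204160),(0,459840),(39,9809920)]),(0,[(25,27936),(5,125888)]),(0,[(25,118432),(31,106336),(37,131072),(10,131072),(5,683296),(40,262144)]),(0,[(20,25792),(25,15040),(28,15712),(37,56736),(9,78432),(4,48544)])], .leaf 0 [(0,[(25,10880),(31,36224),(5,46848)])], .leaf 0 [(14,[(25,22080),(30,56236),(9,123648),(7,131072),(3,4096)])], .leaf 1 [(0,[(27,340),(32,1132),(9,9928)])], .leaf 1 [(0,[(25,120192),(31,201344),(9,876544),(40,262144)])], .leaf 3 [(0,[(18,56000),(31,3776),(10,75072)]),(0,[(28,28352),(5,91136)]),(0,[(18,66880),(31,8512),(10,64192)]),(0,[(25,75072),(31,200384),(10,131072),(5,808960),(40,262144)]),(0,[(31,4160),(38,72640),(7,58432),(6,8192)])],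 .leaf 1 [(0,[(25,5504),(31,29312),(5,16384)])], .leaf 0 [(0,[(27,172),(32,916),(9,10112)])], .leaf 0 [(34,[(21,193024),(25,347388),(31,1078852),(5,718336),(3,15616),(2,31232),(0,93696),(40,6176768)])]]
noncomputable def a15 : TT := .leaf ⟨false,1,0,0,1,3,15,[[0,0,0,16,0,0,0,-4],[],[],[0,0,0,0,0,0,0,5],[],[],[],[],[],[],[]]⟩ [.leaf 0 [(0,[(7,4)])], .leaf 0 [(0,[])], .leaf 0 [(0,[])], .leaf 0 [(0,[])], .leaf 0 [(0,[])], .leaf 0 [(0,[])], .leaf 0 [(0,[])], .leaf 0 [(0,[])], .leaf 0 [(0,[])], .leaf 0 [(0,[])], .leaf 0 [(0,[])], .leaf 0 [(0,[(7,3584)])], .leaf 0 [(0,[])], .leaf 0 [(0,[])], .leaf 0 [(0,[(7,3584)])], .leaf 0 [(0,[])], .leaf 0 [(0,[])], .leaf 0 [(0,[(12,2048)])], .leaf 0 [(0,[(39,2048),(12,2048)])], .leaf 0 [(0,[])], .leaf 0 [(0,[(4,32)])], .leaf 0 [(4,[(32,128),(34,64),(9,320),(2,64)])], .leaf 0 [(0,[(42,2048)])], .leaf 1 [(476,[(26,49664),(27,51712),(33,47616),(39,192512),(12,385024),(0,4096),(41,198656)]),(0,[(26,160),(33,320),(39,264),(12,416),(6,368),(1,72),(41,640)]),(6,[(26,1024),(33,2048),(12,3584),(0,32),(41,4096)]),(398,[(26,117632),(27,84152),(30,126104),(33,84152),(39,104192),(12,206608),(9,82368),(2,66960),(0,23760),(41,470528)]),(0,[(21,384),(40,256),(11,3488),(6,256),(0,8)])],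 .leaf 1 [(18,[(29,192),(39,512),(9,2944),(3,64)])], .leaf 0 [(4,[(26,128),(27,114),(39,284),(12,134),(2,142),(41,512)])], .leaf 0 [(14,[(30,448),(9,1984),(5,32)])], .leaf 2 [(0,[(11,3520),(42,2048)])], .leaf 4 [(0,[(22,512),(39,512),(12,512)]),(12,[(22,6144),(26,1024),(27,1536),(30,2048),(39,3584),(0,32),(41,4096)]),(0,[(7,448)]),(0,[(22,512),(39,512),(40,512),(11,3520),(42,2048)]),(13,[(22,6864),(26,128),(27,304),(39,6976),(12,6576),(6,96),(0,3),(41,512)])], .leaf 0 [(0,[])], .leaf 0 [(26,[(32,328),(12,1272),(9,1928),(5,100)])], .leaf 1 [(0,[(11,68)])], .leaf 1 [(0,[(7,3520),(42,2048)])], .leaf 3 [(0,[(20,512),(12,512)]),(0,[(28,448)]),(0,[(20,512),(12,512)]),(0,[(40,512),(11,3520),(9,512),(42,2048)]),(0,[(20,512),(12,512)])], .leaf 1 [(0,[])], .leaf 0 [(0,[(7,68)])], .leaf 0 [(0,[(27,64),(4,32)])]]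
noncomputable def a16 : TT := .leaf ⟨true,8,0,1,9,0,2047,[[-320,-128,-192,2048,0,0,0,-640,128,192],[],[48,21,27,0,0,0,0,71,-21,-27],[0,64,-64,0,0,0,0,777,-64,64],[],[0,0,0,0,0,0,0,128],[],[-40,-16,-24,256,0,0,0,-80,16,24],[],[48,21,27,0,0,0,0,71,-21,-27],[0,0,0,256]]⟩ [.leaf 0 [(0,[(27,16),(33,24),(7,120)])], .leaf 0 [(0,[])], .leaf 0 [(0,[(29,21),(34,27)])], .leaf 0 [(0,[(27,5),(33,3)])], .leaf 0 [(0,[])], .leaf 0 [(0,[])], .leaf 0 [(92,[(26,4352),(27,3072),(33,3072),(39,3072),(12,6144),(2,2560),(1,1024),(41,17408)])], .leaf 0 [(0,[]),(0,[]),(0,[]),(0,[]),(0,[]),(0,[])], .leaf 0 [(0,[(29,8192),(33,8192)])], .leaf 0 [(0,[])], .leaf 0 [(0,[])], .leaf 0 [(0,[(29,18816),(34,24192)])], .leaf 0 [(0,[])], .leaf 0 [(0,[(27,114688),(33,172032),(11,876544)])], .leaf 0 [(0,[(29,18816),(34,24192)])], .leaf 0 [(0,[])], .leaf 0 [(0,[(27,114688),(33,172032),(7,860160)])], .leaf 0 [(0,[])], .leaf 0 [(0,[(27,27264),(33,19840)])],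 .leaf 0 [(0,[(20,5504),(34,29312),(12,256640)])], .leaf 0 [(6,[(21,342528),(26,228352),(27,177408),(30,545664),(39,1035776),(12,236544),(41,913408)])], .leaf 0 [(0,[(29,27264),(34,19840)])], .leaf 0 [(22,[(23,137728),(29,23424),(33,661888),(39,13056),(9,768),(7,48384),(6,23808),(4,24576),(0,768),(42,4407296)])], .leaf 0 [(4,[(27,70784),(33,156544),(9,40960),(7,185088),(2,8192)])], .leaf 0 [(0,[(29,13312),(33,5120),(42,262144)])], .leaf 0 [(4,[(21,262144),(22,240528),(26,65536),(27,34816),(33,183184),(39,21616),(12,283760),(41,262144)]),(8,[(21,337536),(26,229408),(27,127040),(39,337536),(12,163616),(6,45760),(41,917632)]),(6,[(21,309728),(26,153696),(27,134176),(33,10528),(12,300384),(41,614784)]),(0,[(26,65536),(27,37888),(33,13312)]),(0,[(21,65536),(27,133120),(33,163840),(39,65536),(40,131072),(7,933856)])], .leaf 1 [(4,[(27,70784),(33,156544),(39,40960),(11,185088),(9,122880),(2,8192)])], .leaf 0 [(152,[(26,159800),(27,94384),(39,736002),(12,134776),(1,798554),(0,110644),(41,639200)])],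 .leaf 0 [(14,[(27,160620),(30,57344),(33,529620),(40,8192),(9,245760),(7,580096),(5,4096)])], .leaf 2 [(0,[(27,101376),(33,177152),(7,769920),(42,262144)])], .leaf 4 [(0,[(22,60744),(26,7520),(27,22024),(30,13160),(39,55288),(12,28968),(9,11280),(41,30080)]),(2,[(21,57480),(22,124976),(26,38320),(27,40336),(30,95800),(39,134120),(41,153280)]),(0,[(27,27936),(7,125888)]),(0,[(27,118432),(33,106336),(39,131072),(40,131072),(11,683296),(42,262144)]),(0,[(22,41504),(27,30752),(39,89568),(10,81376),(7,12768)])], .leaf 0 [(0,[(27,10880),(33,36224),(7,46848)])], .leaf 0 [(18,[(27,7996),(32,73728),(34,4604),(11,142072),(9,155648),(3,8192)])], .leaf 1 [(3,[(34,3338),(11,37417),(9,2720),(5,85)])], .leaf 1 [(0,[(27,120192),(33,201344),(11,876544),(42,262144)])], .leaf 3 [(0,[(20,56000),(33,3776),(12,75072)]),(0,[(30,28352),(11,65536),(10,25600)]),(0,[(20,66880),(33,8512),(12,64192)]),(0,[(27,75072),(33,200384),(40,131072),(7,808960),(42,262144)]),(0,[(33,4160),(40,72640),(9,58432),(8,8192)])],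 .leaf 1 [(0,[(27,5504),(33,29312),(7,16384)])], .leaf 0 [(0,[(29,172),(34,916),(11,10112)])], .leaf 1 [(30,[(23,7192),(30,3444),(39,16762),(9,986),(7,62118),(6,30566),(4,122394),(0,986),(42,230144)])]]
noncomputable def a17 : TT := .leaf ⟨true,8,0,1,9,0,2047,[[-320,-128,-192,2048,0,0,0,-640,128,192],[],[48,21,27,0,0,0,0,71,-21,-27],[0,64,-64,0,0,0,0,777,-64,64],[],[0,0,0,0,0,0,0,128],[],[-40,-16,-24,256,0,0,0,-80,16,24],[],[48,21,27,0,0,0,0,71,-21,-27],[0,0,0,256]]⟩ [.leaf 0 [(0,[(26,16),(32,24),(6,120)])], .leaf 0 [(0,[])], .leaf 0 [(0,[(28,21),(33,27)])], .leaf 0 [(0,[(26,5),(32,3)])], .leaf 0 [(0,[])], .leaf 0 [(0,[])], .leaf 0 [(14,[(25,768),(32,1024),(11,1024),(1,512),(40,3072)])], .leaf 0 [(0,[]),(0,[]),(0,[]),(0,[]),(0,[]),(0,[])], .leaf 0 [(0,[(28,8192),(32,8192)])], .leaf 0 [(0,[])], .leaf 0 [(0,[])], .leaf 0 [(0,[(28,18816),(33,24192)])], .leaf 0 [(0,[])], .leaf 0 [(0,[(26,114688),(32,172032),(10,876544)])],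 .leaf 0 [(0,[(28,18816),(33,24192)])], .leaf 0 [(0,[])], .leaf 0 [(0,[(26,114688),(32,172032),(6,860160)])], .leaf 0 [(0,[])], .leaf 0 [(0,[(26,27264),(32,19840)])], .leaf 0 [(0,[(19,5504),(33,29312),(11,256640)])], .leaf 0 [(6,[(20,342528),(21,25216),(25,228352),(26,152192),(29,570880),(38,1010560),(11,211328),(40,913408)])], .leaf 0 [(0,[(28,27264),(33,19840)])], .leaf 0 [(12,[(22,97536),(28,27776),(32,379264),(38,896),(6,57344),(3,3584),(0,896),(41,3121152)])], .leaf 0 [(18,[(26,272256),(32,598144),(10,726272),(8,155648),(2,8192)])], .leaf 0 [(0,[(28,13312),(32,5120),(41,262144)])], .leaf 0 [(6,[(20,476912),(21,7008),(25,165024),(26,122016),(29,183184),(38,103536),(11,214080),(40,660096)]),(8,[(25,229408),(26,127040),(38,337536),(11,163616),(5,383296),(40,917632)]),(6,[(20,213888),(25,134528),(32,97024),(11,434560),(40,538112)]),(0,[(25,65536),(26,37888),(32,13312)]),(0,[(20,65536),(26,133120),(32,163840),(38,65536),(39,131072),(6,933856)])],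 .leaf 1 [(0,[(20,8192),(26,10880),(32,36224),(8,16384),(6,40192),(4,512)])], .leaf 0 [(14,[(25,49152),(32,25996),(38,57480),(11,29956),(1,50228),(40,196608)])], .leaf 0 [(4,[(26,45348),(32,168348),(8,122880),(6,175616),(1,16384)])], .leaf 2 [(0,[(26,101376),(32,177152),(6,769920),(41,262144)])], .leaf 4 [(0,[(21,62624),(26,8864),(38,68448),(11,68448)]),(20,[(21,1066432),(25,306560),(26,550592),(29,536480),(38,1072960),(8,459840),(40,1226240)]),(0,[(26,27936),(38,96480),(11,96480),(10,29408)]),(0,[(26,118432),(32,106336),(38,131072),(39,131072),(10,683296),(41,262144)]),(0,[(21,41504),(26,30752),(38,89568),(39,81376),(10,12768)])], .leaf 0 [(0,[(26,10880),(32,36224),(6,46848)])], .leaf 0 [(14,[(26,22080),(31,56236),(10,123648),(8,131072),(4,4096)])], .leaf 1 [(0,[(28,340),(33,1132),(6,9928)])], .leaf 1 [(0,[(26,120192),(32,201344),(6,876544),(41,262144)])], .leaf 3 [(0,[(19,56000),(32,3776),(11,75072)]),(0,[(29,28352),(11,63104),(10,28032)]),(0,[(19,66880),(32,8512),(11,64192)]),(0,[(26,75072),(32,200384),(11,131072),(10,808960),(41,262144)]),(0,[(11,72224),(8,59264),(7,11520),(0,416)])],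 .leaf 1 [(0,[(26,5504),(32,29312),(6,16384)])], .leaf 0 [(0,[(28,172),(33,916),(6,10112)])], .leaf 0 [(30,[(22,175872),(26,259500),(32,912276),(38,7808),(6,499712),(3,31232),(0,7808),(41,5627904)])]]
noncomputable def a18 : TT := .leaf ⟨true,33,0,31,64,3,8183,[[0,0,0,8184,0,0,0,-2046],[],[0,0,0,0,0,0,0,1023],[0,0,0,0,0,0,0,4092],[],[0,0,0,0,0,0,0,2046],[],[0,0,0,248,0,0,0,-62],[],[0,0,0,0,0,0,0,33],[0,0,0,248]]⟩ [.leaf 0 [(0,[(3,62)])], .leaf 0 [(0,[])], .leaf 0 [(0,[])], .leaf 0 [(0,[])], .leaf 0 [(0,[])], .leaf 0 [(0,[])], .leaf 0 [(568,[(29,76880),(35,30752),(3,176824),(1,7688),(0,76880)])], .leaf 0 [(0,[]),(0,[]),(0,[]),(0,[]),(0,[]),(0,[])], .leaf 0 [(0,[])], .leaf 0 [(0,[])], .leaf 0 [(0,[])], .leaf 0 [(0,[])], .leaf 0 [(0,[])], .leaf 0 [(0,[(3,2095104)])], .leaf 0 [(0,[])], .leaf 0 [(0,[])], .leaf 0 [(0,[(3,1833216)])], .leaf 0 [(0,[])], .leaf 0 [(0,[])], .leaf 0 [(0,[(8,1047552)])], .leaf 0 [(0,[(35,1047552),(8,1047552)])],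 .leaf 0 [(0,[])], .leaf 0 [(0,[(19,32736),(25,32736),(38,1047552)])], .leaf 0 [(4,[(28,87296),(5,174592),(1,5456)])], .leaf 0 [(0,[(38,1047552)])], .leaf 0 [(298,[(17,60266976),(22,18135744),(23,18233952),(29,18233952),(35,47892768),(8,95392704),(2,12177792),(0,196416),(37,72542976)]),(2,[(17,545600),(22,240064),(23,240064),(29,240064),(35,545600),(8,676544),(37,960256)]),(60,[(29,294624),(35,13683648),(8,29069568),(0,294624)]),(0,[(22,261888),(23,261888),(29,261888)]),(0,[(17,261888),(35,261888),(8,523776),(3,1407648)])], .leaf 1 [(4,[(27,76384),(5,338272),(1,5456)])], .leaf 0 [(568,[(29,924792),(35,9062416),(3,6318048),(1,713372),(0,924792)])], .leaf 0 [(19,[(23,11253),(26,295647),(29,9889),(1,21824),(0,21142)])], .leaf 2 [(0,[(3,556512),(38,1047552)])], .leaf 4 [(628,[(18,154333872),(22,10148160),(23,10393680),(26,9902640),(35,124380432),(8,72657552),(2,30444480),(0,491040),(37,40592640)]),(0,[(17,65472),(18,218240),(22,43648),(23,43648),(26,109120),(35,152768),(37,174592)]),(0,[(31,229152),(3,261888)]),(0,[(18,261888),(35,261888),(36,261888),(7,883872),(38,1047552)]),(38,[(18,10060864),(22,76384),(23,152768),(35,10213632),(8,9755328),(3,9700768),(0,152768),(37,305536)])],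 .leaf 0 [(0,[])], .leaf 0 [(4,[(28,87296),(5,174592),(3,159588),(1,5456)])], .leaf 1 [(0,[(3,36828)])], .leaf 1 [(0,[(3,1473120),(38,1047552)])], .leaf 3 [(0,[(16,261888),(8,261888)]),(0,[(24,229152),(3,163680)]),(20,[(16,5412352),(0,87296)]),(0,[(8,253440),(3,1976832),(0,4224),(38,1047552)]),(0,[(8,253440),(0,4224)])], .leaf 1 [(0,[])], .leaf 0 [(0,[(7,45012)])], .leaf 0 [(0,[(19,32736),(38,1047552)])]]
noncomputable def a19 : TT := .leaf ⟨true,33,0,31,64,3,8183,[[0,0,0,8184,0,0,0,-2046],[],[0,0,0,0,0,0,0,1023],[0,0,0,0,0,0,0,4092],[],[0,0,0,0,0,0,0,2046],[],[0,0,0,248,0,0,0,-62],[],[0,0,0,0,0,0,0,33],[0,0,0,248]]⟩ [.leaf 0 [(0,[(1,62)])], .leaf 0 [(0,[])], .leaf 0 [(0,[])], .leaf 0 [(0,[])], .leaf 0 [(0,[])], .leaf 0 [(0,[])], .leaf 0 [(0,[(6,7688),(0,7688)])], .leaf 0 [(0,[]),(0,[]),(0,[]),(0,[]),(0,[]),(0,[])], .leaf 0 [(0,[])], .leaf 0 [(0,[])], .leaf 0 [(0,[])], .leaf 0 [(0,[])], .leaf 0 [(0,[])],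 .leaf 0 [(0,[(1,2095104)])], .leaf 0 [(0,[])], .leaf 0 [(0,[])], .leaf 0 [(0,[(1,1833216)])], .leaf 0 [(0,[])], .leaf 0 [(0,[])], .leaf 0 [(0,[(6,1047552)])], .leaf 0 [(2,[(15,458304),(20,305536),(21,305536),(24,763840),(27,305536),(33,2073280),(6,1003904),(35,1222144)])], .leaf 0 [(0,[])], .leaf 0 [(0,[(17,32736),(23,32736),(36,1047552)])], .leaf 0 [(0,[(21,147312),(26,16368),(28,16368),(5,32736),(2,32736),(0,163680)])], .leaf 0 [(0,[(36,1047552)])], .leaf 0 [(0,[(15,229152),(20,65472),(21,65472),(24,32736),(27,65472),(33,163680),(6,327360),(35,261888)]),(2,[(15,545600),(20,240064),(21,240064),(27,240064),(33,545600),(6,676544),(35,960256)]),(2,[(20,152768),(27,305536),(33,21824),(6,1287616),(0,480128),(35,611072)]),(0,[(20,261888),(21,261888),(27,261888)]),(0,[(15,261888),(33,261888),(34,523776),(5,1407648)])], .leaf 1 [(0,[(3,32736),(0,32736)])], .leaf 0 [(0,[(6,32736),(0,65472)])], .leaf 0 [(0,[(21,163680),(3,32736),(2,32736),(1,45012),(0,163680)])],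 .leaf 2 [(0,[(1,556512),(36,1047552)])], .leaf 2 [(6,[(15,196416),(16,1702272),(20,130944),(21,130944),(24,327360),(33,1505856),(6,1047552),(35,523776)]),(0,[(29,229152),(1,294624)]),(0,[(15,65472),(16,218240),(20,43648),(21,43648),(24,109120),(33,152768),(35,174592)]),(0,[(16,261888),(33,261888),(6,261888),(5,949344),(36,1047552)]),(0,[(16,261888),(33,261888)])], .leaf 0 [(0,[])], .leaf 0 [(0,[(21,147312),(26,16368),(28,16368),(5,192324),(2,32736),(0,163680)])], .leaf 1 [(0,[(5,36828)])], .leaf 1 [(0,[(5,1473120),(36,1047552)])], .leaf 3 [(0,[(14,261888),(6,261888)]),(0,[(34,261888),(5,130944)]),(0,[(14,261888),(6,261888)]),(0,[(34,261888),(5,1964160),(3,261888),(36,1047552)]),(0,[(14,261888),(6,261888)])], .leaf 1 [(0,[])], .leaf 0 [(0,[(1,45012)])], .leaf 0 [(0,[(17,32736),(36,1047552)])]]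
noncomputable def t0 : TT := (.split [0,0,0,-1,0,0,0,1,0,0] (.split [0,0,0,0,0,-1,0,1,0,0] (.w 0 (.split [-1,0,-1,1,0,1,0,1,0,0] a0 (.split [0,16,16,-112,-32,-32,0,-5,16,16] a1 a2)) (.split [0,0,0,-32,0,0,0,31,0,0] (.split [-1,1,1,10,-2,16,0,7,0,0] (.split [0,-1,0,6,16,2,0,9,-1,0] a3 a4) a5) (.split [0,1,1,0,-32,-32,0,32,0,0] a6 (.split [-2,0,1,-64,4,0,0,64,0,1] a7 (.split [30,509,539,2064,-1588,-3108,0,-3075,494,418] a8 a9)))) a10) a11) (.split [0,0,0,0,0,-1,0,0,1,0] (.split [0,16,16,-48,-32,-96,0,-3,16,14] a12 (.split [-1,0,0,64,64,0,0,-1,-2,0] (.split [3,10,11,-19,-19,-64,0,-2,8,8] a13 (.split [1,3,3,-5,-5,-16,0,0,2,2] a14 (.split [0,2,2,0,-1,-1,0,0,-1,-1] (.split [0,16,16,0,-48,-48,0,0,0,1] a15 a16) a17))) a18)) a19))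
theorem c0 : chkT (([4,4,-1,0,0,0,0,0,0,0] : Fm) :: fsm (-1) ([0,0,0,-1,1,0,0,0,0,0] : Fm) :: ([0,0,0,0,0,0,0,-1,1,0] : Fm) :: fsm (-1) ([0,0,0,-2,0,0,0,1,0,0] : Fm) :: ([0,0,0,-1,-1,0,0,-1,1,0] : Fm) :: K1O10.C0) t0 = true := by decide +kernel
end K1O10M01010

namespace K1O10M01011
noncomputable def a0 : TT := .leaf ⟨false,1,0,0,1,0,7,[[0,0,0,9,0,0,0,-2],[],[],[0,0,0,1,0,0,0,3],[],[],[],[],[],[],[]]⟩ [.leaf 0 [(0,[(6,2)])], .leaf 0 [(0,[])], .leaf 0 [(0,[])], .leaf 0 [(0,[(2,1)])], .leaf 0 [(0,[])], .leaf 0 [(0,[])], .leaf 0 [(0,[])], .leaf 0 [(0,[])], .leaf 0 [(0,[])], .leaf 0 [(0,[])], .leaf 0 [(0,[])], .leaf 0 [(0,[(6,1792)])], .leaf 0 [(0,[])], .leaf 0 [(0,[])], .leaf 0 [(0,[(6,1792)])], .leaf 0 [(0,[])], .leaf 0 [(0,[])], .leaf 0 [(0,[(7,1024),(2,256)])], .leaf 0 [(910,[(16,112064),(21,134784),(25,261824),(28,147456),(34,521280),(7,259456),(3,29952),(1,2304),(36,539136)])], .leaf 0 [(0,[])], .leaf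 0 [(64,[(19,416),(24,2080),(29,608),(3,416),(1,1024),(0,416)])], .leaf 0 [(0,[(20,32),(29,32),(37,1024)])], .leaf 0 [(0,[(37,1024)])], .leaf 1 [(102,[(21,15552),(28,10080),(7,16640),(3,4840),(1,1664),(36,62208)]),(584,[(21,74336),(28,26560),(34,120896),(7,78112),(3,29952),(1,2304),(36,297344)]),(2,[(21,320),(28,480),(7,768),(4,128),(3,40),(36,1280)]),(66,[(15,69280),(16,3872),(21,5024),(28,11712),(7,15008),(3,16512),(1,1568),(36,20096)]),(68,[(16,18688),(35,17664),(6,154208),(3,256),(1,1280)])], .leaf 1 [(0,[(20,8),(24,32),(4,32),(3,8),(37,256)])], .leaf 1 [(12,[(19,416),(29,1056),(2,776),(1,1056)])], .leaf 0 [(0,[(19,32),(4,1056)])], .leaf 2 [(0,[(6,1696),(37,1024)])], .leaf 4 [(76,[(16,2112),(21,7008),(34,17472),(3,4032),(1,448),(36,28032)]),(98,[(17,9856),(21,6560),(34,15856),(3,3280),(1,912),(36,26240)]),(0,[(6,256)]),(0,[(17,256),(34,256),(35,256),(6,1792),(37,1024)]),(76,[(21,2864),(30,14528),(3,2048),(1,2592),(36,11456)])],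 .leaf 0 [(0,[])], .leaf 1 [(0,[(20,32),(37,1024)])], .leaf 1 [(0,[(6,36)])], .leaf 1 [(0,[(6,1696),(37,1024)])], .leaf 3 [(0,[(15,256),(7,256),(2,32)]),(0,[(7,256)]),(0,[(15,256),(7,256)]),(0,[(15,256),(35,256),(6,1792),(37,1024)]),(0,[(15,256),(20,32),(7,256),(37,1024)])], .leaf 1 [(0,[])], .leaf 0 [(0,[(6,36)])], .leaf 0 [(64,[(19,416),(29,608),(3,416),(1,1024),(0,416)])]]
noncomputable def a1 : TT := .leaf ⟨false,1,0,0,1,0,7,[[0,0,0,9,0,0,0,-2],[],[],[0,0,0,1,0,0,0,3],[],[],[],[],[],[],[]]⟩ [.leaf 0 [(0,[(6,2)])], .leaf 0 [(0,[])], .leaf 0 [(0,[])], .leaf 0 [(0,[(2,1)])], .leaf 0 [(0,[])], .leaf 0 [(0,[])], .leaf 0 [(0,[])], .leaf 0 [(0,[])], .leaf 0 [(0,[])], .leaf 0 [(0,[])], .leaf 0 [(0,[])], .leaf 0 [(0,[(6,1792)])], .leaf 0 [(0,[])], .leaf 0 [(0,[])], .leaf 0 [(0,[(6,1792)])], .leaf 0 [(0,[])], .leaf 0 [(0,[])], .leaf 0 [(0,[(7,1024),(2,256)])], .leaf 0 [(910,[(16,112064),(21,134784),(25,261824),(28,147456),(34,521280),(7,259456),(3,29952),(1,2304),(36,539136)])],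 .leaf 0 [(0,[])], .leaf 0 [(116,[(19,416),(20,416),(24,3744),(29,2048),(3,832),(1,2048),(37,13312)])], .leaf 0 [(0,[(20,32),(29,32),(37,1024)])], .leaf 0 [(0,[(37,1024)])], .leaf 0 [(102,[(21,15552),(28,10080),(7,16640),(3,4840),(1,1664),(36,62208)]),(618,[(21,103136),(25,80256),(3,49440),(1,8512),(0,8480),(36,412544)]),(18,[(21,2496),(4,608),(3,1248),(0,1376),(36,9984)]),(24,[(21,5568),(28,4352),(7,6400),(3,1664),(2,4352),(1,128),(0,1920),(37,3328)]),(2,[(6,6560),(1,512)])], .leaf 1 [(0,[(20,8),(24,32),(4,32),(3,8),(37,256)])], .leaf 0 [(5,[(19,77),(24,192),(29,116),(3,77),(2,124),(0,116)])], .leaf 0 [(0,[(19,32),(4,1056)])], .leaf 2 [(0,[(6,1696),(37,1024)])], .leaf 4 [(1290,[(17,249216),(21,78624),(25,87360),(34,175488),(3,17472),(1,6080),(36,314496)]),(6,[(16,1378),(21,480),(25,882),(34,882),(3,364),(1,28),(36,1920)]),(4,[(0,256)]),(6,[(17,1920),(6,14080),(1,128),(37,7168)]),(76,[(21,2864),(30,14528),(3,2048),(1,2592),(36,11456)])],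 .leaf 0 [(0,[])], .leaf 1 [(0,[(20,32),(37,1024)])], .leaf 1 [(0,[(6,36)])], .leaf 1 [(0,[(6,1696),(37,1024)])], .leaf 3 [(0,[(15,256),(7,256),(2,32)]),(0,[(23,224),(35,32)]),(0,[(15,256),(7,256)]),(2,[(27,512),(6,3584),(0,512),(37,3072)]),(0,[(15,256),(20,32),(35,48),(7,208),(37,1024)])], .leaf 1 [(0,[])], .leaf 0 [(0,[(6,36)])], .leaf 0 [(116,[(19,416),(20,416),(29,2048),(3,832),(1,2048),(37,13312)])]]
noncomputable def a2 : TT := .leaf ⟨false,1,0,0,1,0,7,[[0,0,0,9,0,0,0,-2],[],[],[0,0,0,1,0,0,0,3],[],[],[],[],[],[],[]]⟩ [.leaf 0 [(0,[(8,2)])], .leaf 0 [(0,[])], .leaf 0 [(0,[])], .leaf 0 [(0,[(4,1)])], .leaf 0 [(0,[])], .leaf 0 [(0,[])], .leaf 0 [(0,[])], .leaf 0 [(0,[])], .leaf 0 [(0,[])], .leaf 0 [(0,[])], .leaf 0 [(0,[])], .leaf 0 [(0,[(8,1792)])], .leaf 0 [(0,[])], .leaf 0 [(0,[])], .leaf 0 [(0,[(8,1792)])], .leaf 0 [(0,[])], .leaf 0 [(0,[])], .leaf 0 [(0,[(9,1024),(4,256)])], .leaf 0 [(0,[(18,64),(23,128),(24,128),(27,192),(30,128),(36,704),(9,384),(38,512)])],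 .leaf 0 [(0,[])], .leaf 0 [(0,[(20,32),(26,32),(39,1024)])], .leaf 0 [(0,[(22,32),(31,32),(39,1024)])], .leaf 0 [(0,[(39,1024)])], .leaf 1 [(114,[(18,17660),(23,11744),(24,11852),(30,11708),(36,16940),(9,32800),(0,72),(38,46976)]),(188,[(23,34112),(30,29696),(36,18688),(7,25440),(5,9856),(0,896),(38,136448)]),(6,[(18,384),(23,704),(30,1120),(9,1792),(5,72),(38,2816)]),(12,[(17,4512),(23,2448),(30,3168),(9,3072),(6,3328),(5,1600),(4,1328),(0,160),(38,9792)]),(0,[(18,256),(36,256),(9,512),(8,2016)])], .leaf 1 [(0,[(22,8),(26,32),(6,32),(5,8),(39,256)])], .leaf 0 [(4,[(21,40),(26,160),(30,56),(8,348),(5,40),(3,56)])], .leaf 0 [(0,[(21,32),(6,1056)])], .leaf 2 [(0,[(8,1696),(39,1024)])], .leaf 4 [(40,[(18,2336),(19,8000),(23,2336),(24,800),(27,4864),(36,5632),(5,352),(0,32),(38,9344)]),(2,[(18,264),(19,688),(23,80),(24,80),(27,344),(36,424),(38,320)]),(0,[(8,256)]),(0,[(19,256),(36,256),(9,256),(8,1792),(39,1024)]),(20,[(19,5200),(36,5376),(37,4976),(5,176),(0,16)])],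 .leaf 0 [(0,[])], .leaf 1 [(0,[(22,32),(39,1024)])], .leaf 1 [(0,[(8,36)])], .leaf 1 [(0,[(8,1696),(39,1024)])], .leaf 3 [(0,[(17,256),(9,256),(4,32)]),(0,[(25,224),(8,32)]),(0,[(17,256),(9,256)]),(26,[(37,7168),(8,41728),(0,256),(39,27648)]),(0,[(17,256),(22,32),(37,48),(9,208),(39,1024)])], .leaf 1 [(0,[])], .leaf 0 [(0,[(8,36)])], .leaf 0 [(0,[(20,32),(39,1024)])]]
noncomputable def a3 : TT := .leaf ⟨false,1,0,0,1,0,7,[[0,0,0,9,0,0,0,-2],[],[],[0,0,0,1,0,0,0,3],[],[],[],[],[],[],[]]⟩ [.leaf 0 [(0,[(10,2)])], .leaf 0 [(0,[])], .leaf 0 [(0,[])], .leaf 0 [(0,[(6,1)])], .leaf 0 [(0,[])], .leaf 0 [(0,[])], .leaf 0 [(0,[])], .leaf 0 [(0,[])], .leaf 0 [(0,[])], .leaf 0 [(0,[])], .leaf 0 [(0,[])], .leaf 0 [(0,[(10,1792)])], .leaf 0 [(0,[])], .leaf 0 [(0,[])], .leaf 0 [(0,[(10,1792)])], .leaf 0 [(0,[])], .leaf 0 [(0,[])], .leaf 0 [(0,[(11,1024),(6,256)])], .leaf 0 [(34,[(25,2304),(32,2640),(38,28672),(11,26112),(7,512),(0,80),(40,9216)])],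 .leaf 0 [(0,[])], .leaf 0 [(0,[(22,32),(28,32),(41,1024)])], .leaf 0 [(0,[(24,32),(33,32),(41,1024)])], .leaf 0 [(0,[(41,1024)])], .leaf 1 [(6222,[(20,1145216),(25,630720),(32,708704),(38,526592),(11,1306112),(7,140160),(0,7904),(40,2522880)]),(122,[(25,15744),(38,23296),(9,11808),(7,7936),(0,256),(40,62976)]),(2,[(25,320),(32,480),(11,768),(8,128),(7,40),(40,1280)]),(8,[(19,5568),(25,1152),(38,256),(11,224),(10,640),(8,5984),(7,1984),(0,64),(40,4608)]),(250,[(20,95744),(11,31488),(10,603040),(8,1280),(7,256),(0,1024)])], .leaf 1 [(12,[(24,80),(28,576),(7,112),(3,32),(41,2560)])], .leaf 0 [(4,[(23,40),(28,160),(32,56),(10,348),(7,40),(5,56)])], .leaf 0 [(0,[(23,32),(8,1056)])], .leaf 2 [(0,[(10,1696),(41,1024)])], .leaf 4 [(442,[(21,103936),(25,20480),(38,40960),(7,8192),(0,1280),(40,81920)]),(570,[(21,103936),(25,36864),(38,73728),(7,8192),(0,1280),(40,147456)]),(0,[(10,256)]),(0,[(21,256),(38,256),(39,256),(10,1792),(41,1024)]),(12,[(20,3328),(38,2560),(39,1792),(10,1536),(7,744),(0,24)])],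 .leaf 0 [(0,[])], .leaf 1 [(0,[(24,32),(41,1024)])], .leaf 1 [(0,[(10,36)])], .leaf 1 [(0,[(10,1696),(41,1024)])], .leaf 3 [(0,[(19,256),(11,256),(6,32)]),(0,[(39,256)]),(0,[(19,256),(39,48),(11,208)]),(0,[(39,256),(10,1792),(8,256),(41,1024)]),(0,[(19,256),(24,32),(11,256),(41,1024)])], .leaf 1 [(0,[])], .leaf 0 [(0,[(10,36)])], .leaf 0 [(0,[(22,32),(41,1024)])]]
noncomputable def a4 : TT := .leaf ⟨false,1,0,0,1,0,7,[[0,0,0,9,0,0,0,-2],[],[],[0,0,0,1,0,0,0,3],[],[],[],[],[],[],[]]⟩ [.leaf 0 [(0,[(11,2)])], .leaf 0 [(0,[])], .leaf 0 [(0,[])], .leaf 0 [(0,[(7,1)])], .leaf 0 [(0,[])], .leaf 0 [(0,[])], .leaf 0 [(0,[])], .leaf 0 [(0,[])], .leaf 0 [(0,[])], .leaf 0 [(0,[])], .leaf 0 [(0,[])], .leaf 0 [(0,[(11,1792)])], .leaf 0 [(0,[])], .leaf 0 [(0,[])], .leaf 0 [(0,[(11,1792)])], .leaf 0 [(0,[])], .leaf 0 [(0,[])], .leaf 0 [(27198,[(20,78592),(33,125696),(12,25196544),(6,125696),(3,78592),(0,78080)])], .leaf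 0 [(60,[(26,7936),(30,19840),(39,42496),(12,18432),(8,3968),(0,128),(41,31744)])], .leaf 0 [(0,[])], .leaf 0 [(0,[(23,32),(29,32),(42,1024)])], .leaf 0 [(0,[(25,31),(27,32),(1,1),(42,992)])], .leaf 0 [(0,[(42,1024)])], .leaf 1 [(26,[(21,2572),(26,1736),(39,6884),(12,12872),(8,868),(0,28),(41,6944)]),(4,[(26,512),(39,1280),(12,960),(8,256),(0,8),(41,2048)]),(72,[(26,7360),(33,3360),(12,14464),(8,2840),(0,128),(41,29440)]),(122,[(20,70912),(26,6912),(33,2816),(39,28672),(12,35104),(9,56800),(8,20480),(0,640),(41,27648)]),(0,[(21,256),(39,256),(40,512),(11,2016)])], .leaf 1 [(12,[(25,327),(33,311),(8,112),(4,32),(1,18),(42,10464)])], .leaf 0 [(1644,[(24,10400),(29,47520),(33,24056),(11,116028),(8,10560),(6,18936),(1,160)])], .leaf 0 [(0,[(24,32),(9,1056)])], .leaf 2 [(0,[(11,1696),(42,1024)])], .leaf 4 [(286,[(22,68352),(26,2048),(39,73472),(12,72416),(8,1024),(0,32),(41,8192)]),(23,[(22,5024),(26,448),(39,4544),(8,224),(0,57),(41,1792)]),(0,[(11,256)]),(0,[(22,256),(39,256),(12,256),(11,1792),(42,1024)]),(3,[(22,992),(39,1024),(11,1056),(8,32),(0,1)])],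 .leaf 0 [(0,[])], .leaf 0 [(23,[(24,52),(25,459),(11,224),(8,19),(4,128),(1,20),(42,14688)])], .leaf 1 [(0,[(11,36)])], .leaf 1 [(0,[(11,1696),(42,1024)])], .leaf 3 [(27198,[(20,6972768),(33,15712),(12,6631040),(6,15712),(3,9824),(0,9760)]),(0,[(11,256)]),(0,[(20,256),(12,256)]),(0,[(20,256),(12,256),(11,1792),(42,1024)]),(0,[(20,256),(25,32),(12,256),(42,1024)])], .leaf 1 [(0,[])], .leaf 0 [(0,[(11,36)])], .leaf 0 [(0,[(23,32),(42,1024)])]]
noncomputable def a5 : TT := .leaf ⟨false,1,0,0,1,0,7,[[0,0,0,9,0,0,0,-2],[],[],[0,0,0,1,0,0,0,3],[],[],[],[],[],[],[]]⟩ [.leaf 0 [(0,[(12,2)])], .leaf 0 [(0,[])], .leaf 0 [(0,[])], .leaf 0 [(0,[(8,1)])], .leaf 0 [(0,[])], .leaf 0 [(0,[])], .leaf 0 [(0,[])], .leaf 0 [(0,[])], .leaf 0 [(0,[])], .leaf 0 [(0,[])], .leaf 0 [(0,[])], .leaf 0 [(0,[(12,1792)])], .leaf 0 [(0,[])], .leaf 0 [(0,[])], .leaf 0 [(0,[(12,1792)])], .leaf 0 [(0,[])], .leaf 0 [(0,[])], .leaf 0 [(0,[(13,1024),(8,256)])],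 .leaf 0 [(1302,[(22,163264),(27,173952),(31,372928),(34,209664),(40,749376),(13,376448),(9,71424),(0,2304),(42,695808)])], .leaf 0 [(0,[])], .leaf 0 [(0,[(24,32),(30,32),(43,1024)])], .leaf 0 [(0,[(26,31),(28,32),(2,1),(43,992)])], .leaf 0 [(0,[(43,1024)])], .leaf 0 [(1302,[(22,237392),(27,130464),(31,61072),(34,157248),(40,113520),(13,282336),(9,53568),(0,1728),(42,521856)]),(818,[(27,85792),(34,33344),(40,174016),(13,111968),(9,71424),(0,2304),(42,343168)]),(4,[(21,384),(27,448),(13,1280),(9,320),(42,1792)]),(216430,[(21,55987392),(27,23276096),(34,52351168),(13,78874560),(9,61205312),(4,897920),(1,738368),(0,3055168),(43,128520960)]),(0,[(22,256),(40,256),(13,512),(12,2016)])], .leaf 1 [(32,[(10,3104),(1,32)])], .leaf 0 [(65,[(34,293),(7,293),(1,64)])], .leaf 0 [(82,[(26,1632),(28,96),(31,512),(10,2144),(5,512),(1,96),(43,52224)])], .leaf 2 [(0,[(12,1696),(43,1024)])], .leaf 4 [(312,[(22,22496),(23,62656),(27,14496),(31,39968),(40,39968),(9,5952),(0,192),(42,57984)]),(242,[(23,38912),(27,19328),(31,23296),(40,38656),(9,7936),(0,256),(42,77312)]),(0,[(36,224),(12,32)]),(0,[(23,256),(40,256),(13,256),(12,1792),(43,1024)]),(14,[(23,3592),(40,3832),(41,3832),(12,8),(9,248),(0,8)])],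 .leaf 0 [(0,[])], .leaf 0 [(85847,[(25,182816),(26,1468771),(13,188448),(5,512864),(2,69821),(1,15712),(43,47000672)])], .leaf 1 [(0,[(12,36)])], .leaf 1 [(0,[(12,1696),(43,1024)])], .leaf 3 [(0,[(21,256),(13,256),(8,32)]),(0,[(29,224),(12,32)]),(0,[(21,256),(13,256)]),(0,[(13,256),(12,1792),(10,256),(43,1024)]),(0,[(21,256),(26,32),(13,256),(43,1024)])], .leaf 1 [(0,[])], .leaf 0 [(0,[(12,36)])], .leaf 0 [(0,[(24,32),(43,1024)])]]
noncomputable def a6 : TT := .leaf ⟨true,8,0,1,9,3,16383,[[0,0,0,16384,0,0,0,-7168],[],[0,0,0,0,0,0,0,896,-1],[0,0,0,-2432,-1472,0,0,8056,61],[],[0,0,0,0,0,0,0,0,8],[],[0,0,0,2048,0,0,0,-896],[],[0,0,0,0,0,0,0,896,-1],[0,0,0,2048]]⟩ [.leaf 0 [(0,[(13,896)])], .leaf 0 [(0,[])], .leaf 0 [(0,[(25,1),(31,1),(11,32),(9,64),(44,32)])], .leaf 0 [(0,[])], .leaf 0 [(0,[])], .leaf 0 [(0,[])], .leaf 0 [(1186,[(22,589824),(35,133120),(14,202752),(8,133120),(2,6144),(1,9216)])], .leaf 0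 [(0,[]),(0,[]),(0,[]),(0,[]),(0,[]),(0,[])], .leaf 0 [(0,[(14,7808),(11,180608),(9,484096)])], .leaf 0 [(0,[])], .leaf 0 [(0,[])], .leaf 0 [(0,[(25,896),(31,896),(11,28672),(9,57344),(44,28672)])], .leaf 0 [(0,[])], .leaf 0 [(0,[(25,1024),(31,1024),(13,6423552),(11,32768),(44,32768)])], .leaf 0 [(0,[(25,1920),(31,1920),(11,61440),(9,122880),(44,61440)])], .leaf 0 [(0,[])], .leaf 0 [(0,[(13,6422528)])], .leaf 0 [(0,[])], .leaf 0 [(0,[(25,7680),(31,7680),(11,57344),(44,245760)])], .leaf 0 [(0,[(42,61440),(14,1847296)])], .leaf 0 [(130,[(28,46711040),(29,43230848),(32,47097728),(35,47097728),(41,180273664),(42,88905472),(10,773376),(0,257792),(43,186844160)])], .leaf 0 [(0,[(14,7680),(11,180736),(9,484352)])], .leaf 0 [(0,[(25,57856),(31,57856),(9,65536),(44,1851392)])], .leaf 0 [(30,[(22,5123584),(27,1533124),(14,1617120),(4,42848),(3,52220),(1,103488),(44,49059968)])], .leaf 0 [(0,[(14,6784),(11,181632),(9,486144),(44,2097152)])],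 .leaf 0 [(58,[(23,35767728),(28,11287296),(32,17376176),(35,12541440),(41,179280),(14,13390592),(10,2508288),(0,836096),(43,45149184)]),(8,[(23,3349760),(28,1368832),(29,1368832),(35,1368832),(41,3349760),(14,2472704),(43,5475328)]),(6,[(23,1079264),(28,820832),(14,3629920),(10,410416),(43,3283328)]),(4,[(28,2417236),(29,2285620),(35,2280196),(41,318856),(14,620276),(10,67164),(0,22388),(44,816816)]),(0,[(23,524288),(41,524288),(42,1042592),(13,5416032)])], .leaf 1 [(130,[(31,3618816),(41,56544),(11,40830176),(2,117280),(1,56544)])], .leaf 0 [(1986,[(31,43716096),(35,13569312),(8,13569312),(2,2636264),(1,683064)])], .leaf 0 [(183680,[(22,42789335040),(35,6304399104),(7,1551784960),(6,4181533952),(2,684776688),(1,571080192)])], .leaf 2 [(0,[(14,6784),(13,5450112),(11,181632),(44,2097152)])], .leaf 2 [(116,[(23,14671696),(24,60089856),(28,1126656),(32,15923536),(41,45334704),(14,28726016),(10,250368),(0,83456),(43,4506624)]),(4614,[(37,2253455360),(42,835416576),(13,2120684800),(10,34078720),(3,4259840),(2,21985952)]),(0,[(24,486848),(28,105104),(29,172768),(32,172768),(41,351520),(43,420416)]),(0,[(24,524288),(41,524288),(42,517408),(13,6219744),(44,2097152)]),(0,[(24,524288),(41,524288),(14,453792),(13,598112)])],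 .leaf 0 [(0,[(42,7936),(13,58624),(11,180480)])], .leaf 0 [(1170,[(26,9562682),(31,54631136),(6,32905024),(3,1369926),(2,2010224)])], .leaf 1 [(32,[(13,2153696),(2,248)])], .leaf 1 [(0,[(42,7680),(13,6252032),(11,180736),(44,2097152)])], .leaf 3 [(0,[(22,524288),(42,30720),(14,399360)]),(0,[(14,520448),(13,675072)]),(0,[(22,524288),(14,528128),(11,90368),(9,242176)]),(0,[(22,524288),(42,318336),(14,202112),(13,7097600),(44,2097152)]),(0,[(22,524288),(42,30720),(14,399360)])], .leaf 1 [(0,[])], .leaf 0 [(0,[(25,240),(31,240),(13,72912),(44,7680)])], .leaf 0 [(0,[(25,58096),(29,7440),(9,63488),(44,1859072)])]]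
noncomputable def a7 : TT := .leaf ⟨true,8,0,1,9,3,16383,[[0,0,0,18432,-1536,0,0,-7680],[],[0,0,0,-256,192,0,0,960,-1],[0,0,0,-3584,0,0,0,7680,56],[],[0,0,0,0,0,0,0,0,8],[],[0,0,0,2304,-192,0,0,-960],[],[0,0,0,-256,192,0,0,960,-1],[0,0,0,2048]]⟩ [.leaf 0 [(0,[(13,960),(11,192)])], .leaf 0 [(0,[])], .leaf 0 [(0,[(25,1),(31,1),(9,288),(44,32)])], .leaf 0 [(0,[])], .leaf 0 [(0,[])], .leaf 0 [(0,[])], .leaf 0 [(4564,[(22,1802240),(35,450560),(14,1419264),(10,450560),(2,43008),(0,468992)])], .leaf 0 [(0,[]),(0,[]),(0,[]),(0,[]),(0,[]),(0,[])], .leaf 0 [(0,[(14,7168),(9,451584)])], .leaf 0 [(0,[])], .leaf 0 [(0,[])], .leaf 0 [(0,[(25,896),(31,896),(9,258048),(44,28672)])], .leaf 0 [(0,[])], .leaf 0 [(0,[(25,1024),(31,1024),(13,6882304),(11,1409024),(44,32768)])], .leaf 0 [(0,[(25,1920),(31,1920),(9,290816),(44,61440)])], .leaf 0 [(0,[])], .leaf 0 [(0,[(13,6881280),(11,1376256)])], .leaf 0 [(0,[])], .leaf 0 [(0,[(25,7040),(31,7040),(11,446464),(44,225280)])],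 .leaf 0 [(0,[(14,1925120)])], .leaf 0 [(2,[(28,1106368),(29,1106368),(32,1106368),(35,1106368),(41,4078720),(42,1844096),(43,4425472)])], .leaf 0 [(0,[(14,7040),(9,746624)])], .leaf 0 [(0,[(25,58496),(31,58496),(9,4096),(44,1871872)])], .leaf 0 [(0,[(14,7296),(13,443264),(11,279424),(0,65536)])], .leaf 0 [(0,[(14,6144),(9,452608),(44,2097152)])], .split 0 3 (.leaf 0 [(2,[(24,1712256),(29,475136),(30,475136),(33,614528),(36,475136),(42,483200),(15,950272),(44,1900544)]),(8,[(24,3137536),(29,1581056),(30,1581056),(36,1581056),(42,3137536),(15,2056192),(44,6324224)]),(4,[(23,1099392),(29,466944),(15,2595200),(11,508320),(44,1867776)]),(0,[(0,1)]),(0,[(24,524288),(42,524288),(15,1043072),(14,5780864),(12,1209728)])]) (.leaf 1 [(2,[(24,1712256),(29,475136),(30,475136),(33,614528),(36,475136),(42,483200),(15,950272),(44,1900544)]),(8,[(24,1556480),(29,1581056),(30,3162112),(42,4718592),(15,2056192),(44,6324224)]),(2,[(29,426752),(15,1557120),(12,366464),(11,213376),(44,1707008)]),(698,[(24,70385664),(29,1003356160),(30,1003356160),(36,1003356160),(42,70385664),(15,81854464),(12,820183040),(0,1349),(44,1184366592)]),(0,[(24,524288),(42,524288),(15,1043072),(14,5780864),(12,1209728)])]),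 .leaf 1 [(32,[(13,2191360),(11,13189120),(2,58240)])], .leaf 0 [(6590,[(35,35698688),(10,1115584),(5,15618176),(3,1115584),(2,12526364)])], .leaf 0 [(0,[(35,65536),(13,514816),(11,345856),(1,1024),(0,64512)])], .leaf 2 [(0,[(42,6144),(13,5957632),(11,1370112),(44,2097152)])], .leaf 2 [(0,[(23,152960),(24,524288),(32,152960),(41,371328),(14,212992),(11,32768)]),(0,[(28,35230),(37,429817),(13,889095),(11,150724),(10,18927),(3,164),(43,140920)]),(2,[(23,421824),(24,1335296),(28,237568),(29,237568),(32,659392),(41,913472),(43,950272)]),(0,[(24,524288),(41,524288),(42,517888),(13,6641920),(11,1382656),(44,2097152)]),(0,[(24,524288),(41,524288),(42,454272),(13,618880)])], .leaf 0 [(0,[(14,7296),(13,181120),(11,213888)])], .leaf 0 [(2,[(13,1178240),(11,218624),(2,20),(0,196608)])], .leaf 1 [(10,[(13,676224),(2,76)])], .leaf 1 [(0,[(42,7040),(13,6816896),(11,1541248),(44,2097152)])], .leaf 3 [(0,[(22,524288),(14,520768),(11,64960)]),(0,[(30,458752),(42,62016),(13,736704)]),(0,[(22,524288),(14,527808),(11,33344),(9,210048)]),(0,[(22,524288),(42,105600),(14,415168),(13,7617984),(11,1637824),(44,2097152)]),(0,[(22,524288),(42,2048),(14,395264),(11,212992)])],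 .leaf 1 [(0,[])], .leaf 0 [(0,[(25,220),(31,220),(13,69596),(44,7040)])], .leaf 0 [(0,[(25,59104),(29,6432),(44,1891328)])]]
noncomputable def a8 : TT := .leaf ⟨false,1,0,0,1,0,7,[[0,0,0,9,0,0,0,-2],[],[],[0,0,0,1,0,0,0,3],[],[],[],[],[],[],[]]⟩ [.leaf 0 [(0,[(9,2)])], .leaf 0 [(0,[])], .leaf 0 [(0,[])], .leaf 0 [(0,[(5,1)])], .leaf 0 [(0,[])], .leaf 0 [(0,[])], .leaf 0 [(0,[])], .leaf 0 [(0,[])], .leaf 0 [(0,[])], .leaf 0 [(0,[])], .leaf 0 [(0,[])], .leaf 0 [(0,[(9,1792)])], .leaf 0 [(0,[])], .leaf 0 [(0,[])], .leaf 0 [(0,[(9,1792)])], .leaf 0 [(0,[])], .leaf 0 [(0,[])], .leaf 0 [(0,[(10,1024),(5,256)])], .leaf 0 [(898,[(24,109568),(28,196864),(31,198272),(37,521216),(10,287296),(6,6272),(0,704),(39,438272)])], .leaf 0 [(0,[])], .leaf 0 [(0,[(21,32),(27,32),(40,1024)])], .leaf 0 [(0,[(23,32),(32,32),(40,1024)])], .leaf 0 [(0,[(40,1024)])], .leaf 0 [(8196,[(19,180928),(24,1211296),(31,906016),(38,1462640),(6,388480),(0,6224),(39,4845184)]),(522,[(24,41728),(31,87776),(10,111344),(0,720),(39,166912)]),(4,[(18,384),(24,448),(10,1280),(6,320),(39,1792)]),(174,[(24,33984),(31,42112),(10,47936),(6,7136),(0,448),(40,43264)]),(0,[(19,256),(37,256),(10,512),(9,2016)])],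 .leaf 1 [(0,[(23,8),(27,32),(7,32),(6,8),(40,256)])], .leaf 0 [(4,[(22,40),(27,160),(31,56),(9,348),(6,40),(4,56)])], .leaf 0 [(0,[(22,32),(7,1056)])], .leaf 2 [(0,[(9,1696),(40,1024)])], .leaf 4 [(1390,[(24,80544),(37,190656),(6,41680),(0,1408),(39,322176)]),(316,[(24,32000),(6,16384),(0,384),(39,128000)]),(0,[(33,224),(9,32)]),(0,[(20,256),(37,256),(38,256),(9,1792),(40,1024)]),(246,[(20,61232),(37,63184),(38,62936),(6,1984),(0,8)])], .leaf 0 [(0,[])], .leaf 1 [(0,[(23,32),(40,1024)])], .leaf 1 [(0,[(9,36)])], .leaf 1 [(0,[(9,1696),(40,1024)])], .leaf 3 [(0,[(18,256),(10,256),(5,32)]),(0,[(8,256)]),(0,[(18,256),(10,256)]),(0,[(38,256),(9,1792),(7,256),(40,1024)]),(18,[(18,5576),(22,80),(28,264),(10,3280),(9,1056),(2,264)])], .leaf 1 [(0,[])], .leaf 0 [(0,[(9,36)])], .leaf 0 [(0,[(21,32),(40,1024)])]]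
noncomputable def a9 : TT := .leaf ⟨false,1,0,0,1,0,7,[[0,0,0,9,0,0,0,-2],[],[],[0,0,0,1,0,0,0,3],[],[],[],[],[],[],[]]⟩ [.leaf 0 [(0,[(7,2)])], .leaf 0 [(0,[])], .leaf 0 [(0,[])], .leaf 0 [(0,[(3,1)])], .leaf 0 [(0,[])], .leaf 0 [(0,[])], .leaf 0 [(0,[])], .leaf 0 [(0,[])], .leaf 0 [(0,[])], .leaf 0 [(0,[])], .leaf 0 [(0,[])], .leaf 0 [(0,[(7,1792)])], .leaf 0 [(0,[])], .leaf 0 [(0,[])], .leaf 0 [(0,[(7,1792)])], .leaf 0 [(0,[])], .leaf 0 [(0,[])], .leaf 0 [(0,[(8,1024),(3,256)])], .leaf 0 [(342,[(16,285696),(26,32256),(29,33408),(35,284416),(8,79616),(4,64512),(0,1152)])], .leaf 0 [(0,[])], .leaf 0 [(0,[(19,32),(25,32),(38,1024)])], .leaf 0 [(0,[(21,32),(30,32),(38,1024)])], .leaf 0 [(0,[(38,1024)])], .leaf 0 [(1980,[(17,97472),(22,277904),(29,239280),(36,441904),(4,86912),(0,6224),(37,1111616)]),(68,[(22,7008),(35,17600),(8,13088),(4,3584),(0,64),(37,28032)]),(4,[(16,384),(22,448),(8,1280),(4,320),(37,1792)]),(320,[(22,63136),(29,63008),(35,17792),(8,106848),(4,17536),(0,1376),(38,76160)]),(138,[(17,63744),(29,35456),(36,36224),(7,350880),(4,7168),(0,128)])],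 .leaf 1 [(0,[(21,8),(25,32),(5,32),(4,8),(38,256)])], .leaf 0 [(4,[(20,40),(25,160),(29,56),(7,348),(4,40),(2,56)])], .leaf 0 [(0,[(20,32),(5,1056)])], .leaf 2 [(0,[(7,1696),(38,1024)])], .leaf 4 [(188,[(17,6208),(18,37632),(22,480),(8,4480),(4,2688),(0,896),(37,1920)]),(276,[(22,46144),(26,35968),(35,34688),(4,14336),(0,256),(37,184576)]),(0,[(31,224),(7,32)]),(276,[(17,56320),(35,70656),(8,71936),(7,495872),(4,14336),(0,256),(38,283648)]),(54,[(18,13624),(35,14072),(8,14096),(4,448),(0,8)])], .leaf 0 [(0,[])], .leaf 1 [(0,[(21,32),(38,1024)])], .leaf 1 [(0,[(7,36)])], .leaf 1 [(0,[(7,1696),(38,1024)])], .leaf 3 [(0,[(16,256),(8,256),(3,32)]),(0,[(36,256)]),(0,[(16,256),(8,256)]),(0,[(36,256),(7,1792),(5,256),(38,1024)]),(0,[(16,256),(21,32),(8,256),(38,1024)])], .leaf 1 [(0,[])], .leaf 0 [(0,[(7,36)])], .leaf 0 [(0,[(19,32),(38,1024)])]]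
noncomputable def a10 : TT := .leaf ⟨false,1,0,0,1,0,7,[[0,0,0,9,0,0,0,-2],[],[],[0,0,0,1,0,0,0,3],[],[],[],[],[],[],[]]⟩ [.leaf 0 [(0,[(6,2)])], .leaf 0 [(0,[])], .leaf 0 [(0,[])], .leaf 0 [(0,[(2,1)])], .leaf 0 [(0,[])], .leaf 0 [(0,[])], .leaf 0 [(0,[])], .leaf 0 [(0,[])], .leaf 0 [(0,[])], .leaf 0 [(0,[])], .leaf 0 [(0,[])], .leaf 0 [(0,[(6,1792)])], .leaf 0 [(0,[])], .leaf 0 [(0,[])], .leaf 0 [(0,[(6,1792)])], .leaf 0 [(0,[])], .leaf 0 [(0,[])], .leaf 0 [(0,[(7,1024),(2,256)])], .leaf 0 [(898,[(21,109568),(25,198272),(28,198272),(34,521216),(7,288000),(3,5920),(0,2816),(36,438272)])], .leaf 0 [(0,[])], .leaf 0 [(0,[(18,32),(24,32),(37,1024)])], .leaf 0 [(0,[(20,32),(29,32),(37,1024)])], .leaf 0 [(0,[(37,1024)])], .leaf 0 [(4322,[(16,561728),(21,427488),(28,431456),(7,734432),(3,108992),(0,12448),(36,1709952)]),(46,[(21,3584),(7,11056),(3,1858),(0,264),(36,14336)]),(4,[(15,384),(21,448),(7,1280),(3,320),(36,1792)]),(2,[(21,576),(28,736),(7,832),(3,112),(0,32),(37,768)]),(0,[(16,256),(34,256),(35,512),(6,2016)])],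 .leaf 1 [(0,[(20,8),(24,32),(4,32),(3,8),(37,256)])], .leaf 0 [(2,[(19,59),(24,96),(6,164),(3,31),(1,28)])], .leaf 0 [(0,[(19,32),(4,1056)])], .leaf 2 [(0,[(6,1696),(37,1024)])], .leaf 4 [(1194,[(17,202560),(21,38752),(3,20672),(0,5184),(36,155008)]),(872,[(17,144128),(21,71296),(25,79360),(34,143872),(3,15872),(0,256),(36,285184)]),(0,[(30,224),(6,32)]),(154,[(16,31616),(34,39552),(35,39808),(6,276480),(3,7936),(0,128),(37,158720)]),(0,[(30,184),(3,10),(0,8)])], .leaf 0 [(0,[])], .leaf 1 [(0,[(20,32),(37,1024)])], .leaf 1 [(0,[(6,36)])], .leaf 1 [(0,[(6,1696),(37,1024)])], .leaf 3 [(0,[(15,256),(7,256),(2,32)]),(0,[(23,224),(7,32)]),(0,[(15,256),(7,256)]),(0,[(15,256),(7,256),(6,1792),(37,1024)]),(0,[(15,256),(20,32),(35,48),(7,208),(37,1024)])], .leaf 1 [(0,[])], .leaf 0 [(0,[(6,36)])], .leaf 0 [(0,[(18,32),(37,1024)])]]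
noncomputable def t0 : TT := (.split [-1,0,-1,16,-3,-13,0,-2,0,1] (.split [0,0,1,1,3,0,0,5,0,-1] a0 a1) (.split [-1,-1,-1,34,5,64,0,9,2,-1] (.split [-5,-4,-1,64,-13,58,0,-2,5,-1] (.split [1,2,0,64,-26,-11,0,-25,-1,0] a2 (.split [-6,-4,-2,137,21,256,0,37,7,-6] (.split [1,-32,-31,-32,0,-32,0,0,32,32] a3 (.split [0,0,0,-32,-64,-32,0,32,33,0] a4 (.split [64,64,0,-32,0,-32,0,0,0,1] a5 (.split [0,0,0,16,-1,-4,0,-5,0,1] a6 a7)))) a8)) a9) a10))
theorem c0 : chkT (([0,0,0,-1,0,0,0,2,0,0] : Fm) :: fsm (-1) ([4,4,-1,0,0,0,0,0,0,0] : Fm) :: fsm (-1) ([0,0,0,-1,1,0,0,0,0,0] : Fm) :: ([0,0,0,0,0,0,0,-1,1,0] : Fm) :: fsm (-1) ([0,0,0,-2,0,0,0,1,0,0] : Fm) :: ([0,0,0,-1,-1,0,0,-1,1,0] : Fm) :: K1O10.C0) t0 = true := by decide +kernel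
end K1O10M01011

namespace K1O10M01011
noncomputable def a11 : TT := .leaf ⟨true,31,0,33,64,2,2727,[[0,0,0,2728,0,0,0,-1023],[],[0,0,0,0,0,0,0,1023],[0,0,0,0,0,0,0,341],[],[0,0,0,0,0,0,0,5115],[],[0,0,0,88,0,0,0,-33],[],[0,0,0,0,0,0,0,31],[0,0,0,88]]⟩ [.leaf 0 [(1,[(1,33)])], .leaf 0 [(0,[])], .leaf 0 [(0,[])], .leaf 0 [(0,[])], .leaf 0 [(0,[])], .leaf 0 [(0,[])], .leaf 0 [(6,[(14,23232),(2,5808),(1,2904),(0,5808)])], .leaf 0 [(0,[]),(0,[]),(0,[]),(0,[]),(0,[]),(0,[])], .leaf 0 [(0,[])], .leaf 0 [(0,[])], .leaf 0 [(0,[])], .leaf 0 [(0,[])], .leaf 0 [(0,[])], .leaf 0 [(2,[(5,3317248),(1,698368)])], .leaf 0 [(0,[])], .leaf 0 [(0,[])], .leaf 0 [(0,[(1,458304)])], .leaf 0 [(0,[])], .leaf 0 [(0,[])], .leaf 0 [(0,[(6,349184)])], .leaf 0 [(0,[(33,349184),(6,349184)])], .leaf 0 [(0,[])], .leaf 0 [(0,[(17,10912),(23,10912),(36,349184)])], .leaf 0 [(2,[(28,32736),(5,428296),(3,40920),(2,8184),(1,150040),(0,40920)])],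 .leaf 0 [(0,[(36,349184)])], .leaf 0 [(2,[(15,294624),(20,109120),(21,109120),(24,141856),(27,109120),(33,10912),(6,21824),(35,436480)]),(6,[(15,349184),(20,261888),(21,261888),(27,261888),(33,349184),(35,1047552)]),(12,[(15,43648),(20,436480),(6,851136),(3,501952),(2,218240),(35,1745920)]),(0,[(20,87296),(21,87296),(27,87296)]),(0,[(15,87296),(33,87296),(34,174592),(5,851136)])], .leaf 1 [(0,[(23,10912),(3,13640),(2,2728),(1,115940),(0,2728)])], .leaf 0 [(22,[(20,57288),(23,250976),(2,91388),(1,150040),(0,205964),(35,229152)])], .leaf 0 [(2,[(5,402380),(3,65472),(1,144584),(0,32736)])], .leaf 2 [(0,[(36,349184)])], .leaf 4 [(0,[(16,87296),(33,87296),(6,87296)]),(0,[(15,16368),(16,98208),(20,10912),(21,10912),(24,27280),(27,21824),(33,38192),(35,43648)]),(2,[(5,87296),(1,349184)]),(0,[(15,43648),(16,87296),(24,43648),(33,43648),(36,349184)]),(2,[(20,152768),(21,261888),(33,261888),(1,545600),(0,43648),(35,611072)])],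 .leaf 0 [(2,[(5,447392),(1,120032)])], .leaf 0 [(0,[(28,10912),(5,34100),(3,13640),(2,2728),(0,13640)])], .leaf 1 [(0,[(1,2046)])], .leaf 1 [(0,[(5,883872),(36,349184)])], .leaf 3 [(0,[(14,87296),(6,87296)]),(0,[(22,76384),(4,10912),(1,38192)]),(0,[(14,87296),(6,87296)]),(0,[(6,87296),(3,87296),(1,496496),(36,349184)]),(0,[(14,87296),(6,87296)])], .leaf 1 [(0,[])], .leaf 0 [(0,[(5,12276)])], .leaf 0 [(0,[(17,10912),(36,349184)])]]
noncomputable def a12 : TT := .leaf ⟨false,1,0,0,1,3,15,[[0,0,0,16,0,0,0,-1],[],[],[0,0,0,0,0,0,0,13],[],[],[],[],[],[],[]]⟩ [.leaf 0 [(0,[(7,1)])], .leaf 0 [(0,[])], .leaf 0 [(0,[])], .leaf 0 [(0,[])], .leaf 0 [(0,[])], .leaf 0 [(0,[])], .leaf 0 [(0,[])], .leaf 0 [(0,[])], .leaf 0 [(0,[])], .leaf 0 [(0,[])], .leaf 0 [(0,[])], .leaf 0 [(0,[(7,896)])], .leaf 0 [(0,[])], .leaf 0 [(0,[])], .leaf 0 [(0,[(7,896)])], .leaf 0 [(0,[])], .leaf 0 [(0,[])], .leaf 0 [(0,[(8,2048)])], .leaf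 0 [(120,[(22,9216),(26,23040),(29,10240),(35,214528),(8,183296),(4,2048),(2,12800),(1,2048),(37,36864)])], .leaf 0 [(0,[])], .leaf 0 [(0,[(19,64),(25,64),(38,2048)])], .leaf 0 [(0,[(21,64),(30,64),(38,2048)])], .leaf 0 [(0,[(38,2048)])], .leaf 1 [(38,[(22,3776),(29,3712),(35,16256),(8,33472),(4,960),(2,15168),(1,960),(37,15104)]),(18,[(22,1792),(35,9728),(8,16640),(4,896),(2,5248),(1,896),(37,7168)]),(4,[(16,896),(22,832),(8,2560),(4,640),(3,1600),(37,3328)]),(2,[(16,2144),(22,1168),(29,1536),(8,608),(5,4128),(4,736),(3,2192),(1,736),(37,4672)]),(0,[(35,512),(36,1024),(3,288),(2,512)])], .leaf 1 [(8,[(21,64),(25,576),(5,512),(4,128),(0,16),(38,2048)])], .leaf 0 [(0,[(16,120),(20,46),(25,64),(4,46),(3,56)])], .leaf 0 [(0,[(0,16)])], .leaf 2 [(0,[(38,2048)])], .leaf 4 [(1,[(22,212),(35,1024),(8,564),(4,141),(2,140),(1,460),(37,848)]),(6,[(18,1024),(22,1024),(35,2048),(4,512),(1,2048),(37,4096)]),(0,[(31,448),(7,32)]),(4,[(35,2560),(36,2048),(7,2784),(4,512),(2,2048),(1,512),(38,10240)]),(1,[(22,196),(35,1024),(8,676),(4,169),(2,284),(1,348),(37,784)])],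 .leaf 0 [(0,[])], .leaf 1 [(0,[(21,64),(38,2048)])], .leaf 1 [(0,[(3,56)])], .leaf 1 [(0,[(38,2048)])], .leaf 3 [(0,[(16,512),(8,512)]),(0,[(36,480)]),(0,[(16,512),(8,512)]),(0,[(16,512),(36,512),(3,432),(38,2048)]),(0,[(16,512),(8,512)])], .leaf 1 [(0,[])], .leaf 0 [(0,[(7,112)])], .leaf 0 [(0,[(19,64),(38,2048)])]]
noncomputable def a13 : TT := .leaf ⟨true,33,31,0,64,0,261887,[[3069,0,3069,261888,0,0,0,-134013,0,-3069],[-57288,-5115,-52173,0,0,0,0,67518,5115,52173],[],[29667,2046,27621,0,0,0,0,29667,-2046,-27621],[],[],[0,0,0,0,0,0,0,54219],[93,0,93,7936,0,0,0,-4061,0,-93],[-1848,-165,-1683,0,0,0,0,2178,165,1683],[],[0,0,0,7936]]⟩ [.leaf 0 [(0,[(34,93),(11,3906),(7,124)])], .leaf 0 [(0,[(27,165),(33,1683)])], .leaf 0 [(0,[])], .leaf 0 [(0,[(29,165),(34,1590)])], .leaf 0 [(0,[])], .leaf 0 [(0,[(24,7936),(4,1984)])], .leaf 0 [(0,[])], .leaf 0 [(0,[]),(0,[]),(0,[]),(0,[]),(0,[]),(0,[])], .leaf 0 [(0,[(29,261888),(34,3535488)])],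 .leaf 0 [(0,[])], .leaf 0 [(0,[(27,4583040),(33,46747008)])], .leaf 0 [(0,[])], .leaf 0 [(0,[])], .leaf 0 [(0,[(34,2749824),(11,115492608),(7,3666432)])], .leaf 0 [(0,[])], .leaf 0 [(0,[])], .leaf 0 [(0,[(34,2749824),(11,113179264),(7,8293120)])], .leaf 0 [(0,[(27,4583040),(33,46747008)])], .leaf 0 [(0,[(29,392832),(34,3535488)])], .leaf 0 [(0,[(27,916608),(33,10606464),(12,33521664)])], .leaf 0 [(2316,[(21,11662789248),(26,7775192832),(33,28354810176),(39,26463389568),(8,6763192128),(4,187446336),(41,31100771328)])], .leaf 0 [(0,[(27,392832),(33,3535488)])], .leaf 0 [(12180,[(23,5770047360),(29,9774233040),(7,42823925760),(4,1220790912),(3,12378741936),(2,2107019904),(0,334561920),(42,184641515520)])], .leaf 0 [(0,[(24,292864),(25,754688),(27,246400),(33,1995136),(9,18743296),(4,73216),(0,146432),(42,24150016)])], .leaf 0 [(0,[(27,4975872),(33,49496832),(42,33521664)])], .leaf 0 [(70,[(21,258025152),(26,301891392),(33,546167424),(9,328211136),(8,70185984),(5,328211136),(41,1207565568)]),(6,[(21,29265984),(26,25141248),(8,5237760),(5,37777344),(41,100564992)]),(2,[(26,7812992),(33,47052544),(12,27694656),(9,6961856),(41,31251968)]),(310,[(26,2164242432),(30,13814592),(33,20123997696),(12,2237963904),(8,856504704),(4,6907296),(42,1768267776)]),(0,[(12,8838720),(9,4647456),(8,949344),(7,54492900),(6,3683328),(4,102168)])],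 .leaf 1 [(738,[(25,282315264),(30,112088064),(33,2029042752),(11,6610053120),(9,716001792),(8,179000448),(1,7267392),(42,9034088448)])], .leaf 0 [(4,[(24,952149),(29,5513970),(11,382602),(8,1202025),(4,44946),(0,214830)])], .leaf 1 [(0,[(29,495132),(33,331452),(0,523776)])], .leaf 2 [(0,[(27,392832),(7,63115008),(42,33521664)])], .leaf 4 [(20,[(21,47268672),(22,71810816),(26,31512448),(39,108371648),(8,27022688),(4,480480),(41,126049792)]),(314,[(21,229392064),(26,748825088),(39,1725820096),(8,447533856),(5,1787691136),(4,305536),(41,2995300352)]),(0,[(31,196416),(7,9640752)]),(52,[(35,178705824),(39,10410048),(11,6328872704),(8,438509632),(6,46201408),(4,8947840),(42,1776648192)]),(0,[(30,4386624),(33,40167072),(8,392832),(4,130944)])], .leaf 0 [(0,[(27,392832),(33,2749824),(11,8904192)])], .leaf 0 [(294,[(24,27657828),(25,245143536),(27,6700650),(12,12075492),(9,997269504),(4,3895584),(2,24150984),(0,1753422),(42,7844593152)])],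 .leaf 1 [(0,[(29,12276),(34,85932),(7,499224)])], .leaf 1 [(0,[(27,4975872),(33,46747008),(11,117063936),(42,33521664)])], .leaf 3 [(0,[(20,8413152),(12,8347680)]),(0,[(32,7070976),(40,621984),(7,12570624)]),(0,[(20,8675040),(34,3535488),(12,8085792)]),(0,[(33,50282496),(12,13585440),(11,104755200),(9,3175392),(42,33521664)]),(6,[(20,45470304),(25,6547200),(33,45470304),(12,71069856),(1,98208),(42,209510400)])], .leaf 1 [(2,[(32,1091200),(7,21125632),(3,3841024)])], .leaf 0 [(0,[(27,28644),(33,331452),(11,720192)])], .leaf 0 [(73683,[(23,34402851648),(27,18010902195),(7,265799035392),(4,7476920814),(3,75654059151),(2,12877286664),(0,2076554964),(42,1100891252736)])]]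
noncomputable def a14 : TT := .leaf ⟨true,33,31,0,64,0,1047551,[[0,0,0,1047552,0,0,0,-409200],[261888,261888,0,0,0,0,0,119691,-261888],[],[-261888,-261888,0,0,0,0,0,264957,261888],[],[],[0,0,0,0,0,0,0,261888],[0,0,0,31744,0,0,0,-12400],[8448,8448,0,0,0,0,0,3861,-8448],[],[0,0,0,31744]]⟩ [.leaf 0 [(0,[(13,12400)])], .leaf 0 [(33,[(31,161854),(35,22935),(6,3058),(3,1529)])], .leaf 0 [(0,[])], .leaf 0 [(0,[(29,8448)])], .leaf 0 [(0,[])], .leaf 0 [(0,[(26,31744),(6,7936)])], .leaf 0 [(0,[])], .leaf 0 [(0,[]),(0,[]),(0,[]),(0,[]),(0,[]),(0,[])], .leaf 0 [(0,[(29,33521664)])], .leaf 0 [(0,[])], .leaf 0 [(16,[(31,2247828352),(35,318521280),(6,42469504),(3,21234752)])], .leaf 0 [(0,[])], .leaf 0 [(0,[])], .leaf 0 [(0,[(13,366643200)])], .leaf 0 [(0,[])], .leaf 0 [(0,[])], .leaf 0 [(0,[(9,200082432)])], .leaf 0 [(16,[(31,1789698944),(35,402325440),(6,53643392),(3,26821696)])], .leaf 0 [(0,[])], .leaf 0 [(0,[(22,67043328),(14,67043328)])],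 .leaf 0 [(18,[(28,22347776),(32,523776),(35,151807744),(10,30466304),(6,19292416),(2,523776),(43,89391104)])], .leaf 0 [(0,[])], .leaf 0 [(244,[(25,156870912),(26,122992128),(29,17138474496),(35,15655140864),(9,7871496192),(6,175703040),(5,1449550080),(4,289910016),(44,5019869184)])], .leaf 0 [(44,[(27,24442880),(29,174592),(32,174592),(4,349184),(1,20427264),(44,782172160)])], .leaf 0 [(16,[(31,2147612544),(35,336853440),(6,44913792),(3,22456896),(44,2279473152)])], .leaf 0 [(22,[(22,2351087616),(23,323026944),(10,447971328),(2,19046400)]),(26,[(28,189956096),(10,151545856),(6,11173888),(43,759824384)]),(4,[(28,83804160),(31,124309504),(11,81010688),(2,1396736),(43,335216640)]),(12,[(28,59579520),(31,3004641024),(33,261320576),(41,111346048),(6,13825504),(0,7180096),(44,1504808448)]),(2,[(33,72630272),(9,646061328),(8,27934720),(2,2793472)])], .leaf 1 [(66,[(27,227367888),(32,62853120),(11,247222272),(10,61805568),(9,421639680),(3,4190208),(44,7275772416)])],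 .leaf 0 [(0,[(26,1193856),(31,4190208),(10,1047552),(9,345216),(6,36576)])], .leaf 2 [(0,[(29,33521664),(0,1047552)])], .leaf 2 [(0,[(13,373976064),(44,134086656)])], .leaf 4 [(18,[(28,11173888),(10,15298624),(6,9646208),(2,261888),(43,44695552)]),(18,[(28,11173888),(10,15298624),(6,9646208),(2,261888),(43,44695552)]),(0,[(9,28283904)]),(4,[(13,1837608960),(10,33521664),(8,127598592),(6,1622016),(44,670433280)]),(0,[(31,201129984),(41,33521664),(6,1617792)])], .leaf 0 [(0,[(9,3666432)])], .leaf 0 [(2,[(27,1396736),(1,1396736),(44,44695552)])], .leaf 1 [(0,[(13,4092000)])], .leaf 1 [(0,[(31,234651648),(13,458609536),(9,21387520),(44,134086656)])], .leaf 3 [(0,[(14,25141248),(0,327360)]),(0,[(9,34029072)]),(0,[(22,8380416),(14,58662912)]),(0,[(31,243032064),(11,67043328),(9,269924688),(44,134086656)]),(170,[(22,9687935488),(26,17764736),(31,1433051136),(35,786105936),(9,1136943104),(1,87345104),(0,18319884)])],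 .leaf 1 [(0,[(29,67043328),(13,51591936),(9,26712576)])], .leaf 0 [(0,[(31,2095104),(13,5229576)])], .leaf 0 [(244,[(25,90580512),(26,132366528),(29,18297656256),(35,16848368064),(9,8471457792),(6,189095040),(5,1560034080),(4,312006816),(44,2898576384)])]]
noncomputable def a15 : TT := .leaf ⟨true,33,31,0,64,0,1047551,[[0,0,0,1047552,0,0,0,-409200],[261888,261888,0,0,0,0,0,119691,-261888],[],[-261888,-261888,0,0,0,0,0,264957,261888],[],[],[0,0,0,0,0,0,0,261888],[0,0,0,31744,0,0,0,-12400],[8448,8448,0,0,0,0,0,3861,-8448],[],[0,0,0,31744]]⟩ [.leaf 0 [(0,[(14,12400)])], .leaf 0 [(30,[(32,261888),(7,1529),(0,1529)])], .leaf 0 [(0,[])], .leaf 0 [(0,[(30,8448)])], .leaf 0 [(0,[])], .leaf 0 [(0,[(27,31744),(7,7936)])], .leaf 0 [(0,[])], .leaf 0 [(0,[]),(0,[]),(0,[]),(0,[]),(0,[]),(0,[])], .leaf 0 [(0,[(30,33521664)])], .leaf 0 [(0,[])], .leaf 0 [(0,[(32,234651648),(7,1369984),(0,1369984)])], .leaf 0 [(0,[])],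 .leaf 0 [(0,[])], .leaf 0 [(0,[(14,366643200)])], .leaf 0 [(0,[])], .leaf 0 [(0,[])], .leaf 0 [(0,[(14,400164864)])], .leaf 0 [(0,[(32,234651648),(7,1730432),(0,1730432)])], .leaf 0 [(0,[])], .leaf 0 [(0,[(23,67043328),(15,67043328)])], .leaf 0 [(18,[(29,22347776),(33,523776),(36,151807744),(11,30466304),(7,19292416),(3,523776),(44,89391104)])], .leaf 0 [(0,[])], .leaf 0 [(0,[(13,33783552),(1,698368)])], .leaf 0 [(0,[(36,523776),(2,523776)])], .leaf 0 [(0,[(32,234651648),(7,1448832),(0,1448832),(45,134086656)])], .leaf 0 [(118,[(29,1709604864),(15,128499712),(11,122912768),(9,446955520),(3,64249856),(44,6838419456)]),(486,[(29,6647546752),(36,1114333440),(11,4065505664),(8,16833898752),(7,19696160),(44,26590187008)]),(4,[(23,268173312),(29,33521664),(32,47489024),(34,78217216),(11,22347776),(44,134086656)]),(4,[(23,644031696),(32,1131356160),(42,167608320),(11,77203764),(9,73332732),(7,4267956),(45,670433280)]),(124,[(23,7324483584),(42,3653861376),(14,50704168416),(9,4190208000),(3,8380416)])],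 .leaf 1 [(0,[(32,4190208),(14,7332864),(12,9777152),(1,43648)])], .leaf 0 [(0,[(27,315392),(32,4190208),(7,78848),(1,43648)])], .leaf 0 [(0,[(32,2095104),(7,44968),(0,1092520)])], .leaf 2 [(0,[(14,373976064),(45,134086656)])], .leaf 4 [(18376,[(25,576773750784),(29,5765726208),(11,7877591040),(8,134086656),(7,4961206272),(3,134086656),(44,23062904832)]),(112,[(29,1106214912),(11,574058496),(3,83804160),(44,4424859648)]),(0,[(38,29331456),(14,27236352)]),(0,[(38,28442624),(11,1015808),(10,172750848),(9,2031616),(7,507904),(45,134086656)]),(4,[(32,1005649920),(34,148329984),(42,19278336),(14,401474304),(11,4190208),(7,3772032)])], .leaf 0 [(0,[(14,7332864)])], .leaf 0 [(0,[(36,523776),(7,352),(2,523776),(0,352)])], .leaf 1 [(0,[(10,2046000)])], .leaf 1 [(0,[(32,234651648),(14,458609536),(10,21387520),(45,134086656)])], .leaf 3 [(0,[(23,41902080),(15,25141248)]),(0,[(15,58662912),(14,9395232)]),(0,[(23,8380416),(15,58662912)]),(0,[(23,67043328),(32,243032064),(14,445787936),(10,47030720),(45,134086656)]),(0,[(23,67043328),(28,4190208),(32,8380416),(7,132000),(0,132000),(45,134086656)])],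 .leaf 1 [(0,[(43,37973760),(1,698368)])], .leaf 0 [(0,[(32,2095104),(10,2614788)])], .leaf 0 [(0,[(43,36958944),(1,742016)])]]
noncomputable def a16 : TT := .leaf ⟨true,33,31,0,64,3,523775,[[87978,72633,15345,523776,0,0,0,-87978,-72633,-15345],[-52173,-38874,-13299,0,0,0,0,52173,38874,13299],[],[171864,142197,29667,0,0,0,0,351912,-142197,-29667],[],[],[-31713,-30690,-1023,0,0,0,0,31713,30690,1023],[2666,2201,465,15872,0,0,0,-2666,-2201,-465],[-1683,-1254,-429,0,0,0,0,1683,1254,429],[],[0,0,0,15872]]⟩ [.leaf 0 [(0,[(33,2201),(38,465),(11,2666)])], .leaf 0 [(0,[(31,1254),(37,429)])], .leaf 0 [(0,[])], .leaf 0 [(0,[(31,947),(37,36)])], .leaf 0 [(0,[])], .leaf 0 [(0,[(28,15872),(1,3968)])], .leaf 0 [(0,[])], .leaf 0 [(0,[]),(0,[]),(0,[]),(0,[]),(0,[]),(0,[])], .leaf 0 [(0,[(33,18201216),(38,3797376)])], .leaf 0 [(0,[])], .leaf 0 [(0,[(31,34831104),(37,11915904)])], .leaf 0 [(0,[])], .leaf 0 [(0,[])], .leaf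 0 [(0,[(33,65079168),(38,13749120),(11,78828288)])], .leaf 0 [(0,[])], .leaf 0 [(0,[(31,3928320),(37,130944)])], .leaf 0 [(0,[(33,69007488),(38,13880064),(11,82887552)])], .leaf 0 [(0,[(31,30902784),(37,11784960)])], .leaf 0 [(0,[(31,3928320),(37,130944)])], .leaf 0 [(0,[(31,32474112),(37,7463808),(16,67043328)])], .leaf 0 [(0,[(34,8380416),(37,10344576),(16,2095104),(12,4059264),(8,523776)])], .leaf 0 [(0,[(33,3928320),(38,130944)])], .leaf 0 [(0,[(33,33636240),(7,932976),(2,21824)])], .leaf 0 [(0,[(33,22522368),(38,3797376),(3,261888)])], .leaf 0 [(0,[(31,12308736),(37,7856640),(46,67043328)])], .leaf 0 [(0,[(37,18986880),(16,26188800),(12,1522224),(8,196416),(4,130944)]),(206,[(30,64544480),(16,4967491584),(12,977573344),(10,1659780672),(1,40235272),(45,258177920)]),(6,[(30,10933824),(37,144824064),(16,275440704),(12,24601104),(45,43735296)]),(310,[(30,2742491136),(34,77191488),(37,10714558272),(16,12505021056),(12,4785872256),(1,38595744),(46,9880510464)]),(0,[(24,18070272),(33,13683648),(43,9035136),(11,44390016),(10,24486528)])],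 .leaf 1 [(0,[(33,24617472),(38,4059264),(13,4888576),(2,21824)])], .leaf 0 [(0,[(28,157696),(33,1391280),(37,126852),(8,29920),(2,21824),(1,9504)])], .leaf 0 [(0,[(37,36828),(5,261888),(4,32736),(0,16368)])], .leaf 2 [(0,[(33,87601536),(38,17808384),(15,145871616),(46,67043328)])], .leaf 4 [(34,[(30,60528864),(12,143449152),(10,278465088),(8,6044808),(45,242115456)]),(6,[(30,30630976),(43,106555680),(12,11325664),(10,45946464),(8,163184),(45,122523904)]),(0,[(35,5008608),(39,10344576),(15,12832512)]),(0,[(33,68483712),(43,1604064),(15,146609168),(12,459296),(10,2522656),(8,229648),(46,67043328)]),(10320,[(30,27102265344),(34,69700934688),(12,74861143104),(4,1974897408),(1,1292024448),(45,108409061376)])], .leaf 0 [(0,[(33,22522368),(38,4059264)])], .leaf 0 [(306,[(31,31402008),(34,6285312),(37,65942580),(13,469303296),(8,1571328),(3,79352064),(2,65472),(0,3666432)])], .leaf 1 [(0,[(31,703824),(37,126852),(11,2095104)])],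 .leaf 1 [(0,[(33,52770432),(38,5892480),(11,26188800),(46,67043328)])], .leaf 3 [(0,[(24,11228448),(37,982080),(16,22293216)]),(24,[(36,12374208),(16,194975616),(15,461774016),(7,6841824)]),(0,[(24,29429664),(38,2815296),(16,4092000)]),(0,[(24,33521664),(33,12276000),(38,1113024),(15,60299712),(46,67043328)]),(0,[(24,11306816),(38,87792),(16,22214848),(8,346208),(5,173104)])], .leaf 1 [(0,[(33,31541136),(7,932976)])], .leaf 0 [(0,[(37,233244),(14,1014816),(11,1080288),(2,10571)])], .leaf 0 [(1,[(33,62868465),(38,245520),(7,1834239),(2,43648)])]]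
noncomputable def a17 : TT := .leaf ⟨true,33,31,0,64,3,523775,[[87978,72633,15345,523776,0,0,0,-87978,-72633,-15345],[-52173,-38874,-13299,0,0,0,0,52173,38874,13299],[],[171864,142197,29667,0,0,0,0,351912,-142197,-29667],[],[],[-31713,-30690,-1023,0,0,0,0,31713,30690,1023],[2666,2201,465,15872,0,0,0,-2666,-2201,-465],[-1683,-1254,-429,0,0,0,0,1683,1254,429],[],[0,0,0,15872]]⟩ [.leaf 0 [(0,[(31,2201),(36,465),(9,2666)])], .leaf 0 [(0,[(29,1254),(35,429)])], .leaf 0 [(0,[])], .leaf 0 [(0,[(29,947),(35,36)])], .leaf 0 [(0,[])], .leaf 0 [(0,[(26,15872),(6,3968)])], .leaf 0 [(0,[])], .leaf 0 [(0,[]),(0,[]),(0,[]),(0,[]),(0,[]),(0,[])], .leaf 0 [(0,[(31,18201216),(36,3797376)])], .leaf 0 [(0,[])], .leaf 0 [(0,[(29,34831104),(35,11915904)])], .leaf 0 [(0,[])], .leaf 0 [(0,[])], .leaf 0 [(0,[(31,65079168),(36,13749120),(9,78828288)])], .leaf 0 [(0,[])], .leaf 0 [(0,[(29,3928320),(35,130944)])], .leaf 0 [(0,[(31,67272480),(13,138014976),(11,27760128),(5,1735008)])],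 .leaf 0 [(0,[(29,30902784),(35,11784960)])], .leaf 0 [(0,[(29,3928320),(35,130944)])], .leaf 0 [(0,[(29,32474112),(35,7463808),(14,67043328)])], .leaf 0 [(0,[(32,8380416),(35,10344576),(14,2095104),(10,4059264),(6,523776)])], .leaf 0 [(0,[(31,3928320),(36,130944)])], .leaf 0 [(12,[(25,23897280),(31,441346752),(36,23177088),(6,785664),(5,6481728),(4,1571328),(44,764712960)])], .leaf 0 [(0,[(31,21474816),(35,8511360),(4,1047552)])], .leaf 0 [(0,[(29,12308736),(35,7856640),(44,67043328)])], .leaf 0 [(0,[(35,18986880),(14,26188800),(10,1522224),(6,196416),(2,130944)]),(138,[(28,216494080),(14,1379364096),(10,743014448),(6,33019712),(43,865976320)]),(6,[(28,10933824),(35,144824064),(14,275440704),(10,24601104),(43,43735296)]),(4,[(28,43963392),(35,170699496),(14,199203840),(10,77191488),(1,311256),(44,159363072)]),(0,[(31,22577610),(11,282348),(9,48907584),(8,24486528),(2,141174)])], .leaf 1 [(0,[(31,19248768),(36,3077184),(11,1571328),(10,523776),(3,65472)])],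 .leaf 0 [(0,[(26,605568),(31,1391280),(35,126852),(10,523776),(9,440448),(6,20448)])], .leaf 0 [(963,[(26,2367904),(27,112644576),(11,75772928),(6,1058464),(4,2029632),(3,252820128),(1,14714832),(0,10571),(44,3604626432)])], .leaf 2 [(0,[(31,87601536),(36,17808384),(9,72935808),(44,67043328)])], .leaf 4 [(2518,[(28,8696767776),(41,29655752208),(10,10326450672),(8,12337863600),(6,190208064),(2,11051376),(43,34787071104)]),(832,[(23,5392797696),(28,3595198464),(41,12583194624),(10,1284683400),(1,10770144),(43,14380793856)]),(0,[(41,5008608),(13,16760832),(10,351912),(8,6416256)]),(0,[(31,68483712),(41,1604064),(13,146609168),(10,459296),(8,2522656),(6,229648),(44,67043328)]),(0,[(32,6383520),(10,5859744),(1,130944)])], .leaf 0 [(0,[(31,22522368),(36,4059264)])], .leaf 1 [(0,[(31,21352056),(35,10610556),(4,1047552)])], .leaf 1 [(0,[(29,703824),(35,126852),(13,4190208)])], .leaf 1 [(0,[(31,52770432),(36,5892480),(13,52377600),(44,67043328)])],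 .leaf 3 [(3,[(35,3928320),(14,89172864),(0,350889)]),(0,[(34,2684352),(13,12952544),(9,7616576)]),(0,[(22,29429664),(36,2815296),(14,4092000)]),(0,[(31,12276000),(36,1113024),(9,30149856),(0,261888),(44,67043328)]),(54,[(22,579983712),(26,8308992),(36,147639360),(14,441117600),(9,531775488),(6,2077248),(0,8568648)])], .leaf 1 [(0,[(31,31541136),(5,932976)])], .leaf 0 [(0,[(29,1014816),(35,233244),(9,2095104)])], .leaf 0 [(246,[(25,455126562),(31,7840376346),(36,463202124),(6,14673912),(5,121059774),(4,29347824),(44,14564049984)])]]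
noncomputable def a18 : TT := .leaf ⟨false,0,0,0,1,0,0,[[],[],[],[],[],[],[],[],[],[],[]]⟩ [.leaf 0 [(0,[])], .leaf 0 [(0,[])], .leaf 0 [(0,[])], .leaf 0 [(0,[])], .leaf 0 [(0,[])], .leaf 0 [(0,[])], .leaf 0 [(0,[])], .leaf 0 [(0,[])], .leaf 0 [(0,[])], .leaf 0 [(0,[])], .leaf 0 [(0,[])], .leaf 0 [(0,[])], .leaf 0 [(0,[])], .leaf 0 [(0,[])], .leaf 0 [(0,[])], .leaf 0 [(0,[])], .leaf 0 [(1115,[(27,2232),(28,732468),(30,36828),(15,36828),(7,10256),(5,73656),(2,114576),(0,18905),(45,23438976)])], .leaf 0 [(0,[(23,64),(30,64),(43,64)])], .leaf 0 [(0,[(24,64),(33,64),(42,64)])], .leaf 0 [(0,[(14,4)])], .leaf 0 [(43,[(27,656),(30,4877),(32,4417),(36,3736),(7,146),(6,104),(5,248),(3,284)])], .leaf 0 [(3347,[(27,6696),(28,2198892),(30,110484),(15,110484),(7,35264),(5,220968),(2,342240),(0,61211),(45,70364544)])], .leaf 0 [(1115,[(27,2232),(28,732468),(30,36828),(15,36828),(7,11840),(5,73656),(2,114576),(0,20489),(45,23581824)])],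 .leaf 0 [(0,[(24,64),(33,32)]),(0,[(24,62),(33,30),(42,2)]),(0,[(23,2),(24,60),(30,2),(33,28),(43,2)]),(1,[(24,34),(29,30),(30,30),(36,30),(42,34),(43,11),(15,57),(45,136)]),(0,[(24,64),(33,32)])], .leaf 0 [(2999807,[(27,11811744),(28,4653437280),(30,71834688),(8,395974656),(7,75566272),(5,467809344),(2,726370176),(1,1688229),(0,131089504),(45,148909992960)])], .leaf 0 [(0,[(17,3),(23,8),(27,3),(32,4),(14,4),(11,3)])], .leaf 0 [(1151,[(27,2232),(28,732468),(30,36828),(15,36828),(7,11792),(5,73656),(2,114576),(0,21593),(45,23438976)])], .leaf 0 [(836,[(17,50220),(28,540888),(30,53568),(12,53568),(7,9688),(5,56916),(2,88536),(0,23080),(45,17308416)])], .leaf 0 [(0,[(25,64),(36,32)]),(2,[(25,164),(29,4),(30,4),(33,4),(36,72),(42,8),(44,16)]),(0,[(24,2),(25,60),(33,2),(36,28),(42,2)]),(10,[(16,596),(23,156),(29,212),(32,108),(36,244),(42,108),(12,936),(11,172),(8,172),(44,848)]),(0,[(25,64),(36,32)])], .leaf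 0 [(35711,[(27,2232),(28,732468),(30,36828),(15,36828),(7,13328),(5,73656),(2,114576),(0,21977),(45,23438976)])], .leaf 0 [(7935,[(27,496),(30,8184),(36,187085),(15,8184),(7,2802),(5,16368),(2,1147),(0,4724)])], .leaf 0 [(15623,[(28,23501472),(30,294624),(8,2062368),(7,380512),(5,2356992),(2,3666432),(1,9207),(0,675136),(45,752047104)])], .leaf 0 [(1952,[(21,249984),(28,7813860),(30,285696),(8,499968),(7,128788),(5,785664),(2,1221276),(1,1116),(0,226996),(45,250043520)])], .leaf 0 [(0,[(23,64),(30,32)]),(0,[(23,62),(30,30),(43,2)]),(30,[(23,1860),(27,4),(30,868),(7,1)]),(836,[(21,107136),(28,3196596),(30,133920),(8,214272),(7,52580),(5,321408),(2,499596),(0,92756),(45,102291072)]),(0,[(23,64),(30,32)])], .leaf 0 [(43,[(27,480),(30,2831),(32,2371),(36,3736),(7,102),(6,104),(5,248),(3,284)])], .leaf 0 [(0,[(14,4)])], .leaf 0 [(1407,[(27,21872),(30,164193),(32,143445),(36,120344),(7,4826),(6,3064),(5,8200),(3,9484)])]]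
noncomputable def a19 : TT := .leaf ⟨false,0,0,0,1,0,0,[[],[],[],[],[],[],[],[],[],[],[]]⟩ [.leaf 0 [(0,[])], .leaf 0 [(0,[])], .leaf 0 [(0,[])], .leaf 0 [(0,[])], .leaf 0 [(0,[])], .leaf 0 [(0,[])], .leaf 0 [(0,[])], .leaf 0 [(0,[])], .leaf 0 [(0,[])], .leaf 0 [(0,[])], .leaf 0 [(0,[])], .leaf 0 [(0,[])], .leaf 0 [(0,[])], .leaf 0 [(0,[])], .leaf 0 [(0,[])], .leaf 0 [(0,[])], .leaf 0 [(66,[(28,288),(29,1728),(31,288),(16,288),(13,132928),(6,576),(3,896),(0,1000),(46,55296)])], .leaf 0 [(0,[(24,64),(31,64),(44,64)])], .leaf 0 [(0,[(25,64),(34,64),(43,64)])], .leaf 0 [(0,[(15,4)])], .leaf 0 [(43,[(28,656),(31,4877),(33,4417),(37,3736),(8,146),(7,104),(6,248),(4,284)])], .leaf 0 [(16411,[(28,118876),(31,53084),(16,53084),(13,36772096),(8,16448),(6,106168),(3,157856),(0,265769)])], .leaf 0 [(10,[(28,84),(31,36),(16,36),(13,24896),(8,12),(6,72),(3,112),(0,179),(46,1408)])], .leaf 0 [(0,[(25,64),(34,32)]),(0,[(25,62),(34,30),(43,2)]),(0,[(24,2),(25,60),(31,2),(34,28),(44,2)]),(1,[(25,34),(30,30),(31,30),(37,30),(43,34),(44,11),(16,57),(46,136)]),(0,[(25,64),(34,32)])],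 .leaf 0 [(13391,[(28,2014112),(29,15249664),(13,137500832),(9,1767744),(8,282560),(6,1767744),(3,2743872),(2,9207),(0,583880),(46,487989248)])], .leaf 0 [(0,[(18,3),(24,8),(28,3),(33,4),(15,4),(12,3)])], .leaf 0 [(21,[(28,196),(31,108),(16,108),(13,72840),(11,1608),(6,216),(3,336),(0,537)])], .leaf 0 [(398855,[(28,3219584),(31,1183200),(13,1012773376),(8,457568),(6,2778624),(3,4322304),(2,2147),(0,6907968)])], .leaf 0 [(0,[(26,64),(37,32)]),(2,[(26,164),(30,4),(31,4),(34,4),(37,72),(43,8),(45,16)]),(0,[(25,2),(26,60),(34,2),(37,28),(43,2)]),(10,[(17,596),(24,156),(30,212),(33,108),(37,244),(43,108),(13,936),(12,172),(9,172),(45,848)]),(0,[(26,64),(37,32)])], .leaf 0 [(32823,[(28,13940),(31,3636),(16,3636),(13,2694544),(8,2576),(6,7272),(3,11312),(0,18079)])], .leaf 0 [(2603,[(28,500),(29,3592),(31,372),(16,372),(13,169640),(8,32),(6,744),(0,1241),(46,114944)])], .leaf 0 [(4463,[(28,671968),(29,5107424),(13,46148608),(9,589248),(8,94336),(6,589248),(3,916608),(2,3069),(0,192544),(46,163437568)])],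 .leaf 0 [(836,[(28,244240),(29,1797668),(13,18434752),(9,214272),(8,34276),(6,214272),(3,332940),(2,1116),(0,83380),(46,57525376)])], .leaf 0 [(0,[(24,64),(31,32)]),(0,[(24,62),(31,30),(44,2)]),(30,[(24,1860),(28,4),(31,868),(8,1)]),(42286,[(27,2879140),(28,11930604),(31,1007640),(13,3714620352),(9,10825472),(8,1672660),(6,10479928),(3,16283316),(0,26058964),(46,92132480)]),(0,[(24,64),(31,32)])], .leaf 0 [(43,[(28,480),(31,2831),(33,2371),(37,3736),(8,102),(7,104),(6,248),(4,284)])], .leaf 0 [(0,[(15,4)])], .leaf 0 [(1407,[(28,21872),(31,164193),(33,143445),(37,120344),(8,4826),(7,3064),(6,8200),(4,9484)])]]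
noncomputable def a20 : TT := .leaf ⟨true,33,31,0,64,0,65471,[[4092,0,4092,65472,0,0,0,-32736,0,-4092],[-1023,0,-1023,0,0,0,0,27621,0,1023],[],[3069,0,3069,0,0,0,0,3069,0,-3069],[],[],[0,0,0,0,0,0,0,13299],[124,0,124,1984,0,0,0,-992,0,-124],[-33,0,-33,0,0,0,0,891,0,33],[],[0,0,0,1984]]⟩ [.leaf 0 [(0,[(33,124),(6,558)])], .leaf 0 [(0,[(32,33)])], .leaf 0 [(0,[])], .leaf 0 [(0,[(32,91)])], .leaf 0 [(0,[])], .leaf 0 [(0,[(23,1984),(3,496)])], .leaf 0 [(0,[])], .leaf 0 [(0,[]),(0,[]),(0,[]),(0,[]),(0,[]),(0,[])], .leaf 0 [(0,[(33,392832)])], .leaf 0 [(0,[])], .leaf 0 [(0,[(32,916608)])], .leaf 0 [(0,[])], .leaf 0 [(0,[])], .leaf 0 [(0,[(33,3666432),(6,16498944)])], .leaf 0 [(0,[])], .leaf 0 [(0,[])], .leaf 0 [(0,[(33,3666432),(10,27541888),(6,3579136)])], .leaf 0 [(0,[(32,916608)])], .leaf 0 [(0,[(33,261888)])], .leaf 0 [(0,[(32,1047552),(11,8380416)])], .leaf 0 [(300,[(25,206716928),(32,610810112),(38,678813696),(8,310075392),(0,5586944),(40,826867712)])],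 .leaf 0 [(0,[(32,261888)])], .leaf 0 [(10602,[(22,481088256),(23,324645888),(32,29883646848),(6,20777336832),(3,419520768),(2,3826183680),(1,765236736),(0,22129536),(41,15394824192)])], .leaf 0 [(15966,[(23,925559808),(24,1175091456),(11,601294848),(8,29340883968),(6,554059776),(3,66400512),(1,1202589696),(0,7332864),(41,37602926592)])], .leaf 0 [(0,[(32,130944),(41,8380416)])], .leaf 0 [(12,[(25,14665728),(32,36173280),(11,2095104),(8,23046144),(7,523776),(4,25141248),(40,58662912)]),(4,[(20,685344),(25,2329712),(7,1860496),(3,121924),(40,9318848)]),(2,[(25,3491840),(32,7954848),(8,5586944),(7,371008),(40,13967360)]),(220,[(25,418322432),(29,1396736),(32,839820256),(11,226271232),(7,86597632),(0,349184),(41,178782208)]),(4,[(33,5074080),(39,10475520),(7,2095104),(6,64785600),(5,18788352),(3,16896)])], .leaf 1 [(0,[(28,229152),(33,327360),(10,949344),(8,261888),(7,65472),(1,32736)])], .leaf 0 [(0,[(23,74880),(28,261888),(32,24552),(7,65472),(6,29760),(3,2352)])],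 .split 1 0 (.leaf 1 [(0,[(0,1)])]) (.split 2 0 (.leaf 2 [(0,[(0,1)])]) (.w 2 (.leaf 2 [(0,[(29,6285312),(35,1047552),(0,65472)])]) (.leaf 0 [(0,[(37,752928),(7,8448),(0,73920)])]) (.leaf 1 [(0,[(38,229152),(0,65472)])]))), .leaf 2 [(0,[(33,4452096),(10,27672832),(6,3317248),(41,8380416)])], .leaf 4 [(426,[(20,12570624),(21,821280768),(25,8380416),(7,14665728),(3,7332864),(40,33521664)]),(6,[(20,1047552),(21,7332864),(25,3142656),(38,7332864),(7,1833216),(4,7332864),(40,12570624)]),(0,[(6,2553408)]),(4,[(33,10475520),(10,130069632),(7,4190208),(6,16414464),(5,16625664),(3,33792),(41,41902080)]),(0,[(7,98208),(3,32736)])], .leaf 0 [(0,[(33,785664),(10,1309440)])], .w 2 (.leaf 1 [(139221,[(24,8594793152),(25,16481462976),(9,275033380864),(4,968156288),(2,7991643264),(1,90793296),(0,35929465),(42,527406815232)])]) (.leaf 0 [(335,[(25,163680),(26,71790048),(13,6481728),(8,10475520),(5,900416),(3,6481728),(1,33759),(0,1669712),(43,2297281536)])])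 (.leaf 0 [(2280,[(26,54110320),(27,476818496),(14,22145904),(11,2045722624),(6,7450960),(4,44291808),(3,270072),(0,2454628),(44,15258191872)])]), .leaf 1 [(0,[(32,24552),(6,139128)])], .leaf 1 [(0,[(33,3535488),(10,8642304),(41,8380416)])], .leaf 3 [(0,[(19,2095104),(32,32736),(11,2095104)]),(0,[(27,1211232),(31,621984),(11,261888),(10,872960),(6,2706176)]),(0,[(19,2095104),(33,360096),(11,2095104)]),(0,[(33,3109920),(39,2095104),(8,2095104),(6,3142656),(41,8380416)]),(6,[(19,14485680),(24,1473120),(11,14845776),(1,180048),(41,47139840)])], .leaf 1 [(0,[(33,1047552),(6,4321152)])], .leaf 0 [(0,[(32,32736),(6,32736)])], .leaf 0 [(10602,[(22,366921456),(23,340790688),(32,31302155016),(6,21810604032),(3,369288864),(2,4016461680),(1,803292336),(0,58777488),(41,11741486592)])]]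
noncomputable def a21 : TT := .leaf ⟨false,1,0,0,1,1,63,[[-5,-6,1,64,0,0,0,-15,6,-1],[],[],[-6,-6,0,0,0,0,0,35,6],[],[],[],[],[],[],[]]⟩ [.leaf 0 [(0,[(26,6),(33,1),(10,22)])], .leaf 0 [(0,[])], .leaf 0 [(0,[])], .leaf 0 [(0,[(28,6),(32,1)])], .leaf 0 [(0,[])], .leaf 0 [(0,[])], .leaf 0 [(0,[(26,768)])], .leaf 0 [(0,[])], .leaf 0 [(0,[])], .leaf 0 [(0,[])], .leaf 0 [(0,[])], .leaf 0 [(0,[(26,5376),(33,896),(10,19712)])], .leaf 0 [(0,[])], .leaf 0 [(0,[])], .leaf 0 [(0,[(26,5376),(33,896),(10,19712)])], .leaf 0 [(0,[])], .leaf 0 [(0,[(33,128)])], .leaf 0 [(0,[(32,128),(0,2048)])], .leaf 0 [(112,[(25,5632),(28,178000),(8,8448),(7,7744),(3,4928),(1,4432),(40,22528)])], .leaf 0 [(0,[(32,128)])], .leaf 0 [(0,[(22,256),(26,1280),(33,128),(41,8192)])], .leaf 0 [(0,[(24,256),(26,1536),(33,384),(41,8192)])], .leaf 0 [(0,[(26,1536),(33,128),(41,8192)])], .leaf 0 [(28,[(25,18390),(11,25471),(8,32045),(5,25236),(3,187),(1,513),(40,73560)]),(744,[(21,202496),(25,317312),(3,15200),(1,4200),(40,1269248)]),(3062,[(19,8608416),(25,808480),(7,1747712),(5,2467488),(3,36704),(40,3233920)]),(764,[(19,7288704),(25,126976),(32,427488),(7,1576832),(3,22496),(41,5758976)]),(0,[(11,6272),(7,824),(6,6256),(3,32)])],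 .leaf 1 [(0,[(24,64),(26,1280),(33,128),(8,256),(7,64),(41,2048)])], .leaf 0 [(340,[(23,25424),(28,103664),(32,1364),(7,21824),(6,24304),(3,900)])], .leaf 2 [(0,[(28,1536),(32,128),(0,2048)])], .leaf 2 [(0,[(26,6912),(33,1024),(10,19072),(41,8192)])], .leaf 4 [(208,[(25,106496),(38,372736),(7,82720),(5,159744),(1,1728),(40,425984)]),(34,[(25,20480),(38,54208),(7,18592),(5,13248),(4,34944),(40,81920)]),(0,[(10,2048),(9,544),(7,144)]),(154,[(29,153760),(7,280736),(6,964660),(5,345088),(3,2264),(41,1269760)]),(216,[(25,19840),(7,47216),(4,75008),(3,6048),(40,79360)])], .leaf 0 [(0,[(26,1536),(33,128)])], .leaf 1 [(0,[(24,256),(26,1536),(33,132),(41,8192)])], .leaf 1 [(0,[(28,48),(32,4),(10,388)])], .leaf 1 [(0,[(26,6912),(33,1024),(10,19072),(41,8192)])], .leaf 3 [(0,[(19,2240),(33,32),(0,464)]),(0,[(39,2452),(2,20)]),(0,[(19,1440),(31,32),(0,664)]),(0,[(26,3904),(33,1056),(11,4096),(10,16896),(41,8192)]),(604,[(19,890560),(23,512),(33,96800),(11,1536832),(6,32768),(3,128),(0,16896)])],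 .leaf 1 [(0,[(26,1536),(33,128)])], .leaf 0 [(0,[(28,48),(32,4),(6,194)])], .leaf 0 [(0,[(22,256),(26,1536),(33,132),(41,8192)])]]
noncomputable def a22 : TT := .leaf ⟨true,33,31,0,64,0,261887,[[0,0,0,196416,-65472,0,0,-71610,49104],[0,0,0,65472,65472,0,0,57288,-49104],[],[0,0,0,0,0,0,0,27621],[],[],[0,0,0,0,0,0,0,49104],[0,0,0,5952,-1984,0,0,-2170,1488],[0,0,0,2112,2112,0,0,1848,-1584],[],[0,0,0,7936]]⟩ [.leaf 0 [(0,[(13,1488),(10,496),(8,341)])], .leaf 0 [(0,[(2,528)])], .leaf 0 [(0,[])], .leaf 0 [(0,[(28,96),(1,1)])], .leaf 0 [(0,[])], .leaf 0 [(0,[(25,7936),(5,1984)])], .leaf 0 [(0,[])], .leaf 0 [(0,[]),(0,[]),(0,[]),(0,[]),(0,[]),(0,[])], .leaf 0 [(0,[])], .leaf 0 [(0,[])], .leaf 0 [(0,[(2,14665728)])], .leaf 0 [(0,[])], .leaf 0 [(0,[])], .leaf 0 [(0,[(13,43997184),(10,14665728),(8,10082688)])], .leaf 0 [(0,[])], .leaf 0 [(0,[])], .leaf 0 [(0,[(13,43997184),(12,26450688),(10,14665728)])], .leaf 0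 [(0,[(2,14665728)])], .leaf 0 [(0,[(28,12570624),(1,130944)])], .leaf 0 [(0,[(13,16760832)])], .leaf 0 [(0,[(27,253952),(40,507904),(3,507904),(42,1015808)])], .leaf 0 [(0,[(2,4190208)])], .leaf 0 [(0,[(8,6481728)])], .leaf 0 [(0,[(26,1047552),(35,1047552),(43,33521664)])], .leaf 0 [(0,[(2,14665728),(43,33521664)])], .leaf 0 [(3546,[(27,8182952448),(34,5073294336),(41,12657047040),(9,1779790848),(7,20826381312),(3,347787264),(42,32731809792)]),(8,[(27,19554304),(9,9777152),(5,872960),(42,78217216)]),(6,[(27,10475520),(32,18332160),(9,5237760),(42,41902080)]),(0,[(30,32474112),(40,8380416),(9,8118528),(5,65472),(2,1920512),(43,33521664)]),(122,[(41,6621750784),(12,1089574112),(10,1745396224),(9,30728192),(7,1167671296),(3,13967360)])], .leaf 1 [(0,[(10,2444288),(2,349184)])], .leaf 0 [(0,[(25,78848),(5,19712),(2,349184)])], .leaf 2 [(0,[(28,12570624),(1,130944)])], .leaf 2 [(0,[(13,43997184),(12,19510656),(10,14665728),(43,33521664)])],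 .leaf 4 [(2134,[(23,4531709952),(27,3834040320),(9,3285123072),(7,5751060480),(3,278648832),(42,15336161280)]),(18,[(23,178083840),(40,39806976),(3,1571328)]),(0,[(13,10999296),(10,3666432)]),(4,[(41,274982400),(12,18775680),(10,61383168),(9,8380416),(7,31899648),(5,405504),(43,167608320)]),(4,[(35,53425152),(40,80661504),(9,1047552),(3,1047552),(2,28458496)])], .leaf 0 [(0,[])], .leaf 1 [(0,[(26,1047552),(28,392832),(1,4092),(43,33521664)])], .leaf 1 [(0,[(12,1100748)])], .leaf 1 [(0,[(12,12177792),(43,33521664)])], .leaf 3 [(0,[(13,11523072),(1,73656)]),(0,[(13,14011008)]),(0,[(13,11523072),(1,73656)]),(0,[(41,11523072),(12,654720),(10,9427968),(43,33521664)]),(0,[(21,5237760),(26,1047552),(13,11523072),(1,32736),(43,33521664)])], .leaf 1 [(0,[(8,7005504)])], .leaf 0 [(0,[(8,517638),(2,130944)])], .leaf 0 [(0,[(28,1047552),(8,7318542)])]]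
noncomputable def a23 : TT := .leaf ⟨true,33,31,0,64,0,261887,[[0,0,0,196416,-65472,0,0,-71610,49104],[0,0,0,65472,65472,0,0,57288,-49104],[],[0,0,0,0,0,0,0,27621],[],[],[0,0,0,0,0,0,0,49104],[0,0,0,5952,-1984,0,0,-2170,1488],[0,0,0,2112,2112,0,0,1848,-1584],[],[0,0,0,7936]]⟩ [.leaf 0 [(0,[(41,1488),(10,496),(8,341)])], .leaf 0 [(0,[(2,528)])], .leaf 0 [(0,[])], .leaf 0 [(0,[(28,96),(1,1)])], .leaf 0 [(0,[])], .leaf 0 [(0,[(25,7936),(5,1984)])], .leaf 0 [(0,[])], .leaf 0 [(0,[]),(0,[]),(0,[]),(0,[]),(0,[]),(0,[])], .leaf 0 [(0,[])], .leaf 0 [(0,[])], .leaf 0 [(0,[(2,14665728)])], .leaf 0 [(0,[])], .leaf 0 [(0,[])], .leaf 0 [(0,[(41,43997184),(10,14665728),(8,10082688)])], .leaf 0 [(0,[])], .leaf 0 [(0,[])], .leaf 0 [(0,[(13,43997184),(10,14665728),(8,13225344)])], .leaf 0 [(0,[(2,14665728)])], .leaf 0 [(0,[(28,12570624),(1,130944)])], .leaf 0 [(0,[(13,16760832)])], .leaf 0 [(6,[(27,1714176),(40,1111040),(9,2444288),(7,2571264),(5,1222144),(3,1111040),(42,6856704)])],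 .leaf 0 [(0,[(2,4190208)])], .leaf 0 [(0,[(8,6481728)])], .leaf 0 [(0,[(26,1047552),(35,1047552),(43,33521664)])], .leaf 0 [(0,[(2,14665728),(43,33521664)])], .leaf 0 [(122,[(27,145260544),(13,408545280),(9,30728192),(7,877150208),(3,13967360),(42,581042176)]),(292,[(27,854802432),(9,333808992),(7,786416928),(6,418267872),(3,31197408),(42,3419209728)]),(6,[(27,10475520),(32,18332160),(9,5237760),(42,41902080)]),(244,[(22,141419520),(30,9941268480),(40,1517902848),(9,2370610176),(3,38235648),(43,8212807680)]),(0,[(41,53948928),(12,4296864),(10,15730176),(7,8110080),(5,67584)])], .leaf 1 [(0,[(10,2444288),(2,349184)])], .leaf 0 [(0,[(25,78848),(5,19712),(2,349184)])], .leaf 2 [(0,[(28,12570624),(1,130944)])], .leaf 2 [(0,[(41,43997184),(12,19510656),(10,14665728),(43,33521664)])], .leaf 4 [(34,[(22,95698944),(27,63799296),(13,8042496),(9,58662912),(5,2838528),(42,255197184)]),(0,[(40,2095104),(3,229152)]),(0,[(13,10999296),(10,3666432)]),(4,[(13,274982400),(12,18775680),(10,61383168),(9,8380416),(7,31899648),(5,405504),(43,167608320)]),(122,[(35,997269504),(40,2028060672),(9,32474112),(5,261888),(2,676893184)])],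 .leaf 0 [(0,[])], .leaf 1 [(0,[(26,1047552),(28,392832),(1,4092),(43,33521664)])], .leaf 1 [(0,[(8,550374)])], .leaf 1 [(0,[(8,6088896),(43,33521664)])], .leaf 3 [(0,[(13,11523072),(1,73656)]),(0,[(41,4910400),(13,9100608)]),(0,[(21,5237760),(13,11523072),(1,32736)]),(0,[(41,11523072),(12,654720),(1,73656),(43,33521664)]),(0,[(26,1047552),(13,11523072),(1,73656),(43,33521664)])], .leaf 1 [(0,[(41,12570624),(12,1440384)])], .leaf 0 [(0,[(12,1035276),(2,130944)])], .leaf 0 [(0,[(28,1047552),(12,8118528),(11,6518556)])]]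
noncomputable def a24 : TT := .leaf ⟨true,33,31,0,64,2,261887,[[16368,0,16368,261888,0,0,0,-119691,0,-16368],[-14322,0,-14322,0,0,0,0,110484,0,14322],[],[2046,0,2046,0,0,0,0,2046,0,-2046],[],[],[0,0,0,0,0,0,0,181071],[496,0,496,7936,0,0,0,-3627,0,-496],[-462,0,-462,0,0,0,0,3564,0,462],[],[0,0,0,7936]]⟩ [.leaf 0 [(101,[(33,2976),(41,2976),(10,96224),(8,162657),(4,5952),(1,31)])], .leaf 0 [(0,[(34,462)])], .leaf 0 [(0,[])], .leaf 0 [(0,[(34,34)])], .leaf 0 [(0,[])], .leaf 0 [(0,[(25,7936),(5,1984)])], .leaf 0 [(0,[])], .leaf 0 [(0,[]),(0,[]),(0,[]),(0,[]),(0,[]),(0,[])], .leaf 0 [(0,[(35,261888)])], .leaf 0 [(0,[])], .leaf 0 [(0,[(34,12832512)])], .leaf 0 [(0,[])], .leaf 0 [(0,[])], .leaf 0 [(16,[(33,14665728),(41,14665728),(10,474191872),(8,801573696),(4,29331456),(1,152768)])], .leaf 0 [(0,[])], .leaf 0 [(0,[])], .leaf 0 [(0,[(35,14665728),(12,108072448),(8,18506752)])], .leaf 0 [(0,[(34,12832512)])],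 .leaf 0 [(0,[(35,3666432)])], .leaf 0 [(0,[(34,4190208),(13,33521664)])], .leaf 0 [(6,[(23,30379008),(27,1547520),(40,3095040),(3,3095040),(42,6190080)])], .leaf 0 [(0,[(34,3666432)])], .leaf 0 [(2,[(12,21431168),(8,28371200),(4,1571328),(2,523776),(1,16368)])], .leaf 0 [(0,[(26,1047552),(35,1571328),(5,26752),(0,26752),(43,33521664)])], .leaf 0 [(0,[(34,12308736),(43,33521664)])], .leaf 0 [(3042,[(27,4952825856),(34,7105610688),(13,20917518336),(9,1064312832),(7,20180041728),(3,326836224),(42,19811303424)]),(26,[(27,47489024),(9,23302576),(5,2793472),(42,189956096)]),(4,[(21,25141248),(27,8380416),(34,54669120),(13,41902080),(9,1309440),(42,33521664)]),(4,[(27,37576704),(34,122177088),(13,21626880),(9,8380416),(3,135168),(43,17301504)]),(4,[(35,31753920),(41,41902080),(9,8380416),(8,233035440),(7,75153408),(5,67584)])], .leaf 1 [(0,[(35,523776),(12,2487936),(10,2444288),(2,349184)])], .leaf 0 [(13,[(25,1104928),(5,268048),(3,16368),(2,4894032),(1,341)])],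 .leaf 0 [(0,[(35,392832),(5,4268),(0,266156)])], .leaf 2 [(0,[(35,15189504),(12,114968832),(8,4713984),(43,33521664)])], .leaf 4 [(20,[(27,36315136),(40,127102976),(9,31393824),(7,54472704),(3,1527680),(42,145260544)]),(1014,[(22,2768679936),(27,1845786624),(40,6328261632),(9,1648061184),(5,32997888),(42,7383146496)]),(0,[(8,8986032)]),(4,[(35,48449280),(9,16760832),(8,297726000),(7,66502656),(5,135168),(43,167608320)]),(6,[(27,507904),(40,1777664),(7,761856),(3,1777664),(42,2031616)])], .leaf 0 [(0,[(35,523776),(8,1243968)])], .leaf 0 [(0,[(26,1047552),(35,1162128),(5,22484),(0,22484),(43,33521664)])], .leaf 1 [(0,[(34,16368),(8,517638)])], .leaf 1 [(0,[(35,2356992),(12,12570624),(43,33521664)])], .leaf 3 [(0,[(21,8380416),(35,851136),(13,8380416)]),(0,[(13,8977848),(12,5646960),(8,4885848),(4,597432)]),(0,[(21,8380416),(35,1113024),(13,8380416)]),(0,[(21,8380416),(35,2946240),(13,8380416),(8,1554960),(43,33521664)]),(0,[(21,8380416),(35,4779456),(13,8380416),(5,268576),(0,268576)])],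 .leaf 1 [(50,[(33,12570624),(13,12570624),(12,381789056),(8,486151424),(4,25141248),(1,130944)])], .leaf 0 [(0,[(34,130944),(12,265980)])], .leaf 0 [(101,[(33,25828704),(13,25828704),(12,732487096),(8,976640368),(4,51657408),(1,1382073)])]]
noncomputable def a25 : TT := .leaf ⟨false,0,0,0,1,0,0,[[],[],[],[],[],[],[],[],[],[],[]]⟩ [.leaf 0 [(0,[])], .leaf 0 [(0,[])], .leaf 0 [(0,[])], .leaf 0 [(0,[])], .leaf 0 [(0,[])], .leaf 0 [(0,[])], .leaf 0 [(0,[])], .leaf 0 [(0,[])], .leaf 0 [(0,[])], .leaf 0 [(0,[])], .leaf 0 [(0,[])], .leaf 0 [(0,[])], .leaf 0 [(0,[])], .leaf 0 [(0,[])], .leaf 0 [(0,[])], .leaf 0 [(0,[])], .leaf 0 [(0,[(31,24),(36,672),(11,3776),(6,6),(4,48),(3,8),(0,30)])], .leaf 0 [(0,[(22,64),(29,64),(42,64)])], .leaf 0 [(0,[(23,64),(32,64),(41,64)])], .leaf 0 [(0,[(13,4)])], .leaf 0 [(91,[(25,170),(26,184),(29,1955),(31,2125),(6,46),(3,66),(44,5440)])], .leaf 0 [(15,[(29,193),(31,553),(36,10144),(11,58624),(6,90),(4,720),(3,120),(0,466)])],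 .leaf 0 [(0,[(29,13),(31,37),(36,672),(11,3776),(6,6),(4,48),(3,8),(0,30),(44,128)])], .leaf 0 [(0,[(23,64),(32,32)]),(0,[(23,62),(32,30),(41,2)]),(0,[(22,2),(23,60),(29,2),(32,28),(42,2)]),(1,[(23,34),(28,30),(29,30),(35,30),(41,34),(42,11),(14,57),(44,136)]),(0,[(23,64),(32,32)])], .leaf 0 [(1517,[(26,3484),(31,100356),(36,2816040),(11,16171484),(7,200376),(6,25960),(4,200712),(3,100244),(0,126963)])], .leaf 0 [(0,[(16,3),(22,8),(26,3),(31,4),(13,4),(10,3)])], .leaf 0 [(45,[(26,124),(31,1116),(36,31248),(11,179676),(6,264),(4,2232),(3,372),(0,1395)])], .leaf 0 [(3,[(29,57),(31,161),(36,2912),(11,16896),(6,26),(4,208),(3,40),(0,130)])], .leaf 0 [(0,[(24,64),(35,32)]),(2,[(24,164),(28,4),(29,4),(32,4),(35,72),(41,8),(43,16)]),(0,[(23,2),(24,60),(32,2),(35,28),(41,2)]),(10,[(15,596),(22,156),(28,212),(31,108),(35,244),(41,108),(11,936),(10,172),(7,172),(43,848)]),(0,[(24,64),(35,32)])], .leaf 0 [(509,[(26,192),(31,3636),(36,50904),(11,296004),(10,404),(6,452),(4,3636),(0,2323)])],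 .leaf 0 [(185,[(26,32),(27,340),(36,744),(11,13580),(6,8),(0,101),(44,10880)])], .leaf 0 [(252,[(26,548),(31,16524),(36,462672),(11,2693760),(7,33396),(6,4268),(4,33048),(3,16640),(0,20908)])], .leaf 0 [(190,[(15,1150),(31,28458),(36,813688),(11,4675904),(7,48896),(6,7402),(4,58066),(3,26168),(0,36626)])], .leaf 0 [(0,[(22,64),(29,32)]),(0,[(22,62),(29,30),(42,2)]),(30,[(22,1860),(26,4),(29,868),(6,1)]),(190,[(15,286),(31,33258),(36,764856),(11,4383040),(7,48896),(6,6858),(4,54578),(3,21368),(0,34338)]),(0,[(22,64),(29,32)])], .leaf 0 [(2138,[(25,3801),(26,368),(31,3801),(11,148672),(6,92),(3,1585),(44,121632)])], .leaf 0 [(0,[(13,4)])], .leaf 0 [(2943,[(25,5242),(26,6072),(29,70587),(31,64053),(6,1518),(3,2178),(44,167744)])]]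
noncomputable def a26 : TT := .leaf ⟨false,1,0,0,1,1,63,[[-5,-6,1,64,0,0,0,-15,6,-1],[],[],[-6,-6,0,0,0,0,0,35,6],[],[],[],[],[],[],[]]⟩ [.leaf 0 [(0,[(24,6),(31,1),(4,11)])], .leaf 0 [(0,[])], .leaf 0 [(0,[])], .leaf 0 [(0,[(26,6),(30,1)])], .leaf 0 [(0,[])], .leaf 0 [(0,[])], .leaf 0 [(0,[(24,768)])], .leaf 0 [(0,[])], .leaf 0 [(0,[])], .leaf 0 [(0,[])], .leaf 0 [(0,[])], .leaf 0 [(0,[(24,5376),(31,896),(4,9856)])], .leaf 0 [(0,[])], .leaf 0 [(0,[])], .leaf 0 [(0,[(24,5376),(31,896),(4,9856)])], .leaf 0 [(0,[])], .leaf 0 [(0,[(31,128)])], .leaf 0 [(4,[(31,3456),(9,32768),(0,512)])], .leaf 0 [(32,[(26,35824),(36,16384),(1,1984),(0,1520)])], .leaf 0 [(0,[(30,128)])], .leaf 0 [(0,[(20,256),(24,1280),(31,128),(39,8192)])], .leaf 0 [(0,[(22,256),(24,1536),(31,384),(39,8192)])], .leaf 0 [(0,[(24,1536),(31,128),(39,8192)])], .leaf 0 [(5088,[(23,3188736),(27,4271456),(3,9994240),(1,34944),(0,288288),(38,12754944)]),(932,[(23,583520),(5,45448),(3,555576),(2,398088),(1,13288),(38,2334080)]),(1842,[(23,1075872),(9,1549600),(3,2239776),(1,4960),(0,101728),(38,4303488)]),(7328,[(23,8258560),(9,6034080),(5,995840),(1,263720),(0,532704),(39,27004928)]),(0,[(37,6272),(8,12232),(5,824),(3,1024),(1,24)])],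 .leaf 1 [(0,[(22,64),(24,1280),(31,128),(6,256),(5,64),(39,2048)])], .leaf 0 [(681,[(21,50720),(26,207669),(5,43648),(4,50096),(1,1768),(0,341)])], .leaf 2 [(6962,[(17,10695168),(21,512),(31,6723200),(9,31133696),(4,32768),(1,128),(0,951808)])], .leaf 2 [(0,[(24,6912),(31,1024),(8,19072),(39,8192)])], .leaf 4 [(1014,[(23,486784),(36,1679552),(5,383264),(3,730176),(1,6048),(38,1947136)]),(426,[(18,12960),(19,751072),(23,8640),(5,76608),(1,7560),(38,34560)]),(0,[(32,1808),(37,576),(8,208),(5,144)]),(0,[(37,5952),(5,1520),(4,3552),(1,32),(39,8192)]),(3102,[(19,1484992),(23,562240),(5,1430752),(3,2576064),(1,58784),(38,2248960)])], .leaf 0 [(0,[(24,1536),(31,128)])], .leaf 1 [(0,[(22,256),(24,1536),(31,132),(39,8192)])], .leaf 1 [(0,[(26,48),(30,4),(8,388)])], .leaf 1 [(0,[(24,6912),(31,1024),(8,19072),(39,8192)])], .leaf 3 [(0,[(17,2240),(31,32),(9,1856)]),(0,[(29,160),(8,2048),(7,544)]),(0,[(17,1472),(31,32),(9,2624)]),(0,[(24,3904),(31,1056),(37,4096),(4,8448),(39,8192)]),(2320,[(17,3416512),(21,2560),(31,416416),(9,6084672),(4,163840),(1,640),(0,5632)])],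 .leaf 1 [(0,[(24,1536),(31,128)])], .leaf 0 [(0,[(26,48),(30,4),(8,388)])], .leaf 0 [(0,[(20,256),(24,1536),(31,132),(39,8192)])]]
noncomputable def a27 : TT := .leaf ⟨true,33,0,31,64,0,130943,[[-1023,0,-1023,130944,0,0,0,-15345,0,1023],[],[1023,0,1023,0,0,0,0,8184,0,-1023],[-39897,-14322,-25575,0,0,0,0,66495,14322,25575],[],[0,0,0,0,0,0,0,6138],[],[-31,0,-31,3968,0,0,0,-465,0,31],[],[33,0,33,0,0,0,0,264,0,-33],[0,0,0,3968]]⟩ [.leaf 0 [(0,[(29,31),(7,496)])], .leaf 0 [(0,[])], .leaf 0 [(0,[(30,33)])], .leaf 0 [(0,[(29,2)])], .leaf 0 [(0,[])], .leaf 0 [(0,[])], .leaf 0 [(0,[(8,123008),(1,123008)])], .leaf 0 [(0,[]),(0,[]),(0,[]),(0,[]),(0,[]),(0,[])], .leaf 0 [(0,[(23,1833216),(29,3273600)])], .leaf 0 [(0,[])], .leaf 0 [(0,[])], .leaf 0 [(0,[(30,916608)])], .leaf 0 [(0,[])], .leaf 0 [(0,[(29,916608),(7,15451392)])], .leaf 0 [(0,[(30,916608)])], .leaf 0 [(0,[])], .leaf 0 [(0,[(29,916608),(7,14665728)])],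 .leaf 0 [(0,[])], .leaf 0 [(0,[(25,1833216),(30,3011712)])], .leaf 0 [(0,[(16,1833216),(30,3273600),(8,14927616)])], .leaf 0 [(4,[(18,8511360),(22,9166080),(26,22391424),(35,43735296),(8,12177792),(3,1047552),(2,13225344),(37,36664320)])], .leaf 0 [(0,[(23,1833216),(29,3011712)])], .leaf 0 [(0,[(19,523776),(23,1309440),(29,3273600),(38,16760832)])], .leaf 0 [(0,[(23,1833216),(29,3535488),(5,7856640),(0,523776)])], .leaf 0 [(0,[(23,1833216),(29,2356992),(38,16760832)])], .leaf 3 [(0,[(22,1857768),(23,941160),(26,2332440),(29,188232),(5,4190208),(2,4664880),(37,7431072)]),(4,[(16,32605056),(22,3666432),(36,16368000),(4,6915480),(2,6547200),(37,14665728)]),(0,[(17,8118528),(23,916608),(26,3928320),(29,1735008),(35,261888),(5,4713984)]),(0,[(22,4190208),(23,3273600),(29,1473120),(5,20951040),(37,16760832)]),(0,[(35,3568224),(8,6841824),(5,21245664),(3,3731904),(2,4812192)])], .leaf 1 [(0,[(23,1833216),(29,3535488),(5,523776),(1,523776)])],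 .leaf 0 [(0,[(16,57288),(30,110484),(8,466488),(1,1047552)])], .leaf 0 [(0,[(23,1775928),(26,523776),(29,3433188),(5,8380416),(1,523776),(0,523776)])], .leaf 2 [(0,[(23,1833216),(29,3273600),(3,2226048),(38,16760832)])], .leaf 4 [(0,[(18,4844928),(22,679272),(26,441936),(35,2176944),(8,818400),(37,2717088)]),(0,[(17,1473120),(18,1505856),(22,982080),(23,1898688),(26,2455200),(35,3437280),(37,3928320)]),(0,[(7,3830112),(1,916608)]),(0,[(18,4844928),(26,851136),(35,1767744),(7,6383520),(2,1767744),(38,16760832)]),(0,[(18,5663328),(26,851136),(35,1767744),(2,949344)])], .leaf 0 [(0,[(23,1833216),(29,3535488),(3,196416)])], .leaf 0 [(0,[(30,94116),(36,454212),(5,7402428),(1,511500),(0,523776)])], .leaf 1 [(0,[(30,110484),(3,403062),(1,57288)])], .leaf 1 [(0,[(23,1833216),(29,4190208),(3,6350784),(38,16760832)])], .leaf 3 [(0,[(16,5106816),(30,1538592),(8,3273600)]),(0,[(28,1407648),(7,3044448)]),(0,[(16,3273600),(29,1604064),(8,5106816)]),(0,[(30,491040),(36,3273600),(7,14011008),(5,5106816),(38,16760832)]),(0,[(16,5106816),(30,1800480),(8,3273600),(5,7856640),(0,523776)])],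 .leaf 1 [(0,[(23,1833216),(29,3273600)])], .leaf 0 [(0,[(25,57288),(30,102300),(7,920700)])], .leaf 0 [(0,[(19,523776),(23,1775928),(29,3179484),(38,16760832)])]]
noncomputable def a28 : TT := .leaf ⟨false,1,0,0,1,3,0,[[0,0,0,1],[],[],[0,0,0,0,0,0,0,1],[],[],[],[],[],[],[]]⟩ [.leaf 0 [(0,[])], .leaf 0 [(0,[])], .leaf 0 [(0,[])], .leaf 0 [(0,[])], .leaf 0 [(0,[])], .leaf 0 [(0,[])], .leaf 0 [(0,[])], .leaf 0 [(0,[])], .leaf 0 [(0,[])], .leaf 0 [(0,[])], .leaf 0 [(0,[])], .leaf 0 [(0,[])], .leaf 0 [(0,[])], .leaf 0 [(0,[])], .leaf 0 [(0,[])], .leaf 0 [(0,[])], .leaf 0 [(0,[])], .leaf 0 [(0,[(9,128)])], .leaf 0 [(0,[(36,128),(9,128)])], .leaf 0 [(0,[])], .leaf 0 [(0,[(20,4),(26,4),(39,128)])], .leaf 0 [(0,[(22,4),(31,4),(39,128)])], .leaf 0 [(0,[(39,128)])], .leaf 0 [(170,[(23,960),(36,5440),(9,10912),(5,480),(4,1216),(3,3072),(1,32),(38,3840)]),(8,[(23,60),(36,286),(9,538),(5,30),(4,94),(3,138),(1,2),(38,240)]),(0,[(36,28),(9,96),(2,36)]),(194,[(23,5366),(30,5740),(9,12492),(5,1248),(4,6374),(2,6252),(1,500),(39,3496)]),(0,[(36,32),(9,64),(8,4),(3,32)])],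 .leaf 1 [(0,[(6,4),(2,4)])], .leaf 0 [(0,[(9,4),(2,8)])], .leaf 0 [(0,[(0,4)])], .leaf 2 [(0,[(39,128)])], .leaf 4 [(4,[(23,64),(5,32),(4,128),(1,12),(38,256)]),(8,[(19,128),(23,64),(5,32),(1,20),(38,256)]),(0,[(32,28),(4,2)]),(74,[(36,2368),(37,480),(5,480),(3,1920),(1,32),(39,9600)]),(74,[(23,480),(36,2368),(9,1440),(5,480),(3,960),(1,32),(38,1920)])], .leaf 0 [(0,[])], .leaf 1 [(0,[(22,4),(39,128)])], .leaf 1 [(0,[(8,8)])], .leaf 1 [(0,[(39,128)])], .leaf 3 [(0,[(17,32),(9,32)]),(0,[(9,32)]),(0,[(17,32),(9,32)]),(0,[(37,32),(6,32),(39,128)]),(0,[(17,32),(9,32)])], .leaf 1 [(0,[])], .leaf 0 [(0,[(4,4)])], .leaf 0 [(0,[(20,4),(39,128)])]]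
noncomputable def a29 : TT := .leaf ⟨true,33,31,0,64,3,65471,[[4092,0,4092,65472,0,0,0,-29667,0,-4092],[-4092,0,-4092,0,0,0,0,27621,0,4092],[],[],[],[],[0,0,0,0,0,0,0,45012],[124,0,124,1984,0,0,0,-899,0,-124],[-132,0,-132,0,0,0,0,891,0,132],[],[0,0,0,1984]]⟩ [.leaf 0 [(1,[(33,248),(6,1023)])], .leaf 0 [(0,[(32,132)])], .leaf 0 [(0,[])], .leaf 0 [(0,[(33,8)])], .leaf 0 [(0,[])], .leaf 0 [(0,[(23,1984),(2,1984)])], .leaf 0 [(0,[])], .leaf 0 [(0,[]),(0,[]),(0,[]),(0,[]),(0,[]),(0,[])], .leaf 0 [(0,[])], .leaf 0 [(0,[])], .leaf 0 [(0,[(32,3666432)])], .leaf 0 [(0,[])], .leaf 0 [(0,[])], .leaf 0 [(0,[(33,3666432),(6,15124032)])], .leaf 0 [(0,[])], .leaf 0 [(0,[])], .leaf 0 [(0,[(33,3666432),(10,27105408),(6,4452096)])], .leaf 0 [(0,[(32,3666432)])], .leaf 0 [(0,[(33,1047552)])], .leaf 0 [(0,[(32,1047552),(11,8380416)])], .leaf 0 [(18,[(25,1396736),(32,9518080),(7,1903616),(3,135168),(2,4820992),(40,5586944)])],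 .leaf 0 [(0,[(32,1047552)])], .leaf 0 [(1104,[(22,90613248),(23,28109312),(26,108159744),(32,2420368896),(6,1798995968),(2,160624640),(1,331288320),(0,66257664),(41,2899623936)])], .w 2 (.leaf 0 [(34,[(24,720192),(25,7529280),(27,523776),(12,130944),(9,23046144),(3,392832),(1,654720),(0,2046),(42,240936960)])]) (.leaf 0 [(0,[(28,130944),(34,1571328),(4,80256),(2,130944),(0,20064)])]) (.leaf 0 [(6,[(26,80256),(27,1491072),(29,130944),(11,5136384),(5,80256),(3,130944),(0,20064),(44,47714304)])]), .leaf 0 [(0,[(32,3666432),(41,8380416)])], .leaf 0 [(4,[(25,4380672),(32,10725504),(11,761856),(3,761856),(40,17522688)]),(574,[(25,474541056),(38,1055572320),(7,218447328),(5,103020192),(2,9427968),(40,1898164224)]),(34,[(25,20951040),(32,73983360),(11,73328640),(3,2095104),(40,83804160)]),(0,[(25,2095104),(26,2095104),(32,6678144)]),(4,[(31,3273600),(39,7201920),(10,74235744),(7,2749824),(5,18112512),(2,88704)])],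 .leaf 1 [(0,[(8,261888),(6,130944),(4,261888)])], .leaf 0 [(0,[(11,261888),(4,523776)])], .split 1 0 (.leaf 1 [(0,[(0,1)])]) (.w 2 (.leaf 2 [(0,[(28,6285312),(34,1047552),(0,65472)])]) (.leaf 0 [(0,[(35,32736),(5,2112),(0,66000)])]) (.leaf 1 [(0,[(37,229152),(0,65472)])])), .leaf 2 [(0,[(33,3666432),(10,28851328),(6,960256),(41,8380416)])], .leaf 4 [(2,[(21,5546288),(25,736912),(7,383504),(3,226523),(2,60192),(40,2947648)]),(2,[(21,2182400),(25,1484032),(38,5122304),(7,742016),(3,143616),(40,5936128)]),(24,[(7,13749120),(5,53146896),(2,1849584)]),(24,[(33,62198400),(7,20951040),(5,58690192),(2,25113968),(41,209510400)]),(18,[(25,698368),(32,17198720),(7,951808),(3,67584),(2,2410496),(40,2793472)])], .leaf 0 [(0,[(6,261888)])], .leaf 0 [(290,[(23,5892480),(24,60998080),(26,3066272),(29,120032),(11,2946240),(8,188559360),(2,2946240),(0,6132544),(41,1951938560)])], .leaf 1 [(0,[(10,253704)])], .leaf 1 [(0,[(10,2356992),(41,8380416)])],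 .leaf 1 [(0,[(19,2095104),(11,2095104)]),(0,[(19,2095104),(32,1047552),(11,2095104)]),(0,[(31,1047552),(6,2618880)]),(0,[(39,2095104),(8,2095104),(41,8380416)]),(0,[(19,2029632),(29,65472),(32,1505856),(11,2160576),(0,130944)])], .leaf 1 [(16,[(26,1047552),(31,1047552),(10,31164672),(6,42163968),(1,2095104)])], .leaf 0 [(0,[(32,32736),(10,65472)])], .leaf 0 [(1104,[(22,75489216),(23,30248064),(26,427794048),(32,2656428192),(6,1935876096),(2,172846080),(1,356495040),(0,71299008),(41,2415654912)])]]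
noncomputable def a30 : TT := .leaf ⟨true,8,0,1,9,0,511,[[-8,0,-8,512,0,0,0,-176,0,8],[],[0,0,0,0,0,0,0,16],[-8,0,-8,0,0,0,0,192,0,8],[],[0,0,0,0,0,0,0,16],[],[-1,0,-1,64,0,0,0,-22,0,1],[],[0,0,0,0,0,0,0,16],[0,0,0,64]]⟩ [.leaf 0 [(1,[(33,2),(7,23)])], .leaf 0 [(0,[])], .leaf 0 [(0,[])], .leaf 0 [(0,[(34,1)])], .leaf 0 [(0,[])], .leaf 0 [(0,[])], .leaf 0 [(0,[(12,64),(5,64)])], .leaf 0 [(0,[]),(0,[]),(0,[]),(0,[]),(0,[]),(0,[])], .leaf 0 [(0,[(33,1024)])], .leaf 0 [(0,[])], .leaf 0 [(0,[])], .leaf 0 [(0,[])], .leaf 0 [(0,[])], .leaf 0 [(0,[(33,7168),(7,83456)])], .leaf 0 [(0,[])], .leaf 0 [(0,[])], .leaf 0 [(0,[(33,7168),(7,82432)])], .leaf 0 [(0,[])], .leaf 0 [(0,[])], .leaf 0 [(0,[(0,2048)])], .leaf 0 [(76,[(22,856064),(26,31744),(39,63488),(1,63488),(41,126976)])], .leaf 0 [(0,[])], .leaf 0 [(0,[(23,2048),(29,2048),(33,2048),(42,65536)])], .leaf 0 [(0,[(25,2048),(42,65536)])], .leaf 0 [(0,[(33,2048),(42,65536)])],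 .leaf 0 [(8898,[(26,63916032),(40,10442752),(8,28520448),(6,3198976),(4,10008576),(1,6784),(41,255664128)]),(80,[(26,278528),(8,108160),(3,65536),(41,1114112)]),(646,[(26,3885568),(9,3507712),(8,1757696),(6,1811968),(0,253440),(41,15542272)]),(154,[(26,2277376),(33,2186752),(12,1310720),(8,507904),(1,8192),(42,1048576)]),(0,[(12,16384),(11,180608),(8,1408),(6,9344),(4,1464)])], .leaf 1 [(0,[(33,2048),(9,2048),(7,1024),(5,2048)])], .leaf 0 [(0,[(5,3584),(0,64)])], .leaf 2 [(0,[(0,2048)])], .leaf 2 [(0,[(33,9216),(7,75264),(42,65536)])], .leaf 4 [(13290,[(22,207534080),(26,1999872),(8,2725632),(4,193536),(3,6902784),(41,7999488)]),(32,[(26,8192),(39,16384),(1,16384),(41,32768)]),(0,[(11,16384),(8,2560),(6,10240)]),(32,[(35,196864),(11,4228864),(8,16384),(6,32768),(3,32768),(42,2162688)]),(30,[(39,360448),(8,20992),(3,20480)])], .leaf 0 [(0,[(33,2048),(7,2048)])], .leaf 2 [(0,[])], .leaf 1 [(0,[(34,64),(11,2112)])],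 .leaf 1 [(0,[(33,9216),(7,82432),(42,65536)])], .leaf 3 [(0,[(20,16384),(34,256),(12,16384)]),(0,[(30,768),(10,15616),(7,4736)]),(0,[(20,16384),(33,768),(12,16384)]),(0,[(33,7936),(40,16384),(11,174336),(9,16384),(42,65536)]),(0,[(20,16384),(25,2048),(33,768),(12,16384),(42,65536)])], .leaf 1 [(0,[(33,2048)])], .leaf 0 [(16,[(27,64),(32,64),(7,18080),(2,128)])], .leaf 0 [(0,[(23,2048),(33,2048),(42,65536)])]]
noncomputable def a31 : TT := .leaf ⟨true,33,31,0,64,0,261887,[[0,0,0,196416,-65472,0,0,-71610,49104],[0,0,0,65472,65472,0,0,57288,-49104],[],[0,0,0,0,0,0,0,27621],[],[],[0,0,0,0,0,0,0,49104],[0,0,0,5952,-1984,0,0,-2170,1488],[0,0,0,2112,2112,0,0,1848,-1584],[],[0,0,0,7936]]⟩ [.leaf 0 [(0,[(13,1488),(12,682),(10,496)])], .leaf 0 [(0,[(35,66),(1,66)])], .leaf 0 [(0,[])], .leaf 0 [(0,[(28,96),(0,1)])], .leaf 0 [(0,[])], .leaf 0 [(0,[(25,7936),(4,7936)])], .leaf 0 [(0,[])], .leaf 0 [(0,[]),(0,[]),(0,[]),(0,[]),(0,[]),(0,[])],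 .leaf 0 [(0,[])], .leaf 0 [(0,[])], .leaf 0 [(0,[(35,1833216),(1,1833216)])], .leaf 0 [(0,[])], .leaf 0 [(0,[])], .leaf 0 [(0,[(13,43997184),(12,20165376),(10,14665728)])], .leaf 0 [(0,[])], .leaf 0 [(0,[])], .leaf 0 [(0,[(13,43997184),(10,14665728),(8,13225344)])], .leaf 0 [(0,[(35,1833216),(1,1833216)])], .leaf 0 [(0,[(28,12570624),(0,130944)])], .leaf 0 [(0,[(13,16760832)])], .leaf 0 [(156,[(23,737476608),(27,33521664),(40,115703808),(5,3244032),(2,67043328),(42,134086656)])], .leaf 0 [(0,[(35,523776),(1,523776)])], .leaf 0 [(0,[(13,11523072),(12,1440384)])], .leaf 0 [(0,[(26,1047552),(35,1047552),(43,33521664)])], .leaf 0 [(0,[(35,1833216),(1,1833216),(43,33521664)])], .leaf 0 [(6,[(27,18855936),(9,9427968),(5,4975872),(42,75423744)]),(8,[(27,19554304),(9,9777152),(4,3491840),(42,78217216)]),(6,[(27,10475520),(32,18332160),(9,5237760),(42,41902080)]),(222,[(30,7466426880),(40,1822740480),(9,1855083648),(4,59841408),(1,46092288),(43,7475331072)]),(0,[(41,53948928),(10,15876960),(7,8036688),(4,343728)])],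 .leaf 1 [(0,[(10,1047552),(6,1047552)])], .leaf 0 [(0,[(25,33792),(6,1047552),(4,33792)])], .leaf 2 [(0,[(28,12570624),(0,130944)])], .leaf 2 [(0,[(13,43997184),(12,19510656),(10,14665728),(43,33521664)])], .leaf 4 [(6,[(27,23046144),(40,35549184),(9,11523072),(5,2230272),(42,92184576)]),(0,[(40,2095104),(2,229152)]),(0,[(41,6547200),(13,4452096),(9,916608),(7,3666432)]),(4,[(41,274982400),(12,54865536),(10,10999296),(9,8380416),(7,33521664),(5,3142656),(43,167608320)]),(14,[(35,132100672),(40,247222272),(9,3928320),(5,261888),(1,10322752)])], .leaf 0 [(0,[])], .leaf 1 [(0,[(26,1047552),(28,392832),(0,4092),(43,33521664)])], .leaf 1 [(0,[(8,550374)])], .leaf 1 [(0,[(12,12177792),(43,33521664)])], .leaf 3 [(0,[(21,5237760),(13,11523072),(0,32736)]),(0,[(13,14011008)]),(0,[(13,11523072),(0,73656)]),(0,[(13,11523072),(10,9427968),(8,327360),(43,33521664)]),(0,[(26,1047552),(13,11523072),(0,73656),(43,33521664)])],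 .leaf 1 [(0,[(13,12570624),(12,1440384)])], .leaf 0 [(0,[(28,2046),(12,662904),(3,2046),(1,16368)])], .leaf 0 [(0,[(28,1047552),(13,11915904),(12,2721180)])]]
noncomputable def a32 : TT := .leaf ⟨true,33,0,31,64,3,65471,[[-2046,0,-2046,65472,0,0,0,-26598,0,2046],[],[-3069,-2046,-1023,0,0,0,0,13299,2046,1023],[0,0,0,0,0,0,0,12276],[],[0,0,0,0,0,0,0,45012],[],[-62,0,-62,1984,0,0,0,-806,0,62],[],[-99,-66,-33,0,0,0,0,429,66,33],[0,0,0,1984]]⟩ [.leaf 0 [(0,[(35,62),(13,868)])], .leaf 0 [(0,[])], .leaf 0 [(0,[(29,66),(35,33)])], .leaf 0 [(0,[(31,66),(36,95)])], .leaf 0 [(0,[])], .leaf 0 [(0,[])], .leaf 0 [(0,[(14,61504),(7,61504)])], .leaf 0 [(0,[]),(0,[]),(0,[]),(0,[]),(0,[]),(0,[])], .leaf 0 [(0,[])], .leaf 0 [(0,[])], .leaf 0 [(0,[])], .leaf 0 [(0,[(29,1833216),(35,916608)])], .leaf 0 [(0,[])], .leaf 0 [(0,[(35,1833216),(9,15713280)])], .leaf 0 [(0,[(29,1833216),(35,916608)])], .leaf 0 [(0,[])], .leaf 0 [(0,[(35,1833216),(13,25665024)])],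 .leaf 0 [(0,[])], .leaf 0 [(0,[(31,261888),(35,130944)])], .leaf 0 [(0,[(22,261888),(36,392832),(14,8118528)])], .leaf 0 [(14,[(24,20363904),(28,77440),(10,708224),(8,387200),(3,1637504),(43,309760)])], .leaf 0 [(0,[(29,261888),(36,130944)])], .leaf 0 [(0,[(35,392832),(13,523776),(1,2728)])], .leaf 0 [(0,[(27,261888),(31,261888),(36,130944),(5,126720),(0,31680),(44,8380416)])], .leaf 0 [(0,[(29,2095104),(35,1309440),(44,8380416)])], .leaf 0 [(74,[(23,11021120),(28,65810272),(14,10726496),(10,29222336),(6,10726496),(43,263241088)]),(26,[(28,11872256),(10,7261936),(5,2793472),(43,47489024)]),(2,[(28,2269696),(14,5499648),(11,2531584),(10,692912),(43,9078784)]),(4,[(28,8312832),(35,13785024),(14,10813440),(10,4190208),(3,67584),(44,8650752)]),(0,[(35,2029632),(42,2356992),(11,2500608),(5,667392)])], .leaf 1 [(0,[(22,261888),(35,130944),(13,3666432),(7,523776)])], .leaf 0 [(0,[(26,8448),(29,8184),(36,4092),(7,261888),(5,8448)])],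 .leaf 0 [(0,[(31,270072),(35,118668),(5,126456),(0,97086)])], .leaf 2 [(0,[(35,3142656),(14,2095104),(11,698368),(9,6678144),(1,21824),(44,8380416)])], .leaf 4 [(0,[(24,905696),(28,469216),(41,1619552),(10,218240),(6,45408),(43,1876864)]),(6,[(28,4190208),(41,14462976),(10,1980528),(6,405504),(43,16760832)]),(0,[(33,327360),(9,2537040)]),(0,[(32,1538592),(35,2127840),(42,491040),(10,245520),(5,491040),(44,8380416)]),(22,[(41,965712),(9,5360520),(8,4247496),(7,6563568),(5,3281784)])], .leaf 0 [(0,[(32,130944),(13,3797376),(7,392832)])], .leaf 0 [(0,[(27,261888),(31,8184),(36,257796),(5,15312),(0,3828),(44,8380416)])], .leaf 1 [(3,[(36,16368),(14,43648),(13,578336),(7,10912),(1,341)])], .leaf 1 [(0,[(35,2226048),(14,261888),(11,87296),(9,13094400),(1,2728),(44,8380416)])], .leaf 3 [(0,[(22,2226048),(14,1964160)]),(0,[(30,1702272),(32,261888),(13,2095104)]),(0,[(22,1964160),(35,130944),(14,2226048)]),(0,[(32,1964160),(35,130944),(11,4190208),(9,13880064),(44,8380416)]),(0,[(22,392832),(35,1178496),(14,3797376)])],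 .leaf 1 [(0,[(35,392832),(14,261888),(13,523776),(1,2728)])], .leaf 0 [(192,[(9,23870682),(4,302808),(2,53196)])], .leaf 0 [(3,[(35,1587696),(9,1473120),(1,21483)])]]
noncomputable def a33 : TT := .leaf ⟨true,33,0,31,64,3,65471,[[-2046,0,-2046,65472,0,0,0,-26598,0,2046],[],[-3069,-2046,-1023,0,0,0,0,13299,2046,1023],[0,0,0,0,0,0,0,12276],[],[0,0,0,0,0,0,0,45012],[],[-62,0,-62,1984,0,0,0,-806,0,62],[],[-99,-66,-33,0,0,0,0,429,66,33],[0,0,0,1984]]⟩ [.leaf 0 [(0,[(36,62),(14,868)])], .leaf 0 [(0,[])], .leaf 0 [(0,[(30,66),(36,33)])], .leaf 0 [(0,[(32,66),(37,95)])], .leaf 0 [(0,[])], .leaf 0 [(0,[])], .leaf 0 [(0,[(15,61504),(8,61504)])], .leaf 0 [(0,[]),(0,[]),(0,[]),(0,[]),(0,[]),(0,[])], .leaf 0 [(0,[])], .leaf 0 [(0,[])], .leaf 0 [(0,[])], .leaf 0 [(0,[(30,1833216),(36,916608)])], .leaf 0 [(0,[])], .leaf 0 [(0,[(36,1833216),(10,15713280)])], .leaf 0 [(0,[(30,1833216),(36,916608)])], .leaf 0 [(0,[])],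 .leaf 0 [(0,[(36,1833216),(14,25665024)])], .leaf 0 [(0,[])], .leaf 0 [(0,[(32,261888),(36,130944)])], .leaf 0 [(0,[(23,261888),(37,392832),(15,8118528)])], .leaf 0 [(94,[(25,131991552),(11,4975872),(4,10377312)])], .leaf 0 [(0,[(30,261888),(37,130944)])], .leaf 0 [(0,[(36,392832),(10,261888),(2,2728)])], .leaf 0 [(16,[(28,1658624),(32,2356992),(37,2313344),(12,156434432),(6,2095104),(3,87296),(0,1222144),(45,53075968)])], .leaf 0 [(0,[(30,2095104),(36,1309440),(45,8380416)])], .leaf 0 [(74,[(24,11021120),(29,65810272),(15,10726496),(11,29222336),(7,10726496),(44,263241088)]),(26,[(29,11872256),(11,7261936),(1,698368),(44,47489024)]),(2,[(29,2269696),(15,5499648),(12,2531584),(11,692912),(44,9078784)]),(310,[(29,517490688),(33,4190208),(36,912090432),(15,678813696),(11,259792896),(6,8380416),(45,536346624)]),(0,[(33,180048),(15,2176944),(14,18839568),(11,507408),(7,261888)])], .leaf 1 [(0,[(33,130944),(15,261888),(14,3273600),(8,916608)])],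 .leaf 0 [(0,[(30,8184),(37,4092),(15,261888),(8,523776)])], .leaf 0 [(2220,[(27,755284992),(32,883061784),(37,7678732116),(12,69486219264),(6,456863616),(4,566463744),(3,11801328),(0,354039840)])], .leaf 2 [(0,[(36,3142656),(43,2095104),(14,13356288),(12,698368),(2,21824),(45,8380416)])], .leaf 4 [(6,[(25,16040640),(29,184512),(42,645792),(9,276768),(4,187488),(44,738048)]),(6,[(24,380928),(29,253952),(42,888832),(4,430528),(44,1015808)]),(0,[(9,169136),(8,327360),(6,158224)]),(0,[(33,1964160),(36,2324256),(10,7823904),(4,65472),(45,8380416)]),(1150,[(29,114314112),(38,1610578464),(42,305819712),(11,47139840),(9,206956992),(8,70971648),(6,129765504),(44,457256448)])], .leaf 0 [(0,[(33,130944),(14,3797376),(8,392832)])], .leaf 0 [(0,[(27,15312),(28,246576),(32,8184),(37,257796),(12,979968),(6,15312),(0,3828),(45,7890432)])], .leaf 1 [(0,[(30,8184),(37,4092),(14,163680)])], .leaf 1 [(0,[(36,2226048),(43,261888),(14,26188800),(12,87296),(2,2728),(45,8380416)])],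 .leaf 3 [(0,[(23,2226048),(15,1964160)]),(0,[(31,1702272),(33,261888),(14,2095104)]),(0,[(23,1964160),(36,130944),(15,2226048)]),(0,[(23,2226048),(36,2095104),(15,1964160),(14,27760128),(45,8380416)]),(0,[(23,392832),(36,1178496),(15,3797376)])], .leaf 0 [(0,[(37,6566296),(12,36664320),(6,229152),(4,458304),(3,19096),(2,341),(0,286440)])], .leaf 0 [(1,[(37,25234),(10,271095),(3,682)])], .leaf 0 [(3,[(36,1587696),(14,2946240),(2,21483)])]]
noncomputable def a34 : TT := .leaf ⟨false,1,0,0,1,3,0,[[0,0,0,1],[],[],[0,0,0,0,0,0,0,1],[],[],[],[],[],[],[]]⟩ [.leaf 0 [(0,[])], .leaf 0 [(0,[])], .leaf 0 [(0,[])], .leaf 0 [(0,[])], .leaf 0 [(0,[])], .leaf 0 [(0,[])], .leaf 0 [(0,[])], .leaf 0 [(0,[])], .leaf 0 [(0,[])], .leaf 0 [(0,[])], .leaf 0 [(0,[])], .leaf 0 [(0,[])], .leaf 0 [(0,[])], .leaf 0 [(0,[])], .leaf 0 [(0,[])], .leaf 0 [(0,[])], .leaf 0 [(0,[])], .leaf 0 [(0,[(10,128)])], .leaf 0 [(1444,[(28,5760),(37,6528),(5,5888),(1,5760),(0,768)])],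 .leaf 0 [(0,[])], .leaf 0 [(0,[(21,4),(27,4),(40,128)])], .leaf 0 [(0,[(23,4),(32,4),(40,128)])], .leaf 0 [(0,[(40,128)])], .leaf 0 [(1888,[(24,5690),(10,60140),(6,2152),(4,46914),(1,2466),(0,308),(39,22760)]),(30,[(1,96)]),(6484,[(24,17864),(10,205200),(6,3712),(4,178408),(1,8232),(0,2320),(39,71456)]),(15802,[(24,238644),(10,493128),(6,91044),(1,37908),(0,12568),(40,1068208)]),(30,[(38,992),(9,156),(7,64),(4,960),(1,32)])], .leaf 1 [(0,[(7,4),(3,4)])], .leaf 0 [(30,[(22,4),(3,124),(1,4)])], .leaf 2 [(1856,[(22,992),(32,49152),(10,172128),(5,63488),(1,992),(0,6144)])], .leaf 2 [(0,[(40,128)])], .leaf 4 [(4184,[(20,125520),(24,1200),(6,1680),(2,128),(1,4320),(39,4800)]),(278,[(20,3968),(24,1984),(37,6848),(6,992),(2,192),(39,7936)]),(0,[(9,32)]),(2448,[(20,73248),(24,784),(6,1024),(2,64),(1,2528),(40,310336)]),(216,[(24,992),(6,552),(2,296),(1,224),(39,3968)])], .leaf 0 [(0,[])], .leaf 1 [(0,[(23,4),(40,128)])],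 .leaf 1 [(0,[(9,8)])], .leaf 1 [(0,[(40,128)])], .leaf 3 [(0,[(18,32),(10,32)]),(0,[(8,32)]),(0,[(18,32),(10,32)]),(0,[(18,32),(10,32),(40,128)]),(0,[(18,32),(10,32)])], .leaf 1 [(0,[])], .leaf 0 [(0,[(9,8)])], .leaf 0 [(0,[(21,4),(40,128)])]]
noncomputable def t1 : TT := (.split [0,-1,-1,0,1,1,0,1,0,0] a11 (.split [0,0,0,0,0,-1,0,0,1,0] (.split [0,-4,-4,124,-4,128,0,93,0,0] a12 (.split [9,0,8,16,16,0,0,-7,-1,-8] (.split [12,1,12,64,0,64,0,4,-1,-14] (.split [97,74,7,248,-8,256,0,151,-82,-15] (.split [-1,-1,0,-2,62,64,0,-1,1,-2] a13 (.split [1,0,1,256,0,256,0,-7,0,-9] (.w 2 a14 a15 a16) (.w 2 a17 a18 a19))) a20) (.split [0,0,0,-4,-4,0,0,-3,3,0] a21 (.w 2 (.split [7,0,7,2,2,0,0,-16,-1,-7] a22 a23) a24 a25))) a26)) (.split [0,0,0,0,15,16,0,0,0,-1] a27 (.split [0,-1,-1,31,-1,32,0,31,0,0] a28 (.split [9,0,8,16,16,0,0,-7,-1,-8] (.split [12,1,12,64,0,64,0,4,-1,-14] a29 (.split [1,0,1,-32,-32,0,0,-2,24,-1] a30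 (.w 2 a31 a32 a33))) a34)))))
theorem c1 : chkT (fsm (-1) ([0,0,0,-1,0,0,0,2,0,0] : Fm) :: fsm (-1) ([4,4,-1,0,0,0,0,0,0,0] : Fm) :: fsm (-1) ([0,0,0,-1,1,0,0,0,0,0] : Fm) :: ([0,0,0,0,0,0,0,-1,1,0] : Fm) :: fsm (-1) ([0,0,0,-2,0,0,0,1,0,0] : Fm) :: ([0,0,0,-1,-1,0,0,-1,1,0] : Fm) :: K1O10.C0) t1 = true := by decide +kernel
end K1O10M01011

namespace K1O10M01010
theorem top : ∃ t, chkT (([4,4,-1,0,0,0,0,0,0,0] : Fm) :: fsm (-1) ([0,0,0,-1,1,0,0,0,0,0] : Fm) :: ([0,0,0,0,0,0,0,-1,1,0] : Fm) :: fsm (-1) ([0,0,0,-2,0,0,0,1,0,0] : Fm) :: ([0,0,0,-1,-1,0,0,-1,1,0] : Fm) :: K1O10.C0) t = true := ⟨_, c0⟩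
end K1O10M01010
namespace K1O10M01011
theorem top : ∃ t, chkT (fsm (-1) ([4,4,-1,0,0,0,0,0,0,0] : Fm) :: fsm (-1) ([0,0,0,-1,1,0,0,0,0,0] : Fm) :: ([0,0,0,0,0,0,0,-1,1,0] : Fm) :: fsm (-1) ([0,0,0,-2,0,0,0,1,0,0] : Fm) :: ([0,0,0,-1,-1,0,0,-1,1,0] : Fm) :: K1O10.C0) t = true := ⟨_, (spl c0 c1)⟩
end K1O10M01011
def K1O10P0101 := (splE K1O10M01010.top K1O10M01011.top)

end Vale.Agent.P235
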