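import Vale.Agent.P235.T.K1O10C

namespace Vale.Agent.P235

set_option maxRecDepth 100000

namespace K1O10M10000
noncomputable def a0 : TT := .leaf ⟨true,33,31,0,64,3,16367,[[0,0,0,5115],[0,0,0,5115],[],[0,0,0,-6138,0,0,0,6138],[],[],[0,0,0,9207],[0,0,0,155],[0,0,0,165],[],[0,0,0,496]]⟩ [.leaf 0 [(0,[])], .leaf 0 [(0,[])], .leaf 0 [(0,[])], .leaf 0 [(0,[])], .leaf 0 [(0,[])], .leaf 0 [(0,[(3,15376)])], .leaf 0 [(0,[])], .leaf 0 [(0,[]),(0,[]),(0,[]),(0,[]),(0,[]),(0,[])], .leaf 0 [(0,[(5,392832)])], .leaf 0 [(0,[])], .leaf 0 [(0,[])], .leaf 0 [(0,[])], .leaf 0 [(0,[])], .leaf 0 [(0,[])], .leaf 0 [(0,[])], .leaf 0 [(0,[])], .leaf 0 [(0,[])], .leaf 0 [(0,[])], .leaf 0 [(0,[(5,654720)])], .leaf 0 [(0,[(14,654720),(21,654720),(34,1440384)])], .leaf 0 [(0,[(33,2095104),(34,2095104),(5,1309440)])], .leaf 0 [(0,[])], .leaf 0 [(0,[(6,65472),(5,425568)])], .leaf 0 [(0,[(0,65472)])], .leaf 0 [(0,[(36,2095104)])], .leaf 0 [(0,[(15,458304),(20,98208),(21,98208),(24,32736),(27,98208),(33,392832),(34,785664),(35,392832)]),(6,[(15,2553408),(20,556512),(21,1113024),(33,3666432),(4,5237760),(35,2226048)]),(0,[(15,458304),(25,65472),(34,589248)]),(0,[(15,720192),(24,196416),(33,327360),(34,654720),(36,2095104)]),(0,[(15,720192),(24,196416),(33,327360),(34,654720)])],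 .split 0 0 (.leaf 0 [(0,[(0,1)])]) (.leaf 1 [(12,[(22,294624),(27,32736),(29,32736),(7,1178496),(3,65472),(0,1)])]), .split 0 0 (.leaf 0 [(0,[(0,1)])]) (.leaf 1 [(30,[(22,10148160),(7,10213632),(6,3208128),(4,28676736),(3,2029632),(0,1)])]), .split 1 0 (.leaf 1 [(0,[(0,1)])]) (.leaf 0 [(1482,[(20,9084240),(22,530061312),(29,20230848),(7,530061312),(3,108241584),(0,309),(37,290695680)])]), .leaf 2 [(0,[(36,2095104)])], .leaf 4 [(4,[(15,261888),(16,1931424),(20,687456),(21,687456),(24,949344),(33,1669536),(34,32736),(35,2749824)]),(0,[(15,24552),(16,365552),(20,158224),(21,158224),(24,182776),(33,341000),(35,632896)]),(0,[(20,98208),(24,196416),(33,196416),(35,392832)]),(0,[(15,261888),(16,523776),(24,261888),(33,261888),(36,2095104)]),(0,[(16,360096),(20,163680),(21,163680),(24,163680),(33,360096),(34,32736),(35,654720)])], .leaf 0 [(0,[])], .leaf 2 [(0,[(5,654720)])], .split 1 0 (.leaf 1 [(0,[(0,1)])]) (.leaf 0 [(30,[(20,2029632),(0,33),(37,64948224)])]),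 .leaf 1 [(0,[(36,2095104)])], .leaf 1 [(0,[(14,523776),(34,523776),(5,229152)]),(0,[(14,523776),(34,523776)]),(0,[(4,65472),(3,458304)]),(0,[(14,523776),(34,523776),(36,2095104)]),(12,[(14,6678144),(19,818400),(28,818400),(34,6678144),(1,32736),(36,26188800)])], .leaf 1 [(0,[(5,425568)])], .split 0 0 (.leaf 0 [(0,[(0,1)])]) (.leaf 1 [(30,[(22,2029632),(7,2029632),(0,2)])]), .leaf 0 [(0,[(21,65472),(6,65472),(5,446028)])]]
noncomputable def a1 : TT := .leaf ⟨true,33,31,0,64,1,16367,[[0,0,0,5115],[0,0,0,5115],[],[2046,2046,0,-7161,-4092,0,0,2046,2046],[],[],[0,0,0,18414],[0,0,0,155],[0,0,0,165],[],[0,0,0,496]]⟩ [.leaf 0 [(0,[])], .leaf 0 [(0,[])], .leaf 0 [(0,[])], .leaf 0 [(0,[])], .leaf 0 [(0,[])], .leaf 0 [(0,[(3,15376)])], .leaf 0 [(0,[])], .leaf 0 [(0,[]),(0,[]),(0,[]),(0,[]),(0,[]),(0,[])], .leaf 0 [(0,[(14,261888),(34,261888),(5,458304)])], .leaf 0 [(0,[])], .leaf 0 [(0,[])], .leaf 0 [(0,[])], .leaf 0 [(0,[])], .leaf 0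 [(0,[])], .leaf 0 [(0,[])], .leaf 0 [(0,[])], .leaf 0 [(0,[])], .leaf 0 [(0,[])], .leaf 0 [(0,[(21,261888),(6,523776),(5,851136)])], .leaf 0 [(0,[(21,261888),(34,1571328),(5,327360)])], .leaf 0 [(0,[(21,261888),(33,523776),(0,49104)])], .leaf 0 [(0,[(14,261888),(34,261888)])], .leaf 0 [(0,[(5,261888),(3,392832)])], .leaf 0 [(0,[(1,65472)])], .leaf 0 [(0,[(14,261888),(34,261888),(36,2095104)])], .leaf 0 [(4,[(15,2618880),(21,982080),(33,523776),(34,1178496),(0,65472)]),(6,[(15,1735008),(20,278256),(27,1931424),(4,1415832),(0,157542),(35,1113024)]),(0,[(15,261888),(25,65472),(27,196416),(34,392832)]),(0,[(15,428544),(21,101184),(27,95232),(34,226176),(0,19344),(36,2095104)]),(0,[(15,71424),(21,5952),(27,452352),(34,59520),(0,71424)])], .leaf 0 [(0,[(21,75702),(26,67518),(5,210738),(3,478764),(2,67518),(0,2046)])], .leaf 0 [(0,[(18,8928),(21,8184),(26,8928),(6,90768),(3,31620),(0,8928)])], .leaf 1 [(43,[(18,1729986),(19,372186),(21,29352939),(26,4951413),(28,3593613),(6,34664448),(2,6442854),(0,5664258),(36,11909952)])],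 .leaf 2 [(0,[(14,261888),(34,261888),(36,2095104)])], .leaf 4 [(0,[(16,436480),(20,87296),(21,218240),(24,87296),(33,436480),(5,114576),(35,349184)]),(0,[(16,261888),(20,261888),(21,130944),(24,261888),(33,261888),(35,1047552)]),(0,[(24,130944),(33,261888),(5,310992)]),(0,[(24,130944),(33,261888),(0,24552),(36,2095104)]),(0,[(16,392832),(24,130944),(33,261888),(0,12276)])], .leaf 0 [(0,[(14,261888),(34,261888)])], .split 1 0 (.leaf 1 [(0,[(0,1)])]) (.leaf 2 [(38,[(20,2095104),(22,2095104),(7,4190208),(6,52901376),(0,32),(37,67043328)])]), .leaf 1 [(0,[(19,8928),(21,8184),(28,8928),(6,16368),(0,8928),(36,285696)])], .leaf 1 [(0,[(14,261888),(34,261888),(36,2095104)])], .leaf 1 [(0,[(14,327360),(34,327360),(5,180048)]),(0,[(14,327360),(34,327360)]),(0,[(5,180048)]),(0,[(14,327360),(34,327360),(36,2095104)]),(0,[(14,65472),(34,65472)])], .leaf 1 [(6,[(20,65472),(5,3208128),(4,1833216),(2,130944),(35,261888)])], .leaf 0 [(0,[(19,8928),(21,8184),(28,8928),(6,16368),(0,8928),(36,285696)])],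 .leaf 0 [(0,[(5,253704),(3,446028)])]]
noncomputable def a2 : TT := .leaf ⟨true,33,31,0,64,3,32735,[[0,0,0,9207,2046,0,0,6138,-2046],[0,0,0,11253,0,0,0,-2046],[],[-1023,0,-1023,8184,-3069,0,0,-1023,3069,1023],[],[],[0,0,0,13299],[0,0,0,279,62,0,0,186,-62],[0,0,0,363,0,0,0,-66],[],[0,0,0,992]]⟩ [.leaf 0 [(0,[(5,62)])], .leaf 0 [(6,[(13,264),(18,66),(27,66),(33,264),(0,66),(35,2112)])], .leaf 0 [(0,[])], .leaf 0 [(6,[(13,232),(18,58),(27,58),(33,666),(0,58),(35,1856)])], .leaf 0 [(0,[])], .leaf 0 [(0,[(2,30752)])], .leaf 0 [(0,[])], .leaf 0 [(0,[]),(0,[]),(0,[]),(0,[]),(0,[]),(0,[])], .leaf 0 [(0,[(26,130944),(33,392832)])], .leaf 0 [(0,[])], .leaf 0 [(0,[(13,1047552),(18,261888),(27,261888),(33,1047552),(0,261888),(35,8380416)])], .leaf 0 [(0,[])], .leaf 0 [(0,[])], .leaf 0 [(0,[(5,1833216)])], .leaf 0 [(0,[])], .leaf 0 [(0,[])], .leaf 0 [(0,[(5,1833216)])], .leaf 0 [(0,[(13,1047552),(18,261888),(27,261888),(33,1047552),(0,261888),(35,8380416)])],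 .leaf 0 [(0,[(27,130944),(5,654720),(4,3077184)])], .leaf 0 [(0,[(27,130944),(33,4059264),(4,2422464)])], .leaf 0 [(226,[(19,143514624),(23,237270528),(26,207546240),(32,464196480),(33,246960384),(0,12439680),(34,574058496)])], .leaf 0 [(0,[(13,349184),(18,87296),(26,43648),(33,1003904),(0,87296),(35,2793472)])], .leaf 0 [(0,[(26,130944)])], .leaf 0 [(0,[(13,130944),(18,130944),(20,130944),(4,196416),(35,4190208)])], .leaf 0 [(6,[(13,5237760),(18,1309440),(27,392832),(33,6154368),(0,1309440),(35,71233536)])], .leaf 0 [(0,[(14,621984),(19,343728),(20,163680),(26,327360),(33,883872),(0,24552),(34,1374912)]),(52,[(19,21736704),(26,29822496),(3,33521664),(0,2111472),(34,86946816)]),(4,[(14,3175392),(19,883872),(24,294624),(26,1276704),(33,5041344),(34,3535488)]),(6,[(13,3961056),(14,818400),(24,5827008),(33,15746016),(0,818400),(35,29331456)]),(4,[(14,2749824),(24,3453648),(26,474672),(0,241428)])], .leaf 0 [(6,[(17,511500),(20,2537040),(25,540144),(1,945252),(0,540144)])],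 .leaf 0 [(6,[(17,151404),(25,180048),(5,519684),(2,413292),(0,151404)])], .leaf 1 [(375,[(17,42793113),(18,3425004),(20,37777344),(25,39905184),(27,30673632),(1,22822107),(0,19805280),(35,109600128)])], .leaf 2 [(0,[(26,130944),(5,1702272),(35,4190208)])], .leaf 4 [(0,[(15,392832),(19,360096),(20,720192),(32,982080),(4,589248),(34,1440384)]),(6,[(14,1309440),(15,6110720),(19,567424),(23,1680448),(0,190960),(34,2269696)]),(0,[(32,523776),(4,1456752)]),(0,[(27,1113024),(32,2095104),(5,261888),(35,4190208)]),(0,[(19,98208),(32,327360),(0,49104),(34,392832)])], .leaf 0 [(0,[(26,130944),(33,130944)])], .leaf 1 [(0,[(18,130944),(26,126852),(33,110484),(4,403062),(35,4190208)])], .leaf 1 [(6,[(13,605616),(18,151404),(27,180048),(33,576972),(0,151404),(35,4844928)])], .leaf 1 [(0,[(26,130944),(5,1702272),(35,4190208)])], .leaf 1 [(0,[(13,1554960),(20,507408),(27,98208),(33,245520),(4,785664)]),(0,[(13,1047552),(27,98208),(33,1014816)]),(0,[(27,98208),(4,1571328)]),(0,[(22,1047552),(27,98208),(5,294624),(35,4190208)]),(0,[(13,1047552),(18,130944),(27,229152),(33,491040),(4,1096656),(35,4190208)])],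 .leaf 1 [(0,[(26,130944)])], .leaf 0 [(6,[(17,167772),(25,196416),(3,446028),(0,167772)])], .leaf 0 [(0,[(20,130944),(26,126852),(5,20460)])]]
noncomputable def t0 : TT := (.split [4,4,0,6,-8,32,0,4,4,-1] (.split [0,0,0,8,0,32,0,12,0,-1] a0 a1) a2)
theorem c0 : chkT (([4,4,-1,0,0,0,0,0,0,0] : Fm) :: ([0,0,0,-1,1,0,0,0,0,0] : Fm) :: ([0,0,0,0,0,0,0,-1,1,0] : Fm) :: ([0,0,0,-2,0,0,0,1,0,0] : Fm) :: fsm (-1) ([0,0,0,-1,-1,0,0,-1,1,0] : Fm) :: K1O10.C0) t0 = true := by decide +kernel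
end K1O10M10000

namespace K1O10M10001
noncomputable def a0 : TT := .leaf ⟨true,33,31,0,64,3,8183,[[0,0,0,3069],[0,0,0,3069],[],[1023,1023,0,-2046,-2046,0,0,1023,1023],[],[],[0,0,0,9207],[0,0,0,93],[0,0,0,99],[],[0,0,0,248]]⟩ [.leaf 0 [(0,[])], .leaf 0 [(0,[])], .leaf 0 [(0,[])], .leaf 0 [(0,[])], .leaf 0 [(0,[])], .leaf 0 [(0,[(5,7688)])], .leaf 0 [(0,[])], .leaf 0 [(0,[]),(0,[]),(0,[]),(0,[]),(0,[]),(0,[])], .leaf 0 [(136,[(16,35878656),(26,130944),(29,130944),(4,261888),(0,261888)])], .leaf 0 [(0,[])], .leaf 0 [(0,[])], .leaf 0 [(0,[])], .leaf 0 [(0,[])], .leaf 0 [(0,[])], .leaf 0 [(0,[])], .leaf 0 [(0,[])], .leaf 0 [(0,[])], .leaf 0 [(0,[])], .leaf 0 [(136,[(26,130944),(29,130944),(8,34831104),(7,71233536),(4,261888),(0,261888)])], .leaf 0 [(0,[(16,261888),(23,392832),(36,523776)])], .leaf 0 [(676,[(22,78304512),(26,91267968),(29,91267968),(35,527442432),(36,193535232),(6,36664320),(4,25926912),(0,785664),(37,313218048)])],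 .leaf 0 [(0,[(16,130944),(36,130944)])], .leaf 0 [(0,[(7,130944)])], .leaf 0 [(6,[(16,654720),(21,229152),(30,196416),(36,1047552),(7,1243968),(2,32736),(38,7332864)])], .leaf 0 [(0,[(16,130944),(36,130944),(38,1047552)])], .leaf 0 [(310,[(17,83898276),(22,11195712),(26,33754908),(35,47962332),(36,47827296),(4,8912376),(0,270072),(37,44782848)]),(13,[(17,1318368),(22,982080),(35,3148608),(6,3178368),(4,383904),(0,28179),(37,3928320)]),(0,[(17,229152),(36,98208),(4,24552)]),(1,[(17,572880),(26,49104),(35,376464),(36,458304),(0,3069),(38,2095104)]),(424,[(17,154955856),(26,46894320),(29,3240864),(35,61363632),(36,71462688),(4,6481728),(0,196416)])], .leaf 1 [(4,[(16,597432),(36,433752),(3,8184)])], .split 0 0 (.leaf 0 [(0,[(0,1)])]) (.leaf 1 [(30,[(21,1014816),(8,4583040),(7,785664),(0,33)])]), .split 0 0 (.leaf 0 [(0,[(0,1)])]) (.leaf 1 [(15058,[(21,425162892),(22,332642772),(29,95478636),(31,267890964),(7,1381242324),(3,129503616),(1,98208),(0,8093),(39,10644568704)])]),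 .leaf 2 [(0,[(16,130944),(36,130944),(38,1047552)])], .leaf 4 [(6,[(22,752928),(35,1843446),(4,327360),(0,10230),(37,3011712)]),(0,[(22,139128),(26,16368),(35,147312),(0,3069),(37,556512)]),(6,[(22,360096),(35,458304),(4,294624),(37,1440384)]),(424,[(17,35453088),(18,109141824),(26,37613664),(35,73819680),(4,4321152),(0,130944),(38,445209600)]),(0,[(17,65472),(18,196416),(35,196416),(0,2046)])], .leaf 0 [(0,[(16,130944),(36,130944)])], .leaf 1 [(0,[(16,98952),(21,32736),(26,1860),(29,1860),(36,139872),(7,205344),(2,3720),(38,1047552)])], .split 2 0 (.leaf 2 [(0,[(0,1)])]) (.leaf 1 [(511,[(27,916608),(30,916608),(36,35092992),(37,25926912),(5,1833216),(0,47)])]), .leaf 1 [(0,[(16,130944),(36,130944),(38,1047552)])], .leaf 1 [(0,[(16,163680),(36,163680),(7,163680)]),(0,[(16,163680),(36,163680)]),(0,[(7,163680)]),(0,[(16,163680),(36,163680),(38,1047552)]),(0,[(16,163680),(21,32736),(30,32736),(36,163680),(38,1047552)])], .leaf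 0 [(4,[(16,597432),(36,433752),(3,8184)])], .leaf 1 [(4,[(16,413292),(36,576972),(3,8184)])], .leaf 0 [(0,[(16,94116),(7,96162)])]]
noncomputable def a1 : TT := .leaf ⟨true,33,31,0,64,3,8183,[[0,0,0,3069],[0,0,0,3069],[],[1023,1023,0,-2046,-2046,0,0,1023,1023],[],[],[0,0,0,9207],[0,0,0,93],[0,0,0,99],[],[0,0,0,248]]⟩ [.leaf 0 [(0,[])], .leaf 0 [(0,[])], .leaf 0 [(0,[])], .leaf 0 [(0,[])], .leaf 0 [(0,[])], .leaf 0 [(0,[(6,7688)])], .leaf 0 [(0,[])], .leaf 0 [(0,[]),(0,[]),(0,[]),(0,[]),(0,[]),(0,[])], .leaf 0 [(0,[(17,130944),(37,130944),(8,130944)])], .leaf 0 [(0,[])], .leaf 0 [(0,[])], .leaf 0 [(0,[])], .leaf 0 [(0,[])], .leaf 0 [(0,[])], .leaf 0 [(0,[])], .leaf 0 [(0,[])], .leaf 0 [(0,[])], .leaf 0 [(0,[])], .leaf 0 [(0,[(24,130944),(9,261888),(8,523776)])], .leaf 0 [(0,[(17,261888),(24,392832),(37,523776)])], .leaf 0 [(11100,[(23,1280501376),(27,3916796928),(36,7509114624),(37,1809515136),(5,1071645696),(0,4059264),(38,5122005504)])],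 .leaf 0 [(0,[(17,130944),(37,130944)])], .leaf 0 [(0,[(8,130944)])], .leaf 0 [(6,[(17,654720),(22,229152),(31,196416),(37,1047552),(8,1243968),(3,32736),(39,7332864)])], .leaf 0 [(0,[(17,130944),(37,130944),(39,1047552)])], .leaf 0 [(1760,[(18,345397536),(23,86979552),(30,131064032),(36,319208736),(37,363893376),(5,57615360),(0,218240),(38,347918208)]),(1498,[(23,125215200),(36,371291712),(7,143809248),(5,106539312),(0,425568),(38,500860800)]),(0,[(18,229152),(37,98208),(5,24552)]),(396,[(18,99648384),(30,6612672),(36,95720064),(37,124167648),(5,8642304),(0,32736),(39,415878144)]),(396,[(18,99648384),(30,6612672),(36,95720064),(37,124167648),(5,8642304),(0,32736)])], .leaf 1 [(4,[(17,597432),(37,433752),(4,8184)])], .leaf 0 [(126,[(21,825561),(29,40920),(9,2099196),(6,4177932),(5,784641),(1,40920)])], .split 0 0 (.leaf 0 [(0,[(0,1)])]) (.leaf 1 [(64,[(22,1834239),(23,1439361),(30,410223),(32,1161105),(9,98208),(8,5989665),(4,556512),(0,35),(40,46059552)])]),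 .leaf 2 [(0,[(17,130944),(37,130944),(39,1047552)])], .leaf 4 [(9750,[(23,1156857504),(27,525412800),(36,1913681088),(5,604961280),(0,2291520),(38,4627430016)]),(1468,[(23,163450848),(27,175443136),(36,174351936),(5,13296272),(0,698368),(38,653803392)]),(6,[(23,360096),(26,458304),(5,409200),(38,1440384)]),(1486,[(19,324282816),(36,228300864),(5,23897280),(0,589248),(39,1557709824)]),(1486,[(19,324282816),(36,228300864),(5,23897280),(0,589248)])], .leaf 0 [(0,[(17,130944),(37,130944)])], .leaf 1 [(0,[(17,98952),(22,32736),(27,1860),(30,1860),(37,139872),(8,205344),(3,3720),(39,1047552)])], .leaf 1 [(126,[(22,825561),(31,40920),(37,2099196),(5,784641),(1,40920),(39,26417952)])], .leaf 1 [(0,[(17,130944),(37,130944),(39,1047552)])], .leaf 1 [(0,[(17,163680),(37,163680),(8,163680)]),(0,[(17,163680),(37,163680)]),(0,[(8,163680)]),(0,[(17,163680),(37,163680),(39,1047552)]),(0,[(17,163680),(22,32736),(31,32736),(37,163680),(39,1047552)])],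 .leaf 0 [(4,[(17,597432),(37,433752),(4,8184)])], .leaf 1 [(4,[(17,413292),(37,576972),(4,8184)])], .leaf 0 [(0,[(17,94116),(8,96162)])]]
noncomputable def a2 : TT := .leaf ⟨true,33,31,0,64,3,8183,[[0,0,0,3069],[0,0,0,2046],[],[0,0,0,-7161,0,0,0,4092],[],[],[0,0,0,9207],[0,0,0,93],[0,0,0,66],[],[0,0,0,248]]⟩ [.leaf 0 [(0,[])], .leaf 0 [(0,[])], .leaf 0 [(0,[])], .leaf 0 [(0,[])], .leaf 0 [(0,[])], .leaf 0 [(0,[(6,7688)])], .leaf 0 [(0,[])], .leaf 0 [(0,[]),(0,[]),(0,[]),(0,[]),(0,[]),(0,[])], .leaf 0 [(0,[(8,458304)])], .leaf 0 [(0,[])], .leaf 0 [(0,[])], .leaf 0 [(0,[])], .leaf 0 [(0,[])], .leaf 0 [(0,[])], .leaf 0 [(0,[])], .leaf 0 [(0,[])], .leaf 0 [(0,[])], .leaf 0 [(0,[])], .leaf 0 [(0,[])], .leaf 0 [(0,[(17,261888),(24,261888),(37,785664)])], .leaf 0 [(4,[(18,523776),(23,261888),(24,261888),(27,785664),(30,261888),(36,4190208),(37,3142656),(38,1047552)])], .leaf 0 [(0,[])], .leaf 0 [(0,[(30,5456),(8,362824),(2,5456)])],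 .leaf 0 [(4,[(17,77748),(24,81840),(31,95480),(8,390786),(0,1364)])], .leaf 0 [(0,[(39,1047552)])], .leaf 0 [(0,[(18,327360),(27,65472),(36,196416),(37,392832)]),(0,[(18,261888),(36,261888),(7,392832)]),(0,[(18,196416),(37,327360),(5,16368),(1,1023)]),(0,[(18,310992),(27,49104),(36,212784),(37,425568),(39,1047552)]),(0,[(18,310992),(27,49104),(36,212784),(37,425568)])], .leaf 1 [(4,[(17,202554),(26,122760),(30,34100),(8,440913),(5,81840),(0,682)])], .leaf 0 [(807,[(9,4386624),(5,4583040),(1,283371),(0,65472)])], .leaf 0 [(4,[(17,259842),(27,102300),(37,20460),(8,136059),(5,81840),(0,2046)])], .leaf 2 [(0,[(39,1047552)])], .leaf 4 [(4,[(18,458304),(19,1211232),(23,98208),(24,98208),(27,556512),(36,752928),(37,98208),(38,392832)]),(0,[(23,130944),(24,261888),(36,261888),(8,49104),(38,523776)]),(0,[]),(0,[(18,130944),(19,261888),(27,130944),(36,130944),(39,1047552)]),(0,[(18,130944),(19,261888),(27,130944),(36,130944)])], .leaf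 0 [(0,[(8,147312)])], .leaf 0 [(12276,[(29,117358560),(31,93597680),(37,219560352),(5,58679280),(1,1653168),(0,3851936)])], .leaf 1 [(7568,[(27,15947888),(37,190659920),(5,42300368),(1,2875312),(0,376464)])], .leaf 1 [(0,[(39,1047552)])], .leaf 1 [(0,[(17,261888),(37,261888)]),(0,[(17,261888),(37,261888)]),(0,[(7,130944)]),(0,[(17,261888),(37,261888),(39,1047552)]),(4,[(17,1305348),(31,95480),(37,1391280),(0,1364)])], .leaf 0 [(4,[(24,57288),(9,278256),(8,814308),(4,8184)])], .leaf 1 [(4,[(24,220968),(9,278256),(8,671088),(4,8184)])], .leaf 0 [(0,[(24,32736),(9,32736),(8,409200)])]]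
noncomputable def a3 : TT := .leaf ⟨true,33,31,0,64,0,65471,[[0,0,0,19437,-3069,0,0,-3069,3069],[0,0,0,21483],[],[-1023,1023,-2046,29667,-13299,0,0,-8184,12276,2046],[],[],[0,0,0,51150],[0,0,0,589,-93,0,0,-93,93],[0,0,0,693],[],[0,0,0,1984]]⟩ [.leaf 0 [(0,[(35,93)])], .leaf 0 [(0,[])], .leaf 0 [(0,[])], .leaf 0 [(0,[(7,93)])], .leaf 0 [(0,[])], .leaf 0 [(0,[(4,61504)])], .leaf 0 [(0,[])], .leaf 0 [(0,[]),(0,[]),(0,[]),(0,[]),(0,[]),(0,[])], .leaf 0 [(0,[(15,130944),(28,261888),(35,1571328)])], .leaf 0 [(0,[])], .leaf 0 [(0,[])], .leaf 0 [(0,[])], .leaf 0 [(0,[])], .leaf 0 [(0,[(35,2749824)])], .leaf 0 [(0,[])], .leaf 0 [(0,[])], .leaf 0 [(0,[(35,2749824)])], .leaf 0 [(0,[])], .leaf 0 [(0,[(22,130944),(29,261888),(7,1309440),(6,6874560)])], .leaf 0 [(0,[(22,130944),(29,261888),(35,6285312),(6,4910400)])], .leaf 0 [(16,[(21,24093696),(22,26778048),(25,23635392),(28,19183296),(34,94279680),(35,4975872),(0,916608),(36,96374784)])],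 .leaf 0 [(0,[(15,130944),(28,261888),(35,1178496)])], .leaf 0 [(0,[(25,130944),(28,130944),(5,1571328)])], .leaf 0 [(0,[(15,97152),(20,261888),(35,1955712),(6,523776),(1,4224),(0,4224),(37,8380416)])], .leaf 0 [(0,[(15,130944),(28,261888),(35,1964160),(37,8380416)])], .leaf 0 [(4,[(16,9362496),(21,3535488),(22,4026528),(25,2422464),(28,2553408),(34,4517568),(35,1178496),(36,14141952)]),(0,[(16,523776),(21,883872),(22,1669536),(34,1898688),(5,589248),(4,1276704),(36,3535488)]),(0,[(15,2618880),(3,630168)]),(0,[(16,2291520),(22,294624),(34,1898688),(35,2226048),(37,8380416)]),(0,[(16,3273600),(17,458304),(22,229152),(25,1178496),(34,458304),(35,1243968)])], .leaf 1 [(12,[(15,305536),(28,3229952),(35,19859840),(2,174592),(0,174592)])], .leaf 0 [(0,[(19,38316),(27,34224),(7,513732),(4,1082520),(0,26040)])], .leaf 0 [(84,[(20,22260480),(22,11023848),(25,8245380),(35,54759144),(6,158200812),(2,1113024),(0,13319460),(37,712335360)])],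 .leaf 2 [(0,[(15,130944),(28,261888),(35,4713984),(37,8380416)])], .leaf 4 [(94,[(17,176086944),(21,35944128),(22,42720480),(25,35387616),(34,150094560),(6,216777792),(0,1113024),(36,143776512)]),(0,[(17,905696),(21,1058464),(22,992992),(25,1058464),(34,1167584),(36,4233856)]),(6,[(21,2193312),(34,2062368),(6,14894880),(3,1211232),(36,8773248)]),(0,[(16,1833216),(17,2226048),(22,65472),(25,1833216),(34,130944),(35,687456),(37,8380416)]),(0,[(17,2226048),(22,327360),(34,1964160)])], .leaf 0 [(0,[(15,130944),(28,261888),(35,1964160)])], .leaf 1 [(628,[(15,31516584),(20,164727552),(28,118496136),(35,958600104),(6,680315460),(2,1027092),(0,41083680),(37,5271281664)])], .leaf 1 [(0,[(20,26040),(29,34224),(7,217620),(3,1023),(0,26040),(37,833280)])], .leaf 1 [(0,[(15,130944),(28,261888),(35,4713984),(37,8380416)])], .leaf 3 [(6,[(15,14076480),(29,900240),(35,9919008),(6,26401584),(1,16368)]),(0,[(23,1636800),(27,130944),(6,3797376),(5,32736),(4,916608)]),(0,[(15,3584592),(22,1424016),(28,130944),(35,1554960),(6,1211232)]),(0,[(15,2029632),(29,130944),(35,4550304),(37,8380416)]),(0,[(15,3519120),(20,261888),(22,1489488),(29,130944),(35,310992),(6,818400),(37,8380416)])],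 .leaf 0 [(12,[(15,305536),(28,3229952),(35,9646208),(2,174592),(0,174592)])], .leaf 0 [(2,[(22,140492),(27,128216),(7,1074832),(0,103664)])], .leaf 0 [(0,[(22,136524),(28,252216),(35,1781880),(0,1488)])]]
noncomputable def a4 : TT := .leaf ⟨true,33,31,0,64,3,523775,[[-24552,-8184,-21483,291555,-28644,0,0,-53196,36828,21483],[5115,-6138,15345,208692,30690,0,0,17391,-22506,-15345],[],[-30690,-13299,-36828,-417384,-55242,0,0,271095,62403,36828],[],[],[0,0,0,597432,0,0,0,0,-5115],[-744,-248,-651,8835,-868,0,0,-1612,1116,651],[165,-198,495,6732,990,0,0,561,-726,-495],[],[0,0,0,15872]]⟩ [.leaf 0 [(12,[(15,6386),(25,434),(28,6882),(35,9486),(1,1147)])], .leaf 0 [(271,[(24,14322),(7,9669),(1,2112),(0,1221)])], .leaf 0 [(0,[])], .leaf 0 [(79,[(15,148),(24,32446),(29,12480),(6,631),(2,178)])], .leaf 0 [(0,[])], .leaf 0 [(0,[(4,492032)])], .leaf 0 [(0,[])], .leaf 0 [(0,[]),(0,[]),(0,[]),(0,[]),(0,[]),(0,[])], .leaf 0 [(4,[(22,2978976),(25,6219840),(28,17350080),(35,30051648),(6,155708784),(2,98208)])],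 .leaf 0 [(0,[])], .leaf 0 [(16,[(24,24862992),(7,16785384),(1,3666432),(0,2119656)])], .leaf 0 [(0,[])], .leaf 0 [(0,[])], .leaf 0 [(12,[(15,188821248),(25,12832512),(28,203486976),(35,280482048),(1,33914496)])], .leaf 0 [(0,[])], .leaf 0 [(86212,[(24,40408663680),(27,2671912320),(7,50615093760),(2,1549067520),(1,6558330240),(0,34700160)])], .leaf 0 [(12,[(15,170750976),(28,216974208),(35,304444800),(1,33259776)])], .leaf 0 [(170,[(24,270093824),(29,235262720),(7,384364288),(4,196154112),(1,49802368),(0,19336064)])], .leaf 0 [(4,[(22,32736),(7,2684352),(6,15991536),(2,98208)])], .leaf 0 [(0,[(15,7103712),(22,7431072),(27,1833216),(29,7594752),(35,41738400),(6,654720),(2,65472)])], .leaf 0 [(0,[(21,4321152),(22,130944),(25,2880768),(34,58401024),(35,43997184),(6,18463104),(5,523776),(1,261888),(36,17284608)])], .leaf 0 [(4,[(22,7660224),(7,6154368),(6,294624),(2,65472)])], .leaf 0 [(0,[(22,5892480),(25,7594752),(28,1833216),(6,17939328),(4,6940032)])],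 .leaf 0 [(4,[(20,10475520),(22,2381544),(25,5933400),(28,9861720),(35,35420352),(6,193011456),(2,65472),(1,1227600),(37,335216640)])], .leaf 0 [(0,[(22,9689856),(27,654720),(29,7594752),(7,20689152),(37,67043328)])], .leaf 0 [(6,[(16,116114592),(17,13519968),(21,14240160),(34,76536768),(35,120763104),(1,1604064),(36,56960640)]),(0,[(16,14475264),(21,3050400),(34,12945600),(5,20239776),(4,1993920),(1,181536),(36,12201600)]),(0,[(16,18534528),(26,3913440),(30,2532576),(35,5636544),(1,657696)]),(0,[(16,21196560),(24,9935376),(29,19199664),(34,12325104),(7,2848032),(1,2324256),(37,67043328)]),(0,[(15,9039228),(16,16462116),(28,9432060),(34,17059548),(35,46587420),(1,1955976)])], .leaf 1 [(4,[(15,12701568),(22,27956544),(25,6547200),(28,20951040),(6,9853536),(2,589248)])], .leaf 0 [(339,[(24,764243403),(7,222766434),(4,5936241894),(1,92921136),(0,1351383)])], .split 0 0 (.leaf 0 [(0,[(0,1)])]) (.split 1 0 (.leaf 1 [(0,[(0,1)])])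 (.leaf 2 [(332742,[(22,1469120446464),(31,735607775232),(37,15609547210752),(8,28338175574016),(3,320467107840),(1,579040),(0,122176),(39,47011854286848)])])), .leaf 2 [(34,[(22,103257528),(25,115746312),(28,729873672),(35,1194143808),(2,458304),(1,20574576),(37,2346516480)])], .leaf 4 [(4,[(16,6367152),(17,71806416),(21,13389024),(22,10524624),(25,17710176),(34,62656704),(35,27547344),(36,53556096)]),(4,[(16,977988),(17,43034200),(21,33322520),(22,38216552),(25,37164908),(34,56951092),(2,32736),(36,133290080)]),(0,[(30,7201920),(35,3011712),(3,16368)]),(6,[(22,30796392),(25,15099480),(28,16016088),(34,234651648),(35,440168256),(1,736560),(37,469303296)]),(12,[(16,30231696),(17,126917472),(22,17202768),(29,223341360),(34,278632464),(1,10671936)])], .leaf 0 [(4,[(22,11588544),(25,6547200),(28,20951040),(35,30509952),(2,65472)])], .leaf 2 [(4,[(22,32736),(7,2684352),(6,15991536),(2,98208)])], .leaf 1 [(426,[(15,246248376),(24,726501864),(29,214838184),(2,4235220),(1,141452256)])],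 .leaf 1 [(6,[(22,61690992),(25,9673488),(28,61920144),(35,65602944),(1,5401440),(37,469303296)])], .leaf 1 [(426,[(15,7924501728),(27,447271968),(29,1160163840),(35,3647936160),(2,16073376),(1,97782432)]),(2754,[(15,54312870480),(29,4558291584),(35,32713690416),(2,29396928),(0,162223248)]),(12,[(23,186562464),(25,12112320),(1,3208128)]),(168,[(15,2737253376),(28,134970528),(35,2977142784),(2,360096),(1,329749728),(37,11330322432)]),(8888,[(15,165103334000),(20,18623379456),(35,160446714384),(2,71080768),(1,959339392),(0,393088432),(37,595948142592)])], .leaf 0 [(4,[(22,11326656),(7,23962752),(6,52410336),(2,589248)])], .leaf 0 [(0,[(24,1824660),(29,629052),(1,334428)])], .leaf 0 [(0,[(22,7979400),(25,7590660),(28,1837308),(6,14481588),(4,13949628)])]]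
noncomputable def a5 : TT := .leaf ⟨true,33,31,0,64,0,65471,[[0,0,0,19437,-3069,0,0,-3069,3069],[0,0,0,21483],[],[-1023,1023,-2046,29667,-13299,0,0,-8184,12276,2046],[],[],[0,0,0,51150],[0,0,0,589,-93,0,0,-93,93],[0,0,0,693],[],[0,0,0,1984]]⟩ [.leaf 0 [(0,[(35,93)])], .leaf 0 [(0,[])], .leaf 0 [(0,[])], .leaf 0 [(0,[(7,93)])], .leaf 0 [(0,[])], .leaf 0 [(0,[(4,61504)])], .leaf 0 [(0,[])], .leaf 0 [(0,[]),(0,[]),(0,[]),(0,[]),(0,[]),(0,[])], .leaf 0 [(0,[(15,130944),(28,261888),(35,1571328)])], .leaf 0 [(0,[])], .leaf 0 [(0,[])], .leaf 0 [(0,[])], .leaf 0 [(0,[])], .leaf 0 [(0,[(35,2749824)])], .leaf 0 [(0,[])], .leaf 0 [(0,[])], .leaf 0 [(0,[(35,2749824)])], .leaf 0 [(0,[])], .leaf 0 [(0,[(22,130944),(29,261888),(7,1309440),(6,6874560)])], .leaf 0 [(0,[(22,130944),(29,261888),(35,6285312),(6,4910400)])], .leaf 0 [(5986,[(21,7818535296),(22,8929726080),(25,7722291456),(28,5730895104),(34,34536480000),(35,5278090752),(5,27498240),(0,5499648),(36,31274141184)])],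 .leaf 0 [(0,[(15,130944),(28,261888),(35,1178496)])], .leaf 0 [(0,[(25,130944),(28,130944),(35,1571328)])], .leaf 0 [(2266,[(15,262935552),(20,593700096),(27,9166080),(29,49496832),(35,4362792192),(6,1115250048),(2,392832),(0,523776),(37,18998403072)])], .leaf 0 [(0,[(15,130944),(28,261888),(35,1964160),(37,8380416)])], .leaf 0 [(6,[(16,10442784),(21,5434176),(22,7332864),(28,5270496),(34,8020320),(35,5041344),(36,21736704)]),(14,[(16,11493312),(21,12884096),(22,23392352),(34,25591616),(5,3757696),(0,25792),(36,51536384)]),(12,[(16,18774096),(21,4533936),(35,6203472),(3,1947792),(36,18135744)]),(0,[(16,3306336),(17,196416),(22,98208),(25,1211232),(34,687456),(37,8380416)]),(0,[(16,3273600),(17,458304),(22,229152),(25,1178496),(34,458304),(35,1243968)])], .leaf 1 [(12,[(15,1702272),(28,3229952),(35,20209024),(2,174592),(1,174592)])], .leaf 0 [(0,[(24,178188),(29,34224),(7,249240),(4,1781508),(1,26040)])], .leaf 0 [(701544,[(20,183726216960),(22,127865400168),(29,164214239244),(35,639959967768),(2,8825310516),(1,18742714452),(0,2888002656),(37,5879238942720)])],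 .leaf 2 [(0,[(15,130944),(28,261888),(35,4713984),(37,8380416)])], .leaf 4 [(4258,[(17,7972296288),(21,1613622912),(22,1958693088),(25,1594144992),(34,6646553760),(6,8924881152),(4,5565120),(0,1113024),(36,6454491648)]),(0,[(16,1481304),(17,1893232),(21,70928),(22,5456),(25,1552232),(34,673816),(36,283712)]),(6,[(21,2193312),(26,2062368),(6,14894880),(3,1726824),(36,8773248)]),(0,[(16,1833216),(17,2226048),(22,65472),(25,1833216),(34,130944),(35,687456),(37,8380416)]),(0,[(17,2226048),(22,327360),(34,1964160)])], .leaf 0 [(0,[(15,130944),(28,261888),(35,1964160)])], .leaf 1 [(3918,[(15,159219720),(20,1026339072),(28,534128760),(35,6919498344),(6,1348612716),(2,3081276),(0,4108368),(37,32842850304)])], .leaf 1 [(60,[(15,343728),(24,10577820),(29,2136024),(2,40920),(1,1636800)])], .leaf 1 [(0,[(15,130944),(28,261888),(35,4713984),(37,8380416)])], .leaf 3 [(2266,[(15,4592697120),(27,2291520),(29,309224256),(35,3168648384),(6,8590613856),(2,98208),(0,130944)]),(238,[(15,290368320),(27,104624256),(6,595631520),(0,654720)]),(0,[(15,3584592),(22,1424016),(28,130944),(35,1554960),(6,1211232)]),(0,[(15,2029632),(29,130944),(35,4550304),(37,8380416)]),(0,[(15,3519120),(20,261888),(22,1489488),(29,130944),(35,310992),(6,818400),(37,8380416)])],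 .leaf 0 [(12,[(15,1702272),(28,3229952),(35,9995392),(2,174592),(1,174592)])], .leaf 0 [(0,[(24,165540),(29,34224),(1,26040)])], .leaf 0 [(8,[(22,1177132),(28,2277880),(35,16147032),(1,5456)])]]
noncomputable def a6 : TT := .leaf ⟨true,31,33,0,64,3,11903,[[0,0,0,4092],[0,0,0,4092],[],[-186,186,-372,-3441,-3441,0,0,1860,3255,372],[],[],[0,0,0,14136],[0,0,0,132],[0,0,0,124],[],[0,0,0,384]]⟩ [.leaf 0 [(0,[])], .leaf 0 [(0,[])], .leaf 0 [(0,[])], .leaf 0 [(0,[])], .leaf 0 [(0,[])], .leaf 0 [(38,[(13,1792),(4,1536),(2,452224),(0,256)])], .leaf 0 [(0,[])], .leaf 0 [(0,[]),(0,[]),(0,[]),(0,[]),(0,[]),(0,[])], .leaf 0 [(0,[(13,23808),(26,47616),(33,416640),(4,416640)])], .leaf 0 [(0,[])], .leaf 0 [(0,[])], .leaf 0 [(0,[])], .leaf 0 [(0,[])], .leaf 0 [(0,[])], .leaf 0 [(0,[])], .leaf 0 [(0,[])], .leaf 0 [(0,[])], .leaf 0 [(0,[])], .leaf 0 [(0,[(20,23808),(27,47616),(5,440448),(4,761856)])], .leaf 0 [(0,[(20,23808),(27,47616),(33,1083264),(4,321408)])],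 .leaf 0 [(0,[(19,47616),(20,71424),(23,47616),(32,1428480),(33,892800),(4,583296),(34,190464)])], .leaf 0 [(0,[(13,23808),(26,47616),(33,416640)])], .leaf 0 [(0,[(23,23808),(26,23808),(4,214272),(2,11904)])], .leaf 0 [(0,[(13,23808),(18,47616),(33,416640),(4,654720),(35,1523712)])], .leaf 0 [(0,[(13,23808),(26,47616),(33,416640),(35,1523712)])], .leaf 0 [(0,[(14,382416),(19,44640),(20,62496),(23,46128),(26,8928),(32,290160),(33,249984),(34,178560)]),(768,[(14,244740288),(19,48193344),(20,56445792),(26,20730816),(32,244740288),(3,209793120),(0,782688),(34,192773376)]),(0,[(14,270816),(24,92256),(28,17856),(33,160704)]),(0,[(14,456816),(15,35712),(20,17856),(23,75888),(32,269328),(33,244032),(35,1523712)]),(0,[(14,456816),(15,35712),(20,17856),(23,75888),(32,269328),(33,244032)])], .leaf 1 [(0,[(13,413568),(18,29568),(20,282624),(23,11904),(26,29952),(33,74496),(1,23808),(35,946176)])], .leaf 0 [(12,[(22,301320),(27,19344),(0,69564)])],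 .leaf 1 [(103,[(17,3902931),(18,1049133),(25,2541504),(27,2565312),(0,556512),(35,33572256)])], .leaf 2 [(0,[(13,23808),(26,47616),(33,416640),(35,1523712)])], .leaf 4 [(0,[(15,359104),(19,45632),(20,57536),(23,45632),(32,311488),(4,187488),(34,182528)]),(0,[(14,159216),(15,254944),(19,102176),(20,90272),(23,261392),(32,143344),(34,408704)]),(6,[(19,5952),(32,1458240),(4,1833216),(1,23808),(34,23808)]),(0,[(14,136896),(15,267840),(20,148800),(32,357120),(35,1523712)]),(0,[(14,136896),(15,267840),(20,148800),(32,357120)])], .leaf 0 [(0,[(13,23808),(26,47616),(33,416640)])], .split 1 0 (.leaf 1 [(0,[(0,1)])]) (.leaf 2 [(1248,[(19,47235072),(21,6856704),(28,13713408),(6,126849024),(5,1211351040),(0,992),(36,1511522304)])]), .split 1 0 (.leaf 1 [(0,[(0,1)])]) (.leaf 0 [(30,[(14,690432),(19,1476096),(27,1380864),(34,12082560),(0,33),(36,47235072)])]), .leaf 1 [(0,[(13,23808),(26,47616),(33,416640),(35,1523712)])], .leaf 1 [(0,[(13,363072),(27,35712),(33,68448),(4,68448)]),(0,[(13,363072),(27,35712),(33,68448)]),(2,[(25,69440),(27,37696),(4,575360),(0,992)]),(0,[(13,363072),(27,35712),(33,68448),(35,1523712)]),(0,[(13,363072),(18,47616),(27,83328),(33,68448),(35,1523712)])],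 .leaf 1 [(56,[(23,1718144),(26,995968),(4,10169984),(0,51584)])], .leaf 0 [(12,[(25,19344),(33,298344),(0,69564)])], .leaf 0 [(0,[(20,24552),(26,46128),(4,159960),(2,154380)])]]
noncomputable def t0 : TT := (.split [7,7,0,145,-54,0,0,6,7,0] (.split [8,8,1,-48,-4,0,0,16,-4,-1] (.split [0,0,1,-11,6,0,0,18,-6,-1] (.split [-64,-64,0,0,0,-32,0,64,64,-1] a0 (.split [67,-3,70,330,-57,-384,0,-8,60,50] a1 a2)) a3) (.split [35,-42,112,844,196,0,0,133,-149,-112] a4 a5)) a6)
theorem c0 : chkT (fsm (-1) ([4,4,-1,0,0,0,0,0,0,0] : Fm) :: ([0,0,0,-1,1,0,0,0,0,0] : Fm) :: ([0,0,0,0,0,0,0,-1,1,0] : Fm) :: ([0,0,0,-2,0,0,0,1,0,0] : Fm) :: fsm (-1) ([0,0,0,-1,-1,0,0,-1,1,0] : Fm) :: K1O10.C0) t0 = true := by decide +kernel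
end K1O10M10001

namespace K1O10M10010
noncomputable def a0 : TT := .leaf ⟨false,1,1,0,2,0,31,[[0,0,0,8],[0,0,0,0,8],[],[3,3,0,-6,-6,0,0,3,3],[],[],[0,0,0,0,28],[],[],[],[]]⟩ [.leaf 0 [(0,[])], .leaf 0 [(0,[])], .leaf 0 [(0,[])], .leaf 0 [(0,[])], .leaf 0 [(0,[])], .leaf 0 [(0,[])], .leaf 0 [(0,[(12,384),(32,384),(3,384)])], .leaf 0 [(0,[])], .leaf 0 [(0,[])], .leaf 0 [(0,[])], .leaf 0 [(0,[])], .leaf 0 [(0,[])], .leaf 0 [(0,[])], .leaf 0 [(0,[])], .leaf 0 [(0,[(1,3584)])], .leaf 0 [(0,[])], .leaf 0 [(0,[(19,384),(4,768),(3,2048),(1,1024)])], .leaf 0 [(0,[(19,384),(32,2304),(3,1280)])], .leaf 0 [(4,[(13,256),(18,2048),(19,3968),(22,2304),(25,2048),(31,16128),(32,7936),(1,5120),(33,8192)])], .leaf 0 [(0,[])], .leaf 0 [(0,[])], .leaf 0 [(0,[(19,256),(24,128),(0,128)])], .leaf 1 [(0,[])], .leaf 3 [(0,[(13,896),(18,256),(19,448),(22,128),(25,256),(31,640),(32,896),(1,768),(33,1024)]),(0,[(18,224),(25,640),(32,832),(1,128),(33,896)]),(6,[(13,12288),(18,1024),(22,5824),(25,1344),(32,1792),(1,6272),(33,4096)]),(6,[(13,6912),(18,128),(19,1600),(31,7168),(2,2944),(33,512)]),(0,[(13,1664),(19,192),(22,640),(31,384),(32,384),(1,3840)])],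 .leaf 1 [(0,[])], .split 1 0 (.leaf 1 [(0,[(0,1)])]) (.leaf 0 [(526,[(17,14464),(5,31744),(4,3968),(0,113)])]), .leaf 0 [(0,[(19,268),(0,128)])], .leaf 2 [(0,[(34,4096)])], .leaf 4 [(2,[(14,2432),(18,640),(19,1216),(22,640),(31,2432),(3,960),(1,1536),(33,2560)]),(2,[(14,2432),(18,1024),(19,832),(22,1408),(31,1664),(33,4096)]),(0,[(22,192),(27,128),(31,384),(3,960),(1,512)]),(0,[(13,320),(14,1024),(19,192),(22,320),(31,704),(1,512),(34,4096)]),(2,[(14,3328),(18,128),(19,1472),(22,512),(31,2560),(33,512)])], .leaf 0 [(0,[])], .leaf 1 [(0,[(19,268),(0,128)])], .split 1 0 (.leaf 1 [(0,[(0,1)])]) (.leaf 0 [(30,[(20,8320),(1,3968),(0,1)])]), .leaf 1 [(0,[(34,4096)])], .leaf 3 [(0,[(12,1152),(19,320),(32,512),(3,1024),(1,256)]),(0,[(3,704)]),(0,[(12,1216),(32,1216),(3,1728),(1,256)]),(0,[(34,4096)]),(0,[(3,704),(0,128)])], .leaf 0 [(0,[])], .leaf 1 [(0,[])], .leaf 0 [(0,[])]]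
noncomputable def t0 : TT := a0
theorem c0 : chkT (([4,4,-1,0,0,0,0,0,0,0] : Fm) :: fsm (-1) ([0,0,0,-1,1,0,0,0,0,0] : Fm) :: ([0,0,0,0,0,0,0,-1,1,0] : Fm) :: ([0,0,0,-2,0,0,0,1,0,0] : Fm) :: fsm (-1) ([0,0,0,-1,-1,0,0,-1,1,0] : Fm) :: K1O10.C0) t0 = true := by decide +kernel
end K1O10M10010

namespace K1O10M10011
noncomputable def a0 : TT := .leaf ⟨true,31,33,0,64,2,16367,[[0,0,0,0,5115],[0,0,0,0,5115],[],[1023,2046,0,-3069,-3069,0,0,1023,1023],[],[],[0,0,0,0,18414],[0,0,0,0,165],[0,0,0,0,155],[],[0,0,0,0,496]]⟩ [.leaf 0 [(0,[])], .leaf 0 [(0,[])], .leaf 0 [(0,[])], .leaf 0 [(0,[])], .leaf 0 [(0,[(4,15376)])], .leaf 0 [(0,[])], .leaf 0 [(0,[])], .leaf 0 [(0,[]),(0,[]),(0,[]),(0,[]),(0,[]),(0,[])], .leaf 0 [(0,[(15,130944),(35,130944),(6,261888),(4,130944)])], .leaf 0 [(0,[])], .leaf 0 [(0,[])], .leaf 0 [(0,[])], .leaf 0 [(0,[])], .leaf 0 [(0,[])], .leaf 0 [(0,[])], .leaf 0 [(0,[])], .leaf 0 [(0,[])], .leaf 0 [(0,[])], .leaf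 0 [(0,[(22,261888),(7,392832),(6,1047552)])], .leaf 0 [(0,[(22,261888),(35,1702272),(6,654720)])], .leaf 0 [(56,[(21,7008144),(28,24071872),(34,28378592),(4,82102768),(3,8208640),(2,4095872),(1,102608),(36,28032576)])], .leaf 0 [(0,[(15,130944),(35,130944),(4,130944)])], .leaf 0 [(0,[(6,196416),(5,65472)])], .leaf 0 [(0,[(0,65472)])], .leaf 1 [(0,[(6,196416),(5,65472)])], .leaf 0 [(1122,[(16,443203776),(21,63784608),(22,178336800),(28,1238016),(4,854963136),(3,15237120),(2,36518496),(1,190464),(36,255138432)]),(1162,[(16,511761888),(17,46059552),(3,41902080),(2,37613664),(1,523776)]),(0,[(16,425568),(35,163680),(3,24552)]),(908,[(21,222757568),(28,106550224),(5,97144080),(3,111957120),(2,21873104),(1,1399464),(37,1013419264)]),(100,[(21,17227320),(35,270072),(3,15058560),(2,3141633),(1,188232),(36,68909280)])], .leaf 1 [(0,[(15,130944),(6,130944)])], .split 2 0 (.leaf 2 [(0,[(0,1)])]) (.leaf 0 [(63,[(26,916608),(35,6940032),(6,916608),(4,229152),(0,5)])]),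 .leaf 2 [(0,[(22,261888),(35,1178496),(6,654720),(4,523776)])], .leaf 0 [(0,[(6,196416),(5,65472)])], .leaf 2 [(112,[(21,20046576),(34,49295136),(4,60816624),(3,15586560),(2,447744),(1,194832),(36,80186304)]),(6,[(21,752928),(34,687456),(3,720192),(36,3011712)]),(34,[(21,6225296),(34,17491936),(4,43893520),(3,4801280),(1,60016),(36,24901184)]),(18,[(15,9231552),(21,2302432),(34,9187904),(6,13727296),(5,7540192),(3,4364800),(1,54560),(37,30597248)]),(22,[(17,8838720),(34,11588544),(3,2618880),(1,32736)])], .leaf 0 [(0,[(15,65472),(23,65472),(6,196416),(5,65472)])], .split 2 0 (.leaf 2 [(0,[(0,1)])]) (.leaf 1 [(31,[(20,1309440),(21,785664),(23,2618880),(8,3928320),(7,56567808),(0,41),(38,25141248)])]), .split 2 0 (.leaf 2 [(0,[(0,1)])]) (.leaf 0 [(103,[(26,10933824),(5,86684928),(2,229152),(0,9)])]), .leaf 2 [(0,[(6,196416),(5,65472)])], .leaf 2 [(0,[(15,327360),(6,425568),(4,425568)]),(0,[(15,327360),(35,425568)]),(0,[(6,376464)]),(0,[(6,376464)]),(0,[(15,65472),(35,294624),(6,294624)])],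 .leaf 0 [(0,[(15,130944),(4,327360)])], .leaf 1 [(0,[(35,126852),(4,319176)])], .leaf 0 [(0,[(6,223014),(5,96162)])]]
noncomputable def a1 : TT := .leaf ⟨true,31,33,0,64,2,4190207,[[0,32736,0,0,1538592,0,0,0,-32736],[32736,0,18414,98208,1735008,-589248,0,32736,-130944],[],[327360,163680,-91047,-1047552,-1047552,-229152,0,589248,458304,98208],[],[],[0,0,0,0,6547200],[0,1056,0,0,49632,0,0,0,-1056],[992,0,558,2976,52576,-17856,0,992,-3968],[],[0,0,0,0,126976]]⟩ [.leaf 0 [(0,[(15,2112),(19,1056),(27,1056),(6,2112),(0,1056)])], .leaf 0 [(0,[(15,2976),(19,1426),(29,1984),(6,2976),(0,1984)])], .leaf 0 [(0,[])], .leaf 0 [(0,[(19,558),(22,992),(6,1488),(5,3472)])], .leaf 0 [(0,[(4,3936256)])], .leaf 0 [(0,[])], .leaf 0 [(0,[])], .leaf 0 [(0,[]),(0,[]),(0,[]),(0,[]),(0,[]),(0,[])], .leaf 0 [(0,[(15,68221824),(22,31950336),(25,11654016),(35,16891776),(6,62198400),(4,36140544),(0,916608)])], .leaf 0 [(0,[])], .leaf 0 [(0,[(15,87994368),(19,42163968),(29,58662912),(6,87994368),(0,58662912)])],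 .leaf 0 [(0,[])], .leaf 0 [(0,[])], .leaf 0 [(0,[(15,58662912),(19,29331456),(27,29331456),(6,58662912),(0,29331456)])], .leaf 0 [(0,[])], .leaf 0 [(0,[])], .leaf 0 [(0,[(15,58662912),(19,29331456),(27,29331456),(6,58662912),(0,29331456)])], .leaf 0 [(0,[(15,87994368),(19,42163968),(29,58662912),(6,87994368),(0,58662912)])], .leaf 0 [(0,[(20,3273600),(22,42818688),(27,12570624),(7,101481600),(6,310533696),(37,104755200)])], .leaf 0 [(0,[(15,126884736),(22,161715840),(27,14011008),(35,230068608),(0,1440384)])], .leaf 0 [(0,[(15,98840896),(28,19587040),(34,95851008),(4,213275040),(3,28884064),(2,11173888),(0,4904944)])], .leaf 0 [(0,[(28,9297024),(35,52639488),(4,10475520),(0,3273600)])], .leaf 0 [(0,[(15,37711872),(19,1440384),(25,12570624),(6,54472704)])], .leaf 0 [(0,[(15,35878656),(19,10737408),(20,2749824),(29,4190208),(35,22784256),(6,98208000),(37,87994368)])], .leaf 1 [(0,[(24,56829696),(29,7201920),(6,76078464),(0,19772544)])],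 .leaf 0 [(8,[(21,493571584),(35,915865984),(4,397371392),(3,298301344),(0,38388416),(36,1974286336)]),(0,[(16,49234944),(3,8904192),(2,7594752)]),(0,[(16,40854528),(35,52377600),(3,6809088)]),(26,[(21,1871800832),(3,621842144),(0,599832640),(37,6994155520)]),(0,[(23,29331456),(30,90089472),(34,15713280),(3,45044736),(0,6285312)])], .leaf 1 [(0,[(25,9297024),(6,60758016)])], .leaf 0 [(0,[(15,37842816),(19,16241148),(24,4059264),(29,7332864),(3,9198816),(0,6940032)])], .leaf 2 [(0,[(22,34831104),(27,14011008),(35,285065088),(6,109469184),(4,71888256),(0,1440384)])], .leaf 0 [(0,[(24,1833216),(28,9297024),(6,70578816),(0,3273600)])], .leaf 4 [(6,[(16,53948928),(21,341501952),(34,773617152),(3,200737152),(36,1366007808)]),(370,[(21,25283191296),(25,10600440576),(34,40610448384),(3,8055609408),(0,867111168),(36,101132765184)]),(6,[(21,152942592),(26,183321600),(6,659957760),(3,131467776),(36,611770368)]),(4,[(15,1760847616),(21,269831936),(25,231508992),(34,305885184),(6,674623488),(3,385520960),(0,101612544),(37,1602405376)]),(66,[(15,21119957760),(21,2511244032),(25,59186688),(34,7332340224),(6,10624272384),(3,5437384128),(0,1171163136),(36,10044976128)])],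 .leaf 0 [(0,[(21,1636800),(25,12570624),(6,63409632),(5,556512),(36,6547200)])], .w 2 (.leaf 1 [(0,[(20,10991112),(21,2598420),(26,12177792),(36,24093696),(7,101219712),(0,306900),(38,83149440)])]) (.leaf 1 [(1,[(17,78275868),(21,20670676),(27,1861860),(30,22493724),(8,196221568),(7,64463260),(0,1627097)])]) (.leaf 1 [(1,[(18,78275868),(22,4685340),(23,5712184),(28,24355584),(38,48187392),(9,202439424),(0,4195385),(40,182789888)])]), .leaf 1 [(0,[(19,2758008),(20,4284324),(23,5368704),(27,7332864),(0,6940032),(37,137098368)])], .leaf 2 [(0,[(15,41902080),(19,6765440),(24,72630272),(29,13967360),(6,75423744),(0,26537984)])], .leaf 1 [(0,[(15,103347552),(20,687456),(27,9427968),(6,75260064),(4,64260768),(37,21998592)]),(0,[(15,109763808),(27,11097504),(4,9329760),(0,1669536)]),(0,[(15,98469888),(19,3044448),(27,9427968),(6,40854528)]),(0,[(15,588724224),(19,208102752),(27,235699200),(6,686146560),(5,139324416),(0,226271232),(37,536346624)]),(0,[(15,59186688),(19,802032),(20,802032),(27,21998592),(37,25665024)])],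 .leaf 0 [(0,[(15,29855232),(28,9297024),(35,35878656),(4,14141952),(0,3273600)])], .leaf 0 [(0,[(19,7156908),(27,7594752),(5,4583040),(0,7201920)])], .leaf 0 [(0,[(15,19510656),(19,1542684),(25,12177792),(6,70055040),(5,1309440)])]]
noncomputable def a2 : TT := .leaf ⟨true,31,33,0,64,2,16367,[[0,0,0,0,5115],[0,0,0,0,5115],[],[1023,2046,0,-3069,-3069,0,0,1023,1023],[],[],[0,0,0,0,18414],[0,0,0,0,165],[0,0,0,0,155],[],[0,0,0,0,496]]⟩ [.leaf 0 [(0,[])], .leaf 0 [(0,[])], .leaf 0 [(0,[])], .leaf 0 [(0,[])], .leaf 0 [(0,[(4,15376)])], .leaf 0 [(0,[])], .leaf 0 [(0,[])], .leaf 0 [(0,[]),(0,[]),(0,[]),(0,[]),(0,[]),(0,[])], .leaf 0 [(286,[(15,49038528),(22,9624384),(27,261888),(35,25075776),(6,56698752),(1,130944),(0,261888)])], .leaf 0 [(0,[])], .leaf 0 [(0,[])], .leaf 0 [(0,[])], .leaf 0 [(0,[])], .leaf 0 [(0,[])], .leaf 0 [(0,[])], .leaf 0 [(0,[])], .leaf 0 [(0,[])], .leaf 0 [(0,[])], .leaf 0 [(0,[(22,261888),(7,392832),(6,1047552)])],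 .leaf 0 [(0,[(15,654720),(22,916608),(35,1047552)])], .leaf 0 [(96,[(21,12548800),(24,16760832),(28,49453184),(4,27280000),(3,20296320),(2,9357040),(0,507408),(36,50195200)])], .leaf 0 [(24,[(29,47616),(35,2797440),(1,23808),(0,47616)])], .leaf 0 [(0,[(6,196416),(5,65472)])], .leaf 0 [(0,[(15,159588),(27,36828),(6,141174),(1,2046)])], .leaf 1 [(0,[(23,65472),(6,196416)])], .leaf 0 [(6936,[(16,2501816064),(21,503365104),(28,946626912),(3,502530336),(2,132363924),(0,71123052),(36,2013460416)]),(718,[(16,311024736),(17,34143648),(3,26188800),(2,23209824),(0,654720)]),(126,[(35,30346272),(3,2086920),(1,294624)]),(40,[(21,12539376),(25,12335520),(5,1413600),(3,7276320),(2,480252),(0,181908),(37,35741760)]),(5,[(16,2035088),(17,534688),(34,488312),(3,477400),(2,159929),(0,11935)])], .leaf 1 [(0,[(6,196416),(5,65472)])], .leaf 0 [(0,[(21,14880),(34,46872),(7,36084),(3,11160),(1,3348),(36,59520)])], .leaf 0 [(0,[(25,28644),(6,214830),(5,63426),(1,2046)])],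 .leaf 0 [(0,[(23,65472),(6,196416)])], .leaf 0 [(7,[(17,1242120),(21,906180),(34,974952),(3,946440),(2,189123),(0,23661),(36,3624720)]),(6,[(21,752928),(34,687456),(3,720192),(36,3011712)]),(0,[(21,148016),(34,179872),(3,146080),(0,10208),(36,592064)]),(1950,[(17,981654432),(21,94541568),(25,250986912),(34,753877344),(3,85113600),(0,2127840),(36,378166272)]),(0,[(17,192448),(21,70432),(34,492032),(3,158720),(0,3968),(36,281728)])], .leaf 0 [(0,[(15,130944),(6,163680),(5,98208)])], .leaf 0 [(0,[(29,18600),(7,17484),(3,3720),(1,3348)])], .leaf 1 [(0,[(30,29388),(34,17484),(3,30876),(1,3348)])], .leaf 2 [(0,[(6,196416),(5,65472)])], .leaf 2 [(0,[(15,327360),(35,425568),(6,425568)]),(0,[(35,425568),(4,327360)]),(0,[(6,376464)]),(0,[(6,376464)]),(24,[(15,1101120),(29,53568),(6,6468336),(1,26784),(0,53568)])], .leaf 0 [(286,[(15,41247360),(27,523776),(35,13028928),(1,261888),(0,523776)])], .leaf 1 [(0,[(15,61380),(35,126852),(4,257796)])],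 .leaf 0 [(0,[(15,61380),(6,192324),(5,65472)])]]
noncomputable def a3 : TT := .leaf ⟨true,31,33,0,64,2,16367,[[0,0,0,0,5115],[0,0,0,0,5115],[],[1023,1023,0,-3069,-3069,0,0,1023,1023],[],[],[0,0,0,0,18414],[0,0,0,0,165],[0,0,0,0,155],[],[0,0,0,0,496]]⟩ [.leaf 0 [(0,[])], .leaf 0 [(0,[])], .leaf 0 [(0,[])], .leaf 0 [(0,[])], .leaf 0 [(0,[(4,15376)])], .leaf 0 [(0,[])], .leaf 0 [(0,[])], .leaf 0 [(0,[]),(0,[]),(0,[]),(0,[]),(0,[]),(0,[])], .leaf 0 [(0,[(15,130944),(35,130944),(6,261888),(4,130944)])], .leaf 0 [(0,[])], .leaf 0 [(0,[])], .leaf 0 [(0,[])], .leaf 0 [(0,[])], .leaf 0 [(0,[])], .leaf 0 [(0,[])], .leaf 0 [(0,[])], .leaf 0 [(0,[])], .leaf 0 [(0,[])], .leaf 0 [(0,[(22,130944),(7,261888),(6,982080)])], .leaf 0 [(0,[(22,130944),(35,1702272),(6,654720)])], .leaf 0 [(0,[(21,154752),(22,321408),(25,190464),(28,119040),(34,642816),(4,1249920),(2,71424),(36,619008)])], .leaf 0 [(0,[(15,130944),(35,130944),(4,130944)])], .leaf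 0 [(0,[(15,130944),(6,130944)])], .leaf 0 [(0,[(29,32736),(6,65472),(0,4092)])], .leaf 1 [(0,[(23,65472),(6,196416)])], .leaf 1 [(132,[(16,91988160),(21,3240864),(22,17579232),(25,26843520),(28,1964160),(35,12177792),(4,54800064),(2,2553408),(36,12963456)]),(0,[(16,507408),(17,16368),(22,114576),(2,32736)]),(0,[(16,491040),(35,98208),(3,24552)]),(0,[(16,507408),(17,16368),(22,114576),(2,32736)]),(0,[(16,523776),(22,229152),(34,523776),(35,458304)])], .leaf 1 [(60,[(21,523776),(25,523776),(6,7463808),(0,65472),(36,2095104)])], .leaf 0 [(60,[(34,4644420),(1,280302),(0,90024)])], .leaf 0 [(0,[(28,32736),(6,61380),(0,4092)])], .leaf 0 [(0,[(15,130944),(6,130944)])], .leaf 0 [(0,[(17,414656),(21,109120),(22,207328),(25,109120),(34,414656),(4,392832),(36,436480)]),(6,[(21,752928),(34,687456),(3,548328),(36,3011712)]),(0,[(17,632896),(22,207328),(25,109120),(34,414656),(4,1265792)]),(4,[(17,2771648),(21,141856),(22,927520),(25,436480),(34,2182400),(36,567424)]),(0,[(17,545600),(22,250976),(25,21824),(34,501952)])],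 .leaf 0 [(60,[(21,1309440),(25,1309440),(6,2684352),(0,163680),(36,5237760)])], .leaf 0 [(0,[(29,18600),(7,17484),(3,2697),(1,3348)])], .leaf 1 [(0,[(30,29388),(34,17484),(3,30876),(1,3348)])], .leaf 2 [(0,[(6,196416),(5,65472)])], .leaf 2 [(0,[(15,752928),(22,327360)]),(0,[(4,752928)]),(0,[(6,376464)]),(0,[(6,376464)]),(0,[(15,294624),(35,65472),(6,65472)])], .leaf 0 [(0,[(15,130944),(4,327360)])], .leaf 1 [(0,[(15,61380),(35,126852),(4,257796)])], .leaf 0 [(0,[(15,61380),(6,192324),(5,65472)])]]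
noncomputable def a4 : TT := .leaf ⟨false,1,1,0,2,2,15,[[0,0,0,4],[0,0,0,0,4],[],[1,1,0,-3,-3,0,0,1,1],[],[],[0,0,0,0,14],[],[],[],[]]⟩ [.leaf 0 [(0,[])], .leaf 0 [(0,[])], .leaf 0 [(0,[])], .leaf 0 [(0,[])], .leaf 0 [(0,[])], .leaf 0 [(0,[])], .leaf 0 [(0,[(13,128),(33,128),(4,256),(2,128)])], .leaf 0 [(0,[])], .leaf 0 [(0,[])], .leaf 0 [(0,[])], .leaf 0 [(0,[])], .leaf 0 [(0,[])], .leaf 0 [(0,[])], .leaf 0 [(0,[])], .leaf 0 [(0,[(2,1792)])], .leaf 0 [(0,[])], .leaf 0 [(0,[(20,128),(5,256),(4,896),(2,384)])], .leaf 0 [(0,[(13,256),(20,384),(33,896),(4,384)])], .leaf 0 [(4,[(14,1536),(19,768),(20,1408),(23,2304),(26,768),(32,7168),(33,2816),(2,1920),(34,3072)])], .leaf 0 [(0,[])], .leaf 0 [(0,[])], .leaf 0 [(0,[(0,4)])], .leaf 0 [(26,[(13,3456),(19,1408),(26,2816),(32,42240),(4,22080),(3,45696),(0,2816),(35,49664)])], .leaf 0 [(4,[(14,3296),(19,288),(20,768),(23,1024),(26,288),(32,1248),(33,1536),(34,1152)]),(6,[(14,3392),(19,96),(20,864),(32,3584),(3,1536),(34,384)]),(8,[(19,320),(33,1376),(1,376),(34,1280)]),(6,[(19,1792),(20,4256),(32,13568),(4,1856),(3,12224),(0,624),(35,7168)]),(0,[(14,512),(20,224),(32,512),(33,448)])],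 .leaf 1 [(0,[])], .leaf 0 [(0,[(13,28),(26,12),(32,180),(3,112),(1,5),(0,12)])], .leaf 0 [(0,[(23,64),(0,4)])], .leaf 2 [(0,[(35,2048)])], .leaf 4 [(2,[(15,640),(19,512),(20,1088),(23,128),(32,1408),(2,576),(34,2048)]),(14,[(15,5632),(19,2624),(20,2240),(23,3200),(32,4480),(34,10496)]),(0,[(19,32),(24,64),(4,240),(1,48),(34,128)]),(0,[(14,192),(15,512),(20,64),(23,192),(32,320),(2,192),(35,2048)]),(24,[(15,1472),(19,10240),(20,10752),(23,9152),(32,38464),(3,16960),(0,2176),(34,40960)])], .leaf 0 [(0,[])], .leaf 0 [(0,[(26,4),(32,92),(33,88),(2,8),(0,10)])], .leaf 1 [(0,[(26,4),(32,156),(33,152),(2,8),(0,10)])], .leaf 1 [(0,[(35,2048)])], .leaf 1 [(0,[(13,416),(33,320),(4,320)]),(0,[(2,224)]),(0,[(4,112)]),(0,[(35,2048)]),(0,[(13,288),(33,64),(4,64)])], .leaf 0 [(0,[])], .leaf 0 [(0,[(14,4),(26,4),(32,156),(3,152),(0,10)])], .leaf 0 [(0,[])]]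
noncomputable def t0 : TT := (.split [0,1,0,-2,0,-16,0,-8,0,16] (.split [14,-2,18,-24,151,-112,0,12,-4,14] (.split [2,4,0,-6,14,32,0,2,2,-1] a0 a1) (.split [0,9,8,82,-72,-56,0,-8,8,8] a2 a3)) a4)
theorem c0 : chkT (fsm (-1) ([4,4,-1,0,0,0,0,0,0,0] : Fm) :: fsm (-1) ([0,0,0,-1,1,0,0,0,0,0] : Fm) :: ([0,0,0,0,0,0,0,-1,1,0] : Fm) :: ([0,0,0,-2,0,0,0,1,0,0] : Fm) :: fsm (-1) ([0,0,0,-1,-1,0,0,-1,1,0] : Fm) :: K1O10.C0) t0 = true := by decide +kernel
end K1O10M10011

namespace K1O10M10100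
noncomputable def a0 : TT := .leaf ⟨false,1,1,0,2,1,7,[[0,0,0,2],[0,0,0,0,2],[],[0,0,0,-3,-1,0,0,3],[],[],[0,0,0,7],[],[],[],[]]⟩ [.leaf 0 [(0,[])], .leaf 0 [(0,[])], .leaf 0 [(0,[])], .leaf 0 [(0,[])], .leaf 0 [(0,[])], .leaf 0 [(0,[])], .leaf 0 [(0,[(32,128),(3,256),(2,128)])], .leaf 0 [(0,[])], .leaf 0 [(0,[])], .leaf 0 [(0,[])], .leaf 0 [(0,[])], .leaf 0 [(0,[])], .leaf 0 [(0,[])], .leaf 0 [(0,[])], .leaf 0 [(0,[])], .leaf 0 [(0,[(1,896)])], .leaf 0 [(0,[(32,128),(3,256),(2,128)])], .leaf 0 [(0,[(32,640),(3,256)])], .leaf 0 [(4,[(13,448),(18,384),(19,384),(22,832),(25,384),(31,3904),(32,3328),(2,640),(33,1536)])], .leaf 0 [(0,[])], .leaf 0 [(0,[(3,64),(2,32)])], .leaf 0 [(0,[(19,144),(24,16),(26,16),(3,64),(2,160),(0,32)])], .leaf 0 [(0,[(3,352),(1,448),(34,1024)])], .leaf 3 [(4,[(13,1312),(18,256),(19,256),(22,288),(25,256),(31,736),(32,2112),(2,640),(33,1024)]),(4,[(13,448),(18,128),(25,256),(32,1216),(33,512)]),(6,[(13,2944),(18,320),(19,320),(22,1472),(25,320),(32,1792),(2,2016),(33,1280)]),(6,[(13,1776),(18,288),(19,560),(25,560),(31,1232),(32,2464),(33,1152)]),(0,[(13,384),(19,32),(22,128),(31,128),(32,224)])],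 .leaf 1 [(0,[(3,64),(2,32)])], .split 1 0 (.leaf 1 [(0,[(0,1)])]) (.leaf 0 [(92,[(17,352),(3,2976),(2,992),(0,11)])]), .leaf 0 [(0,[(19,160),(3,52),(2,160),(1,20),(0,32)])], .leaf 2 [(0,[(34,1024)])], .leaf 4 [(4,[(13,288),(14,1024),(18,256),(19,256),(22,544),(31,736),(32,256),(2,320),(33,1024)]),(0,[(18,128),(19,256),(31,256),(33,512)]),(6,[(18,256),(22,512),(31,64),(2,448),(33,1024)]),(0,[(13,160),(14,256),(22,160),(31,96),(2,64),(34,1024)]),(0,[(14,176),(18,80),(19,80),(22,80),(31,176),(32,16),(1,560),(33,320)])], .leaf 0 [(0,[(3,80)])], .leaf 1 [(0,[(19,160),(3,52),(2,160),(1,36),(0,32)])], .split 0 0 (.leaf 0 [(0,[(0,1)])]) (.leaf 1 [(92,[(18,352),(0,11),(35,11264)])]), .leaf 1 [(0,[(34,1024)])], .leaf 4 [(0,[(12,320),(19,64),(32,320),(3,192),(2,128)]),(0,[(12,416),(19,160),(32,352),(3,352),(2,288)]),(0,[(12,224),(32,160)]),(0,[]),(0,[(12,96),(32,288),(2,32),(0,32)])], .leaf 0 [(0,[(2,32)])], .leaf 1 [(0,[(19,32),(4,32)])],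 .leaf 0 [(0,[(19,32),(3,70),(2,32)])]]
noncomputable def t0 : TT := a0
theorem c0 : chkT (([4,4,-1,0,0,0,0,0,0,0] : Fm) :: ([0,0,0,-1,1,0,0,0,0,0] : Fm) :: fsm (-1) ([0,0,0,0,0,0,0,-1,1,0] : Fm) :: ([0,0,0,-2,0,0,0,1,0,0] : Fm) :: fsm (-1) ([0,0,0,-1,-1,0,0,-1,1,0] : Fm) :: K1O10.C0) t0 = true := by decide +kernel
end K1O10M10100

namespace K1O10M10101
noncomputable def a0 : TT := .leaf ⟨true,31,33,0,64,2,65471,[[0,0,0,-11253,33759],[0,0,0,18414,20460],[],[-1023,-1023,-4092,-4092,-18414,0,0,7161,7161,4092],[],[],[-1023,-1023,0,0,79794],[0,0,0,-363,1089],[0,0,0,558,620],[],[0,0,0,0,1984]]⟩ [.leaf 0 [(0,[(1,363)])], .leaf 0 [(0,[])], .leaf 0 [(0,[])], .leaf 0 [(0,[(1,195)])], .leaf 0 [(0,[(32,61504),(2,61504)])], .leaf 0 [(0,[])], .leaf 0 [(0,[])], .leaf 0 [(0,[]),(0,[]),(0,[]),(0,[]),(0,[]),(0,[])], .leaf 0 [(0,[(12,130944),(22,261888),(25,261888),(32,2226048),(3,1309440),(2,1571328)])], .leaf 0 [(0,[])], .leaf 0 [(0,[])], .leaf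 0 [(0,[])], .leaf 0 [(0,[])], .leaf 0 [(0,[(1,10082688)])], .leaf 0 [(0,[])], .leaf 0 [(0,[(15,130944),(1,4190208),(34,4190208)])], .leaf 0 [(0,[(12,130944),(1,9951744)])], .leaf 0 [(0,[])], .leaf 0 [(0,[(19,130944),(24,261888),(26,261888),(3,5761536),(2,1309440),(1,130944)])], .leaf 0 [(0,[(19,130944),(24,261888),(26,261888),(32,7725696),(3,1702272),(2,654720)])], .leaf 0 [(0,[(18,261888),(19,392832),(31,7856640),(32,11915904),(3,5237760),(2,5368704),(33,1047552)])], .leaf 0 [(0,[(22,392832),(25,130944),(32,4059264),(2,3535488)])], .leaf 0 [(0,[(22,392832),(25,130944),(3,785664),(1,2749824)])], .leaf 0 [(0,[(12,130944),(16,173184),(17,88704),(22,88704),(25,173184),(32,827904),(3,1571328),(34,2838528)])], .leaf 0 [(0,[(22,392832),(25,130944),(34,8380416)])], .leaf 0 [(4,[(13,14469312),(18,1178496),(19,1669536),(22,4190208),(25,196416),(31,4124736),(32,15615072),(2,10311840),(33,4713984)]),(0,[(13,1898688),(18,294624),(19,491040),(31,1702272),(32,1178496),(33,1178496)]),(0,[(12,1636800),(32,1407648),(0,384648)]),(0,[(13,2291520),(14,196416),(19,98208),(31,1702272),(32,1047552),(34,8380416)]),(0,[(13,2553408),(14,458304),(15,229152),(31,1178496),(32,1604064),(1,18004800),(34,7332864)])],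 .leaf 1 [(0,[(22,392832),(25,130944)])], .split 0 0 (.leaf 0 [(0,[(0,1)])]) (.leaf 1 [(30,[(17,8118528),(23,11392128),(26,3797376),(4,22784256),(2,89172864),(0,33)])]), .leaf 2 [(0,[(19,392832),(24,523776),(32,7725696),(3,1702272),(2,3273600)])], .leaf 2 [(0,[(22,392832),(25,130944),(3,523776),(1,17022720),(34,8380416)])], .leaf 4 [(0,[(14,1702272),(18,523776),(19,589248),(22,392832),(31,1440384),(3,1047552),(1,98208),(33,2095104)]),(0,[(14,1680448),(18,578336),(19,807488),(22,1003904),(31,1353088),(33,2313344)]),(0,[(18,818400),(31,458304),(3,1636800),(0,392832),(33,3273600)]),(0,[(14,1702272),(18,523776),(19,589248),(22,392832),(31,1440384),(3,1047552),(1,20001696),(34,6285312)]),(0,[(13,130944),(14,2226048),(19,65472),(31,1833216)])], .leaf 0 [(0,[(22,392832),(25,130944)])], .w 2 (.split 1 0 (.leaf 1 [(0,[(0,1)])]) (.leaf 2 [(174,[(18,8380416),(21,18855936),(26,46092288),(28,29331456),(5,722810880),(4,196939776),(3,592914432),(0,32)])]))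 (.split 1 0 (.leaf 1 [(0,[(0,1)])]) (.leaf 2 [(462,[(19,8380416),(27,121516032),(29,104755200),(6,1891878912),(5,517490688),(4,1686558720),(2,589248),(0,32)])])) (.split 1 0 (.leaf 1 [(0,[(0,1)])]) (.leaf 0 [(30,[(20,2029632),(21,4321152),(36,173762688),(7,28414848),(6,159555264),(1,1554960),(0,17),(38,138276864)])])), .split 1 0 (.leaf 1 [(0,[(0,1)])]) (.leaf 0 [(30,[(18,8118528),(23,11392128),(26,3797376),(33,135003264),(3,119813760),(0,33),(35,259792896)])]), .leaf 1 [(0,[(22,392832),(25,130944),(3,523776),(1,523776),(34,8380416)])], .leaf 1 [(0,[(12,2618880),(19,621984),(24,196416),(26,196416),(3,589248)]),(0,[(12,1996896),(24,196416),(26,196416),(32,2127840),(2,916608)]),(0,[(12,1047552),(20,752928),(24,392832),(3,2160576),(1,2226048)]),(0,[(12,1047552),(20,752928),(24,392832),(3,1898688),(34,8380416)]),(0,[(12,1865952),(24,458304),(26,458304),(3,32736),(1,1342176)])], .leaf 0 [(0,[(22,392832),(25,130944),(32,4321152),(2,4059264)])],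 .leaf 1 [(0,[(19,388740),(22,507408),(32,4300692),(2,4308876)])], .leaf 0 [(0,[(19,384648),(22,503316),(25,4092),(3,499224),(1,3686892)])]]
noncomputable def t0 : TT := a0
theorem c0 : chkT (fsm (-1) ([4,4,-1,0,0,0,0,0,0,0] : Fm) :: ([0,0,0,-1,1,0,0,0,0,0] : Fm) :: fsm (-1) ([0,0,0,0,0,0,0,-1,1,0] : Fm) :: ([0,0,0,-2,0,0,0,1,0,0] : Fm) :: fsm (-1) ([0,0,0,-1,-1,0,0,-1,1,0] : Fm) :: K1O10.C0) t0 = true := by decide +kernel
end K1O10M10101

namespace K1O10M10110
noncomputable def a0 : TT := .leaf ⟨false,1,1,0,2,0,31,[[0,0,0,8],[0,0,0,0,8],[],[3,3,0,-6,-6,0,0,3,3],[],[],[0,0,0,0,28],[],[],[],[]]⟩ [.leaf 0 [(0,[])], .leaf 0 [(0,[])], .leaf 0 [(0,[])], .leaf 0 [(0,[])], .leaf 0 [(0,[])], .leaf 0 [(0,[])], .leaf 0 [(0,[(12,768),(19,384)])], .leaf 0 [(0,[])], .leaf 0 [(0,[])], .leaf 0 [(0,[])], .leaf 0 [(0,[])], .leaf 0 [(0,[])], .leaf 0 [(0,[])], .leaf 0 [(0,[])], .leaf 0 [(0,[(1,3584)])], .leaf 0 [(0,[])], .leaf 0 [(0,[(19,384),(3,1280),(2,768),(1,256)])],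 .leaf 0 [(0,[(19,384),(32,2304),(3,1280)])], .leaf 0 [(4,[(13,256),(18,2048),(19,3968),(22,2304),(25,2048),(31,16128),(32,7936),(1,5120),(33,8192)])], .leaf 0 [(0,[])], .leaf 0 [(0,[])], .leaf 0 [(0,[(19,256),(24,128),(0,128)])], .leaf 1 [(0,[])], .leaf 3 [(0,[(13,896),(18,256),(19,448),(22,128),(25,256),(31,640),(32,896),(1,768),(33,1024)]),(4,[(13,3072),(18,512),(19,1216),(25,768),(32,2944),(33,2048)]),(6,[(13,12288),(18,1024),(22,6464),(25,704),(1,8064),(33,4096)]),(4,[(13,4096),(18,512),(19,1984),(31,5120),(32,2944),(33,2048)]),(0,[(13,1664),(19,192),(22,640),(31,384),(32,384),(1,3840)])], .leaf 1 [(0,[])], .split 1 0 (.leaf 1 [(0,[(0,1)])]) (.leaf 0 [(92,[(17,2432),(5,3968),(3,1984),(0,19)])]), .leaf 0 [(0,[(19,268),(0,128)])], .leaf 2 [(0,[(34,4096)])], .leaf 4 [(0,[(13,128),(14,768),(18,256),(19,448),(22,384),(31,640),(2,384),(1,128),(33,1024)]),(6,[(13,128),(14,896),(18,3072),(19,4928),(31,7168),(33,12288)]),(0,[(14,576),(18,64),(22,320),(3,192),(2,512),(33,256)]),(0,[(13,320),(14,1024),(19,192),(22,320),(31,704),(1,512),(34,4096)]),(2,[(14,3328),(18,128),(19,1472),(22,512),(31,2560),(33,512)])],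 .leaf 0 [(0,[])], .leaf 1 [(0,[(19,268),(0,128)])], .split 1 0 (.leaf 1 [(0,[(0,1)])]) (.leaf 0 [(30,[(20,8320),(1,3968),(0,1)])]), .leaf 1 [(0,[(34,4096)])], .leaf 3 [(0,[(12,832),(32,832),(3,1344),(1,256)]),(0,[(3,704)]),(0,[(12,1216),(32,1216),(3,1728),(1,256)]),(0,[(34,4096)]),(0,[(3,704),(0,128)])], .leaf 0 [(0,[])], .leaf 1 [(0,[])], .leaf 0 [(0,[])]]
noncomputable def t0 : TT := a0
theorem c0 : chkT (([4,4,-1,0,0,0,0,0,0,0] : Fm) :: fsm (-1) ([0,0,0,-1,1,0,0,0,0,0] : Fm) :: fsm (-1) ([0,0,0,0,0,0,0,-1,1,0] : Fm) :: ([0,0,0,-2,0,0,0,1,0,0] : Fm) :: fsm (-1) ([0,0,0,-1,-1,0,0,-1,1,0] : Fm) :: K1O10.C0) t0 = true := by decide +kernel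
end K1O10M10110

namespace K1O10M10111
noncomputable def a0 : TT := .leaf ⟨true,31,33,0,64,3,523775,[[0,0,0,0,170841],[0,0,0,0,170841],[],[74679,74679,0,-149358,-149358,0,0,94116,82863],[],[],[0,0,0,0,598455],[0,0,0,0,5511],[0,0,0,0,5177],[],[0,0,0,0,15872]]⟩ [.leaf 0 [(0,[])], .leaf 0 [(0,[])], .leaf 0 [(0,[])], .leaf 0 [(0,[])], .leaf 0 [(0,[(2,492032)])], .leaf 0 [(0,[])], .leaf 0 [(0,[])], .leaf 0 [(0,[]),(0,[]),(0,[]),(0,[]),(0,[]),(0,[])], .leaf 0 [(0,[(13,19117824),(20,9558912)])], .leaf 0 [(0,[])], .leaf 0 [(0,[])], .leaf 0 [(0,[])], .leaf 0 [(0,[])], .leaf 0 [(0,[])], .leaf 0 [(0,[])], .leaf 0 [(0,[])], .leaf 0 [(0,[])], .leaf 0 [(0,[])], .leaf 0 [(0,[(20,9558912),(4,23962752),(3,20165376)])], .leaf 0 [(0,[(20,9558912),(33,46877952),(4,14403840),(2,1047552)])], .leaf 0 [(24,[(19,212964544),(23,284323072),(26,264292608),(32,1109940864),(33,565463808),(2,871694208),(1,100152320),(0,2503808),(34,851858176)])], .leaf 0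 [(0,[(13,9558912),(33,9558912)])], .leaf 0 [(0,[(4,9558912)])], .w 2 (.leaf 0 [(0,[(18,1354452),(19,740652),(26,2095104),(34,8511360),(5,20558208),(0,79794),(36,23700864)])]) (.leaf 0 [(0,[(15,9558912),(19,1357056),(27,2095104),(35,8511360),(6,20474880),(0,184512)])]) (.leaf 0 [(0,[(16,9558912),(20,742016),(21,698368),(28,742016),(30,1353088),(36,9864448),(7,20558208),(0,163680),(38,22347776)])]), .leaf 1 [(0,[(4,9558912)])], .leaf 0 [(2322,[(14,46153913520),(19,3164261760),(23,13511964048),(26,5415090912),(32,19239781968),(33,26403711840),(2,29054149344),(1,4391861760),(0,109796544),(34,12657047040)]),(4,[(14,72826347),(32,82235901),(33,45175680),(1,8961480),(0,224037)]),(0,[(24,4910400),(33,13716384),(1,1792296)]),(124,[(13,4069052064),(19,359866848),(21,1391280000),(23,791720160),(32,993799488),(1,1769053440),(0,44226336),(35,6940948608)]),(18,[(15,211858464),(32,303227616),(33,211474560),(1,87018240),(0,2175456)])], .leaf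 1 [(0,[(4,9558912)])], .split 2 0 (.leaf 2 [(0,[(0,1)])]) (.leaf 0 [(51423,[(24,8564785152),(27,8564785152),(33,307544506368),(34,105710567424),(2,17129570304),(0,6457)])]), .w 2 (.leaf 0 [(31,[(18,42671376),(19,24371952),(34,328800384),(5,702252672),(0,2319141),(36,779902464)])]) (.leaf 0 [(15,[(15,142201092),(19,21335688),(20,5962044),(35,164400192),(6,351126336),(0,1555983),(37,190785408)])]) (.leaf 2 [(0,[(23,720192),(36,38955840),(7,26188800),(5,20754624),(2,92070)])]), .leaf 0 [(0,[(4,9558912)])], .leaf 0 [(468,[(14,3756084992),(19,1647079104),(23,1925411488),(32,5544561792),(2,2532587904),(1,2233468160),(0,55836704),(34,6588316416)]),(34,[(19,95916480),(24,227286048),(32,51133632),(1,167510112),(34,383665920)]),(66,[(14,1007177600),(23,275058784),(32,792080256),(2,1826930688),(1,319066880),(0,7976672)]),(330,[(15,3831405072),(19,359752272),(32,5405417424),(1,813816960),(0,20345424),(34,1439009088)]),(342,[(19,939981504),(32,5196250752),(1,1242666744),(0,78959232),(34,3759926016)])],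 .leaf 0 [(0,[(21,654720),(4,10606464)])], .split 1 0 (.leaf 1 [(0,[(0,1)])]) (.leaf 2 [(14990,[(18,19874156544),(19,9155604480),(21,34862530560),(5,648539443200),(4,51493466112),(0,13856),(36,292979343360)])]), .split 2 0 (.leaf 2 [(0,[(0,1)])]) (.leaf 0 [(103,[(14,659139360),(24,349882368),(3,2437293408),(1,14665728),(0,9)])]), .leaf 2 [(0,[(4,9558912)])], .leaf 2 [(0,[(13,16531680),(20,6940032),(33,1865952),(4,2651616),(2,785664)]),(0,[(13,9591648),(33,8805984),(2,785664)]),(0,[(21,1865952),(4,9591648)]),(0,[(21,1865952),(4,9591648)]),(0,[(13,9591648),(17,2095104),(25,2095104),(4,4795824)])], .leaf 0 [(0,[(13,9558912),(2,11654016)])], .leaf 1 [(0,[(13,7165092),(2,13450404)])], .leaf 0 [(0,[(4,10307748)])]]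
noncomputable def a1 : TT := .leaf ⟨true,31,33,0,64,3,16367,[[0,0,0,0,5115],[0,0,0,0,5115],[],[0,1023,0,-11253,-3069,0,0,8184],[],[],[0,0,0,0,31713],[0,0,0,0,165],[0,0,0,0,155],[],[0,0,0,0,496]]⟩ [.leaf 0 [(0,[])], .leaf 0 [(0,[])], .leaf 0 [(0,[])], .leaf 0 [(0,[])], .leaf 0 [(0,[(2,15376)])], .leaf 0 [(0,[])], .leaf 0 [(0,[])], .leaf 0 [(0,[]),(0,[]),(0,[]),(0,[]),(0,[]),(0,[])], .leaf 0 [(0,[(4,916608),(2,392832)])], .leaf 0 [(0,[])], .leaf 0 [(0,[])], .leaf 0 [(0,[])], .leaf 0 [(0,[])], .leaf 0 [(0,[])], .leaf 0 [(0,[])], .leaf 0 [(0,[])], .leaf 0 [(0,[])], .leaf 0 [(0,[])], .leaf 0 [(0,[(20,130944),(4,327360),(3,130944)])], .leaf 0 [(0,[(20,130944),(33,1702272),(4,130944)])], .leaf 0 [(0,[(14,65472),(19,130944),(20,196416),(23,261888),(26,65472),(32,1767744),(33,1309440),(2,1047552),(34,523776)])], .leaf 0 [(0,[(2,392832)])], .leaf 0 [(0,[(4,720192),(3,65472)])], .leaf 0 [(0,[(25,36828),(4,720192),(3,45012),(0,4092)])],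 .leaf 1 [(0,[(4,720192),(3,65472)])], .leaf 1 [(0,[(14,556512),(15,49104),(20,49104),(23,81840),(32,441936),(33,834768),(2,294624)]),(0,[(14,474672),(15,49104),(20,49104),(32,523776),(33,834768)]),(0,[(14,65472),(28,261888),(33,523776),(1,65472)]),(0,[(14,474672),(15,49104),(20,49104),(32,523776),(33,834768)]),(0,[(14,474672),(15,49104),(20,49104),(32,523776),(33,900240)])], .leaf 1 [(0,[(4,720192),(3,65472)])], .leaf 0 [(4,[(28,163680),(32,523776),(1,40920),(0,98208)])], .leaf 0 [(0,[(22,8184),(26,28644),(4,697686),(0,4092)])], .leaf 0 [(0,[(4,720192),(3,65472)])], .leaf 0 [(0,[(14,32736),(15,572880),(20,49104),(23,81840),(32,441936),(33,310992),(2,294624)]),(0,[(28,261888),(1,24552)]),(0,[(15,572880),(20,49104),(23,49104),(32,474672),(33,376464),(2,949344)]),(0,[(15,572880),(20,49104),(23,49104),(32,474672),(33,310992)]),(0,[(15,572880),(20,49104),(23,49104),(32,474672),(33,310992)])], .leaf 0 [(0,[(4,752928)])], .leaf 0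 [(4,[(28,163680),(32,196416),(1,40920),(0,98208)])], .leaf 1 [(4,[(24,196416),(28,491040),(1,196416),(0,98208)])], .leaf 2 [(0,[(4,720192),(3,65472)])], .leaf 2 [(0,[(13,425568),(33,327360)]),(0,[(33,523776),(2,229152)]),(0,[(21,261888)]),(0,[(21,261888)]),(0,[(21,261888),(25,36828),(0,4092)])], .leaf 0 [(0,[(3,65472),(2,458304)])], .leaf 1 [(0,[(20,65472),(3,65472),(2,446028)])], .leaf 0 [(0,[(20,65472),(4,730422),(3,65472)])]]
noncomputable def t0 : TT := (.split [0,8,9,0,55,-56,0,0,-2,7] a0 a1)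
theorem c0 : chkT (fsm (-1) ([4,4,-1,0,0,0,0,0,0,0] : Fm) :: fsm (-1) ([0,0,0,-1,1,0,0,0,0,0] : Fm) :: fsm (-1) ([0,0,0,0,0,0,0,-1,1,0] : Fm) :: ([0,0,0,-2,0,0,0,1,0,0] : Fm) :: fsm (-1) ([0,0,0,-1,-1,0,0,-1,1,0] : Fm) :: K1O10.C0) t0 = true := by decide +kernel
end K1O10M10111

namespace K1O10M10000
theorem top : ∃ t, chkT (([4,4,-1,0,0,0,0,0,0,0] : Fm) :: ([0,0,0,-1,1,0,0,0,0,0] : Fm) :: ([0,0,0,0,0,0,0,-1,1,0] : Fm) :: ([0,0,0,-2,0,0,0,1,0,0] : Fm) :: fsm (-1) ([0,0,0,-1,-1,0,0,-1,1,0] : Fm) :: K1O10.C0) t = true := ⟨_, c0⟩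
end K1O10M10000
namespace K1O10M10001
theorem top : ∃ t, chkT (fsm (-1) ([4,4,-1,0,0,0,0,0,0,0] : Fm) :: ([0,0,0,-1,1,0,0,0,0,0] : Fm) :: ([0,0,0,0,0,0,0,-1,1,0] : Fm) :: ([0,0,0,-2,0,0,0,1,0,0] : Fm) :: fsm (-1) ([0,0,0,-1,-1,0,0,-1,1,0] : Fm) :: K1O10.C0) t = true := ⟨_, c0⟩
end K1O10M10001
namespace K1O10M10010
theorem top : ∃ t, chkT (([4,4,-1,0,0,0,0,0,0,0] : Fm) :: fsm (-1) ([0,0,0,-1,1,0,0,0,0,0] : Fm) :: ([0,0,0,0,0,0,0,-1,1,0] : Fm) :: ([0,0,0,-2,0,0,0,1,0,0] : Fm) :: fsm (-1) ([0,0,0,-1,-1,0,0,-1,1,0] : Fm) :: K1O10.C0) t = true := ⟨_, c0⟩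
end K1O10M10010
namespace K1O10M10011
theorem top : ∃ t, chkT (fsm (-1) ([4,4,-1,0,0,0,0,0,0,0] : Fm) :: fsm (-1) ([0,0,0,-1,1,0,0,0,0,0] : Fm) :: ([0,0,0,0,0,0,0,-1,1,0] : Fm) :: ([0,0,0,-2,0,0,0,1,0,0] : Fm) :: fsm (-1) ([0,0,0,-1,-1,0,0,-1,1,0] : Fm) :: K1O10.C0) t = true := ⟨_, c0⟩
end K1O10M10011
namespace K1O10M10100
theorem top : ∃ t, chkT (([4,4,-1,0,0,0,0,0,0,0] : Fm) :: ([0,0,0,-1,1,0,0,0,0,0] : Fm) :: fsm (-1) ([0,0,0,0,0,0,0,-1,1,0] : Fm) :: ([0,0,0,-2,0,0,0,1,0,0] : Fm) :: fsm (-1) ([0,0,0,-1,-1,0,0,-1,1,0] : Fm) :: K1O10.C0) t = true := ⟨_, c0⟩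
end K1O10M10100
namespace K1O10M10101
theorem top : ∃ t, chkT (fsm (-1) ([4,4,-1,0,0,0,0,0,0,0] : Fm) :: ([0,0,0,-1,1,0,0,0,0,0] : Fm) :: fsm (-1) ([0,0,0,0,0,0,0,-1,1,0] : Fm) :: ([0,0,0,-2,0,0,0,1,0,0] : Fm) :: fsm (-1) ([0,0,0,-1,-1,0,0,-1,1,0] : Fm) :: K1O10.C0) t = true := ⟨_, c0⟩
end K1O10M10101
namespace K1O10M10110
theorem top : ∃ t, chkT (([4,4,-1,0,0,0,0,0,0,0] : Fm) :: fsm (-1) ([0,0,0,-1,1,0,0,0,0,0] : Fm) :: fsm (-1) ([0,0,0,0,0,0,0,-1,1,0] : Fm) :: ([0,0,0,-2,0,0,0,1,0,0] : Fm) :: fsm (-1) ([0,0,0,-1,-1,0,0,-1,1,0] : Fm) :: K1O10.C0) t = true := ⟨_, c0⟩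
end K1O10M10110
namespace K1O10M10111
theorem top : ∃ t, chkT (fsm (-1) ([4,4,-1,0,0,0,0,0,0,0] : Fm) :: fsm (-1) ([0,0,0,-1,1,0,0,0,0,0] : Fm) :: fsm (-1) ([0,0,0,0,0,0,0,-1,1,0] : Fm) :: ([0,0,0,-2,0,0,0,1,0,0] : Fm) :: fsm (-1) ([0,0,0,-1,-1,0,0,-1,1,0] : Fm) :: K1O10.C0) t = true := ⟨_, c0⟩
end K1O10M10111
def K1O10P10 := (splE (splE (splE K1O10M10000.top K1O10M10001.top) (splE K1O10M10010.top K1O10M10011.top)) (splE (splE K1O10M10100.top K1O10M10101.top) (splE K1O10M10110.top K1O10M10111.top)))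

end Vale.Agent.P235
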