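import Vale.Agent.P235.T.K1O10C

namespace Vale.Agent.P235

set_option maxRecDepth 100000

namespace K1O10M110111111101
noncomputable def a0 : TT := .leaf ⟨false,0,0,0,1,0,0,[[],[],[],[],[],[],[],[],[],[],[]]⟩ [.leaf 0 [(0,[])], .leaf 0 [(0,[])], .leaf 0 [(0,[])], .leaf 0 [(0,[])], .leaf 0 [(0,[])], .leaf 0 [(0,[])], .leaf 0 [(0,[])], .leaf 0 [(0,[])], .leaf 0 [(0,[])], .leaf 0 [(0,[])], .leaf 0 [(0,[])], .leaf 0 [(0,[])], .leaf 0 [(0,[])], .leaf 0 [(0,[])], .leaf 0 [(0,[])], .leaf 0 [(0,[])], .leaf 0 [(8,[(12,512),(19,1280),(28,768),(32,512),(7,512),(2,128),(1,128),(0,512)])], .leaf 0 [(0,[(19,64),(26,64),(39,64)])], .leaf 0 [(0,[(20,64),(29,64),(38,64)])], .leaf 0 [(0,[(10,4)])], .leaf 0 [(2,[(11,4),(2,4),(1,12)])], .leaf 0 [(2,[(12,12),(19,48),(32,12),(11,8),(7,12),(2,20),(0,24)])], .leaf 0 [(8,[(12,464),(19,2072),(29,24),(32,488),(7,512),(2,524),(1,128),(0,512),(41,1152)])],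 .leaf 0 [(0,[(20,64),(29,32)]),(0,[(20,62),(29,30),(38,2)]),(0,[(19,2),(20,60),(26,2),(29,28),(39,2)]),(22,[(25,696),(26,416),(32,736),(39,80),(10,924),(9,240),(7,60),(6,20),(41,160)]),(0,[(20,64),(29,32)])], .leaf 0 [(2,[(13,36),(19,88),(28,44),(29,36),(7,33),(6,3),(2,44),(0,48)])], .leaf 0 [(21,[(13,87),(19,68),(23,87),(25,28),(11,88),(10,88),(7,31),(40,112)])], .leaf 0 [(2,[(13,48),(19,124),(28,68),(29,60),(7,48),(5,12),(2,56),(0,60)])], .leaf 0 [(2,[(12,198),(19,532),(28,260),(32,198),(7,198),(5,384),(2,74),(0,198)])], .leaf 0 [(0,[(21,64),(32,32)]),(2,[(21,164),(25,4),(26,4),(29,4),(32,72),(38,8),(40,16)]),(0,[(20,2),(21,60),(29,2),(32,28),(38,2)]),(13,[(12,28),(19,240),(25,348),(29,420),(38,28),(11,448),(8,1332),(7,129),(6,43),(40,1392)]),(0,[(21,64),(32,32)])], .leaf 0 [(119,[(19,1386),(23,15),(29,139),(32,154),(9,181),(7,308),(2,453),(0,293)])],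 .leaf 0 [(695,[(23,1724),(24,961),(31,1724),(33,961),(3,1730),(2,961),(0,99),(41,30752)])], .leaf 0 [(0,[(12,1),(32,5),(11,10),(10,15),(8,10),(6,1),(0,5)])], .leaf 0 [(2,[(19,424),(28,110),(29,102),(32,102),(7,108),(6,96),(2,212),(0,216)])], .leaf 0 [(0,[(19,64),(26,32)]),(0,[(19,62),(26,30),(39,2)]),(0,[(19,60),(26,28),(1,4)]),(2,[(12,204),(19,488),(28,40),(32,204),(7,108),(6,96),(2,148),(0,216)]),(0,[(19,64),(26,32)])], .leaf 0 [(30,[(22,52),(28,52),(11,72),(10,124),(8,1860),(41,1664)])], .leaf 0 [(0,[(10,4)])], .leaf 0 [(38,[(26,144),(11,144),(5,288),(4,4),(1,604)])]]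
noncomputable def t0 : TT := a0
theorem c0 : chkT (fsm (-1) ([0,0,0,0,0,0,0,0,-2,1] : Fm) :: ([0,0,0,-1,8,0,0,0,0,0] : Fm) :: fsm (-1) ([0,0,0,-2,-2,0,0,1,2,0] : Fm) :: fsm (-1) ([0,0,0,-31,33,0,0,0,0,0] : Fm) :: fsm (-1) ([3,3,0,-4,-4,0,0,0,0,0] : Fm) :: fsm (-1) ([0,0,0,-1,0,0,0,1,0,0] : Fm) :: fsm (-1) ([0,0,-1,0,0,4,0,0,0,0] : Fm) :: fsm (-1) ([4,4,-1,0,0,0,0,0,0,0] : Fm) :: fsm (-1) ([0,0,0,-1,1,0,0,0,0,0] : Fm) :: ([0,0,0,0,0,0,0,-1,1,0] : Fm) :: fsm (-1) ([0,0,0,-2,0,0,0,1,0,0] : Fm) :: fsm (-1) ([0,0,0,-1,-1,0,0,-1,1,0] : Fm) :: K1O10.C0) t0 = true := by decide +kernel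
end K1O10M110111111101

namespace K1O10M110111111101
theorem top : ∃ t, chkT (fsm (-1) ([0,0,0,0,0,0,0,0,-2,1] : Fm) :: ([0,0,0,-1,8,0,0,0,0,0] : Fm) :: fsm (-1) ([0,0,0,-2,-2,0,0,1,2,0] : Fm) :: fsm (-1) ([0,0,0,-31,33,0,0,0,0,0] : Fm) :: fsm (-1) ([3,3,0,-4,-4,0,0,0,0,0] : Fm) :: fsm (-1) ([0,0,0,-1,0,0,0,1,0,0] : Fm) :: fsm (-1) ([0,0,-1,0,0,4,0,0,0,0] : Fm) :: fsm (-1) ([4,4,-1,0,0,0,0,0,0,0] : Fm) :: fsm (-1) ([0,0,0,-1,1,0,0,0,0,0] : Fm) :: ([0,0,0,0,0,0,0,-1,1,0] : Fm) :: fsm (-1) ([0,0,0,-2,0,0,0,1,0,0] : Fm) :: fsm (-1) ([0,0,0,-1,-1,0,0,-1,1,0] : Fm) :: K1O10.C0) t = true := ⟨_, c0⟩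
end K1O10M110111111101
def K1O10P110111111101 := K1O10M110111111101.top

end Vale.Agent.P235
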