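import Vale.Agent.P235.T.K1O10C

namespace Vale.Agent.P235

set_option maxRecDepth 100000

namespace K1O10M11011111111
noncomputable def a0 : TT := .leaf ⟨false,1,0,0,1,0,31,[[0,0,0,16,-16,0,0,-16,16],[],[],[3,3,0,-6,-6,0,0,3,3],[],[],[],[],[],[],[]]⟩ [.leaf 0 [(32,[(8,528),(2,16)])], .leaf 0 [(0,[])], .leaf 0 [(0,[])], .leaf 0 [(0,[(1,8)])], .leaf 0 [(0,[])], .leaf 0 [(0,[])], .leaf 0 [(0,[(18,768),(25,384)])], .leaf 0 [(0,[])], .leaf 0 [(0,[])], .leaf 0 [(0,[])], .leaf 0 [(0,[])], .leaf 0 [(32,[(8,473088),(2,14336)])], .leaf 0 [(0,[])], .leaf 0 [(0,[])], .leaf 0 [(32,[(8,473088),(2,14336)])], .leaf 0 [(0,[])], .leaf 0 [(0,[(18,1280),(25,1664)])], .leaf 0 [(0,[(18,1280),(25,1664)])], .leaf 0 [(6,[(24,1280),(31,6144),(37,17024),(6,1312),(5,2272),(39,5120)])], .leaf 0 [(0,[(27,384),(1,640)])], .leaf 0 [(0,[(26,384),(9,640),(8,640)])],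 .leaf 0 [(0,[(18,384),(22,128),(30,128),(8,1664),(0,816)])], .leaf 1 [(6,[(38,3328),(8,8320),(0,5632)])], .leaf 0 [(10,[(24,3520),(37,8800),(6,2552),(5,1672),(2,32),(39,14080)]),(6,[(24,960),(37,7168),(6,984),(5,1312),(39,3840)]),(8,[(24,1616),(29,4528),(6,1456),(1,1336),(39,6464)]),(6,[(24,5856),(31,7168),(6,1640),(5,656),(1,2800),(40,5248)]),(98,[(8,1525920),(6,16632),(5,50688),(2,47296),(1,10560)])], .leaf 1 [(6,[(26,2688),(38,7296),(8,1664),(0,1664)])], .leaf 0 [(2,[(18,424),(22,192),(27,308),(6,192),(1,152)])], .leaf 0 [(0,[(22,128),(26,372),(8,1240),(0,869)])], .leaf 2 [(6,[(26,2688),(38,75008),(8,35200),(0,5632),(40,28672)])], .leaf 4 [(6,[(24,2176),(28,2240),(6,864),(5,2496),(39,8704)]),(28,[(24,12224),(28,18880),(5,8736),(0,192),(39,48896)]),(4,[(24,1696),(8,8640),(6,1088),(0,936),(39,6784)]),(6,[(24,4424),(28,4480),(38,101040),(8,11408),(6,1428),(5,1372),(0,712),(40,10976)]),(0,[(24,216),(8,1728),(6,188),(5,404),(39,864)])],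 .leaf 0 [(0,[(26,384),(8,1408),(0,352)])], .leaf 0 [(27,[(22,215),(23,3369),(30,215),(32,3369),(8,1241),(4,4256),(3,112),(0,1056),(40,107808)])], .leaf 1 [(32,[(3,132),(2,80),(1,2508)])], .leaf 1 [(6,[(38,75008),(8,37888),(0,5632),(40,28672)])], .leaf 1 [(0,[(18,1472),(25,736)]),(0,[(27,736),(1,288)]),(0,[(26,736),(8,576)]),(214,[(8,3391840),(2,68672),(0,196608),(40,880640)]),(0,[(18,704),(25,352)])], .leaf 1 [(0,[(38,1152),(8,640)])], .leaf 0 [(2,[(8,76),(3,12),(1,152)])], .leaf 0 [(0,[(8,1740)])]]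
noncomputable def t0 : TT := a0
theorem c0 : chkT (fsm (-1) ([0,0,0,-1,8,0,0,0,0,0] : Fm) :: fsm (-1) ([0,0,0,-2,-2,0,0,1,2,0] : Fm) :: fsm (-1) ([0,0,0,-31,33,0,0,0,0,0] : Fm) :: fsm (-1) ([3,3,0,-4,-4,0,0,0,0,0] : Fm) :: fsm (-1) ([0,0,0,-1,0,0,0,1,0,0] : Fm) :: fsm (-1) ([0,0,-1,0,0,4,0,0,0,0] : Fm) :: fsm (-1) ([4,4,-1,0,0,0,0,0,0,0] : Fm) :: fsm (-1) ([0,0,0,-1,1,0,0,0,0,0] : Fm) :: ([0,0,0,0,0,0,0,-1,1,0] : Fm) :: fsm (-1) ([0,0,0,-2,0,0,0,1,0,0] : Fm) :: fsm (-1) ([0,0,0,-1,-1,0,0,-1,1,0] : Fm) :: K1O10.C0) t0 = true := by decide +kernel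
end K1O10M11011111111

namespace K1O10M11011111111
theorem top : ∃ t, chkT (fsm (-1) ([0,0,0,-1,8,0,0,0,0,0] : Fm) :: fsm (-1) ([0,0,0,-2,-2,0,0,1,2,0] : Fm) :: fsm (-1) ([0,0,0,-31,33,0,0,0,0,0] : Fm) :: fsm (-1) ([3,3,0,-4,-4,0,0,0,0,0] : Fm) :: fsm (-1) ([0,0,0,-1,0,0,0,1,0,0] : Fm) :: fsm (-1) ([0,0,-1,0,0,4,0,0,0,0] : Fm) :: fsm (-1) ([4,4,-1,0,0,0,0,0,0,0] : Fm) :: fsm (-1) ([0,0,0,-1,1,0,0,0,0,0] : Fm) :: ([0,0,0,0,0,0,0,-1,1,0] : Fm) :: fsm (-1) ([0,0,0,-2,0,0,0,1,0,0] : Fm) :: fsm (-1) ([0,0,0,-1,-1,0,0,-1,1,0] : Fm) :: K1O10.C0) t = true := ⟨_, c0⟩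
end K1O10M11011111111
def K1O10P11011111111 := K1O10M11011111111.top

end Vale.Agent.P235
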