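import Vale.Agent.P235.T.K1O11C

namespace Vale.Agent.P235

set_option maxRecDepth 100000

namespace K1O11M00000
noncomputable def a0 : TT := .leaf ⟨true,1,8,0,9,1,127,[[0,0,0,0,8],[0,0,0,0,40],[],[0,0,0,0,-40,0,0,0,72],[],[],[0,0,0,0,24],[0,0,0,0,8],[0,0,0,0,5],[],[0,0,0,0,16]]⟩ [.leaf 0 [(0,[])], .leaf 0 [(0,[])], .leaf 0 [(0,[])], .leaf 0 [(0,[])], .leaf 0 [(0,[(4,16)])], .leaf 0 [(0,[])], .leaf 0 [(0,[])], .leaf 0 [(0,[]),(0,[]),(0,[]),(0,[]),(0,[]),(0,[])], .leaf 0 [(0,[(6,2560)])], .leaf 0 [(0,[])], .leaf 0 [(0,[])], .leaf 0 [(0,[])], .leaf 0 [(0,[])], .leaf 0 [(0,[])], .leaf 0 [(0,[])], .leaf 0 [(0,[])], .leaf 0 [(0,[])], .leaf 0 [(0,[])], .leaf 0 [(0,[(7,16384)])], .leaf 0 [(0,[(6,3584)])], .leaf 0 [(2,[(21,3584),(22,3584),(25,3584),(28,3584),(34,19456),(36,22528),(7,15360),(37,14336)])], .leaf 0 [(0,[(18,512),(23,512),(6,8704),(38,16384)])], .leaf 0 [(0,[])], .leaf 0 [(0,[(19,512),(27,512),(6,7680)])],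 .leaf 1 [(0,[])], .leaf 3 [(0,[(16,4096),(36,4096),(7,4096),(6,384)]),(0,[(16,3456),(26,128),(36,384),(7,384)]),(0,[(16,8192),(25,4096),(6,2432)]),(0,[(16,4096),(28,512),(36,1024),(0,32)]),(92,[(22,90624),(28,38912),(36,270336),(0,5120)])], .leaf 1 [(0,[])], .leaf 2 [(32,[(28,32768),(34,89600),(36,254464),(7,188928),(0,2048)])], .leaf 0 [(0,[(19,512),(6,7792)])], .leaf 0 [(0,[(6,4096)])], .split 4 3 (.leaf 4 [(4,[(18,4096),(22,4096),(26,8192),(35,5120),(8,12288),(1,512),(38,16384)]),(4,[(22,4096),(23,4096),(26,4096),(29,8192),(2,256),(38,16384)]),(124,[(22,111104),(26,222208),(31,221696),(35,64000),(36,519680),(8,209920),(0,1),(38,460800)]),(0,[(0,1)]),(0,[(0,1),(38,16384)])]) (.split 3 3 (.leaf 3 [(450,[(23,237056),(27,474112),(38,742400),(9,1335808),(2,45056),(39,948224)]),(8,[(38,24576),(9,30208),(8,2560),(0,3)]),(30,[(30,72192),(38,22528),(8,19840),(3,1904),(0,4)]),(0,[(0,1)]),(0,[(0,1)])])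 (.leaf 0 [(112,[(19,434176),(23,8192),(27,50688),(36,401408),(9,409600),(2,768),(39,32768)]),(0,[(36,2816),(37,1152),(9,2944),(3,32)]),(0,[(19,4096),(36,2944),(38,1152),(9,3968)]),(0,[(38,4096),(9,8192),(3,32)]),(33,[(36,122880),(37,61440),(3,640),(2,30720),(1,1),(0,100),(40,16384)])])), .leaf 2 [(0,[(1,128)])], .leaf 2 [(4,[(22,4096),(7,53248),(2,512)])], .leaf 2 [(32,[(28,32768),(34,89600),(36,254464),(7,188928),(0,2048)])], .leaf 2 [(0,[])], .leaf 3 [(4,[(15,16384),(7,16384),(2,512)]),(52,[(21,13312),(35,160256),(3,26624),(2,7104),(37,53248)]),(4,[(15,15872),(7,13312),(6,8800),(2,576)]),(0,[(2,512),(38,16384)]),(0,[(2,512)])], .leaf 0 [(0,[(6,768)])], .leaf 1 [(0,[(18,512),(6,8816),(38,16384)])], .leaf 2 [(4,[(22,4096),(35,34560),(7,18688),(2,512)])]]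
noncomputable def a1 : TT := .leaf ⟨true,31,33,0,64,0,8183,[[0,0,0,0,2046],[0,0,0,0,4092],[],[0,0,0,0,4092,0,0,0,1023],[],[],[0,0,0,0,2046],[0,0,0,0,66],[0,0,0,0,124],[],[0,0,0,0,248]]⟩ [.leaf 0 [(0,[])], .leaf 0 [(0,[])], .leaf 0 [(0,[])], .leaf 0 [(0,[])], .leaf 0 [(0,[(5,7688)])], .leaf 0 [(0,[])], .leaf 0 [(0,[])], .leaf 0 [(0,[]),(0,[]),(0,[]),(0,[]),(0,[]),(0,[])], .leaf 0 [(0,[])], .leaf 0 [(0,[])], .leaf 0 [(0,[])], .leaf 0 [(0,[])], .leaf 0 [(0,[])], .leaf 0 [(0,[])], .leaf 0 [(0,[])], .leaf 0 [(0,[])], .leaf 0 [(0,[])], .leaf 0 [(0,[])], .leaf 0 [(0,[(8,1047552)])], .leaf 0 [(0,[(7,654720)])], .leaf 0 [(6,[(22,785664),(23,785664),(26,785664),(29,785664),(37,5761536),(8,4190208),(7,1702272),(38,3142656)])], .leaf 0 [(0,[(0,32736)])], .leaf 0 [(0,[])], .leaf 0 [(72,[(22,523776),(23,1047552),(30,785664),(1,114576),(38,2095104)])], .leaf 1 [(0,[])], .leaf 1 [(0,[(17,261888),(37,261888),(8,261888),(7,294624)]),(0,[(17,261888),(37,261888),(8,261888),(7,32736)]),(0,[(17,261888),(7,163680)]),(0,[(17,261888),(35,261888)]),(0,[(17,261888),(35,261888)])],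 .leaf 1 [(0,[])], .leaf 0 [(0,[(18,196416),(35,171864),(36,196416),(1,12276)])], .leaf 0 [(72,[(22,523776),(23,1833216),(26,1604064),(1,114576),(38,2095104)])], .leaf 0 [(0,[])], .leaf 0 [(7,[(22,589248),(23,1178496),(37,2095104),(8,3011712),(7,1047552),(2,7161),(38,2356992)]),(4,[(22,32736),(26,65472),(31,1080288),(8,2389728),(7,81840),(38,130944)]),(0,[(37,261888),(8,491040),(7,278256),(2,2046)]),(0,[(29,32736),(35,130944),(36,130944),(2,3069)]),(0,[(18,229152),(22,32736),(23,32736),(26,32736),(35,229152),(36,65472),(38,130944)])], .leaf 0 [(226,[(22,2913504),(26,5827008),(31,360096),(2,9207),(1,441936),(38,11654016)])], .leaf 0 [(0,[(35,139128),(8,196416),(1,12276)])], .leaf 1 [(0,[(35,171864),(8,163680),(1,12276)])], .leaf 2 [(0,[])], .leaf 3 [(52,[(22,1047552),(8,10475520),(7,11801328),(4,2095104),(3,425568),(38,4190208)]),(52,[(22,851136),(8,10246368),(4,1702272),(3,454212),(38,3404544)]),(52,[(22,1014816),(8,8413152),(4,2029632),(3,466488),(38,4059264)]),(0,[(3,32736),(39,1047552)]),(508,[(29,687456),(4,15189504),(3,7169184),(1,49104)])],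 .leaf 0 [(0,[])], .leaf 2 [(0,[(7,654720)])], .leaf 2 [(4,[(23,261888),(8,3404544),(3,32736)])]]
noncomputable def a2 : TT := .leaf ⟨true,0,31,33,64,3,16367,[[],[0,0,0,0,5115],[0,0,0,0,5115],[0,0,0,0,-13299,0,0,0,11253],[0,0,0,0,5115],[],[],[],[0,0,0,0,165],[0,0,0,0,155],[0,0,0,0,528]]⟩ [.leaf 0 [(0,[])], .leaf 0 [(0,[])], .leaf 0 [(0,[])], .leaf 0 [(0,[])], .leaf 0 [(0,[])], .leaf 0 [(0,[])], .leaf 0 [(310,[(31,40656),(7,270072),(5,2694912),(1,2904),(0,87120)])], .leaf 0 [(0,[]),(0,[]),(0,[]),(0,[]),(0,[]),(0,[])], .leaf 0 [(0,[(7,851136)])], .leaf 0 [(0,[])], .leaf 0 [(0,[])], .leaf 0 [(0,[])], .leaf 0 [(0,[])], .leaf 0 [(0,[])], .leaf 0 [(0,[])], .leaf 0 [(0,[])], .leaf 0 [(0,[])], .leaf 0 [(0,[])], .leaf 0 [(0,[(36,1243968),(8,851136)])], .leaf 0 [(0,[(7,196416)])], .leaf 0 [(0,[(22,81840),(23,163680),(26,163680),(35,1767744),(37,163680),(38,327360)])], .leaf 0 [(0,[(19,65472),(24,65472),(7,1243968),(39,2095104)])],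 .leaf 0 [(0,[])], .leaf 0 [(28,[(30,982080),(7,22849728),(1,65472),(0,65472)])], .leaf 1 [(0,[])], .leaf 0 [(0,[(17,523776),(35,512864),(37,10912),(0,10912)]),(0,[(17,523776),(35,491040),(37,32736),(0,32736)]),(0,[(27,425568),(37,32736),(0,32736)]),(138,[(17,69367584),(22,3437280),(23,3437280),(29,3437280),(35,44259072),(37,25108512),(0,9133344),(39,277470336)]),(0,[(17,523776),(35,425568),(37,98208),(0,32736)])], .leaf 1 [(0,[(7,883872)])], .leaf 0 [(0,[(31,16632),(1,1188),(0,35640)])], .leaf 0 [(28,[(23,982080),(26,916608),(7,23027730),(1,65472),(0,65472)])], .leaf 0 [(0,[])], .leaf 4 [(138,[(18,61085376),(22,11719488),(23,11719488),(26,11719488),(35,61085376),(8,60627072),(0,458304),(38,46877952)]),(2,[(22,872960),(23,1571328),(26,174592),(37,1396736),(7,158224),(38,3491840)]),(0,[(31,458304),(36,562320),(8,400752),(0,19008)]),(138,[(18,54800064),(22,18004800),(23,18004800),(26,18004800),(35,54800064),(36,45961344),(0,8838720),(39,219200256)]),(138,[(18,54800064),(22,18004800),(23,18004800),(26,18004800),(35,54800064),(36,45961344),(0,8838720),(38,72019200)])],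 .leaf 0 [(28,[(31,945252),(7,22080432),(1,67518),(0,126852)])], .leaf 0 [(0,[(30,19272),(1,3300),(0,33528)])], .leaf 1 [(0,[(31,46200),(1,3300),(0,33528)])], .leaf 2 [(0,[])], .leaf 3 [(52,[(22,2095104),(8,20951040),(4,4190208),(3,851136),(38,8380416)]),(52,[(22,1702272),(36,20492736),(4,3404544),(3,908424),(38,6809088)]),(4,[(22,261888),(7,1816848),(4,523776),(0,188232),(38,1047552)]),(1720,[(22,16237056),(36,134610432),(4,32474112),(3,92380992),(0,27760128),(39,3540725760)]),(4,[(22,261888),(8,2171136),(4,523776),(0,447744),(38,1047552)])], .leaf 0 [(0,[(7,229152)])], .leaf 1 [(0,[(19,65472),(7,1250106),(39,2095104)])], .leaf 1 [(0,[(19,36828),(24,36828),(0,36828),(39,1178496)])]]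
noncomputable def a3 : TT := .leaf ⟨true,31,33,0,64,0,8183,[[0,0,0,0,2046],[0,0,0,0,4092],[],[0,0,0,0,4092,0,0,0,1023],[],[],[0,0,0,0,2046],[0,0,0,0,66],[0,0,0,0,124],[],[0,0,0,0,248]]⟩ [.leaf 0 [(0,[])], .leaf 0 [(0,[])], .leaf 0 [(0,[])], .leaf 0 [(0,[])], .leaf 0 [(0,[(5,7688)])], .leaf 0 [(0,[])], .leaf 0 [(0,[])], .leaf 0 [(0,[]),(0,[]),(0,[]),(0,[]),(0,[]),(0,[])], .leaf 0 [(0,[])], .leaf 0 [(0,[])], .leaf 0 [(0,[])], .leaf 0 [(0,[])], .leaf 0 [(0,[])], .leaf 0 [(0,[])], .leaf 0 [(0,[])], .leaf 0 [(0,[])], .leaf 0 [(0,[])], .leaf 0 [(0,[])], .leaf 0 [(0,[(36,130944),(8,916608)])], .leaf 0 [(0,[(7,654720)])], .leaf 0 [(6,[(22,785664),(23,785664),(26,785664),(29,785664),(37,5761536),(8,4190208),(7,1702272),(38,3142656)])], .leaf 0 [(0,[(0,32736)])], .leaf 0 [(0,[])], .leaf 0 [(0,[(20,32736),(28,32736)])], .leaf 1 [(0,[])], .leaf 1 [(0,[(17,261888),(37,261888),(8,261888),(7,294624)]),(0,[(17,261888),(37,261888),(8,261888),(7,32736)]),(0,[(37,229152),(8,229152),(7,180048)]),(6,[(17,1309440),(22,261888),(23,523776),(37,1833216),(38,1047552)]),(0,[(17,261888),(35,261888)])],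 .leaf 1 [(0,[])], .split 0 0 (.leaf 0 [(0,[(0,1)])]) (.leaf 1 [(30,[(21,1014816),(0,33)])]), .leaf 0 [(0,[(20,32736)])], .leaf 0 [(0,[])], .leaf 0 [(0,[(18,114576),(22,73656),(23,147312),(37,261888),(8,376464),(7,130944),(38,294624)]),(4,[(22,32736),(26,65472),(31,1080288),(8,2389728),(7,81840),(38,130944)]),(0,[(18,261888),(37,261888),(8,491040),(7,278256)]),(0,[(18,218240),(22,43648),(23,43648),(26,43648),(35,218240),(38,174592)]),(0,[(18,229152),(22,32736),(23,32736),(26,32736),(35,229152),(8,65472),(38,130944)])], .leaf 0 [(0,[(24,32736),(1,8184)])], .leaf 1 [(8,[(24,76384),(3,9548),(2,3069),(1,38192)])], .split 0 0 (.leaf 0 [(0,[(0,1)])]) (.leaf 1 [(904,[(25,28938624),(6,771783936),(3,95139),(2,7234656),(1,687456),(0,279)])]), .leaf 2 [(0,[])], .leaf 3 [(4,[(16,1047552),(8,1047552),(7,736560),(3,32736)]),(52,[(22,851136),(8,10246368),(4,1702272),(3,454212),(38,3404544)]),(4,[(16,1014816),(36,501270),(8,349866),(3,36828)]),(0,[(3,32736),(39,1047552)]),(52,[(22,65472),(36,9329760),(4,1865952),(3,568788),(38,261888)])],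 .leaf 0 [(0,[])], .leaf 2 [(0,[(7,654720)])], .leaf 2 [(4,[(23,261888),(8,3404544),(3,32736)])]]
noncomputable def a4 : TT := .leaf ⟨false,0,1,0,1,3,31,[[],[0,0,0,0,16],[],[0,0,0,0,0,0,0,0,9],[],[],[],[],[],[],[]]⟩ [.leaf 0 [(0,[])], .leaf 0 [(0,[])], .leaf 0 [(0,[])], .leaf 0 [(0,[])], .leaf 0 [(0,[])], .leaf 0 [(0,[])], .leaf 0 [(0,[])], .leaf 0 [(0,[])], .leaf 0 [(0,[])], .leaf 0 [(0,[])], .leaf 0 [(0,[])], .leaf 0 [(0,[])], .leaf 0 [(0,[])], .leaf 0 [(0,[])], .leaf 0 [(0,[])], .leaf 0 [(0,[])], .leaf 0 [(0,[(36,1024),(8,3072)])], .leaf 0 [(0,[(7,1024)])], .leaf 0 [(2,[(22,1472),(23,1472),(26,1472),(29,1472),(35,1600),(37,7744),(8,4800),(38,5888)])], .leaf 0 [(0,[(19,128),(24,128),(7,1024),(39,4096)])], .leaf 0 [(0,[])], .leaf 0 [(0,[(20,128),(28,128),(7,1024)])], .leaf 1 [(0,[])], .leaf 0 [(34,[(17,39392),(22,2368),(23,8288),(29,8288),(37,27552),(8,10976),(7,8288),(38,9472)]),(0,[(17,1024),(35,1024)]),(0,[]),(138,[(17,51520),(22,45408),(23,90816),(35,22112),(37,120224),(0,11616),(39,387712)]),(0,[(17,1024),(35,896),(37,128)])],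 .leaf 1 [(0,[])], .leaf 0 [(2,[(20,164),(28,164),(37,164),(0,164)])], .leaf 0 [(0,[(20,128),(7,1056)])], .leaf 0 [(0,[(7,1024)])], .leaf 4 [(2,[(18,2240),(22,832),(23,832),(26,832),(35,992),(37,1248),(8,2400),(38,3328)]),(4,[(18,7296),(22,1152),(23,1760),(26,1760),(29,2720),(35,640),(38,4608)]),(4,[(18,1728),(22,1376),(26,2752),(35,1632),(8,4000),(38,5504)]),(138,[(18,81344),(22,60992),(23,60992),(26,60992),(35,81344),(36,68224),(0,13120),(39,325376)]),(138,[(18,81344),(22,60992),(23,60992),(26,60992),(35,81344),(8,68224),(0,13120),(38,243968)])], .leaf 0 [(0,[(24,128),(7,1024),(1,32)])], .leaf 1 [(392,[(24,26496),(2,524),(1,6624),(0,2840)])], .split 1 0 (.leaf 1 [(0,[(0,1)])]) (.leaf 0 [(92,[(20,896),(25,896),(3,124),(0,7),(40,28672)])]), .leaf 2 [(0,[])], .leaf 3 [(4,[(22,512),(7,1472),(4,1024),(0,368),(38,2048)]),(2,[(16,1600),(3,136)]),(52,[(22,3968),(8,32896),(7,28272),(4,7936),(3,1824),(38,15872)]),(154,[(22,15872),(36,131584),(4,31744),(0,27136),(39,571392)]),(3108,[(22,238080),(8,1973760),(4,476160),(3,100352),(0,407040),(38,952320)])],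 .leaf 0 [(0,[])], .leaf 1 [(0,[(19,128),(7,1056),(39,4096)])], .leaf 1 [(2,[(19,164),(24,164),(0,164),(39,5248)])]]
noncomputable def a5 : TT := .leaf ⟨false,0,1,0,1,3,31,[[],[0,0,0,0,16],[],[0,0,0,0,0,0,0,0,9],[],[],[],[],[],[],[]]⟩ [.leaf 0 [(0,[])], .leaf 0 [(0,[])], .leaf 0 [(0,[])], .leaf 0 [(0,[])], .leaf 0 [(0,[])], .leaf 0 [(0,[])], .leaf 0 [(0,[])], .leaf 0 [(0,[])], .leaf 0 [(0,[])], .leaf 0 [(0,[])], .leaf 0 [(0,[])], .leaf 0 [(0,[])], .leaf 0 [(0,[])], .leaf 0 [(0,[])], .leaf 0 [(0,[])], .leaf 0 [(0,[])], .leaf 0 [(0,[(36,1024),(8,3072)])], .leaf 0 [(0,[(7,1024)])], .leaf 0 [(2,[(22,1472),(23,1472),(26,1472),(29,1472),(35,1600),(37,7744),(8,4800),(38,5888)])], .leaf 0 [(0,[(19,128),(24,128),(7,1024),(39,4096)])], .leaf 0 [(0,[])], .leaf 0 [(0,[(20,128),(28,128),(7,1024)])], .leaf 1 [(0,[])], .leaf 1 [(426,[(17,443264),(22,11328),(23,39648),(29,28672),(37,68320),(7,28672),(1,2744),(38,45312)]),(0,[(17,1024),(35,1024)]),(0,[]),(0,[(17,1024),(35,1024)]),(0,[(17,1024),(35,896),(37,128)])],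 .leaf 1 [(0,[])], .leaf 2 [(92,[(22,28736),(23,31808),(26,28736),(29,28736),(35,66496),(37,161728),(8,101184),(1,768),(38,114944)])], .leaf 0 [(0,[(20,128),(7,1056)])], .leaf 0 [(0,[(7,1024)])], .leaf 0 [(668,[(18,656896),(22,28160),(23,45536),(26,28160),(35,118240),(8,533472),(1,4344),(38,112640)]),(4,[(22,512),(26,1024),(31,1536),(8,6656),(38,2048)]),(30,[(23,1024),(35,6480),(37,25264),(8,21328),(1,256)]),(0,[(22,32),(26,128),(31,896),(8,1920),(7,800),(1,16),(38,128)]),(6,[(18,5056),(22,1056),(23,2112),(35,7168),(36,1888),(38,4224)])], .leaf 1 [(0,[(28,128),(7,1024),(0,32)])], .leaf 1 [(2540,[(20,318976),(23,159488),(28,310720),(37,310720),(7,2384452),(3,18904),(2,3302)])], .leaf 0 [(92,[(19,896),(2,124),(1,224),(39,28672)])], .leaf 2 [(0,[])], .leaf 4 [(0,[(16,1024),(8,1024),(7,256)]),(0,[(16,1024),(8,1024),(7,256)]),(0,[(7,256)]),(52,[(22,5120),(36,51200),(4,10240),(3,384),(38,20480)]),(0,[(16,1024),(8,1024),(7,1280)])],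 .leaf 0 [(0,[])], .leaf 1 [(0,[(19,128),(7,1056),(39,4096)])], .leaf 2 [(4,[(23,1024),(8,13312),(3,128)])]]
noncomputable def a6 : TT := .leaf ⟨true,31,33,0,64,1,8183,[[0,0,0,0,3069],[0,0,0,0,3069],[],[0,0,0,0,-1023,0,0,0,2046],[],[],[0,0,0,0,3069],[0,0,0,0,99],[0,0,0,0,93],[],[0,0,0,0,248]]⟩ [.leaf 0 [(0,[])], .leaf 0 [(0,[])], .leaf 0 [(0,[])], .leaf 0 [(0,[])], .leaf 0 [(0,[(2,7688)])], .leaf 0 [(0,[])], .leaf 0 [(0,[])], .leaf 0 [(0,[]),(0,[]),(0,[]),(0,[]),(0,[]),(0,[])], .leaf 0 [(0,[(4,65472)])], .leaf 0 [(0,[])], .leaf 0 [(0,[])], .leaf 0 [(0,[])], .leaf 0 [(0,[])], .leaf 0 [(0,[])], .leaf 0 [(0,[])], .leaf 0 [(0,[])], .leaf 0 [(0,[])], .leaf 0 [(0,[])], .leaf 0 [(0,[(5,1047552)])], .leaf 0 [(0,[(4,458304)])], .leaf 0 [(0,[(32,196416),(34,851136),(5,851136)])], .leaf 0 [(0,[(21,16368),(4,86955),(0,2046)])], .leaf 0 [(0,[])], .leaf 0 [(0,[(17,32736),(25,32736),(4,196416)])], .leaf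 1 [(0,[])], .leaf 1 [(0,[(14,261888),(34,261888),(5,261888),(4,98208)]),(6,[(14,1882320),(19,32736),(20,114576),(26,114576),(32,1489488),(34,229152),(35,130944)]),(0,[(24,98208),(4,163680)]),(0,[(14,261888),(32,261888)]),(6,[(14,1882320),(19,32736),(20,114576),(26,114576),(32,1489488),(34,229152),(35,130944)])], .leaf 1 [(0,[])], .split 2 0 (.leaf 2 [(0,[(0,1)])]) (.leaf 0 [(63,[(33,3928320),(0,5)])]), .leaf 0 [(0,[(17,32736),(4,210738)])], .leaf 0 [(0,[])], .leaf 0 [(0,[(15,240064),(19,21824),(20,21824),(23,21824),(32,240064),(5,130944),(4,130944),(35,87296)]),(0,[(19,50592),(23,101184),(32,127968),(5,169632),(35,202368)]),(0,[(15,261888),(34,261888),(5,491040),(4,49104)]),(6,[(15,1243968),(19,294624),(20,589248),(32,1833216),(5,360096),(35,1178496)]),(6,[(15,1702272),(19,65472),(20,130944),(32,1833216),(33,1505856),(35,261888)])], .split 0 0 (.leaf 0 [(0,[(0,1)])]) (.leaf 1 [(30,[(21,2256738),(26,750882),(28,263934),(5,5053620),(2,1014816),(1,319176),(0,1)])]),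 .leaf 0 [(14,[(20,499906),(25,379874),(27,111166),(5,1233056),(2,3546400),(1,491040),(0,230516)])], .leaf 1 [(6,[(13,327360),(5,98208),(2,576972),(0,40920)])], .leaf 2 [(0,[])], .leaf 4 [(0,[(13,261888),(5,261888),(4,98208)]),(0,[(13,261888),(5,261888),(4,163680)]),(0,[(5,261888),(4,229152)]),(0,[(13,261888),(5,261888)]),(0,[(13,261888),(17,32736),(5,261888),(4,32736)])], .leaf 0 [(0,[(4,81840)])], .leaf 0 [(6,[(3,98208),(0,40920)])], .leaf 1 [(6,[(3,327360),(0,40920)])]]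
noncomputable def t0 : TT := (.split [8,8,0,-56,-21,0,0,8,-1,0] (.w 1 (.split [16,0,16,-32,32,-96,0,16,-27,14] a0 (.split [0,0,0,32,24,0,0,-1,4,0] a1 a2)) (.split [0,0,0,32,24,0,0,-1,4,0] a3 a4) a5) a6)
theorem c0 : chkT (([4,4,-1,0,0,0,0,0,0,0] : Fm) :: ([0,0,0,1,-1,0,0,0,0,0] : Fm) :: ([0,0,0,0,0,0,0,1,-1,0] : Fm) :: ([0,0,0,0,-2,0,0,0,1,0] : Fm) :: ([0,0,0,-1,-1,0,0,1,-1,0] : Fm) :: K1O11.C0) t0 = true := by decide +kernel
end K1O11M00000

namespace K1O11M00001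
noncomputable def a0 : TT := .leaf ⟨false,0,1,0,1,2,15,[[],[0,0,0,0,8],[],[0,0,0,0,-3,0,0,0,6],[],[],[],[],[],[],[]]⟩ [.leaf 0 [(0,[])], .leaf 0 [(0,[])], .leaf 0 [(0,[])], .leaf 0 [(0,[])], .leaf 0 [(0,[])], .leaf 0 [(0,[])], .leaf 0 [(0,[(4,192)])], .leaf 0 [(0,[])], .leaf 0 [(0,[])], .leaf 0 [(0,[])], .leaf 0 [(0,[])], .leaf 0 [(0,[])], .leaf 0 [(0,[])], .leaf 0 [(0,[])], .leaf 0 [(0,[])], .leaf 0 [(0,[])], .leaf 0 [(0,[(5,2048)])], .leaf 0 [(0,[(4,320)])], .leaf 0 [(0,[(32,704),(34,1344),(5,1344)])], .leaf 0 [(0,[(16,64),(21,64),(4,704),(36,2048)])], .leaf 0 [(0,[])], .leaf 0 [(0,[(17,64),(25,64),(4,704)])], .leaf 1 [(0,[])], .leaf 3 [(0,[(14,512),(34,512),(5,512),(4,32)]),(0,[(4,32)]),(24,[(19,4864),(32,11776),(34,512),(4,19264),(1,2560),(0,64),(35,19456)]),(24,[(19,4864),(34,12288),(1,2560),(0,64),(35,19456)]),(0,[(14,512),(34,512),(5,512),(4,544)])], .leaf 1 [(0,[])], .leaf 2 [(4,[(26,512),(32,1376),(34,5280),(5,4256),(0,64)])],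 .leaf 0 [(0,[(17,64),(4,714)])], .leaf 0 [(0,[(4,704)])], .leaf 3 [(164,[(15,44544),(19,5120),(32,8704),(5,34304),(1,2560),(0,3392),(35,20480)]),(4,[(15,1664),(32,124),(34,1860),(5,1364),(0,72)]),(12,[(19,4048),(23,4128),(1,992),(0,212),(35,16192)]),(0,[(0,64)]),(12,[(19,1568),(32,4960),(1,992),(0,212),(35,6272)])], .leaf 0 [(0,[(13,64),(17,32),(21,64),(4,160),(1,32)])], .split 2 0 (.leaf 2 [(0,[(0,1)])]) (.leaf 0 [(16095,[(18,111104),(19,919040),(26,111104),(28,919040),(6,3899392),(5,992768),(0,3137),(37,29409280)])]), .leaf 2 [(412,[(19,39168),(23,43520),(26,87552),(32,84608),(34,374656),(5,243072),(1,8704),(0,5504),(35,156672)])], .leaf 2 [(0,[])], .leaf 4 [(0,[(13,512),(5,512),(4,32)]),(0,[(13,512),(5,512),(4,224)]),(0,[(4,32)]),(0,[(13,512),(33,512)]),(0,[(13,512),(5,512),(4,544)])], .leaf 0 [(0,[])], .leaf 1 [(0,[(16,64),(4,714),(36,2048)])], .split 2 0 (.leaf 2 [(0,[(0,1)])]) (.leaf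 1 [(95,[(6,16896),(0,11)])])]
noncomputable def a1 : TT := .leaf ⟨true,31,33,0,64,0,16367,[[0,0,0,0,3069],[0,0,0,0,10230],[],[0,0,0,0,-8184,0,0,0,9207],[],[],[0,0,0,0,17391],[0,0,0,0,99],[0,0,0,0,310],[],[0,0,0,0,496]]⟩ [.leaf 0 [(0,[])], .leaf 0 [(0,[])], .leaf 0 [(0,[])], .leaf 0 [(0,[])], .leaf 0 [(0,[(4,15376)])], .leaf 0 [(0,[])], .leaf 0 [(0,[])], .leaf 0 [(0,[]),(0,[]),(0,[]),(0,[]),(0,[]),(0,[])], .leaf 0 [(0,[(6,523776)])], .leaf 0 [(0,[])], .leaf 0 [(0,[])], .leaf 0 [(0,[])], .leaf 0 [(0,[])], .leaf 0 [(0,[])], .leaf 0 [(0,[])], .leaf 0 [(0,[])], .leaf 0 [(0,[])], .leaf 0 [(0,[])], .leaf 0 [(0,[(7,2095104)])], .leaf 0 [(0,[(6,65472)])], .leaf 0 [(0,[(21,152768),(22,152768),(25,152768),(28,152768),(34,567424),(36,1222144),(7,916608),(37,611072)])], .leaf 0 [(0,[(18,65472),(23,65472),(6,1113024),(38,2095104)])], .leaf 0 [(0,[])], .leaf 0 [(6,[(21,65472),(29,147312),(7,163680),(3,32736),(2,38874),(37,261888)])],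 .leaf 1 [(0,[])], .leaf 3 [(34,[(16,19903488),(21,1047552),(22,3666432),(28,3666432),(36,14665728),(7,7332864),(6,1374912),(37,4190208)]),(0,[(26,65472)]),(0,[(16,1047552),(25,523776),(6,261888)]),(0,[(16,523776),(34,523776)]),(0,[(16,523776),(34,523776)])], .leaf 1 [(0,[])], .leaf 0 [(112,[(23,1636800),(36,1636800),(3,1636800),(2,204600),(0,306900)])], .leaf 0 [(42,[(21,654720),(25,2291520),(3,458304),(2,286440),(37,2618880)])], .leaf 0 [(0,[])], .leaf 0 [(2,[(17,1516768),(21,54560),(22,54560),(25,54560),(34,1140304),(36,376464),(7,1620432),(37,218240)]),(2,[(21,252736),(35,258368),(5,755392),(3,265760),(0,34848),(37,1010944)]),(0,[(17,523776),(34,147312),(36,376464),(7,736560)]),(0,[(17,512864),(21,10912),(22,10912),(25,10912),(34,512864),(35,409200),(7,49104),(37,43648)]),(0,[(1,32736)])], .leaf 0 [(24,[(21,392832),(23,1080288),(25,556512),(3,327360),(2,69564),(37,1571328)])], .leaf 0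 [(34,[(27,589248),(29,360096),(4,2168760),(3,392832),(2,167772),(0,61380)])], .leaf 1 [(112,[(23,6350784),(36,2651616),(4,10352760),(3,2651616),(2,331452),(0,265980)])], .leaf 2 [(0,[])], .leaf 4 [(0,[(15,523776),(7,523776)]),(0,[(15,523776),(7,523776),(6,409200)]),(0,[(24,65472)]),(0,[(15,523776),(35,523776)]),(0,[(15,436480),(7,436480),(6,627440),(0,5456)])], .leaf 0 [(0,[(6,98208)])], .leaf 1 [(0,[(18,65472),(6,1115070),(38,2095104)])], .split 2 0 (.leaf 2 [(0,[(0,1)])]) (.leaf 1 [(95,[(36,39283200),(0,25)])])]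
noncomputable def a2 : TT := .leaf ⟨true,0,33,31,64,0,32735,[[],[0,0,0,0,10230],[0,0,0,0,10230],[2046,2046,0,-3069,5115,0,0,1023,1023],[0,0,0,0,15345],[],[],[],[0,0,0,0,310],[0,0,0,0,330],[0,0,0,0,992]]⟩ [.leaf 0 [(0,[])], .leaf 0 [(0,[])], .leaf 0 [(0,[])], .leaf 0 [(0,[])], .leaf 0 [(0,[])], .leaf 0 [(0,[])], .leaf 0 [(6,[(15,109554),(25,9610),(36,5766),(7,21142),(4,94178),(3,24986),(2,1922)])], .leaf 0 [(0,[]),(0,[]),(0,[]),(0,[]),(0,[]),(0,[])], .leaf 0 [(0,[(15,261888),(7,130944)])], .leaf 0 [(0,[])], .leaf 0 [(0,[])], .leaf 0 [(0,[])], .leaf 0 [(0,[])], .leaf 0 [(0,[])], .leaf 0 [(0,[])], .leaf 0 [(0,[])], .leaf 0 [(0,[])], .leaf 0 [(0,[])], .leaf 0 [(0,[(22,261888),(7,3797376)])], .leaf 0 [(0,[(22,65472),(6,2275152),(0,12276)])], .leaf 0 [(0,[(22,261888),(34,3797376),(36,392832),(6,2226048)])], .leaf 0 [(0,[])], .leaf 0 [(0,[(15,261888),(35,130944)])], .leaf 0 [(4,[(15,1047552),(21,130944),(29,196416),(7,916608),(2,57288),(37,523776)])],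 .leaf 1 [(0,[(15,261888),(7,130944)])], .leaf 1 [(0,[(16,1047552),(22,49104),(34,1047552),(6,1182588),(0,9207)]),(0,[(16,1047552),(22,196416),(34,752928),(36,294624)]),(0,[(36,916608),(7,818400),(6,883872),(3,49104)]),(6,[(16,5827008),(21,752928),(22,2880768),(36,7332864),(37,3011712)]),(28,[(16,30379008),(22,10148160),(36,30379008),(7,16728096),(6,21081984),(0,196416)])], .leaf 1 [(0,[(15,261888),(7,130944)])], .leaf 0 [(34,[(21,1051644),(34,3895584),(5,3752364),(3,597432),(2,486948),(37,4206576)])], .leaf 0 [(4,[(15,810216),(21,130944),(25,458304),(7,1092564),(2,57288),(37,523776)])], .leaf 0 [(0,[(15,261888),(35,130944)])], .leaf 0 [(0,[(17,752928),(21,294624),(22,491040),(25,294624),(36,752928),(7,883872),(37,1178496)]),(6,[(21,851136),(7,6645408),(6,5565120),(3,769296),(37,3404544)]),(0,[(17,1047552),(22,196416),(34,65472),(36,982080),(7,229152)]),(0,[(17,1036640),(21,109120),(22,403744),(25,207328),(34,840224),(37,436480)]),(4,[(17,5357792),(21,240064),(22,2891680),(25,600160),(34,4637600),(37,960256)])],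 .leaf 0 [(4,[(15,1047552),(21,261888),(25,261888),(35,261888),(2,32736),(37,1047552)])], .leaf 0 [(4,[(29,98208),(7,437844),(4,421476),(3,10230),(2,69564)])], .leaf 1 [(0,[(36,113088),(7,91140),(3,2046),(2,14136)])], .leaf 2 [(0,[(15,261888),(35,130944)])], .leaf 4 [(0,[(15,916608),(7,982080),(6,949344)]),(0,[(15,1178496),(7,1113024)]),(0,[(7,982080),(6,752928)]),(0,[(15,916608),(35,982080)]),(0,[(15,916608),(7,982080)])], .leaf 0 [(0,[])], .leaf 1 [(0,[])], .split 1 0 (.leaf 1 [(0,[(0,1)])]) (.leaf 0 [(30,[(16,3789192),(36,3924228),(0,2)])])]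
noncomputable def a3 : TT := .leaf ⟨true,0,33,31,64,0,32735,[[],[0,0,0,0,10230],[0,0,0,0,10230],[2046,2046,0,-3069,5115,0,0,1023,1023],[0,0,0,0,15345],[],[],[],[0,0,0,0,310],[0,0,0,0,330],[0,0,0,0,992]]⟩ [.leaf 0 [(0,[])], .leaf 0 [(0,[])], .leaf 0 [(0,[])], .leaf 0 [(0,[])], .leaf 0 [(0,[])], .leaf 0 [(0,[])], .leaf 0 [(6976,[(14,50187264),(35,12546816),(6,25093632),(3,37640448),(2,12546816),(1,953312),(0,307520)])], .leaf 0 [(0,[]),(0,[]),(0,[]),(0,[]),(0,[]),(0,[])], .leaf 0 [(0,[(14,261888),(6,130944)])], .leaf 0 [(0,[])], .leaf 0 [(0,[])], .leaf 0 [(0,[])], .leaf 0 [(0,[])], .leaf 0 [(0,[])], .leaf 0 [(0,[])], .leaf 0 [(0,[])], .leaf 0 [(0,[])], .leaf 0 [(0,[])], .leaf 0 [(0,[(21,261888),(6,3797376)])], .leaf 0 [(0,[(16,196416),(21,261888),(35,196416),(5,298716),(0,12276)])], .leaf 0 [(0,[(20,567424),(21,829312),(24,567424),(27,567424),(33,1003904),(35,2051456),(6,523776),(36,2269696)])],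 .leaf 0 [(0,[])], .leaf 0 [(0,[(14,261888),(6,130944)])], .leaf 0 [(4,[(14,1047552),(20,130944),(28,196416),(34,916608),(1,57288),(36,523776)])], .leaf 1 [(0,[(14,261888),(6,130944)])], .leaf 1 [(0,[(15,1047552),(21,196416),(35,1047552),(6,752928),(5,392832)]),(0,[(15,1047552),(21,196416),(33,752928),(35,294624)]),(0,[(15,998448),(35,98208),(5,793848),(2,49104)]),(0,[(15,1047552),(21,196416),(33,752928),(35,294624)]),(82,[(15,85375488),(20,1571328),(21,39610560),(35,88518144),(6,31459296),(5,53588832),(3,7856640),(0,98208),(36,6285312)])], .leaf 1 [(0,[(14,261888),(34,130944)])], .leaf 0 [(4,[(20,73656),(33,556512),(6,536052),(2,47058),(1,69564),(36,294624)])], .leaf 0 [(4,[(14,810216),(20,130944),(24,458304),(6,1092564),(1,57288),(36,523776)])], .leaf 0 [(0,[(14,261888),(34,130944)])], .leaf 0 [(0,[(16,752928),(20,294624),(21,491040),(24,294624),(35,752928),(6,883872),(36,1178496)]),(6,[(20,851136),(6,6645408),(5,5565120),(2,769296),(36,3404544)]),(0,[(16,1047552),(21,196416),(33,65472),(35,982080),(6,229152)]),(0,[(16,1036640),(20,109120),(21,403744),(24,207328),(33,840224),(36,436480)]),(4,[(16,4517568),(20,360096),(21,4092000),(33,5237760),(36,1440384)])],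 .leaf 0 [(4,[(14,1047552),(20,261888),(24,261888),(34,261888),(1,32736),(36,1047552)])], .leaf 0 [(4,[(28,98208),(6,437844),(3,421476),(2,10230),(1,69564)])], .leaf 1 [(4,[(15,12276),(35,556512),(6,437844),(2,13299),(1,69564)])], .leaf 2 [(0,[(14,261888),(6,130944)])], .leaf 4 [(0,[(14,916608),(6,982080),(5,949344)]),(0,[(14,1178496),(34,229152),(6,883872)]),(0,[(6,982080),(5,752928)]),(0,[(14,916608),(6,982080)]),(0,[(14,916608),(34,982080)])], .leaf 0 [(0,[])], .leaf 1 [(0,[])], .leaf 0 [(4,[(14,351912),(20,261888),(24,261888),(6,896148),(0,16368),(36,1047552)])]]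
noncomputable def t0 : TT := (.split [8,0,8,-16,-5,-56,0,8,-6,8] a0 (.split [16,0,16,-32,346,-32,0,16,-63,16] (.split [16,16,0,-32,24,0,0,16,-47,0] a1 a2) a3))
theorem c0 : chkT (fsm (-1) ([4,4,-1,0,0,0,0,0,0,0] : Fm) :: ([0,0,0,1,-1,0,0,0,0,0] : Fm) :: ([0,0,0,0,0,0,0,1,-1,0] : Fm) :: ([0,0,0,0,-2,0,0,0,1,0] : Fm) :: ([0,0,0,-1,-1,0,0,1,-1,0] : Fm) :: K1O11.C0) t0 = true := by decide +kernel
end K1O11M00001

namespace K1O11M00010
noncomputable def a0 : TT := .leaf ⟨false,0,1,0,1,0,15,[[],[0,0,0,0,10],[],[0,0,0,0,-2,0,0,0,9],[],[],[],[],[],[],[]]⟩ [.leaf 0 [(0,[])], .leaf 0 [(0,[])], .leaf 0 [(0,[])], .leaf 0 [(0,[])], .leaf 0 [(0,[])], .leaf 0 [(0,[])], .leaf 0 [(0,[(5,128)])], .leaf 0 [(0,[])], .leaf 0 [(0,[])], .leaf 0 [(0,[])], .leaf 0 [(0,[])], .leaf 0 [(0,[])], .leaf 0 [(0,[])], .leaf 0 [(0,[])], .leaf 0 [(0,[])], .leaf 0 [(0,[])], .leaf 0 [(0,[(6,2048)])], .leaf 0 [(0,[(5,256)])],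 .leaf 0 [(100,[(27,14336),(33,5120),(35,115712),(6,87040),(0,896)])], .leaf 0 [(0,[(17,64),(22,64),(5,512),(37,2048)])], .leaf 0 [(0,[])], .leaf 0 [(0,[(18,64),(26,64),(5,512)])], .leaf 0 [(0,[(17,64),(22,64),(3,4096),(37,4096)])], .leaf 3 [(0,[(15,512),(35,512),(6,512),(5,32)]),(0,[(25,64)]),(20,[(15,12288),(20,1024),(21,3584),(27,3584),(35,7168),(5,6944),(36,4096)]),(0,[(15,512),(27,64),(35,128),(0,4)]),(0,[(15,512),(35,512),(6,512),(5,416)])], .leaf 1 [(0,[])], .leaf 2 [(32,[(27,4096),(33,7296),(35,35712),(6,27520),(5,3712),(0,256)])], .leaf 0 [(0,[(18,64),(5,520)])], .leaf 0 [(0,[(5,512)])], .w 1 (.split 4 3 (.leaf 4 [(54,[(18,13888),(22,5632),(23,64),(26,11200),(35,12736),(8,25024),(2,192),(38,22528)]),(4,[(22,1024),(23,2048),(35,2560),(1,4),(38,4096)]),(140,[(22,14336),(26,28672),(31,4096),(35,32768),(8,69632),(0,13),(38,83968)]),(0,[(0,1)]),(0,[(18,432),(22,80),(23,144),(26,80),(35,432),(36,368),(5,176),(38,320)])])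 (.leaf 1 [(43,[(31,12672),(35,4480),(8,29056),(2,384),(1,29)]),(8,[(22,160),(26,320),(31,3488),(36,752),(8,7344),(38,640)]),(40,[(35,1584),(37,15824),(8,26928),(2,256)]),(0,[(2,32)]),(13,[(18,23040),(35,23040),(8,23040),(5,79360),(0,31),(39,63488)])])) (.split 3 3 (.leaf 3 [(102,[(19,34816),(36,2048),(9,34816),(3,256),(0,27)]),(2,[(36,64),(38,960),(9,1088),(0,1)]),(54,[(19,37376),(23,512),(24,20480),(27,17920),(3,480),(39,2048)]),(0,[(0,1)]),(0,[(0,1)])]) (.leaf 4 [(54,[(19,13888),(23,5632),(24,64),(27,11200),(36,12736),(9,25024),(3,192),(39,22528)]),(934,[(19,493568),(23,124416),(24,299520),(27,299520),(3,2240),(39,497664)]),(0,[(19,184),(23,112),(27,224),(32,40),(36,248),(9,552),(6,16),(39,448)]),(26,[(19,10240),(38,12800),(9,23040),(8,23040),(6,69120),(3,1280),(0,33),(40,55296)]),(0,[(19,432),(23,80),(24,144),(27,80),(36,432),(37,368),(6,176),(39,320)])])) (.leaf 4 [(156,[(19,53728),(23,16384),(24,6880),(27,26656),(36,50464),(9,73504),(1,192),(39,65536)]),(14,[(19,9152),(23,1984),(24,5440),(27,5440),(36,2240),(39,7936)]),(0,[(23,112),(27,224),(32,224),(36,64),(37,184),(9,552),(6,16),(39,448)]),(52,[(23,4448),(27,11872),(32,15264),(9,42400),(6,119392),(1,744),(40,90752)]),(0,[(19,432),(23,80),(24,144),(27,80),(36,432),(37,368),(6,176),(39,320)])]),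 .leaf 0 [(0,[(18,64),(26,64),(35,64),(5,576),(3,128)])], .leaf 1 [(0,[(19,64),(5,560),(3,2112),(37,2048)])], .leaf 2 [(100,[(27,14336),(33,5120),(35,115712),(6,87040),(0,896)])], .leaf 1 [(0,[(17,64),(22,64),(3,4096),(37,4096)])], .leaf 3 [(6,[(14,3584),(6,3540),(3,1120),(1,44)]),(6,[(14,3136),(6,3580),(3,3808),(1,4)]),(34,[(20,1792),(6,15224),(5,3360),(2,3584),(1,456),(36,7168)]),(0,[(14,512),(34,512),(3,2560),(37,2048)]),(34,[(20,672),(6,17834),(3,26320),(2,3584),(1,86),(36,2688)])], .leaf 0 [(0,[])], .leaf 1 [(0,[(17,64),(5,520),(37,2048)])], .leaf 2 [(0,[(6,1536),(3,512)])]]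
noncomputable def a1 : TT := .leaf ⟨false,1,1,0,2,3,255,[[0,0,0,64],[1,1,0,0,64],[],[-4,-4,0,-32,-96,0,0,5,128],[],[],[0,0,0,224],[],[],[],[]]⟩ [.leaf 0 [(0,[])], .leaf 0 [(0,[])], .leaf 0 [(0,[])], .leaf 0 [(0,[])], .leaf 0 [(0,[(18,2),(4,64),(38,64)])], .leaf 0 [(0,[])], .leaf 0 [(56,[(22,29184),(6,233472),(2,4096)])], .leaf 0 [(0,[])], .leaf 0 [(0,[])], .leaf 0 [(0,[])], .leaf 0 [(0,[])], .leaf 0 [(0,[])], .leaf 0 [(0,[])], .leaf 0 [(0,[])], .leaf 0 [(0,[])], .leaf 0 [(0,[(4,28672)])], .leaf 0 [(120,[(15,46464),(35,1486848),(7,733184),(2,3712)])], .leaf 0 [(1118,[(17,45056),(23,716160),(36,39424),(6,4496640),(2,84480),(1,2816),(0,9216)])], .leaf 0 [(0,[(21,2752),(22,2368),(25,2752),(28,2752),(34,15552),(36,11712),(7,5952),(37,11008)])], .leaf 0 [(4,[(17,2048),(22,1920),(36,1792),(6,11392),(1,128),(0,768)])], .leaf 0 [(0,[(22,640)])], .leaf 0 [(14,[(22,5760),(29,8192),(6,36864),(1,512)])],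 .leaf 0 [(0,[(23,384),(4,28672),(38,32768)])], .leaf 0 [(6,[(16,54296),(21,5360),(22,4984),(28,7672),(34,24248),(36,25424),(7,9408),(37,21440)]),(6,[(16,47648),(21,4848),(22,9072),(34,44912),(36,12432),(37,19392)]),(0,[(21,608),(26,4096),(28,704),(36,1184),(37,2432)]),(0,[(16,5488),(21,1352),(22,1296),(34,5392),(36,2800),(4,29176),(38,27360)]),(0,[(16,8192),(34,6688),(36,1504)])], .leaf 0 [(164,[(22,105600),(29,90112),(4,536576),(1,5632),(0,64512)])], .leaf 1 [(76,[(17,90112),(22,48356),(25,78848),(4,554624),(1,5632),(0,48128)])], .leaf 0 [(14,[(22,13652),(25,7168),(6,39744),(1,512)])], .leaf 2 [(54,[(22,1408),(25,19712),(6,123392),(1,1408),(0,12288),(38,1802240)])], .leaf 4 [(6,[(17,32384),(21,12480),(22,23616),(34,57344),(7,23616),(37,49920)]),(8,[(17,79840),(21,20672),(22,49184),(25,47456),(34,22912),(36,3360),(37,82688)]),(8,[(21,4288),(25,6848),(30,9728),(35,53792),(7,26784),(37,17152)]),(0,[(17,8000),(21,96),(34,5216),(36,2976),(7,2976),(38,32384)]),(0,[(17,5680),(21,2512),(22,1424),(25,2512),(34,5680),(35,6448),(4,15344),(37,10048)])],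 .leaf 0 [(4,[(22,128),(25,1792),(6,11776),(1,128)])], .leaf 1 [(14,[(22,5580),(28,7168),(6,35904),(1,512)])], .leaf 0 [(208,[(22,142978),(28,93786),(6,456084),(3,13046),(1,6699),(0,77920)])], .leaf 1 [(0,[(23,384),(38,32768)])], .leaf 1 [(0,[(21,800),(35,1072),(7,6640),(3,1600),(37,3200)]),(0,[(5,4096)]),(0,[(35,5120)]),(0,[(35,4096),(38,32768)]),(0,[(29,1024),(7,4096),(3,1024)])], .leaf 0 [(0,[(22,384),(6,2560)])], .leaf 1 [(4,[(17,2048),(22,6940),(36,1792),(6,12352),(1,128),(0,768)])], .leaf 0 [(4,[(17,2752),(22,8260),(36,2408),(4,4392),(1,172),(0,1032)])]]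
noncomputable def a2 : TT := .leaf ⟨true,0,33,31,64,1,8183,[[],[0,0,0,0,3069],[0,0,0,0,3069],[0,0,0,0,-6138,0,0,0,5115],[0,0,0,0,12276],[],[],[],[0,0,0,0,93],[0,0,0,0,99],[0,0,0,0,248]]⟩ [.leaf 0 [(0,[])], .leaf 0 [(0,[])], .leaf 0 [(0,[])], .leaf 0 [(0,[])], .leaf 0 [(0,[])], .leaf 0 [(0,[])], .leaf 0 [(10,[(6,46128),(0,7688)])], .leaf 0 [(0,[]),(0,[]),(0,[]),(0,[]),(0,[]),(0,[])], .leaf 0 [(0,[(6,392832)])], .leaf 0 [(0,[])], .leaf 0 [(0,[])], .leaf 0 [(0,[])], .leaf 0 [(0,[])], .leaf 0 [(0,[])], .leaf 0 [(0,[])], .leaf 0 [(0,[])], .leaf 0 [(0,[])], .leaf 0 [(0,[])], .leaf 0 [(0,[(35,523776),(7,523776)])], .leaf 0 [(0,[(6,130944)])], .leaf 0 [(0,[(21,49104),(22,98208),(25,98208),(34,851136),(36,98208),(37,196416)])], .leaf 0 [(0,[(18,32736),(23,32736),(6,523776),(38,1047552)])], .leaf 0 [(0,[])], .leaf 0 [(838,[(29,14403840),(6,325854144),(2,523776),(1,932976)])], .leaf 0 [(0,[(18,32736),(23,32736),(4,2095104),(38,2095104)])],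 .leaf 3 [(0,[(16,261888),(34,261888),(6,196416)]),(0,[(36,261888),(7,261888),(6,65472)]),(6,[(16,2095104),(21,174592),(22,611072),(28,611072),(36,1222144),(6,2902592),(37,698368)]),(0,[(16,261888),(34,261888)]),(0,[(16,261888),(22,32736),(34,229152),(36,32736)])], .leaf 1 [(0,[(6,409200)])], .leaf 0 [(0,[(0,8866)])], .leaf 0 [(4,[(22,87296),(25,76384),(6,2055548),(1,5456),(0,10912)])], .leaf 2 [(24,[(18,1014816),(23,1014816),(4,47467200),(2,196416),(38,58662912)])], .leaf 4 [(0,[(17,212784),(21,49104),(22,49104),(25,49104),(34,212784),(7,212784),(4,16368),(37,196416)]),(2,[(21,436480),(22,785664),(25,87296),(36,698368),(6,5456),(37,1745920)]),(36,[(21,1047552),(25,2095104),(35,65472),(7,9624384),(0,752928),(37,4190208)]),(0,[(17,212784),(21,49104),(22,49104),(25,49104),(34,212784),(7,212784),(4,1063920),(38,851136)]),(0,[(17,212784),(21,49104),(22,49104),(25,49104),(34,171864),(36,40920),(7,253704),(4,1063920),(37,196416)])],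 .leaf 0 [(838,[(30,13290816),(6,312055920),(2,1014816),(1,949344)])], .leaf 0 [(4,[(29,87296),(6,94116),(1,5456),(0,57288)])], .leaf 1 [(4,[(36,76384),(6,27156),(1,5456),(0,46128)])], .leaf 1 [(24,[(18,1014816),(23,1014816),(4,47467200),(2,196416),(38,58662912)])], .leaf 4 [(0,[(15,261888),(7,245520),(4,16368)]),(0,[(15,261888),(7,261888),(6,180048)]),(0,[(7,98208)]),(0,[(35,261888),(4,261888)]),(429,[(21,4222944),(7,111267618),(3,22522368),(2,1344222),(0,485925),(37,16891776)])], .leaf 0 [(0,[(6,16368)])], .leaf 1 [(0,[(18,32736),(6,527868),(38,1047552)])], .leaf 2 [(0,[(35,261888),(7,523776),(4,261888)])]]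
noncomputable def a3 : TT := .leaf ⟨true,0,33,31,64,1,8183,[[],[0,0,0,0,3069],[0,0,0,0,3069],[0,0,0,0,-6138,0,0,0,5115],[0,0,0,0,12276],[],[],[],[0,0,0,0,93],[0,0,0,0,99],[0,0,0,0,248]]⟩ [.leaf 0 [(0,[])], .leaf 0 [(0,[])], .leaf 0 [(0,[])], .leaf 0 [(0,[])], .leaf 0 [(0,[])], .leaf 0 [(0,[])], .leaf 0 [(8,[(5,3844),(4,249860),(2,215264),(0,3844)])], .leaf 0 [(0,[]),(0,[]),(0,[]),(0,[]),(0,[]),(0,[])], .leaf 0 [(0,[(4,392832)])], .leaf 0 [(0,[])], .leaf 0 [(0,[])], .leaf 0 [(0,[])], .leaf 0 [(0,[])], .leaf 0 [(0,[])], .leaf 0 [(0,[])], .leaf 0 [(0,[])], .leaf 0 [(0,[])], .leaf 0 [(0,[])], .leaf 0 [(0,[(5,1047552)])], .leaf 0 [(0,[(4,130944)])], .leaf 0 [(0,[(19,49104),(20,98208),(23,98208),(32,851136),(34,98208),(35,196416)])], .leaf 0 [(0,[(16,32736),(21,32736),(4,523776),(36,1047552)])], .leaf 0 [(0,[])], .leaf 0 [(46,[(17,1243968),(20,1325808),(25,1391280),(27,147312),(4,122334432),(2,83967840),(1,294624),(0,1473120)])],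 .leaf 0 [(0,[(16,32736),(21,32736),(2,2095104),(36,2095104)])], .leaf 0 [(0,[(14,261888),(32,261888)]),(0,[(14,261888),(32,261888)]),(0,[(24,229152)]),(0,[(14,261888),(32,229152),(34,32736),(2,1080288),(36,1047552)]),(4,[(14,1309440),(19,28272),(20,282720),(32,115320),(34,1194120),(5,967944),(2,3251280),(1,56544),(0,56544),(35,113088)])], .leaf 1 [(0,[(4,409200)])], .leaf 0 [(4,[(33,4092),(2,229152),(0,4092)])], .leaf 0 [(22,[(17,609708),(20,716100),(4,59702280),(2,40817700),(1,143220),(0,716100)])], .leaf 2 [(0,[(16,32736),(21,32736),(4,196416),(2,2095104),(36,2095104)])], .leaf 4 [(0,[(15,212784),(19,49104),(20,49104),(23,49104),(32,212784),(5,212784),(2,16368),(35,196416)]),(2,[(19,436480),(20,785664),(23,87296),(34,698368),(4,5456),(35,1745920)]),(0,[(19,40920),(23,81840),(28,147312),(5,409200),(2,90024),(35,163680)]),(0,[(15,212784),(19,49104),(20,49104),(23,49104),(32,212784),(5,212784),(2,1063920),(36,851136)]),(0,[(15,212784),(19,49104),(20,49104),(23,49104),(32,171864),(34,40920),(5,253704),(2,1063920),(35,196416)])],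 .leaf 0 [(48,[(17,949344),(25,949344),(34,949344),(4,73034016),(2,39872448),(0,654720)])], .leaf 0 [(1606,[(17,36451536),(18,15578244),(20,2596374),(25,36740022),(27,15866730),(4,1109423040),(1,576972),(0,18463104),(36,498503808)])], .leaf 1 [(34,[(16,465696),(17,303600),(21,465696),(25,303600),(34,303600),(4,22608300),(0,376464),(36,14902272)])], .leaf 1 [(0,[(16,32736),(21,32736),(4,196416),(2,2095104),(36,2095104)])], .leaf 3 [(0,[(13,261888),(5,261888),(4,81840),(2,261888)]),(2,[(19,10912),(5,785664),(2,1494944),(1,21824),(35,43648)]),(0,[(13,261888),(5,229152),(4,310992),(2,294624)]),(0,[(5,261888),(2,1571328),(36,1047552)]),(24,[(13,6219840),(19,32736),(5,6612672),(4,9166080),(2,36500640),(1,65472),(0,65472),(35,130944)])], .leaf 0 [(0,[(4,16368)])], .leaf 1 [(0,[(16,32736),(4,527868),(36,1047552)])], .leaf 1 [(15,[(15,13299),(16,66495),(1,13299),(0,13299),(36,2127840)])]]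
noncomputable def t0 : TT := (.split [0,0,0,-57,-57,-1,0,1,64,0] (.split [16,0,16,-32,-24,-96,0,16,-27,14] a0 (.split [0,0,0,16,-1,-11,0,0,6,0] a1 a2)) a3)
theorem c0 : chkT (([4,4,-1,0,0,0,0,0,0,0] : Fm) :: fsm (-1) ([0,0,0,1,-1,0,0,0,0,0] : Fm) :: ([0,0,0,0,0,0,0,1,-1,0] : Fm) :: ([0,0,0,0,-2,0,0,0,1,0] : Fm) :: ([0,0,0,-1,-1,0,0,1,-1,0] : Fm) :: K1O11.C0) t0 = true := by decide +kernel
end K1O11M00010

namespace K1O11M00011
noncomputable def a0 : TT := .leaf ⟨false,0,1,0,1,2,15,[[],[0,0,0,-2,12],[],[0,0,0,-18,7,0,0,0,7],[],[],[],[],[],[],[]]⟩ [.leaf 0 [(0,[])], .leaf 0 [(0,[(2,2)])], .leaf 0 [(0,[])], .leaf 0 [(0,[])], .leaf 0 [(0,[])], .leaf 0 [(0,[])], .leaf 0 [(6,[(2,4864),(0,704)])], .leaf 0 [(0,[])], .leaf 0 [(0,[(2,1792)])], .leaf 0 [(0,[])], .leaf 0 [(0,[])], .leaf 0 [(0,[])], .leaf 0 [(0,[])], .leaf 0 [(0,[])], .leaf 0 [(0,[])], .leaf 0 [(0,[(2,1792)])], .leaf 0 [(0,[(5,2048),(4,192)])],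 .leaf 0 [(0,[(4,704)])], .leaf 0 [(0,[(34,2048),(5,2048),(4,192)])], .leaf 0 [(0,[(16,64),(21,64),(0,160),(36,2048)])], .leaf 0 [(0,[(0,128)])], .leaf 0 [(0,[(17,64),(25,64),(0,160)])], .leaf 0 [(0,[(16,64),(21,64),(2,8448),(36,4096)])], .leaf 3 [(0,[(14,512),(34,512),(5,512),(4,288)]),(0,[(4,32)]),(4,[(14,256),(19,1216),(20,2304),(26,128),(34,2432),(4,416),(35,4864)]),(0,[(14,368),(19,144),(20,144),(26,144),(32,80),(34,288),(2,240),(35,576)]),(0,[(14,512),(34,512),(5,512),(4,544)])], .leaf 1 [(0,[(0,160)])], .split 0 0 (.leaf 0 [(0,[(0,1)])]) (.leaf 1 [(216,[(18,13888),(3,284672),(1,7744),(0,231)])]), .leaf 0 [(0,[(17,64),(0,156)])], .leaf 0 [(6,[(2,512),(0,1088)])], .leaf 4 [(0,[(15,512),(34,512),(5,1024),(4,96)]),(0,[(15,160),(19,352),(20,352),(23,352),(32,160),(33,96),(2,96),(35,1408)]),(0,[(28,448),(5,960),(4,128)]),(0,[(15,512),(34,512),(5,1024),(4,176),(0,80),(36,2048)]),(0,[(15,368),(19,144),(20,144),(23,144),(32,368),(33,368),(2,2352),(35,576)])],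 .leaf 0 [(0,[(17,16),(21,64),(1,16),(0,164)])], .leaf 1 [(6,[(18,448),(2,14256),(0,1118),(36,14336)])], .split 1 0 (.leaf 1 [(0,[(0,1)])]) (.leaf 0 [(358,[(18,1856),(19,28736),(22,32320),(2,7616),(0,505),(37,919552)])]), .leaf 1 [(0,[(16,64),(21,64),(2,8448),(36,4096)])], .leaf 4 [(0,[(5,512),(4,544)]),(0,[(13,512),(5,512),(2,192),(0,64)]),(0,[(4,32)]),(0,[(13,512),(33,512),(0,60)]),(0,[(13,512),(5,512),(4,544)])], .leaf 0 [(0,[(0,36)])], .leaf 1 [(0,[(16,64),(0,156),(36,2048)])], .leaf 2 [(0,[(5,1536),(4,448)])]]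
noncomputable def a1 : TT := .leaf ⟨true,33,31,0,64,0,523775,[[1023,3069,2046,122760,2046,0,0,-1023,2046,-2046],[-2046,-6138,-3069,259842,-3069,0,0,3069,-3069,3069],[],[2046,-3069,-5115,-275187,-434775,0,0,4092,430683,5115],[],[],[0,0,0,121737],[31,93,62,3720,62,0,0,-31,62,-62],[-66,-198,-99,8382,-99,0,0,99,-99,99],[],[0,0,0,15872]]⟩ [.leaf 0 [(4,[(22,155),(26,310),(1,31)])], .leaf 0 [(4,[(21,495),(24,495),(1,297)])], .leaf 0 [(0,[])], .leaf 0 [(4741,[(17,101937),(22,272866),(26,225044),(1,477080),(0,4959),(37,3261984)])], .leaf 0 [(0,[])], .leaf 0 [(0,[(3,492032)])], .leaf 0 [(0,[])], .leaf 0 [(0,[]),(0,[]),(0,[]),(0,[]),(0,[]),(0,[])], .leaf 0 [(0,[(14,261888),(24,654720),(6,523776),(5,44651904),(3,34438272)])], .leaf 0 [(0,[])], .leaf 0 [(4,[(21,13749120),(24,13749120),(1,8249472)])], .leaf 0 [(0,[])], .leaf 0 [(0,[])], .leaf 0 [(4,[(22,4583040),(26,9166080),(1,916608)])], .leaf 0 [(0,[])],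 .leaf 0 [(0,[])], .leaf 0 [(4,[(22,4583040),(26,9166080),(1,916608)])], .leaf 0 [(4,[(21,13749120),(24,13749120),(1,8249472)])], .leaf 0 [(0,[(26,1309440),(34,55782144)])], .leaf 0 [(2172,[(17,627745536),(21,802293888),(26,802293888),(28,97291392),(1,3791745408),(0,89958528),(37,20087857152)])], .leaf 0 [(0,[(20,1985984),(21,2051456),(24,1134848),(27,2051456),(33,56600544),(35,6470816),(6,1582240),(3,4735808),(36,7943936)])], .leaf 0 [(0,[(21,43648),(24,218240),(5,4692160),(0,109120)])], .leaf 0 [(0,[(14,654720),(5,19707072),(3,52115712)])], .leaf 0 [(0,[(18,1672704),(19,422400),(26,887040),(28,422400),(6,363264),(5,54472704),(37,13516800)])], .leaf 0 [(0,[(21,2531584),(24,2444288),(5,5150464),(1,654720),(0,109120),(37,67043328)])], .leaf 0 [(4,[(15,85277280),(21,1473120),(33,73099488),(35,9231552),(6,6285312),(3,76962336),(1,9198816)]),(4,[(15,87241440),(21,163680),(33,76765920),(35,3600960),(3,275342496),(1,11162976)]),(0,[(25,14763936),(6,98208),(2,139128),(1,2062368)]),(4,[(15,66945120),(16,2618880),(21,14567520),(33,87241440),(35,10802880),(1,13389024),(37,335216640)]),(0,[(15,19314240),(20,245520),(33,11850432),(35,1865952),(3,35665872),(1,13192608),(36,982080)])],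 .leaf 1 [(0,[(24,785664),(5,28938624)])], .leaf 0 [(4,[(18,35805),(22,122760),(26,122760),(3,63953868),(2,35805),(1,3862848)])], .split 0 0 (.leaf 0 [(0,[(0,1)])]) (.leaf 2 [(68702,[(19,115917914112),(22,53358108672),(25,33580326912),(6,3352935303168),(2,256539199488),(1,988889088),(0,55328)])]), .leaf 2 [(0,[(22,1134848),(26,2138752),(5,3513664),(0,109120),(37,67043328)])], .leaf 4 [(0,[(16,15099480),(20,1628616),(21,1563144),(24,1006632),(33,15164952),(34,13360380),(6,1346268),(3,4165656),(36,6514464)]),(2,[(20,26952640),(21,50380704),(24,4997696),(35,46659712),(5,14982176),(36,107810560)]),(6,[(20,29658816),(33,111367872),(4,77911680),(2,12938904),(36,118635264)]),(0,[(15,3830112),(16,15615072),(33,14076480),(6,11130240),(37,67043328)]),(4,[(16,74310720),(21,32572320),(33,93297600),(6,61871040),(1,5270496)])], .leaf 0 [(0,[(19,327360),(22,1309440),(24,785664),(5,27891072),(2,327360),(37,10475520)])],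 .leaf 2 [(0,[(14,130944),(26,1309440),(34,43669824),(6,5565120),(3,20951040),(1,1309440)])], .leaf 1 [(79,[(18,8220828),(19,32117085),(22,169572480),(26,1964160),(2,40337913),(1,61805568),(37,1027746720)])], .leaf 1 [(0,[(21,1614976),(24,611072),(5,4888576),(0,109120),(37,67043328)])], .leaf 3 [(0,[(14,16728096),(26,491040),(34,6563568),(6,4566672),(3,9198816)]),(0,[(14,15025824),(26,1145760),(6,15844224),(3,23733600)]),(0,[(14,16989984),(24,163680),(6,14796672),(5,34945680),(3,40494432)]),(0,[(27,556512),(6,11686752),(37,67043328)]),(0,[(14,15928544),(18,668608),(19,1426496),(26,360096),(6,11130240),(37,45647872)])], .leaf 0 [(0,[(21,261888),(24,1309440),(5,29200512)])], .leaf 1 [(0,[(21,2159212),(24,197780),(5,4388329),(1,52173),(0,111166)])], .leaf 1 [(4,[(17,143220),(22,163680),(26,204600),(1,3871032),(37,4583040)])]]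
noncomputable def a2 : TT := .leaf ⟨true,33,31,0,64,0,523775,[[1023,3069,2046,122760,2046,0,0,-1023,2046,-2046],[-2046,-6138,-3069,259842,-3069,0,0,3069,-3069,3069],[],[2046,-3069,-5115,-275187,-434775,0,0,4092,430683,5115],[],[],[0,0,0,121737],[31,93,62,3720,62,0,0,-31,62,-62],[-66,-198,-99,8382,-99,0,0,99,-99,99],[],[0,0,0,15872]]⟩ [.leaf 0 [(415,[(17,372),(22,13206),(26,25482),(0,31),(37,11904)])], .leaf 0 [(17,[(17,11),(21,1771),(24,1782),(1,1067),(37,352)])], .leaf 0 [(0,[])], .leaf 0 [(3,[(17,132),(22,272),(26,148),(5,1653),(1,385),(37,4224)])], .leaf 0 [(0,[])], .leaf 0 [(0,[(3,492032)])], .leaf 0 [(0,[])], .leaf 0 [(0,[]),(0,[]),(0,[]),(0,[]),(0,[]),(0,[])], .leaf 0 [(0,[(14,261888),(24,654720),(6,523776),(5,44651904),(3,34438272)])], .leaf 0 [(0,[])], .leaf 0 [(8,[(17,152768),(21,24595648),(24,24748416),(1,14818496),(37,4888576)])], .leaf 0 [(0,[])], .leaf 0 [(0,[])], .leaf 0 [(12,[(17,343728),(22,12202344),(26,23545368),(0,28644),(37,10999296)])],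 .leaf 0 [(0,[])], .leaf 0 [(0,[])], .leaf 0 [(12,[(17,343728),(22,12202344),(26,23545368),(0,28644),(37,10999296)])], .leaf 0 [(8,[(17,152768),(21,24595648),(24,24748416),(1,14818496),(37,4888576)])], .leaf 0 [(0,[(26,1309440),(6,55782144)])], .leaf 0 [(0,[(17,785664),(5,17371904),(1,1222144),(37,25141248)])], .leaf 0 [(1386,[(20,3374950656),(21,3479967744),(24,2293876992),(27,3461024512),(33,78113770240),(35,8125424384),(0,9471616),(36,13499802624)])], .leaf 0 [(0,[(17,1309440),(22,1047552),(24,1309440),(5,49104000),(37,41902080)])], .leaf 0 [(0,[(14,654720),(5,19707072),(3,52115712)])], .leaf 0 [(0,[(18,1672704),(19,422400),(26,887040),(28,422400),(6,363264),(5,54472704),(37,13516800)])], .leaf 0 [(0,[(17,1309440),(21,1440384),(24,3535488),(5,49725984),(1,491040),(37,108945408)])], .leaf 0 [(412,[(15,6947315760),(16,4599408),(21,135477936),(33,6423801648),(35,468730416),(6,119584608),(0,9198816)]),(18,[(15,282162496),(20,21096768),(21,43531664),(33,248800816),(35,63754768),(0,716144),(36,84387072)]),(51,[(25,615199464),(35,165415008),(6,157632024),(2,7556901),(0,1288980)]),(412,[(15,5389082160),(16,223014000),(21,1223360688),(33,4416168240),(35,3816182832),(6,2769891168),(0,13389024),(37,27688894464)]),(0,[(15,18219630),(33,11850432),(35,3451602),(0,158565)])],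 .leaf 1 [(0,[(24,785664),(5,28938624)])], .leaf 0 [(47,[(18,5067508),(19,4801652),(22,5801216),(24,3444224),(2,414563),(0,462272),(37,153652864)])], .leaf 0 [(2348,[(18,3657140432),(19,1264258864),(21,1342547008),(24,1948602216),(6,399900248),(5,126488747704),(0,10307748),(37,40456283648)])], .leaf 2 [(0,[(17,1309440),(22,2226048),(26,1047552),(5,47925504),(37,108945408)])], .leaf 4 [(213,[(16,3129750855),(20,450582396),(21,438133509),(24,328412667),(33,3142720449),(34,3033187839),(0,1041414),(36,1802329584)]),(6,[(15,102005376),(16,53163264),(20,39741504),(21,64391712),(24,120533952),(5,7103712),(36,158966016)]),(1420,[(20,744203856),(34,22551764928),(2,102791040),(0,38153808),(36,2976815424)]),(0,[(15,3830112),(16,15615072),(33,14076480),(4,11130240),(37,67043328)]),(6,[(16,18544944),(21,46730640),(28,84548904),(33,216106704),(0,94116)])], .leaf 0 [(0,[(18,1280796),(19,364188),(22,1309440),(5,48383808),(2,203577),(37,11654016)])],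 .leaf 1 [(738,[(18,631403784),(19,916878072),(24,39045864),(27,533866872),(5,40283325720),(3,19469523216),(0,2254692),(37,29340098304)])], .leaf 1 [(79,[(18,8220828),(19,32117085),(22,169572480),(26,1964160),(2,40337913),(1,61805568),(37,1027746720)])], .leaf 1 [(4,[(17,7398336),(21,1767744),(24,8511360),(5,260120256),(37,571963392)])], .leaf 3 [(60,[(14,1019753680),(26,23351680),(6,991846240),(0,660176)]),(0,[(26,1145760),(6,15844224),(3,38759424)]),(364,[(14,6132369408),(24,464360160),(6,4996168320),(5,14300999856),(0,40461696)]),(0,[(23,5106816),(27,556512),(6,6579936),(37,67043328)]),(0,[(14,15590272),(18,646784),(19,1448320),(28,360096),(6,10770144),(37,46346240)])], .leaf 0 [(0,[(21,261888),(24,1309440),(5,29200512)])], .leaf 1 [(4,[(17,6899112),(21,5008608),(24,6547200),(5,252091752),(37,220771584)])], .leaf 1 [(2,[(17,418128),(22,385268),(24,164300),(0,28706),(37,13380096)])]]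
noncomputable def t0 : TT := (.split [0,0,0,-16,2,0,0,0,5,0] a0 (.split [-1,-12,-10,377,-430,0,0,-10,416,10] a1 a2))
theorem c0 : chkT (fsm (-1) ([4,4,-1,0,0,0,0,0,0,0] : Fm) :: fsm (-1) ([0,0,0,1,-1,0,0,0,0,0] : Fm) :: ([0,0,0,0,0,0,0,1,-1,0] : Fm) :: ([0,0,0,0,-2,0,0,0,1,0] : Fm) :: ([0,0,0,-1,-1,0,0,1,-1,0] : Fm) :: K1O11.C0) t0 = true := by decide +kernel
end K1O11M00011

namespace K1O11M00100
noncomputable def a0 : TT := .leaf ⟨true,8,1,0,9,1,63,[[0,0,0,8],[0,0,0,8],[],[8,8,0,-56,8,0,0,8,16],[],[],[0,0,0,24],[0,0,0,1],[0,0,0,8],[],[0,0,0,8]]⟩ [.leaf 0 [(0,[])], .leaf 0 [(0,[])], .leaf 0 [(0,[])], .leaf 0 [(1,[(32,1),(4,1),(2,2)])], .leaf 0 [(0,[])], .leaf 0 [(0,[(4,8),(2,8)])], .leaf 0 [(0,[])], .leaf 0 [(0,[]),(0,[]),(0,[]),(0,[]),(0,[]),(0,[])], .leaf 0 [(0,[(32,4096),(4,3072),(2,6144)])], .leaf 0 [(0,[])], .leaf 0 [(0,[])], .leaf 0 [(0,[])], .leaf 0 [(0,[])], .leaf 0 [(0,[])], .leaf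 0 [(0,[])], .leaf 0 [(0,[])], .leaf 0 [(0,[])], .leaf 0 [(0,[])], .leaf 0 [(0,[(19,1024),(32,1024),(4,2048)])], .leaf 0 [(0,[(19,1024),(3,3072),(2,2048),(1,3072)])], .leaf 0 [(0,[(19,1024),(31,1024),(33,7168),(4,2048)])], .leaf 0 [(0,[])], .leaf 0 [(0,[(12,1024),(4,6144),(2,5120)])], .leaf 0 [(0,[(19,256),(24,256),(4,5120),(2,4352),(0,256)])], .leaf 0 [(0,[(12,1024),(32,3584),(4,1536),(2,4352),(35,8192)])], .leaf 3 [(0,[(13,2048),(19,512),(33,2048),(4,1024),(3,1536),(1,512)]),(0,[(13,1280),(25,512),(33,1536),(4,512),(3,1536),(1,1792)]),(6,[(13,13824),(18,3840),(19,3584),(25,7168),(33,7168),(3,8960),(34,15360)]),(0,[(13,2048),(19,512),(33,2048),(4,1024),(3,1536),(1,8704)]),(0,[(13,2048),(19,768),(33,2048),(4,768),(3,1024),(1,1792)])], .leaf 0 [(0,[(18,128),(19,1408),(24,128),(26,128),(4,6272),(2,6784),(0,512),(34,512)])], .leaf 1 [(0,[(14,256),(19,1312),(4,6752),(2,7072),(0,512)])], .leaf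 0 [(0,[(19,288),(4,4896),(2,4192),(0,256)])], .leaf 2 [(0,[(32,3584),(4,2560),(2,5376),(35,8192)])], .leaf 4 [(0,[(14,1792),(18,256),(19,768),(22,256),(31,1792),(4,768),(3,512),(34,1024)]),(0,[(14,896),(18,1152),(19,640),(22,1152),(31,896),(34,4608)]),(8,[(18,256),(22,5120),(27,512),(32,5120),(4,9216),(34,1024)]),(0,[(14,1664),(18,384),(19,896),(22,384),(31,1280),(33,384),(4,1024),(35,6656)]),(0,[(14,1664),(18,384),(19,896),(22,384),(31,1280),(33,384),(4,1024),(34,1536)])], .leaf 0 [(0,[(32,3200),(4,2176),(2,4608)])], .leaf 1 [(0,[(19,288),(32,3072),(4,2080),(2,4448),(0,256)])], .leaf 0 [(0,[(19,1312),(24,256),(33,256),(2,64),(0,512)])], .leaf 1 [(0,[(35,8192)])], .leaf 3 [(6,[(18,1024),(4,10752),(3,9728),(0,2048),(34,4096)]),(0,[(4,2560),(2,1024)]),(0,[(4,9728),(2,7424)]),(0,[(4,1536),(3,1536),(35,8192)]),(0,[(4,10752),(2,9216)])], .leaf 0 [(0,[])], .leaf 1 [(0,[])], .leaf 0 [(0,[(12,736),(32,6464),(2,5472)])]]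
noncomputable def t0 : TT := a0
theorem c0 : chkT (([4,4,-1,0,0,0,0,0,0,0] : Fm) :: ([0,0,0,1,-1,0,0,0,0,0] : Fm) :: fsm (-1) ([0,0,0,0,0,0,0,1,-1,0] : Fm) :: ([0,0,0,0,-2,0,0,0,1,0] : Fm) :: ([0,0,0,-1,-1,0,0,1,-1,0] : Fm) :: K1O11.C0) t0 = true := by decide +kernel
end K1O11M00100

namespace K1O11M00101
noncomputable def a0 : TT := .leaf ⟨false,0,1,0,1,1,7,[[],[0,0,0,0,4],[],[0,0,0,0,0,0,0,0,3],[],[],[],[],[],[],[]]⟩ [.leaf 0 [(0,[])], .leaf 0 [(0,[])], .leaf 0 [(0,[])], .leaf 0 [(0,[])], .leaf 0 [(0,[])], .leaf 0 [(0,[])], .leaf 0 [(0,[])], .leaf 0 [(0,[])], .leaf 0 [(0,[])], .leaf 0 [(0,[])], .leaf 0 [(0,[])], .leaf 0 [(0,[])], .leaf 0 [(0,[])], .leaf 0 [(0,[])], .leaf 0 [(0,[])], .leaf 0 [(0,[])], .leaf 0 [(0,[(4,1024)])], .leaf 0 [(0,[(3,256)])], .leaf 0 [(2,[(18,320),(19,320),(22,320),(25,320),(31,448),(33,1984),(4,1344),(34,1280)])], .leaf 0 [(0,[(2,32)])], .leaf 0 [(0,[])], .leaf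 0 [(0,[(16,32),(24,32),(3,256)])], .leaf 0 [(0,[(32,1024),(2,1056),(35,1024)])], .leaf 3 [(0,[(13,384),(22,128),(33,128),(4,128),(3,64)]),(0,[(3,64)]),(20,[(13,6144),(18,512),(19,1792),(25,1792),(33,3584),(3,3136),(34,2048)]),(6,[(13,1856),(18,192),(19,448),(25,448),(33,1344),(34,768)]),(0,[(13,256),(19,32),(33,256)])], .leaf 1 [(0,[])], .split 0 0 (.leaf 0 [(0,[(0,1)])]) (.leaf 1 [(30,[(17,992),(0,33)])]), .leaf 0 [(0,[(16,32),(3,264)])], .leaf 2 [(0,[(32,768),(4,256),(2,1056),(35,1024)])], .leaf 4 [(0,[(14,192),(18,64),(19,64),(22,64),(31,96),(33,96),(4,224),(34,256)]),(14,[(14,3904),(18,1088),(19,2240),(22,2240),(31,1600),(34,4352)]),(6,[(18,576),(4,1344),(0,288),(34,2304)]),(0,[(14,176),(18,80),(19,80),(22,80),(31,176),(4,1056),(2,880),(35,704)]),(0,[(14,176),(18,80),(19,80),(22,80),(31,176),(32,1056),(2,880),(34,320)])], .leaf 0 [(0,[(32,32),(2,64)])], .leaf 1 [(0,[(16,32),(19,32),(4,32),(3,248),(2,64)])],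 .split 1 0 (.leaf 1 [(0,[(0,1)])]) (.leaf 0 [(30,[(18,992),(3,1056),(0,33),(36,31744)])]), .leaf 1 [(0,[(4,1024),(2,1056),(35,1024)])], .leaf 3 [(0,[(12,256),(4,512),(2,256)]),(0,[(12,224),(32,320),(4,224),(2,288)]),(0,[(12,256),(4,512),(2,288)]),(0,[(12,256),(32,1536),(2,1280),(35,1024)]),(0,[(12,256),(4,1536),(2,1280)])], .leaf 0 [(0,[])], .leaf 1 [(0,[(19,32),(2,32)])], .leaf 0 [(0,[(19,32),(4,32),(2,64)])]]
noncomputable def t0 : TT := a0
theorem c0 : chkT (fsm (-1) ([4,4,-1,0,0,0,0,0,0,0] : Fm) :: ([0,0,0,1,-1,0,0,0,0,0] : Fm) :: fsm (-1) ([0,0,0,0,0,0,0,1,-1,0] : Fm) :: ([0,0,0,0,-2,0,0,0,1,0] : Fm) :: ([0,0,0,-1,-1,0,0,1,-1,0] : Fm) :: K1O11.C0) t0 = true := by decide +kernel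
end K1O11M00101

namespace K1O11M00110
noncomputable def a0 : TT := .leaf ⟨true,8,1,0,9,1,63,[[0,0,0,8],[0,0,0,8],[],[8,8,0,-56,8,0,0,8,16],[],[],[0,0,0,24],[0,0,0,1],[0,0,0,8],[],[0,0,0,8]]⟩ [.leaf 0 [(0,[])], .leaf 0 [(0,[])], .leaf 0 [(0,[])], .leaf 0 [(0,[(4,1),(2,1)])], .leaf 0 [(0,[])], .leaf 0 [(0,[(1,8)])], .leaf 0 [(0,[])], .leaf 0 [(0,[]),(0,[]),(0,[]),(0,[]),(0,[]),(0,[])], .leaf 0 [(0,[(4,7168),(2,6144)])], .leaf 0 [(0,[])], .leaf 0 [(0,[])], .leaf 0 [(0,[])], .leaf 0 [(0,[])], .leaf 0 [(0,[])], .leaf 0 [(0,[])], .leaf 0 [(0,[])], .leaf 0 [(0,[])], .leaf 0 [(0,[])], .leaf 0 [(0,[(19,1024),(32,1024),(4,2048)])], .leaf 0 [(0,[(19,1024),(4,3072),(3,3072),(2,5120)])], .leaf 0 [(0,[(19,1024),(31,1024),(33,7168),(4,2048)])], .leaf 0 [(0,[])], .leaf 0 [(0,[(1,7168)])], .leaf 0 [(0,[(19,256),(24,256),(4,768),(3,1280),(1,4352),(0,256)])], .leaf 0 [(0,[(12,1024),(4,768),(3,768),(1,4352),(35,8192)])],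 .leaf 3 [(0,[(13,2048),(19,512),(33,2048),(4,1536),(3,1536),(2,512)]),(0,[(13,1280),(25,512),(33,1536),(4,2304),(3,1536),(2,1792)]),(6,[(13,13824),(18,3840),(19,3584),(25,7168),(33,7168),(3,8960),(34,15360)]),(0,[(13,2048),(19,512),(33,2048),(4,9728),(3,1536),(2,8704)]),(0,[(13,2048),(19,768),(33,2048),(4,2560),(3,1024),(2,1792)])], .leaf 0 [(0,[(18,128),(19,1408),(24,128),(26,128),(2,512),(1,6272),(0,512),(34,512)])], .leaf 1 [(0,[(14,256),(19,1312),(2,320),(1,6752),(0,512)])], .leaf 0 [(0,[(19,288),(4,4896),(2,4192),(0,256)])], .leaf 2 [(0,[(12,1024),(4,768),(3,768),(1,4352),(35,8192)])], .leaf 4 [(0,[(14,1792),(18,256),(19,768),(22,256),(31,1792),(4,768),(3,512),(34,1024)]),(0,[(14,896),(18,1152),(19,640),(22,1152),(31,896),(34,4608)]),(8,[(18,256),(22,5120),(27,512),(32,5120),(4,9216),(34,1024)]),(0,[(14,1664),(18,384),(19,896),(22,384),(31,1280),(33,384),(4,1024),(35,6656)]),(0,[(14,1664),(18,384),(19,896),(22,384),(31,1280),(33,384),(4,1024),(34,1536)])],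 .leaf 0 [(0,[(4,768),(3,1408),(1,4608)])], .leaf 1 [(0,[(19,288),(4,5152),(2,4448),(0,256)])], .leaf 0 [(0,[(19,1312),(24,256),(33,256),(2,64),(0,512)])], .leaf 1 [(0,[(35,8192)])], .leaf 3 [(6,[(18,1024),(4,10752),(3,9728),(0,2048),(34,4096)]),(0,[(4,1536),(1,1024)]),(0,[(4,9728),(2,7424)]),(0,[(4,1536),(3,1536),(35,8192)]),(0,[(4,10752),(2,9216)])], .leaf 0 [(0,[])], .leaf 1 [(0,[])], .leaf 0 [(0,[(32,992),(1,6208)])]]
noncomputable def t0 : TT := a0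
theorem c0 : chkT (([4,4,-1,0,0,0,0,0,0,0] : Fm) :: fsm (-1) ([0,0,0,1,-1,0,0,0,0,0] : Fm) :: fsm (-1) ([0,0,0,0,0,0,0,1,-1,0] : Fm) :: ([0,0,0,0,-2,0,0,0,1,0] : Fm) :: ([0,0,0,-1,-1,0,0,1,-1,0] : Fm) :: K1O11.C0) t0 = true := by decide +kernel
end K1O11M00110

namespace K1O11M00111
noncomputable def a0 : TT := .leaf ⟨false,0,1,0,1,1,7,[[],[0,0,0,0,4],[],[0,0,0,0,0,0,0,0,3],[],[],[],[],[],[],[]]⟩ [.leaf 0 [(0,[])], .leaf 0 [(0,[])], .leaf 0 [(0,[])], .leaf 0 [(0,[])], .leaf 0 [(0,[])], .leaf 0 [(0,[])], .leaf 0 [(0,[])], .leaf 0 [(0,[])], .leaf 0 [(0,[])], .leaf 0 [(0,[])], .leaf 0 [(0,[])], .leaf 0 [(0,[])], .leaf 0 [(0,[])], .leaf 0 [(0,[])], .leaf 0 [(0,[])], .leaf 0 [(0,[])], .leaf 0 [(0,[(4,1024)])], .leaf 0 [(0,[(3,256)])], .leaf 0 [(2,[(18,320),(19,320),(22,320),(25,320),(31,448),(33,1984),(4,1344),(34,1280)])], .leaf 0 [(0,[(2,32)])], .leaf 0 [(0,[])], .leaf 0 [(0,[(16,32),(24,32),(3,256)])],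 .leaf 0 [(0,[(2,32),(1,1024),(35,1024)])], .leaf 3 [(0,[(13,384),(22,128),(33,128),(4,128),(3,64)]),(0,[(3,64)]),(20,[(13,6144),(18,512),(19,1792),(25,1792),(33,3584),(3,3136),(34,2048)]),(6,[(13,1856),(18,192),(19,448),(25,448),(33,1344),(34,768)]),(0,[(13,256),(19,32),(33,256)])], .leaf 1 [(0,[])], .split 0 0 (.leaf 0 [(0,[(0,1)])]) (.leaf 1 [(30,[(17,992),(0,33)])]), .leaf 0 [(0,[(16,32),(3,264)])], .leaf 2 [(0,[(3,256),(2,32),(1,1024),(35,1024)])], .leaf 4 [(0,[(14,192),(18,64),(19,64),(22,64),(31,96),(33,96),(4,224),(34,256)]),(14,[(14,3904),(18,1088),(19,2240),(22,2240),(31,1600),(34,4352)]),(6,[(18,576),(4,1344),(0,288),(34,2304)]),(0,[(14,176),(18,80),(19,80),(22,80),(33,176),(4,1232),(2,880),(35,704)]),(0,[(14,176),(18,80),(19,80),(22,80),(31,176),(32,176),(1,880),(34,320)])], .leaf 0 [(0,[(2,32),(1,32)])], .leaf 1 [(0,[(16,32),(19,32),(3,280),(2,32),(1,32)])], .split 1 0 (.leaf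 1 [(0,[(0,1)])]) (.leaf 0 [(30,[(18,992),(3,1056),(0,33),(36,31744)])]), .leaf 1 [(0,[(2,32),(1,1024),(35,1024)])], .leaf 3 [(0,[(12,256),(4,512),(2,256)]),(0,[(12,224),(32,32),(4,224),(1,288)]),(0,[(12,256),(4,512),(2,288)]),(0,[(1,1792),(35,1024)]),(0,[(12,256),(4,1536),(2,1280)])], .leaf 0 [(0,[])], .leaf 1 [(0,[(19,32),(2,32)])], .leaf 0 [(0,[(19,32),(2,32),(1,32)])]]
noncomputable def t0 : TT := a0
theorem c0 : chkT (fsm (-1) ([4,4,-1,0,0,0,0,0,0,0] : Fm) :: fsm (-1) ([0,0,0,1,-1,0,0,0,0,0] : Fm) :: fsm (-1) ([0,0,0,0,0,0,0,1,-1,0] : Fm) :: ([0,0,0,0,-2,0,0,0,1,0] : Fm) :: ([0,0,0,-1,-1,0,0,1,-1,0] : Fm) :: K1O11.C0) t0 = true := by decide +kernel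
end K1O11M00111

namespace K1O11M00000
theorem top : ∃ t, chkT (([4,4,-1,0,0,0,0,0,0,0] : Fm) :: ([0,0,0,1,-1,0,0,0,0,0] : Fm) :: ([0,0,0,0,0,0,0,1,-1,0] : Fm) :: ([0,0,0,0,-2,0,0,0,1,0] : Fm) :: ([0,0,0,-1,-1,0,0,1,-1,0] : Fm) :: K1O11.C0) t = true := ⟨_, c0⟩
end K1O11M00000
namespace K1O11M00001
theorem top : ∃ t, chkT (fsm (-1) ([4,4,-1,0,0,0,0,0,0,0] : Fm) :: ([0,0,0,1,-1,0,0,0,0,0] : Fm) :: ([0,0,0,0,0,0,0,1,-1,0] : Fm) :: ([0,0,0,0,-2,0,0,0,1,0] : Fm) :: ([0,0,0,-1,-1,0,0,1,-1,0] : Fm) :: K1O11.C0) t = true := ⟨_, c0⟩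
end K1O11M00001
namespace K1O11M00010
theorem top : ∃ t, chkT (([4,4,-1,0,0,0,0,0,0,0] : Fm) :: fsm (-1) ([0,0,0,1,-1,0,0,0,0,0] : Fm) :: ([0,0,0,0,0,0,0,1,-1,0] : Fm) :: ([0,0,0,0,-2,0,0,0,1,0] : Fm) :: ([0,0,0,-1,-1,0,0,1,-1,0] : Fm) :: K1O11.C0) t = true := ⟨_, c0⟩
end K1O11M00010
namespace K1O11M00011
theorem top : ∃ t, chkT (fsm (-1) ([4,4,-1,0,0,0,0,0,0,0] : Fm) :: fsm (-1) ([0,0,0,1,-1,0,0,0,0,0] : Fm) :: ([0,0,0,0,0,0,0,1,-1,0] : Fm) :: ([0,0,0,0,-2,0,0,0,1,0] : Fm) :: ([0,0,0,-1,-1,0,0,1,-1,0] : Fm) :: K1O11.C0) t = true := ⟨_, c0⟩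
end K1O11M00011
namespace K1O11M00100
theorem top : ∃ t, chkT (([4,4,-1,0,0,0,0,0,0,0] : Fm) :: ([0,0,0,1,-1,0,0,0,0,0] : Fm) :: fsm (-1) ([0,0,0,0,0,0,0,1,-1,0] : Fm) :: ([0,0,0,0,-2,0,0,0,1,0] : Fm) :: ([0,0,0,-1,-1,0,0,1,-1,0] : Fm) :: K1O11.C0) t = true := ⟨_, c0⟩
end K1O11M00100
namespace K1O11M00101
theorem top : ∃ t, chkT (fsm (-1) ([4,4,-1,0,0,0,0,0,0,0] : Fm) :: ([0,0,0,1,-1,0,0,0,0,0] : Fm) :: fsm (-1) ([0,0,0,0,0,0,0,1,-1,0] : Fm) :: ([0,0,0,0,-2,0,0,0,1,0] : Fm) :: ([0,0,0,-1,-1,0,0,1,-1,0] : Fm) :: K1O11.C0) t = true := ⟨_, c0⟩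
end K1O11M00101
namespace K1O11M00110
theorem top : ∃ t, chkT (([4,4,-1,0,0,0,0,0,0,0] : Fm) :: fsm (-1) ([0,0,0,1,-1,0,0,0,0,0] : Fm) :: fsm (-1) ([0,0,0,0,0,0,0,1,-1,0] : Fm) :: ([0,0,0,0,-2,0,0,0,1,0] : Fm) :: ([0,0,0,-1,-1,0,0,1,-1,0] : Fm) :: K1O11.C0) t = true := ⟨_, c0⟩
end K1O11M00110
namespace K1O11M00111
theorem top : ∃ t, chkT (fsm (-1) ([4,4,-1,0,0,0,0,0,0,0] : Fm) :: fsm (-1) ([0,0,0,1,-1,0,0,0,0,0] : Fm) :: fsm (-1) ([0,0,0,0,0,0,0,1,-1,0] : Fm) :: ([0,0,0,0,-2,0,0,0,1,0] : Fm) :: ([0,0,0,-1,-1,0,0,1,-1,0] : Fm) :: K1O11.C0) t = true := ⟨_, c0⟩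
end K1O11M00111
def K1O11P00 := (splE (splE (splE K1O11M00000.top K1O11M00001.top) (splE K1O11M00010.top K1O11M00011.top)) (splE (splE K1O11M00100.top K1O11M00101.top) (splE K1O11M00110.top K1O11M00111.top)))

end Vale.Agent.P235
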