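import Vale.Agent.P235.T.K1O11C
import Vale.Agent.P235.T.K1O11P0100F0

namespace Vale.Agent.P235

set_option maxRecDepth 100000

namespace K1O11M01001
noncomputable def a50 : TT := .leaf ⟨false,0,1,0,1,0,63,[[],[0,0,0,0,64],[],[0,0,0,0,0,0,0,0,33],[],[],[],[],[],[],[]]⟩ [.leaf 0 [(0,[])], .leaf 0 [(0,[])], .leaf 0 [(0,[])], .leaf 0 [(0,[])], .leaf 0 [(0,[])], .leaf 0 [(0,[])], .leaf 0 [(0,[])], .leaf 0 [(0,[])], .leaf 0 [(0,[])], .leaf 0 [(0,[])], .leaf 0 [(0,[])], .leaf 0 [(0,[])], .leaf 0 [(0,[])], .leaf 0 [(0,[])], .leaf 0 [(0,[])], .leaf 0 [(0,[])], .leaf 0 [(0,[(8,8192)])], .leaf 0 [(0,[])], .leaf 0 [(132,[(16,17856),(37,581632),(29,1984),(8,579648),(5,507904),(26,17856),(4,3968),(1,3968)])], .leaf 0 [(2,[(2,8),(24,768)])], .leaf 0 [(0,[])], .leaf 0 [(0,[(28,256),(20,256)])], .leaf 0 [(92,[(20,25600),(24,23808),(2,248),(39,761856),(1,6400)])], .leaf 0 [(0,[(37,1584),(8,1584),(17,2512),(26,464)]),(0,[(37,1712),(26,336),(8,1712),(17,2384)]),(0,[(27,1120)]),(4370,[(13,15663104),(37,4151040),(3,94752),(1,37952),(22,2003968),(35,1768704),(4,1760000)]),(122,[(5,510880),(16,408704),(4,102176),(37,251904),(1,824),(17,146432),(8,251904),(7,405408)])],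 .leaf 1 [(0,[])], .leaf 0 [(0,[(7,388)])], .leaf 0 [(0,[(20,256)])], .leaf 0 [(0,[])], .leaf 0 [(0,[(5,1024),(37,2048),(8,4096),(1,16),(16,1088),(4,288)]),(464,[(3,10080),(16,419840),(8,1140480),(5,640256),(4,107776),(31,510720),(22,5632)]),(30,[(5,72736),(8,76032),(3,672),(4,328),(37,41984),(1,328)]),(16,[(4,19280),(1,468),(8,58208),(5,112128),(37,9728),(16,75248),(31,13664)]),(0,[(36,2048),(7,3296),(35,2048),(18,2048)])], .leaf 0 [(22,[(1,112),(0,112),(2,66),(24,5888)])], .leaf 1 [(0,[(0,64)])], .leaf 1 [(2,[(2,8),(5,4120),(24,768),(7,1164)])], .leaf 1 [(22,[(1,1600),(24,5888),(13,188416),(0,1600),(2,128)])], .leaf 4 [(0,[(16,2048),(8,2048)]),(0,[(8,2048),(16,2048)]),(0,[(25,64)]),(0,[(16,2048),(36,2048)]),(0,[(16,2048),(8,2048)])], .leaf 0 [(0,[])], .leaf 0 [(2,[(2,8),(7,1164),(24,768)])], .leaf 1 [(0,[(7,388)])]]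
noncomputable def t4 : TT := a50
theorem c4 : chkT (wpar 2 1 :: fsm (-1) (wpar 2 0) :: fsm (-1) (wpar 2 2) :: ([32,0,32,-96,-64,-64,-128,32,-33,32] : Fm) :: fsm (-1) ([4,4,-1,0,0,0,0,0,0,0] : Fm) :: ([0,0,0,1,-1,0,0,0,0,0] : Fm) :: ([0,0,0,0,0,0,0,1,-1,0] : Fm) :: fsm (-1) ([0,0,0,0,-2,0,0,0,1,0] : Fm) :: ([0,0,0,-1,-1,0,0,1,-1,0] : Fm) :: K1O11.C0) t4 = true := by decide +kernel
end K1O11M01001

namespace K1O11M01001
noncomputable def a51 : TT := .leaf ⟨false,1,14,1,16,1,191,[[0,0,0,12],[0,0,0,0,192,0,0,0,-77],[0,0,0,-12,0,0,0,0,22],[],[],[],[],[],[],[],[]]⟩ [.leaf 0 [(0,[])], .leaf 0 [(0,[(5,77)])], .leaf 0 [(0,[(0,2)])], .leaf 0 [(0,[])], .leaf 0 [(0,[(3,384),(0,64)])], .leaf 0 [(142,[(24,8192),(14,73728),(2,16384),(6,8192),(11,32768),(3,52032),(1,256),(5,58784)])], .leaf 0 [(0,[])], .leaf 0 [(0,[])], .leaf 0 [(0,[(5,68992)])], .leaf 0 [(0,[(0,1792)])], .leaf 0 [(0,[])],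 .leaf 0 [(0,[])], .leaf 0 [(0,[(0,1792)])], .leaf 0 [(0,[])], .leaf 0 [(0,[])], .leaf 0 [(0,[(5,68992)])], .leaf 0 [(0,[(6,24576)])], .leaf 0 [(0,[])], .leaf 0 [(0,[(6,8768),(24,15808),(15,15808),(0,512),(35,8768)])], .leaf 0 [(0,[(35,384),(16,384),(37,1536),(1,12),(5,7436)])], .leaf 0 [(0,[])], .leaf 0 [(22,[(6,12288),(1,384),(11,49152),(14,22272),(2,6912),(5,297216),(26,5376),(3,19200)])], .leaf 1 [(0,[(0,1792),(5,76800)])], .leaf 1 [(0,[(6,6144),(15,6144),(35,6144),(0,192)]),(0,[(0,448),(6,6144),(15,6144),(35,6144)]),(0,[(33,5376),(5,1152)]),(0,[(36,10752),(27,768),(35,5376),(15,1536),(20,2688),(21,4608),(5,55552)]),(0,[(15,6720),(3,5568),(35,5568),(24,576)])], .leaf 1 [(0,[(5,13440),(3,3072)])], .leaf 0 [(0,[(0,16),(5,548)])], .leaf 0 [(142,[(37,394752),(24,98688),(14,339072),(2,87552),(3,186240),(1,3084),(6,98688),(5,1970496)])], .leaf 0 [(0,[])], .leaf 0 [(4,[(36,24576),(6,24576),(3,30720),(24,30720),(21,6144),(15,24576),(20,6144),(16,24576)]),(0,[(3,4608),(6,6144),(14,7680),(24,5376),(2,576)]),(0,[(35,6144),(6,4608),(3,13824),(16,6144)]),(0,[(24,6144),(21,6144),(20,6144),(3,30720),(36,24576)]),(0,[(16,6144),(33,6144),(6,6144),(5,59168)])],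 .leaf 0 [(222,[(3,174336),(2,86784),(24,768),(11,344064),(35,85248),(14,347904),(1,2688),(5,2915328)])], .leaf 0 [(0,[(3,1888),(5,176),(11,1536),(28,384),(1,12)])], .leaf 1 [(0,[(35,128),(2,128),(11,512),(5,248),(3,1520),(1,4),(22,512)])], .leaf 2 [(0,[(5,76800)])], .leaf 1 [(0,[(6,6144),(14,5568),(3,576)]),(0,[(23,5376),(5,448)]),(0,[(6,4800),(3,1344),(14,6144)]),(0,[(11,24576),(14,6144),(0,1984),(34,5376),(5,91264)]),(0,[(14,6144),(6,6144),(0,1856)])], .leaf 0 [(0,[(5,7808)])], .leaf 0 [(0,[(1,12),(11,1536),(35,384),(5,792),(16,384)])], .leaf 0 [(0,[(16,384),(0,816),(35,384),(1,12),(3,1536),(37,1536),(21,768)])]]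
noncomputable def a52 : TT := .leaf ⟨true,1,1,0,2,0,479,[[0,0,0,0,0,0,0,0,55],[0,0,0,-96,384,0,0,72,-329],[],[],[],[],[],[0,0,0,0,0,0,0,0,55],[0,0,0,-96,384,0,0,72,-329],[],[0,0,0,-96,384,0,0,72,-274]]⟩ [.leaf 0 [(0,[])], .leaf 0 [(0,[(8,5),(2,12)])], .leaf 0 [(0,[])], .leaf 0 [(0,[])], .leaf 0 [(0,[(1,2),(6,480)])], .leaf 0 [(0,[(1,2)])], .leaf 0 [(0,[])], .leaf 0 [(0,[]),(0,[]),(0,[]),(0,[]),(0,[]),(0,[])], .leaf 0 [(0,[])], .leaf 0 [(0,[])], .leaf 0 [(0,[(8,4480),(2,10752)])], .leaf 0 [(0,[])], .leaf 0 [(0,[])], .leaf 0 [(0,[])], .leaf 0 [(0,[])], .leaf 0 [(0,[])], .leaf 0 [(0,[])], .leaf 0 [(0,[(2,10752),(8,4480)])], .leaf 0 [(0,[(9,49152)])], .leaf 0 [(0,[(0,3072)])], .leaf 0 [(0,[(9,49152),(38,61440)])], .leaf 0 [(10,[(3,49152)])], .leaf 0 [(0,[(1,256)])], .leaf 0 [(5592,[(27,730240),(5,12199040),(4,358400),(25,46390400),(2,11456512),(40,45875200),(0,13555072),(17,3136000)])],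 .leaf 1 [(0,[(2,12288)])], .leaf 1 [(0,[(38,15360),(9,15360),(18,15360)]),(0,[(38,15360),(0,768),(18,15360)]),(6,[(28,21472),(9,36864),(5,2304),(2,6144),(32,9216)]),(112,[(9,696080),(36,1481200),(39,147200),(38,217680),(24,36800),(23,36800),(30,36800),(18,1698880),(2,1296544)]),(0,[(27,15360),(18,30720)])], .leaf 1 [(0,[(2,1408),(0,256)])], .leaf 0 [(13126,[(2,387504),(4,19080),(5,1221120),(27,610560),(25,5495040),(3,644480),(40,2442240)])], .leaf 0 [(6,[(0,5308),(17,114240),(4,630),(5,26880),(40,80640),(2,11794),(27,20160)])], .leaf 0 [(0,[(0,3072)])], .leaf 0 [(0,[(27,7680),(19,15360),(0,5376),(18,7680),(6,7680),(38,7680)]),(0,[(6,7680),(0,7296),(32,13440)]),(0,[(9,6528),(24,15360),(18,15360),(38,15360),(6,14976)]),(0,[(23,15360),(6,76800),(39,61440),(1,192),(24,15360),(27,15360)]),(112,[(24,52160),(36,1683520),(27,52160),(37,2465920),(19,1683520),(39,208640),(23,52160),(2,1127968)])],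 .leaf 0 [(6656,[(0,7208928),(5,8533000),(27,3619840),(2,11385728),(4,113120),(21,1293320),(40,14479360),(25,37751840)])], .leaf 0 [(9,[(31,7008),(4,309),(6,35136),(14,39552),(5,576),(29,2304)])], .leaf 1 [(21,[(4,253),(6,49984),(14,32384),(5,8096),(38,8096),(3,1511),(25,32384)])], .leaf 2 [(0,[(0,2816),(2,10880)])], .leaf 2 [(0,[(9,15360),(17,15360)]),(10,[(3,11136),(9,249216)]),(0,[(17,12288),(9,6144)]),(6,[(0,32000),(2,70016),(17,107520),(37,107520)]),(0,[(17,15360),(9,15360)])], .leaf 0 [(10,[(7,101376),(3,41856)])], .leaf 0 [(21,[(4,561),(14,71808),(19,17952),(38,17952),(3,4755)])], .leaf 1 [(21,[(4,99),(38,3168),(14,12672),(19,3168),(3,1065)])]]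
noncomputable def a53 : TT := .leaf ⟨true,16,16,1,33,0,3071,[[0,0,0,0,0,0,0,0,352],[48,48,0,-96,2976,0,0,48,-2672],[],[],[],[],[],[0,0,0,0,0,0,0,0,22],[3,3,0,-6,186,0,0,3,-167],[],[3,3,0,-6,186,0,0,3,-145]]⟩ [.leaf 0 [(0,[])], .leaf 0 [(34,[(3,164),(18,105),(1,328),(10,105)])], .leaf 0 [(0,[])], .leaf 0 [(0,[])], .leaf 0 [(0,[(7,3072),(0,16)])], .leaf 0 [(0,[(0,16)])], .leaf 0 [(10,[(5,6),(10,159),(41,768),(18,1695),(7,576),(6,384),(28,192)])], .leaf 0 [(0,[]),(0,[]),(0,[]),(0,[]),(0,[]),(0,[])], .leaf 0 [(0,[])], .leaf 0 [(0,[])], .leaf 0 [(4,[(3,335872),(18,215040),(38,215040),(1,671744)])], .leaf 0 [(0,[])], .leaf 0 [(0,[])], .leaf 0 [(0,[])], .leaf 0 [(0,[])], .leaf 0 [(0,[])], .leaf 0 [(0,[])], .leaf 0 [(4,[(26,107520),(1,607232),(3,357376)])], .leaf 0 [(0,[(25,6144),(10,380928)])], .leaf 0 [(0,[(18,6144),(10,6144)])], .leaf 0 [(0,[(39,393216),(25,6144),(10,380928)])],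 .leaf 0 [(10,[(4,378880),(1,22528)])], .leaf 0 [(0,[(0,2048)])], .leaf 0 [(27964,[(28,9605120),(5,11038720),(41,1412956160),(6,362844160),(18,182497280),(1,70832128),(26,1450301440),(3,364642304)])], .leaf 1 [(34,[(10,245760),(18,1228800),(1,5013504),(3,2752512)])], .leaf 0 [(0,[(39,98304),(10,98304),(19,98304)]),(0,[(28,86016),(25,6144),(19,184320),(39,12288)]),(594,[(1,5502976),(29,51179520),(18,3082240),(3,3360768),(4,107520)]),(4,[(3,318464),(25,245760),(10,737280),(24,491520),(31,491520),(1,1067008)]),(0,[(28,98304),(19,196608)])], .leaf 1 [(34,[(26,107520),(1,541696),(3,324608)])], .leaf 0 [(104,[(41,8960),(1,23364),(28,2240),(5,70),(6,4480),(10,2240),(3,8322)])], .leaf 0 [(27964,[(26,1173981760),(1,159858688),(3,368513024),(6,417034240),(41,1521336320),(18,708041600),(28,380334080),(5,11885440)])], .leaf 0 [(0,[(10,6144),(18,6144)])], .leaf 0 [(4,[(7,491520),(28,491520),(10,347136),(25,121344),(19,393216),(24,98304),(20,393216),(40,393216)]),(0,[(18,58368),(28,1536),(10,178176),(7,49152),(33,84480),(6,15360)]),(0,[(10,175104),(25,4608),(39,98304),(7,110592),(20,98304)]),(0,[(40,393216),(28,98304),(25,98304),(24,98304),(7,491520),(0,1536)]),(34,[(37,3440640),(10,322560),(20,3440640),(3,2550272),(1,3541504)])],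 .leaf 0 [(664,[(5,80640),(15,10321920),(28,2580480),(6,5160960),(26,27310080),(3,7555328),(1,6509056)])], .leaf 0 [(4,[(30,576),(5,966),(7,121344),(15,123648),(6,384),(32,29952)])], .leaf 1 [(2338,[(1,1442176),(7,38674816),(15,10125312),(28,2531328),(26,22332864),(5,79104),(6,5062656)])], .leaf 2 [(34,[(3,2453504),(1,4333568),(18,1146880)])], .leaf 2 [(0,[(10,98304),(18,98304)]),(6,[(1,196608),(8,1234944)]),(0,[(18,92160),(10,92160)]),(34,[(3,2486272),(18,3440640),(1,3252224)]),(0,[(18,98304),(10,98304)])], .leaf 0 [(0,[(27,6144),(10,12288),(1,95232)])], .leaf 0 [(0,[(1,3968),(26,192)])], .leaf 1 [(0,[(1,128),(25,192)])]]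
noncomputable def a54 : TT := .leaf ⟨true,1,1,1,3,0,191,[[0,0,0,0,0,0,0,0,22],[0,0,0,0,192,0,0,0,-77],[],[],[],[],[],[0,0,0,0,0,0,0,0,22],[0,0,0,0,192,0,0,0,-77],[],[0,0,0,0,192,0,0,0,-55]]⟩ [.leaf 0 [(0,[])], .leaf 0 [(4,[(3,11),(1,22)])], .leaf 0 [(0,[])], .leaf 0 [(0,[])], .leaf 0 [(0,[(7,192)])], .leaf 0 [(0,[])], .leaf 0 [(10,[(28,192),(6,384),(10,192),(18,1728),(7,576),(15,768),(5,6)])], .leaf 0 [(0,[]),(0,[]),(0,[]),(0,[]),(0,[]),(0,[])], .leaf 0 [(0,[])], .leaf 0 [(0,[])], .leaf 0 [(4,[(3,9856),(1,19712)])], .leaf 0 [(0,[])], .leaf 0 [(0,[])], .leaf 0 [(0,[])], .leaf 0 [(0,[])], .leaf 0 [(0,[])], .leaf 0 [(0,[])], .leaf 0 [(4,[(1,19712),(3,9856)])], .leaf 0 [(0,[(10,24576)])], .leaf 0 [(0,[])], .leaf 0 [(0,[(28,15808),(10,8768),(19,15808),(39,8768)])], .leaf 0 [(74,[(25,17472),(1,30848),(0,5824)])], .leaf 0 [(0,[])], .leaf 0 [(3094,[(6,1311744),(5,39040),(22,1190144),(15,4997120),(26,5309440),(3,1093120),(30,1127680)])],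 .leaf 1 [(6,[(3,15360),(1,30720)])], .leaf 0 [(0,[(39,1056),(10,1056),(28,5088),(19,11232)]),(0,[(10,6144),(39,6144),(19,6144)]),(4,[(1,1664),(3,832)]),(976,[(37,39744),(25,7205280),(0,414112),(19,39744),(31,5962944),(41,158976),(24,5962944),(1,5053632)]),(0,[(39,6144),(10,6144),(19,6144)])], .leaf 1 [(34,[(3,7808),(1,15616)])], .leaf 0 [(34,[(3,548),(1,1096)])], .leaf 0 [(1040,[(28,1052288),(41,4209152),(3,420288),(6,1305088),(5,32884),(18,4003712),(26,1469440)])], .leaf 0 [(0,[])], .leaf 0 [(4,[(40,24576),(7,30720),(28,6144),(39,24576),(10,49152),(24,6144),(25,6144),(20,24576)]),(0,[(7,3072),(10,6144),(18,9216),(6,2304)]),(0,[(7,6912),(10,11520),(39,6144),(20,6144)]),(0,[(25,6144),(40,24576),(28,6144),(24,6144),(7,30720)]),(114,[(25,112992),(3,80096),(37,706560),(0,37664),(20,706560)])], .leaf 0 [(664,[(28,188160),(1,33616),(3,245288),(5,5880),(15,752640),(26,1693440),(6,376320)])],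 .leaf 0 [(0,[(7,1536),(5,12),(32,384),(15,1536)])], .leaf 1 [(0,[(7,1792),(1,256)])], .leaf 2 [(34,[(1,114176),(3,57088)])], .leaf 2 [(0,[(10,6144),(18,6144)]),(10,[(4,6528)]),(0,[(10,6144),(18,6144)]),(70,[(10,369024),(18,369024),(0,22400)]),(0,[(10,6144),(18,6144)])], .leaf 0 [(0,[(1,3360)])], .leaf 0 [(0,[(1,256)])], .leaf 1 [(10,[(4,372)])]]
noncomputable def a55 : TT := .leaf ⟨true,1,1,1,3,0,191,[[0,0,0,0,0,0,0,0,22],[0,0,0,0,192,0,0,0,-77],[],[],[],[],[],[0,0,0,0,0,0,0,0,22],[0,0,0,0,192,0,0,0,-77],[],[0,0,0,0,192,0,0,0,-55]]⟩ [.leaf 0 [(0,[])], .leaf 0 [(0,[(7,77)])], .leaf 0 [(0,[])], .leaf 0 [(0,[])], .leaf 0 [(0,[(5,192)])], .leaf 0 [(0,[])], .leaf 0 [(10,[(26,192),(8,192),(39,768),(5,576),(3,6),(16,1728),(4,384)])], .leaf 0 [(0,[]),(0,[]),(0,[]),(0,[]),(0,[]),(0,[])], .leaf 0 [(0,[])], .leaf 0 [(0,[])], .leaf 0 [(0,[(7,68992)])], .leaf 0 [(0,[])], .leaf 0 [(0,[])],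 .leaf 0 [(0,[])], .leaf 0 [(0,[])], .leaf 0 [(0,[])], .leaf 0 [(0,[])], .leaf 0 [(0,[(7,68992)])], .leaf 0 [(0,[(8,24576)])], .leaf 0 [(0,[])], .leaf 0 [(0,[(8,8768),(26,15808),(17,15808),(37,8768)])], .leaf 0 [(0,[(2,1188),(3,12),(13,1536),(37,384),(18,384)])], .leaf 0 [(0,[])], .leaf 0 [(7534,[(4,3935232),(3,117120),(24,15928320),(13,14991360),(20,2226432),(0,546560),(28,2039040)])], .leaf 1 [(0,[(7,76800)])], .leaf 1 [(0,[(37,6144),(8,6144),(17,6144)]),(0,[(8,6144),(37,6144),(17,6144)]),(122,[(37,16128),(0,448),(35,645120),(2,896)]),(2,[(2,2048),(37,36864),(28,18432),(7,82368),(0,1024)]),(0,[(26,6144),(17,12288)])], .leaf 1 [(0,[(7,7808)])], .leaf 0 [(11126,[(4,315648),(39,631296),(3,4932),(26,157824),(0,43840),(2,166592),(24,1420416)])], .leaf 0 [(840,[(3,24884),(16,2211712),(4,946688),(13,3185152),(26,796288),(24,1725440),(0,70048)])], .leaf 0 [(0,[])], .leaf 0 [(4,[(22,6144),(8,49152),(37,24576),(38,24576),(26,6144),(23,6144),(18,24576),(5,30720)]),(0,[(5,3072),(8,11264),(31,5120),(16,4096),(4,1024)]),(0,[(37,6144),(18,6144),(8,3072),(5,15360)]),(0,[(5,30720),(38,24576),(26,6144),(22,6144),(23,6144)]),(2,[(1,6144),(7,25952),(2,2048),(37,18432),(18,18432)])],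 .leaf 0 [(13126,[(13,15876096),(3,124032),(2,268928),(24,35721216),(4,7938048),(1,4934784),(26,3969024)])], .leaf 0 [(0,[(30,384),(5,1536),(39,1536),(3,12)])], .leaf 1 [(54,[(4,8448),(26,4224),(3,132),(39,16896),(5,50688),(2,3136),(24,38016)])], .leaf 2 [(0,[(7,57088)])], .leaf 2 [(0,[(8,6144),(16,6144)]),(10,[(2,6528)]),(0,[(8,6144),(16,6144)]),(106,[(2,50176),(24,554496),(1,201984)]),(0,[(8,6144),(16,6144)])], .leaf 0 [(10,[(2,13440)])], .leaf 0 [(0,[(3,12),(37,384),(18,384),(13,1536),(2,72)])], .leaf 1 [(10,[(2,372)])]]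
noncomputable def a56 : TT := .leaf ⟨false,0,1,0,1,1,63,[[],[0,0,0,0,64],[],[0,0,0,0,0,0,0,0,33],[],[],[],[],[],[],[]]⟩ [.leaf 0 [(0,[])], .leaf 0 [(0,[])], .leaf 0 [(0,[])], .leaf 0 [(0,[])], .leaf 0 [(0,[])], .leaf 0 [(0,[])], .leaf 0 [(0,[])], .leaf 0 [(0,[])], .leaf 0 [(0,[])], .leaf 0 [(0,[])], .leaf 0 [(0,[])], .leaf 0 [(0,[])], .leaf 0 [(0,[])], .leaf 0 [(0,[])], .leaf 0 [(0,[])], .leaf 0 [(0,[])], .leaf 0 [(0,[(7,8192)])], .leaf 0 [(0,[])], .leaf 0 [(0,[(7,8192),(36,8192)])], .leaf 0 [(2,[(0,128)])], .leaf 0 [(0,[])], .leaf 0 [(2,[(15,7680),(2,40),(7,1280),(12,5120),(3,1792),(25,512)])], .leaf 1 [(0,[])], .leaf 0 [(0,[(36,2048),(16,2048),(7,2048)]),(0,[(36,2048),(7,2048),(16,2048)]),(0,[(34,1120)]),(10,[(12,4096),(22,22528),(36,2048),(28,20480),(21,21504),(0,7296),(6,231840)]),(726,[(22,884224),(37,2610432),(36,1067904),(0,39552),(28,420992),(1,530656),(16,604672),(21,652608)])],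 .leaf 1 [(0,[])], .leaf 0 [(0,[(6,388)])], .leaf 0 [(0,[(19,256)])], .leaf 0 [(0,[])], .leaf 0 [(1022,[(22,119360),(0,63488),(1,78304),(37,477440),(17,1975744),(25,119360),(21,119360),(36,1975744),(7,4332416)]),(0,[(4,464),(15,784),(7,4032),(0,32),(30,1792),(3,196)]),(0,[(7,3504),(36,1712),(16,336),(25,336),(4,2304),(17,2048)]),(1022,[(25,1382464),(37,5529856),(7,3329920),(36,712640),(1,1046240),(21,1382464),(0,317440),(17,712640),(22,1382464)]),(0,[(6,3296),(34,2048),(17,2048),(7,2048)])], .leaf 0 [(2,[(12,2048),(25,512),(3,1024),(23,256),(2,16),(15,4352)])], .leaf 0 [(0,[(2,4),(4,512),(38,512),(1,24),(29,128)])], .leaf 1 [(516,[(2,308),(3,19712),(25,9856),(0,5632),(23,88704),(38,39424),(1,29912)])], .leaf 2 [(0,[])], .leaf 4 [(0,[(7,2048),(15,2048)]),(0,[(7,2048),(15,2048)]),(0,[(24,64)]),(0,[(7,2048),(15,2048)]),(2,[(38,5120),(35,7424),(3,1792),(25,1280),(15,13824),(2,40)])],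 .leaf 0 [(0,[])], .leaf 0 [(0,[(12,512),(36,128),(17,128),(2,4),(1,24)])], .leaf 1 [(10,[(1,388)])]]
noncomputable def t5 : TT := (.split [0,0,0,-6,0,0,0,0,11,0] a51 (.split [0,0,0,-8,27,0,0,6,-27,0] (.split [0,0,0,48,48,0,0,-36,137,0] (.split [0,0,0,-4,-4,0,0,3,4,0] a52 (.split [-3,-3,0,6,6,0,0,-3,145,0] a53 a54)) a55) a56))
theorem c5 : chkT (fsm (-1) ([32,0,32,-96,-64,-64,-128,32,-33,32] : Fm) :: fsm (-1) ([4,4,-1,0,0,0,0,0,0,0] : Fm) :: ([0,0,0,1,-1,0,0,0,0,0] : Fm) :: ([0,0,0,0,0,0,0,1,-1,0] : Fm) :: fsm (-1) ([0,0,0,0,-2,0,0,0,1,0] : Fm) :: ([0,0,0,-1,-1,0,0,1,-1,0] : Fm) :: K1O11.C0) t5 = true := by decide +kernel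
end K1O11M01001

namespace K1O11M01000
theorem top : ∃ t, chkT (([4,4,-1,0,0,0,0,0,0,0] : Fm) :: ([0,0,0,1,-1,0,0,0,0,0] : Fm) :: ([0,0,0,0,0,0,0,1,-1,0] : Fm) :: fsm (-1) ([0,0,0,0,-2,0,0,0,1,0] : Fm) :: ([0,0,0,-1,-1,0,0,1,-1,0] : Fm) :: K1O11.C0) t = true := ⟨_, c0⟩
end K1O11M01000
namespace K1O11M01001
theorem top : ∃ t, chkT (fsm (-1) ([4,4,-1,0,0,0,0,0,0,0] : Fm) :: ([0,0,0,1,-1,0,0,0,0,0] : Fm) :: ([0,0,0,0,0,0,0,1,-1,0] : Fm) :: fsm (-1) ([0,0,0,0,-2,0,0,0,1,0] : Fm) :: ([0,0,0,-1,-1,0,0,1,-1,0] : Fm) :: K1O11.C0) t = true := ⟨_, (spl (wsp (by decide) (spl c0 (spl c1 c2)) c3 c4) c5)⟩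
end K1O11M01001
def K1O11P0100 := (splE K1O11M01000.top K1O11M01001.top)

end Vale.Agent.P235
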