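import Vale.Agent.P235.T.K1O11C

namespace Vale.Agent.P235

set_option maxRecDepth 100000

namespace K1O11M010100
noncomputable def a0 : TT := .leaf ⟨false,0,1,0,1,1,15,[[],[0,0,0,0,16,0,0,0,-2],[],[0,0,0,0,0,0,0,0,3],[],[],[],[],[],[],[]]⟩ [.leaf 0 [(0,[])], .leaf 0 [(0,[(10,2)])], .leaf 0 [(0,[])], .leaf 0 [(0,[])], .leaf 0 [(0,[])], .leaf 0 [(0,[])], .leaf 0 [(0,[])], .leaf 0 [(0,[])], .leaf 0 [(0,[(10,1792)])], .leaf 0 [(0,[])], .leaf 0 [(0,[])], .leaf 0 [(0,[])], .leaf 0 [(0,[])], .leaf 0 [(0,[])], .leaf 0 [(0,[])], .leaf 0 [(0,[(10,1792)])], .leaf 0 [(0,[(11,2048)])], .leaf 0 [(0,[])], .leaf 0 [(0,[(40,2048),(11,2048)])], .leaf 0 [(0,[(22,64),(27,64),(42,2048)])], .leaf 0 [(0,[])], .leaf 0 [(0,[(23,64),(31,64)])], .leaf 0 [(0,[(22,64),(27,64),(10,1728),(8,4096),(42,4096)])], .leaf 0 [(0,[(20,512),(40,512),(11,512)]),(0,[(20,512),(32,64),(40,128),(1,320),(0,4)]),(0,[(30,32)]),(0,[(20,64),(25,224),(26,448),(40,512),(10,2272),(8,992),(42,1152)]),(0,[(20,512),(40,512),(11,512)])],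 .leaf 1 [(0,[])], .leaf 0 [(0,[(10,68)])], .leaf 0 [(0,[(23,64)])], .leaf 0 [(0,[])], .leaf 1 [(286,[(20,17840),(25,16896),(29,51632),(40,70224),(11,188496),(1,114688),(0,1792),(41,67584)]),(0,[(25,72),(29,144),(34,304),(11,816),(1,576),(41,288)]),(40,[(40,17408),(11,31680),(1,19008),(0,256)]),(0,[(0,32)]),(0,[(21,512),(38,512),(39,512),(10,1504)])], .split 0 0 (.leaf 0 [(0,[(0,1)])]) (.split 1 0 (.leaf 1 [(0,[(0,1)])]) (.w 1 (.leaf 2 [(0,[(0,16)])]) (.leaf 0 [(0,[(27,32),(31,32),(35,32),(44,32),(12,64),(5,64),(0,8)])]) (.leaf 0 [(402,[(28,27456),(32,21120),(36,25344),(45,46912),(8,4224),(6,33792),(3,323),(2,264),(0,4752)])]))), .leaf 1 [(0,[(26,64),(31,64),(40,64),(10,4),(8,128),(6,128)])], .leaf 2 [(32,[(32,4096),(40,43008),(11,34816),(1,20480),(0,256)])], .leaf 1 [(0,[(22,64),(27,64),(10,1728),(8,4096),(42,4096)])], .leaf 4 [(0,[(19,512),(11,512)]),(0,[(19,512),(11,512)]),(0,[]),(60,[(25,4032),(11,31168),(10,78144),(7,5536),(6,2528),(2,64),(41,16128)]),(6,[(25,1024),(7,272),(6,2224),(41,4096)])],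 .leaf 0 [(0,[])], .leaf 1 [(0,[(22,64),(42,2048)])], .leaf 1 [(0,[(10,68)])]]
noncomputable def a1 : TT := .leaf ⟨true,0,8,1,9,2,1023,[[],[-8,-16,8,0,1016,0,0,-24,-328,-8],[0,0,0,0,0,0,0,0,40],[-16,64,72,0,0,0,0,16,376,-88],[0,0,0,0,0,0,0,0,40],[],[],[],[-1,-2,1,0,127,0,0,-3,-41,-1],[0,0,0,0,0,0,0,0,40],[0,0,0,0,128]]⟩ [.leaf 0 [(0,[])], .leaf 0 [(42897,[(27,38688),(29,268232),(40,358592),(10,2250391),(3,47998),(2,5454),(0,13553)])], .leaf 0 [(0,[])], .leaf 0 [(0,[(32,1)])], .leaf 0 [(0,[])], .leaf 0 [(0,[])], .leaf 0 [(8,[(21,1664),(34,384),(40,1408),(11,3840),(1,3456),(0,128)])], .leaf 0 [(0,[]),(0,[]),(0,[]),(0,[]),(0,[]),(0,[])], .leaf 0 [(258,[(26,924416),(31,2034432),(40,712704),(3,97024),(2,63232),(1,1908736),(0,44672)])], .leaf 0 [(0,[])], .leaf 0 [(21448,[(27,121198592),(29,923363328),(40,1269792768),(10,8104559104),(3,167611392),(2,20253696),(0,47913472)])], .leaf 0 [(0,[])], .leaf 0 [(0,[])], .leaf 0 [(0,[])], .leaf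 0 [(0,[])], .leaf 0 [(0,[])], .leaf 0 [(0,[])], .leaf 0 [(21448,[(27,138657792),(29,961343488),(40,1285193728),(10,8065401344),(3,172024832),(2,19547136),(0,48573952)])], .leaf 0 [(4,[(25,1024),(29,53248),(11,648192),(41,4096)])], .leaf 0 [(14,[(21,8704),(27,38400),(29,192000),(40,89600),(8,43008),(3,9216),(1,254976),(0,2560)])], .leaf 0 [(6,[(20,409600),(25,3072),(29,458752),(32,28672),(40,501760),(11,480256),(1,14336),(41,12288)])], .leaf 0 [(776,[(26,2564864),(29,242944),(40,13656064),(10,417408),(3,1560320),(2,473856),(0,560256)])], .leaf 0 [(100,[(26,514368),(31,906432),(7,77952),(3,6464),(2,10304),(0,4512)])], .leaf 0 [(390,[(21,711168),(25,232448),(31,1937408),(10,2682880),(3,219648),(0,162304),(41,929792)])], .leaf 0 [(776,[(26,1564928),(29,26316544),(40,56664064),(10,246460800),(8,75248384),(3,6775040),(2,1344768),(0,2167680),(42,101842944)])], .leaf 0 [(6,[(19,5376),(20,298624),(25,768),(29,119168),(40,158592),(11,147840),(1,5376),(41,3072)]),(190,[(20,6434816),(26,2174976),(32,1691904),(40,3649536),(2,76032),(1,4670464)]),(4,[(25,4096),(30,114688),(32,5632),(40,28672),(10,137472),(41,16384)]),(0,[(26,22272),(31,32512),(40,65536),(10,353024),(8,196608),(42,131072)]),(38,[(20,645120),(21,73472),(40,2107648),(11,2032896),(2,4608),(1,13056),(0,4352)])],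 .leaf 0 [(258,[(26,1987840),(31,1473792),(40,1298432),(3,209152),(2,197888),(1,4260864),(0,103296)])], .leaf 0 [(0,[(29,320),(10,4448)])], .leaf 0 [(54,[(21,63088),(25,47520),(33,31552),(10,266432),(3,28912),(0,24112),(41,190080)])], .leaf 2 [(1550,[(26,22169600),(29,18386944),(40,45727744),(8,108919808),(3,5018624),(2,3130368),(1,10377216),(0,2356224),(42,203292672)])], .split 1 3 (.leaf 1 [(0,[(22,28160),(26,3456),(30,11520),(41,30464),(12,53376),(2,37248),(42,13824)]),(0,[(26,5440),(30,15488),(35,22400),(12,55936),(2,30720),(42,21760)]),(28,[(30,110592),(41,917504),(12,1603584),(2,737280),(0,5)]),(0,[(0,1)]),(0,[(22,41088),(27,12160),(30,17024),(39,22784),(41,5248),(11,395008),(9,29696)])]) (.leaf 4 [(6,[(26,98816),(27,215040),(30,4096),(41,261120),(12,257536),(42,395264)]),(224,[(22,5337344),(26,2368768),(27,3063040),(30,1719040),(39,4424960),(4,15360),(42,9475072)]),(4,[(26,34816),(30,84992),(35,81408),(12,247808),(2,7680),(42,139264)]),(4980,[(22,205772672),(26,69448832),(27,282292352),(30,119197824),(41,207155072),(12,193491072),(3,14448256),(2,101504640),(0,3498),(43,375074304)]),(24,[(22,654336),(30,435200),(39,599040),(40,53760),(11,7566592),(9,4713472),(4,24064)])]),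 .leaf 0 [(164,[(27,427008),(31,586752),(10,1202688),(8,1912832),(3,57344),(0,61952)])], .leaf 0 [(8,[(29,1728),(34,131648),(40,6144),(11,335712),(1,293760),(0,12352)])], .leaf 0 [(776,[(26,12204520),(29,1310552),(40,18218240),(10,12434508),(3,1726600),(2,1133736),(0,822300)])], .leaf 1 [(776,[(26,1564928),(29,26316544),(40,56664064),(10,274308480),(8,75248384),(3,6775040),(2,1344768),(0,2167680),(42,101842944)])], .leaf 4 [(4,[(19,165632),(25,1024),(29,26880),(11,154880),(1,6400),(41,4096)]),(20,[(19,597248),(31,112896),(33,10752),(11,680704),(7,5120),(6,16384),(2,2048),(1,70912)]),(0,[(38,4352),(11,27904),(10,14080),(7,3328)]),(4,[(25,1856),(39,17920),(10,1687424),(8,278464),(3,1408),(41,7424)]),(172,[(19,4733696),(25,178176),(29,752896),(11,4816128),(6,179200),(2,11264),(1,1472768),(41,712704)])], .leaf 0 [(258,[(26,876800),(31,792832),(40,2760704),(10,1212800),(3,345344),(2,104704),(0,121216)])], .leaf 0 [(776,[(27,156664),(29,2928568),(40,5499136),(10,7611788),(3,538472),(2,157704),(0,199596)])],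 .leaf 0 [(3708,[(26,12756064),(40,19100672),(3,4137792),(2,393920),(1,87030368),(0,1019904)])]]
noncomputable def t0 : TT := (.split [16,0,16,-32,-48,-96,0,16,-3,14] a0 a1)
theorem c0 : chkT (([0,0,0,0,-1,0,0,0,1,0] : Fm) :: ([16,16,0,-48,-16,-32,0,1,0,0] : Fm) :: ([1,0,11,-13,8,-16,0,10,3,-10] : Fm) :: ([8,0,8,-16,16,-24,0,8,1,7] : Fm) :: ([8,0,8,-16,208,-56,0,8,-29,8] : Fm) :: ([0,0,-1,0,0,4,0,0,0,0] : Fm) :: ([4,4,-1,0,0,0,0,0,0,0] : Fm) :: fsm (-1) ([0,0,0,1,-1,0,0,0,0,0] : Fm) :: ([0,0,0,0,0,0,0,1,-1,0] : Fm) :: fsm (-1) ([0,0,0,0,-2,0,0,0,1,0] : Fm) :: ([0,0,0,-1,-1,0,0,1,-1,0] : Fm) :: K1O11.C0) t0 = true := by decide +kernel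
end K1O11M010100

namespace K1O11M010100
noncomputable def a2 : TT := .leaf ⟨false,0,1,0,1,1,15,[[],[0,0,0,0,16,0,0,0,-2],[],[0,0,0,0,0,0,0,0,3],[],[],[],[],[],[],[]]⟩ [.leaf 0 [(0,[])], .leaf 0 [(0,[(13,2)])], .leaf 0 [(0,[])], .leaf 0 [(0,[])], .leaf 0 [(0,[])], .leaf 0 [(0,[])], .leaf 0 [(0,[])], .leaf 0 [(0,[])], .leaf 0 [(0,[(13,1792)])], .leaf 0 [(0,[])], .leaf 0 [(0,[])], .leaf 0 [(0,[])], .leaf 0 [(0,[])], .leaf 0 [(0,[])], .leaf 0 [(0,[])], .leaf 0 [(0,[(13,1792)])], .leaf 0 [(0,[(14,2048)])], .leaf 0 [(0,[])], .leaf 0 [(0,[(23,960),(32,960),(43,1088),(14,1088)])], .leaf 0 [(0,[(25,64),(30,64),(45,2048)])], .leaf 0 [(0,[])], .leaf 0 [(0,[(26,64),(34,64)])], .leaf 0 [(0,[(25,64),(30,64),(11,4096),(4,1728),(45,4096)])], .leaf 0 [(270,[(23,146432),(29,24064),(35,40448),(43,81920),(2,1024),(0,1024)]),(270,[(23,146432),(29,24064),(35,40448),(43,81920),(2,1024),(0,1024)]),(0,[(41,32)]),(12,[(29,256),(41,5568),(43,3648),(11,26944),(6,256),(4,19168),(45,26624)]),(10,[(23,5632),(35,1024),(41,1536),(43,2048),(0,64)])],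 .leaf 1 [(0,[])], .leaf 0 [(0,[(13,68)])], .leaf 0 [(0,[(26,64)])], .leaf 0 [(0,[])], .leaf 4 [(1752,[(28,40448),(29,98816),(32,506368),(14,695296),(2,32768),(0,4416),(44,161792)]),(142,[(28,25920),(32,51840),(41,49536),(42,1600),(6,2816),(44,103680)]),(4,[(28,704),(32,1408),(14,2368),(0,12),(44,2816)]),(36,[(28,1536),(29,1536),(32,1536),(11,87040),(0,1088),(45,69632)]),(0,[(28,512),(29,512),(32,512),(13,2880),(44,2048)])], .split 0 0 (.leaf 0 [(0,[(0,1)])]) (.split 1 0 (.leaf 1 [(0,[(0,1)])]) (.w 1 (.leaf 2 [(0,[(0,16)])]) (.leaf 0 [(0,[(34,64),(0,16)])]) (.leaf 1 [(0,[(39,64),(0,16)])]))), .leaf 1 [(0,[(29,64),(34,64),(43,64),(11,128),(9,128),(4,4)])], .leaf 2 [(0,[(29,256),(35,176),(43,1184),(14,560),(5,16),(0,11)])], .leaf 1 [(0,[(25,64),(30,64),(13,1728),(11,4096),(45,4096)])], .leaf 4 [(0,[(22,512),(14,512)]),(0,[(22,512),(14,512)]),(0,[]),(732,[(28,45952),(14,373632),(10,57440),(9,36288),(4,939808),(3,1664),(1,32),(44,183808)]),(6,[(28,1024),(9,2496),(44,4096)])],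 .leaf 0 [(0,[])], .leaf 1 [(0,[(25,64),(45,2048)])], .leaf 1 [(0,[(4,68)])]]
noncomputable def a3 : TT := .leaf ⟨false,0,1,0,1,1,31,[[],[0,0,0,0,32,0,0,0,-5],[],[-1,-2,-1,0,0,0,0,1,6,1],[],[],[],[],[],[],[]]⟩ [.leaf 0 [(0,[])], .leaf 0 [(0,[(14,5)])], .leaf 0 [(0,[])], .leaf 0 [(0,[])], .leaf 0 [(0,[])], .leaf 0 [(0,[])], .leaf 0 [(0,[(30,128),(33,128)])], .leaf 0 [(0,[])], .leaf 0 [(0,[(14,4480)])], .leaf 0 [(0,[])], .leaf 0 [(0,[])], .leaf 0 [(0,[])], .leaf 0 [(0,[])], .leaf 0 [(0,[])], .leaf 0 [(0,[])], .leaf 0 [(0,[(14,4480)])], .leaf 0 [(0,[(23,128),(35,128),(15,3968)])], .leaf 0 [(0,[(31,128),(35,128)])], .leaf 0 [(0,[(23,128),(24,1984),(33,1856),(44,2112),(15,1984)])], .leaf 0 [(0,[(25,64),(30,128),(33,128),(44,64),(5,148),(1,4)])], .leaf 0 [(0,[(30,128),(33,128)])], .leaf 0 [(30,[(30,6016),(33,1920),(14,4608),(4,128),(1,128)])], .leaf 0 [(0,[(25,64),(30,128),(33,128),(44,64),(12,4224),(5,4628),(1,4),(46,4096)])], .leaf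 0 [(0,[(23,96),(24,1760),(33,640),(44,288),(15,192)]),(0,[(23,96),(24,1952),(33,832),(44,96)]),(0,[(34,192),(38,96)]),(0,[(24,1024),(29,96),(36,96),(42,512),(44,320),(14,4160),(12,3744),(46,3712)]),(0,[(23,224),(24,1376),(33,128),(44,672),(15,448)])], .leaf 1 [(0,[(30,128),(33,128),(5,256)])], .leaf 0 [(0,[(31,4),(35,4),(14,140)])], .leaf 0 [(0,[(30,188),(33,188),(14,312),(12,128),(1,4)])], .split 2 0 (.leaf 2 [(0,[(0,1)])]) (.leaf 1 [(413215,[(31,662931456),(45,533196800),(8,20207616),(7,30780288),(6,741734400),(5,11641344),(2,20680704),(1,730752),(0,235465),(47,964464640)])]), .leaf 1 [(8,[(23,192),(38,928),(44,1024),(15,2880),(0,256)]),(0,[(0,32)]),(0,[(44,128),(0,32)]),(0,[(0,32)]),(0,[(25,928),(29,160),(42,800),(14,5184),(45,640)])], .leaf 0 [(0,[(30,64),(33,192),(14,148),(12,256),(1,4)])], .leaf 1 [(7,[(30,1984),(36,16),(44,992),(12,2048),(10,1984),(5,997),(1,1)])], .leaf 0 [(32,[(30,4284),(33,4284),(36,2176),(44,128),(5,5564),(1,256),(0,64)])],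 .leaf 1 [(0,[(25,64),(30,128),(33,128),(44,64),(14,4628),(12,4224),(1,4),(46,4096)])], .leaf 4 [(0,[(23,1088),(35,64),(15,960)]),(0,[(23,960),(33,64),(15,1088)]),(0,[(37,64),(5,160)]),(792,[(29,107992),(43,708504),(11,150676),(10,70188),(6,2024),(5,2968088),(2,976),(45,431968)]),(90,[(29,13952),(43,81536),(10,40112),(2,112),(45,55808)])], .leaf 0 [(0,[(30,128),(33,128),(14,256)])], .leaf 0 [(243,[(35,1952),(44,16352),(5,17643),(4,480),(1,991)])], .leaf 1 [(0,[(31,4),(35,4),(5,140)])]]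
noncomputable def a4 : TT := .leaf ⟨false,0,1,0,1,1,31,[[],[0,0,0,0,32,0,0,0,-5],[],[-1,-2,-1,0,0,0,0,1,6,1],[],[],[],[],[],[],[]]⟩ [.leaf 0 [(0,[])], .leaf 0 [(0,[(15,5)])], .leaf 0 [(0,[])], .leaf 0 [(0,[])], .leaf 0 [(0,[])], .leaf 0 [(0,[])], .leaf 0 [(0,[(31,128),(34,128)])], .leaf 0 [(0,[])], .leaf 0 [(0,[(15,4480)])], .leaf 0 [(0,[])], .leaf 0 [(0,[])], .leaf 0 [(0,[])], .leaf 0 [(0,[])], .leaf 0 [(0,[])], .leaf 0 [(0,[])], .leaf 0 [(0,[(15,4480)])], .leaf 0 [(0,[(24,128),(36,128),(16,3968)])], .leaf 0 [(0,[(32,128),(36,128)])], .leaf 0 [(0,[(24,128),(25,128),(45,3968),(16,3840)])], .leaf 0 [(0,[(31,192),(34,64),(45,128),(15,148),(2,4)])], .leaf 0 [(0,[(31,128),(34,128)])], .leaf 0 [(194,[(31,16544),(34,30880),(15,29856),(11,2048),(8,2048),(1,416)])], .leaf 0 [(0,[(31,192),(34,64),(45,128),(13,4352),(6,4628),(2,4),(47,4096)])], .leaf 0 [(0,[(24,96),(25,1760),(34,640),(45,288),(16,192)]),(0,[(24,96),(25,1952),(34,832),(45,96)]),(0,[(39,96),(43,192)]),(0,[(25,1024),(30,48),(43,704),(45,224),(13,3984),(6,3968),(47,3904)]),(0,[(24,224),(25,1376),(34,128),(45,672),(16,448)])],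 .leaf 1 [(0,[(31,128),(34,128),(15,256)])], .leaf 0 [(0,[(32,4),(36,4),(6,140)])], .leaf 0 [(30,[(31,5892),(34,5764),(6,9692),(5,128),(2,128)])], .leaf 2 [(411678,[(31,457119744),(45,462573568),(13,541708288),(8,22050816),(7,25407616),(6,497973248),(5,8472064),(1,10654848),(0,4568576),(47,1686237184)])], .leaf 4 [(2,[(26,1472),(30,896),(31,1408),(45,2880),(16,4352),(46,3584)]),(4,[(26,2496),(30,1152),(31,2944),(43,2496),(16,1856),(5,92),(46,4608)]),(6,[(30,2112),(34,3328),(45,3392),(16,10112),(46,8448)]),(0,[(0,64),(47,4096)]),(0,[(30,1024),(31,960),(34,960),(6,6464),(46,4096)])], .leaf 0 [(0,[(31,64),(34,192),(13,256),(6,148),(2,4)])], .leaf 1 [(58,[(31,14608),(37,120),(45,7296),(15,7304),(13,15104),(11,14608),(1,4)])], .leaf 0 [(14,[(31,580),(34,3140),(37,1728),(45,1280),(15,3168),(8,256),(2,108)])], .leaf 1 [(0,[(31,192),(34,64),(45,128),(13,4352),(6,4628),(2,4),(47,4096)])], .leaf 4 [(0,[(24,1088),(36,64),(16,960)]),(0,[(24,960),(34,64),(16,1088)]),(0,[(38,64),(44,160)]),(792,[(30,107992),(16,708504),(12,150676),(11,70188),(7,2024),(6,2968088),(3,976),(46,431968)]),(90,[(30,13952),(44,81536),(12,16320),(11,23792),(3,112),(46,55808)])],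 .leaf 0 [(0,[(31,128),(34,128),(15,256)])], .leaf 0 [(0,[(26,60),(36,8),(45,68),(15,72),(2,4)])], .leaf 1 [(0,[(32,4),(36,4),(15,140)])]]
noncomputable def a5 : TT := .leaf ⟨false,0,1,0,1,1,15,[[],[5,5,0,0,16,0,0,-5,-10],[],[1,1,0,0,0,0,0,-1,1],[],[],[],[],[],[],[]]⟩ [.leaf 0 [(0,[])], .leaf 0 [(0,[(33,5),(16,1),(7,14)])], .leaf 0 [(0,[])], .leaf 0 [(0,[])], .leaf 0 [(0,[(32,5)])], .leaf 0 [(0,[])], .leaf 0 [(0,[(33,128)])], .leaf 0 [(0,[])], .leaf 0 [(0,[(33,4480),(16,896),(7,12544)])], .leaf 0 [(0,[])], .leaf 0 [(0,[])], .leaf 0 [(0,[])], .leaf 0 [(0,[])], .leaf 0 [(0,[])], .leaf 0 [(0,[])], .leaf 0 [(0,[(33,4480),(16,896),(7,12544)])], .leaf 0 [(0,[(32,768),(17,2048)])], .leaf 0 [(0,[(33,512)])], .leaf 0 [(0,[(26,1216),(32,768),(35,1216),(46,832),(17,832)])], .leaf 0 [(0,[(27,32),(33,770),(37,2),(46,32),(16,58),(7,1868),(1,2)])], .leaf 0 [(0,[(32,512)])], .leaf 0 [(72,[(31,1024),(33,52816),(37,1872),(7,139120),(2,112),(47,4096)])],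 .leaf 0 [(4375904,[(31,1214480384),(33,19104680064),(46,2018176000),(8,102242240),(7,63841991680),(6,69506048),(3,77155328),(2,34127872),(48,4103931904)])], .leaf 0 [(0,[(26,928),(32,96),(35,416),(46,96),(17,96)]),(0,[(26,1024),(32,736),(35,512)]),(0,[(33,160),(40,384),(7,1024)]),(0,[(31,272),(33,4512),(46,544),(14,752),(7,14346),(3,2),(48,960)]),(0,[(26,512),(32,224),(46,512),(17,512)])], .leaf 1 [(0,[(33,768),(7,1984)])], .leaf 0 [(0,[(32,24),(7,52)])], .leaf 0 [(72,[(31,1024),(33,51184),(40,2800),(12,5600),(7,138828),(2,112),(47,4096)])], .leaf 1 [(24468516,[(46,20659148288),(9,1181696640),(8,1284755584),(7,32630801408),(6,314146816),(3,3169152),(2,128020240),(1,498073424)])], .leaf 3 [(12,[(32,4288),(35,6944),(17,6592),(5,384),(0,96)]),(8,[(26,2560),(35,6720),(17,3648),(0,704)]),(340,[(31,65472),(44,188032),(16,20288),(9,3968),(6,4416),(47,261888)]),(29058,[(32,25887360),(44,1489696),(46,18874080),(17,10041056),(8,502528),(7,3761088),(6,656896),(5,290048),(0,2047488)]),(16,[(33,54232),(46,12160),(16,46696),(8,672),(7,153520),(5,184),(0,1152)])],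 .leaf 0 [(1698,[(31,34720),(33,1253248),(40,74016),(14,43872),(12,39296),(7,3219424),(6,384),(2,2976),(47,138880)])], .leaf 0 [(32,[(35,1360),(40,228),(46,3128),(17,3584),(1,244),(0,1056)])], .leaf 0 [(3390,[(33,2195864),(46,169920),(16,578500),(13,24448),(8,12800),(7,5413048),(1,11328)])], .leaf 1 [(4375904,[(31,1214480384),(33,19104680064),(46,2018176000),(8,102242240),(7,63841991680),(6,69506048),(3,77155328),(2,34127872),(48,4103931904)])], .leaf 4 [(0,[(25,608),(17,416)]),(0,[(25,736),(17,288)]),(0,[(25,352),(33,224),(7,1376)]),(2350,[(25,1984424),(31,554520),(33,9851304),(46,622800),(12,403200),(8,37800),(7,33666136),(1,41520),(47,2218080)]),(4,[(25,4672),(31,64),(33,1120),(12,448),(7,6880),(47,256)])], .leaf 0 [(0,[(33,768),(7,1984)])], .leaf 0 [(10,[(37,176),(46,688),(9,16),(7,818),(3,22)])], .leaf 1 [(0,[(32,24),(7,52)])]]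
noncomputable def a6 : TT := .leaf ⟨false,0,1,0,1,3,15,[[],[7,0,1,-28,8,-8,0,1,-8,7],[],[1,0,1,-7,-2,-2,0,1,2,1],[],[],[],[],[],[],[]]⟩ [.leaf 0 [(0,[])], .leaf 0 [(0,[(31,4),(32,1),(35,7),(7,16),(47,16)])], .leaf 0 [(0,[])], .leaf 0 [(0,[])], .leaf 0 [(3,[(32,11),(37,13),(1,1)])], .leaf 0 [(0,[])], .leaf 0 [(0,[(31,128),(32,128),(35,128),(47,512)])], .leaf 0 [(0,[])], .leaf 0 [(0,[(31,3584),(32,896),(35,6272),(7,14336),(47,14336)])], .leaf 0 [(0,[])], .leaf 0 [(0,[])], .leaf 0 [(0,[])], .leaf 0 [(0,[])], .leaf 0 [(0,[])], .leaf 0 [(0,[])], .leaf 0 [(0,[(31,3584),(32,896),(35,6272),(7,14336),(47,14336)])], .leaf 0 [(0,[(32,344),(37,424),(17,2048),(1,40)])], .leaf 0 [(0,[(31,384),(35,768),(47,1536)])], .leaf 0 [(0,[(26,1428),(32,344),(35,1004),(46,620),(17,620),(1,40)])], .leaf 0 [(1628,[(27,491008),(31,204480),(35,390464),(44,1199296),(17,386752),(14,736512),(6,22848),(0,18496),(47,817920)])], .leaf 0 [(0,[(32,360),(37,408),(1,24)])],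 .leaf 0 [(16,[(31,3200),(35,5536),(40,7808),(44,384),(17,15616),(14,29504),(0,864),(47,12800)])], .leaf 0 [(2520,[(31,8951552),(32,5210752),(35,15672064),(46,960256),(17,576640),(7,38582912),(6,30976),(5,222272),(0,576640),(47,30643200)])], .leaf 0 [(0,[(25,6),(26,518),(46,506),(17,500),(1,6)]),(0,[(26,1024),(32,346),(35,90),(1,38)]),(34,[(31,10048),(44,8288),(45,7648),(17,2176),(0,2176),(47,40192)]),(72,[(31,293024),(32,79008),(35,475808),(46,74752),(17,62464),(14,122880),(8,448),(7,1063936),(0,1024),(47,1022592)]),(30,[(26,3136),(31,6368),(44,21824),(46,18816),(6,32),(47,25472)])], .leaf 1 [(1618,[(31,392960),(35,641792),(44,565440),(17,990976),(14,1486464),(6,18240),(0,144128),(47,1571840)])], .leaf 0 [(23,[(32,220),(37,316),(16,1541),(12,5),(4,1),(2,16)])], .leaf 0 [(28,[(27,1856),(31,17372),(32,7488),(35,28472),(17,2496),(7,54976),(0,640),(47,69488)])], .leaf 1 [(6466,[(32,7188736),(35,32896),(46,4571904),(17,480896),(8,225600),(7,10264704),(6,160832),(5,255808),(0,480896)])],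 .leaf 4 [(0,[(26,384),(32,384)]),(4,[(27,1984),(31,2176),(32,1216),(35,3136),(44,1984),(45,1664),(7,2624),(47,8704)]),(0,[(26,320),(32,320),(17,64)]),(0,[(31,192),(32,384),(48,1280)]),(0,[(31,3776),(32,1280),(35,6272),(7,14336),(47,15104)])], .leaf 0 [(52,[(31,23264),(32,5552),(35,35736),(17,25584),(16,40688),(0,5240),(47,93056)])], .leaf 1 [(12,[(31,5620),(35,10828),(17,4872),(14,8920),(7,14392),(0,412),(47,22480)])], .leaf 0 [(30,[(27,5704),(31,7652),(35,15304),(44,15320),(45,7688),(7,15360),(6,128),(47,30608)])], .leaf 1 [(2520,[(31,8951552),(32,5210752),(35,15672064),(46,960256),(17,576640),(7,38582912),(6,30976),(5,222272),(0,576640),(47,30643200)])], .leaf 1 [(0,[(25,518),(37,6),(17,506),(1,6)]),(6,[(31,1408),(35,2016),(44,3584),(17,3360),(13,576),(47,5632)]),(0,[(25,166),(37,422),(17,858),(1,38)]),(72,[(31,293024),(32,41632),(35,513184),(17,62464),(14,122880),(8,448),(7,1063936),(0,1024),(47,1022592)]),(0,[(31,368),(35,152),(38,192),(45,568),(17,72),(0,72),(47,1472)])],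 .leaf 0 [(678,[(31,172416),(35,344832),(40,66240),(44,276480),(17,240064),(16,393216),(6,7744),(47,689664)])], .leaf 0 [(3,[(27,80),(46,176),(16,185),(3,5)])], .leaf 1 [(3,[(32,43),(37,53),(16,261),(1,5)])]]
noncomputable def a7 : TT := .leaf ⟨false,0,1,0,1,1,15,[[],[0,0,0,0,16,0,0,0,-2],[],[0,0,0,0,0,0,0,0,3],[],[],[],[],[],[],[]]⟩ [.leaf 0 [(0,[])], .leaf 0 [(0,[(4,2)])], .leaf 0 [(0,[])], .leaf 0 [(0,[])], .leaf 0 [(0,[])], .leaf 0 [(0,[])], .leaf 0 [(0,[])], .leaf 0 [(0,[])], .leaf 0 [(0,[(4,1792)])], .leaf 0 [(0,[])], .leaf 0 [(0,[])], .leaf 0 [(0,[])], .leaf 0 [(0,[])], .leaf 0 [(0,[])], .leaf 0 [(0,[])], .leaf 0 [(0,[(4,1792)])], .leaf 0 [(0,[(14,2048)])], .leaf 0 [(0,[])], .leaf 0 [(9476,[(29,770048),(32,770048),(35,3590144),(41,1871872),(43,7276544),(2,96256),(0,176256)])], .leaf 0 [(0,[(25,64),(30,64),(45,2048)])], .leaf 0 [(0,[])], .leaf 0 [(0,[(26,64),(34,64)])], .leaf 0 [(0,[(25,64),(30,64),(11,4096),(4,1728),(45,4096)])],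 .leaf 0 [(12,[(23,10496),(32,3840),(35,512),(41,768),(43,1024),(0,32)]),(0,[(23,512),(43,512),(14,512)]),(0,[(33,32)]),(12,[(23,3856),(28,1400),(35,2912),(43,4864),(11,20232),(6,112),(4,24048),(45,21024)]),(116,[(23,60160),(29,256),(35,11008),(41,15616),(43,22016),(3,16),(0,672)])], .leaf 1 [(0,[])], .leaf 0 [(0,[(13,68)])], .leaf 0 [(0,[(26,64)])], .leaf 0 [(0,[])], .leaf 4 [(902,[(24,166400),(28,89600),(32,179200),(41,245248),(14,281088),(6,7168),(0,6848),(44,358400)]),(152,[(28,31232),(29,62464),(41,77824),(3,512),(44,124928)]),(4,[(28,704),(32,1408),(14,2368),(0,12),(44,2816)]),(36,[(28,1536),(29,1536),(32,1536),(11,87040),(0,1088),(45,69632)]),(0,[(28,512),(29,512),(32,512),(13,2880),(44,2048)])], .split 0 0 (.leaf 0 [(0,[(0,1)])]) (.split 1 0 (.leaf 1 [(0,[(0,1)])]) (.split 2 0 (.leaf 2 [(0,[(0,1)])]) (.w 1 (.leaf 2 [(0,[(0,16)])]) (.leaf 0 [(0,[(35,64),(0,16)])]) (.leaf 1 [(0,[(40,64),(0,16)])])))), .leaf 1 [(0,[(29,52),(34,52),(11,128),(9,59),(1,1)])],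 .leaf 0 [(246,[(29,7744),(34,7744),(13,2476),(9,15248),(6,4800),(1,1072)])], .leaf 1 [(0,[(25,64),(30,64),(13,1728),(11,4096),(45,4096)])], .leaf 4 [(0,[(22,512),(14,512)]),(0,[(22,512),(14,512)]),(0,[]),(0,[(14,512),(11,512),(4,1280)]),(6,[(28,1024),(10,272),(9,2224),(44,4096)])], .leaf 0 [(0,[])], .leaf 1 [(0,[(25,64),(45,2048)])], .leaf 1 [(0,[(13,68)])]]
noncomputable def a8 : TT := .leaf ⟨false,0,1,0,1,1,2047,[[],[640,604,0,0,2048,0,0,-640,-944,34],[],[128,-99,0,0,0,0,0,-128,229,220],[],[],[],[],[],[],[]]⟩ [.leaf 0 [(0,[])], .leaf 0 [(108,[(32,59776),(15,44564),(6,109528),(1,12)])], .leaf 0 [(0,[])], .leaf 0 [(0,[])], .leaf 0 [(216,[(31,158384),(36,27316),(11,5952),(5,754),(3,372),(2,10)])], .leaf 0 [(0,[])], .leaf 0 [(2,[(26,103040),(31,33728),(34,4288),(11,8032),(3,1568),(2,84)])], .leaf 0 [(0,[])], .leaf 0 [(108,[(32,53559296),(15,39929344),(6,98137088),(1,10752)])], .leaf 0 [(0,[])], .leaf 0 [(0,[])], .leaf 0 [(0,[])],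 .leaf 0 [(0,[])], .leaf 0 [(0,[])], .leaf 0 [(0,[])], .leaf 0 [(108,[(32,53559296),(15,39929344),(6,98137088),(1,10752)])], .leaf 0 [(92,[(31,19028352),(36,7909120),(16,18707968),(11,2553856),(7,319232),(3,93952)])], .leaf 0 [(650,[(32,2686464),(36,55893120),(11,12126208),(5,1551232),(3,757888),(2,35456)])], .leaf 0 [(6980,[(25,331211264),(31,378470400),(34,294445568),(37,346341376),(43,256221696),(45,554777600),(4,4291584),(0,117632)])], .leaf 0 [(0,[(1,128)])], .leaf 0 [(2,[(26,73600),(31,255808),(34,14144),(3,1120),(2,60)])], .leaf 0 [(2374,[(32,136519680),(39,9867264),(45,49209344),(6,332893440),(2,616704),(1,33664)])], .leaf 0 [(688,[(32,368092416),(45,18855424),(15,298842992),(6,645334560),(2,16976),(1,97664),(47,180617216)])], .leaf 0 [(1053976,[(25,101875301504),(31,33860736704),(37,8807158592),(4,817729280),(3,698114880),(0,1325280)]),(17433760,[(25,1350609677952),(31,1775227241664),(37,181380769856),(4,27016499200),(3,9172547648),(0,31192032)]),(0,[(32,53792),(39,15840),(6,131072)]),(3748,[(30,118542336),(32,2020782080),(36,8609792),(45,255045632),(15,1852233568),(6,3495424320),(1,199232),(47,508608512)]),(2395780,[(25,194425124864),(31,37686201728),(36,58043961536),(16,110712457856),(8,6689915008),(3,3075899456),(0,3065440)])],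 .leaf 1 [(72,[(32,4136960),(39,163840),(6,10702848),(3,36864),(1,1152)])], .leaf 0 [(0,[(31,3072),(36,1016),(15,9420),(11,1016)])], .leaf 0 [(32220,[(32,1553850000),(15,1999494364),(6,2245807184),(3,18639852),(2,7782184),(1,704092)])], .leaf 2 [(0,[(1,128),(47,262144)])], .leaf 4 [(970656,[(26,16000942080),(30,7230259200),(31,63861727232),(16,27461681152),(5,187561984),(4,1528717312),(0,4244160),(46,28921036800)]),(0,[(26,33216),(30,16160),(43,37568),(44,8192),(13,14112),(5,874),(46,64640)]),(4,[(30,73728),(31,105472),(34,197524),(16,450560),(0,4),(46,294912)]),(950596,[(30,4122443776),(31,8311078912),(16,1140097024),(13,243167789056),(11,112738304),(3,74301440),(1,24841728),(0,28516288),(47,232703524864)]),(32,[(30,1081344),(32,13008896),(6,37580608),(5,72704),(1,2560),(46,4325376)])], .leaf 0 [(2374,[(32,128245760),(39,9269248),(45,64503808),(15,142490880),(6,170227200),(2,579328),(1,50048)])], .leaf 1 [(247444,[(32,13699930880),(39,2644660736),(15,22646980608),(6,10697927680),(3,81814016),(2,520704),(1,3554604)])],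 .leaf 0 [(4160,[(32,228437760),(45,83800576),(15,376341504),(6,177321984),(3,598016),(1,63612)])], .leaf 1 [(948,[(32,501819136),(15,407189440),(6,881986560),(3,442176),(1,144768),(47,248774656)])], .leaf 4 [(99224,[(24,1553793312),(36,4488946048),(16,3187372000),(11,2057921152),(7,217390160),(3,53835520),(0,311328)]),(10212,[(24,954937344),(30,1048576),(34,154252352),(16,374263808),(0,512),(46,4194304)]),(0,[(24,6400),(32,28672),(36,8640),(12,8640),(6,137472)]),(0,[(32,548864),(15,123776),(6,1325312),(1,64)]),(2802,[(24,88707072),(36,55884608),(16,23359488),(12,60456480),(11,18390304),(6,224133120),(1,124672)])], .leaf 0 [(31500,[(39,59301888),(6,580399104),(3,1040384),(1,3585664)])], .leaf 0 [(19,[(26,98928),(45,104880),(15,131141),(8,992),(2,6865)])], .leaf 1 [(14,[(31,35920),(37,3048),(14,5080),(8,1016),(6,116408),(2,508)])]]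
noncomputable def a9 : TT := .leaf ⟨false,0,1,0,1,1,2047,[[],[640,577,-3,-4,2045,0,0,-633,-975,54],[],[128,52,0,-7,0,0,0,-120,143,67],[],[],[],[],[],[],[]]⟩ [.leaf 0 [(0,[])], .leaf 0 [(4863999,[(33,2731771840),(46,210753536),(7,7370152960),(2,126657),(1,7125)])], .leaf 0 [(0,[])], .leaf 0 [(0,[])], .leaf 0 [(53815,[(32,41210800),(37,10075640),(12,2087912),(8,5208),(6,263416),(4,135160),(3,7635)])], .leaf 0 [(0,[])], .leaf 0 [(12368,[(27,71375744),(33,140606464),(35,58860160),(4,917504),(1,384)])], .leaf 0 [(0,[])], .leaf 0 [(37999,[(33,19122402880),(46,1475274752),(7,51591070720),(2,886599),(1,49875)])], .leaf 0 [(0,[])], .leaf 0 [(0,[])], .leaf 0 [(0,[])], .leaf 0 [(0,[])], .leaf 0 [(0,[])], .leaf 0 [(0,[])], .leaf 0 [(37999,[(33,19122402880),(46,1475274752),(7,51591070720),(2,886599),(1,49875)])], .leaf 0 [(52,[(32,6839680),(37,1061120),(39,225664),(17,12308096),(12,755712),(8,94464),(4,8960)])], .leaf 0 [(72928,[(27,1240511360),(33,1200513920),(37,3660900640),(12,1066919904),(6,97929056),(4,66828352),(1,26016)])],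 .leaf 0 [(2484,[(26,337176704),(32,248810880),(35,305231744),(38,2797184),(46,263870336),(17,291767808),(5,1049600),(4,789248)])], .leaf 0 [(4122,[(33,318958336),(40,15980416),(46,58905344),(7,741841280),(1,8576)])], .leaf 0 [(6,[(31,384),(32,459648),(35,11520),(47,1536)])], .leaf 0 [(77218,[(33,5667228288),(46,592547712),(16,3609741824),(7,9540745088),(2,640958),(1,149270)])], .leaf 0 [(45124,[(33,23680659840),(46,1098628736),(7,63268408960),(4,2432000),(2,6498432),(48,11829248000)])], .leaf 0 [(2484,[(26,293783072),(32,32685840),(35,117787792),(38,915312),(46,10503648),(17,22749984),(5,446400),(4,339744)]),(480,[(26,37418128),(32,46703760),(38,368112),(46,19862384),(17,21997872),(8,180160),(4,93728)]),(3756,[(31,12508448),(16,152000240),(7,79368736),(4,3806944),(2,75920),(47,50033792)]),(63,[(31,1998848),(33,33876032),(46,4390912),(7,91876055),(2,3611),(48,8781824)]),(164,[(26,14447175),(32,6598375),(38,220423),(46,4051545),(17,5667929),(5,65170),(4,78176)])],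 .leaf 1 [(326,[(33,17034112),(16,5174784),(13,125568),(7,36915584),(2,17408)])], .leaf 0 [(7,[(32,24336),(37,3632),(16,66955),(14,128),(12,3296),(3,15)])], .leaf 0 [(23399823,[(33,1532121247680),(46,243656983232),(16,1080534835648),(7,2768941577792),(4,1956255936),(2,283410995),(1,43677295)])], .split 2 0 (.leaf 2 [(0,[(0,1)])]) (.leaf 1 [(589937630158,[(38,2586199503405056),(47,10858552784453632),(10,537623822467072),(8,78920658231230464),(7,1400288744448000),(6,3213794609586176),(5,497357965885440),(2,15596509986816),(0,374336340017),(49,98130025517416448)])]), .leaf 4 [(216,[(26,4418816),(31,5595648),(32,22998528),(35,1347136),(46,11140864),(17,12790848),(6,52864),(47,22382592)]),(0,[(31,20128),(44,34400),(16,18848),(6,1763),(47,80512)]),(584,[(31,4866048),(32,4366336),(35,24688640),(17,53090304),(0,2240),(47,19464192)]),(106152916,[(31,354068791296),(38,88294195200),(17,855646478336),(14,3166130257920),(12,21541806080),(6,18427796480),(2,1723375616),(0,3101077952),(48,26411075108864)]),(525330,[(31,34881727552),(33,168589800192),(40,8505123008),(16,334497596416),(7,250306084416),(4,792135296),(2,23942464),(47,139526910208)])],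 .leaf 0 [(1782,[(33,81983296),(16,18503680),(7,166608256),(2,117009),(1,1637)])], .leaf 1 [(36640255,[(33,2427321226176),(7,5633931211776),(4,784224256),(2,458250673),(1,131389829)])], .leaf 0 [(15871,[(33,872185664),(46,320968128),(7,2384293341),(6,2528466),(1,66371)])], .leaf 1 [(21868,[(33,11472436608),(46,535245440),(16,8692905600),(7,21964021504),(4,1178624),(2,3150720),(48,5732827136)])], .leaf 4 [(52,[(25,3816528),(37,211792),(39,101936),(17,2867536),(12,123648),(8,15456),(4,3424)]),(28,[(25,2439584),(31,46464),(17,1252640),(4,3120),(47,185856)]),(18,[(33,524896),(7,2418080),(4,160)]),(607,[(33,325957824),(7,888395893),(4,33792),(2,41089)]),(0,[(31,18752),(33,28064),(12,46176),(7,127680),(47,75008)])], .leaf 0 [(15,[(33,1283647),(46,245441),(7,3112988),(1,3)])], .leaf 0 [(103074,[(27,137985132),(35,93966000),(46,370756180),(9,20658068),(7,229835504),(1,204900)])], .leaf 1 [(14,[(32,41540),(38,1236),(9,472),(7,117096),(3,236)])]]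
noncomputable def a10 : TT := .leaf ⟨false,0,1,0,1,2,2047,[[],[439,631,256,-52,2048,0,0,-384,-1208,-246],[],[71,118,128,-64,25,0,0,-6,134,-117],[],[],[],[],[],[],[]]⟩ [.leaf 0 [(0,[])], .leaf 0 [(788378,[(26,20322278),(31,150151277),(37,15055530),(39,22844799),(16,646243159),(9,1455988),(7,115965527),(0,83965),(47,600605108)])], .leaf 0 [(0,[])], .leaf 0 [(0,[])], .leaf 0 [(51342015,[(27,1190031616),(32,25908412480),(35,6582224576),(12,1131729472),(6,109093184),(4,114782208),(2,72929),(1,37621)])], .leaf 0 [(0,[])], .leaf 0 [(1449784,[(27,2720051392),(37,21438737920),(39,102947456),(9,10161216),(6,320779904),(1,302848)])], .leaf 0 [(0,[])], .leaf 0 [(788378,[(26,18208761088),(31,134535544192),(37,13489754880),(39,20468939904),(16,579033870464),(9,1304565248),(7,103905112192),(0,75232640),(47,538142176768)])], .leaf 0 [(0,[])], .leaf 0 [(0,[])], .leaf 0 [(0,[])], .leaf 0 [(0,[])], .leaf 0 [(0,[])], .leaf 0 [(0,[])], .leaf 0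 [(788378,[(26,18208761088),(31,134535544192),(37,13489754880),(39,20468939904),(16,579033870464),(9,1304565248),(7,103905112192),(0,75232640),(47,538142176768)])], .leaf 0 [(182,[(31,546944),(32,15512320),(35,3126144),(17,46856960),(12,1195072),(6,115200),(4,101184),(47,2187776)])], .leaf 0 [(142,[(27,1391872),(31,5120),(33,3041792),(37,6337920),(12,1147200),(6,99584),(4,74560),(47,20480)])], .leaf 0 [(24,[(27,226432),(31,5248),(32,1707648),(35,699648),(46,6316672),(17,6542464),(4,13440),(47,20992)])], .leaf 0 [(3848,[(33,210695424),(37,141891456),(9,2228224),(7,866676096),(0,8704)])], .leaf 0 [(309472,[(27,221715776),(32,15154300032),(35,5258077440),(14,63013504),(9,8105792),(6,10364416),(1,60160)])], .leaf 0 [(17075,[(33,552714304),(37,939311488),(16,32309760),(12,33024384),(7,3610142208),(2,189199),(1,32699)])], .leaf 0 [(85529852,[(31,9040162707200),(37,12079365081712),(7,99897112710528),(6,465712544400),(1,5904620528),(0,2147900672),(47,13739513043968)])],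 .leaf 0 [(0,[(26,50656),(31,25920),(32,48288),(46,28576),(17,25792),(4,864),(47,103680)]),(10,[(26,1387208),(27,45320),(32,694648),(35,987808),(17,54472),(5,193),(4,3904)]),(3,[(33,105547),(40,87925),(7,512640),(2,1)]),(21,[(33,5609280),(37,5514526),(46,891904),(7,35187571),(6,62240),(2,2785),(48,5767168)]),(4,[(26,207072),(31,147840),(32,307232),(46,152608),(17,146624),(4,5664),(47,591360)])], .leaf 1 [(8945506,[(31,32395475520),(37,448058562176),(7,1402379154688),(2,363558272),(0,35566336),(47,129581902080)])], .leaf 0 [(1,[(32,3884),(35,2108),(38,16),(14,32),(12,93),(7,13829),(4,15)])], .leaf 0 [(7755024,[(31,40994056024),(37,334420061580),(39,90259851792),(12,122411584868),(7,1051818860404),(2,439609008),(0,30452136),(47,163976224096)])], .leaf 1 [(115734424684826,[(9,1157534796770708736),(8,6420186560399360),(7,14012294447480529536),(6,13126306203430784),(5,411575125337648128),(4,163677871289291264),(3,3261450984349696),(2,1012137873295488),(0,2064990009009408)])],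 .split 4 3 (.leaf 4 [(658,[(32,13045568),(33,73625528),(36,4150536),(18,35400896),(6,1255944),(5,973952),(48,52182272)]),(62,[(32,1509984),(40,1186592),(45,3807040),(18,853600),(7,44704),(48,6039936)]),(4,[(32,73984),(33,9472),(36,378176),(18,507904),(5,1248),(48,295936)]),(0,[(0,1)]),(0,[(28,96896),(34,125440),(38,173440),(8,1202402),(7,2676),(3,154)])]) (.leaf 3 [(126,[(27,5156192),(28,8356384),(33,12691808),(36,2371136),(18,6847072),(6,238680),(5,171200)]),(190,[(27,12912640),(33,22068416),(47,10440704),(18,11727296),(7,443712),(5,116736)]),(10,[(32,222752),(45,796992),(17,85632),(10,42176),(6,5112),(48,891008)]),(50921730,[(28,3578365214720),(33,10016574668800),(47,2022945259520),(18,4845763297280),(7,144110059520),(6,369068277760),(5,104742256640),(0,34848509),(49,9135327543296)]),(100,[(38,21718338),(8,102073885),(7,598944),(6,14400),(3,30799)])]), .leaf 0 [(8945506,[(31,24818997824),(37,466194134656),(7,1285685474560),(2,444577152),(0,37016320),(47,99275991296)])],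 .leaf 1 [(2071148,[(37,99068214872),(7,297162007218),(2,79163066),(0,8466328)])], .leaf 0 [(64638,[(27,1976451808),(37,1594135418),(7,8253996482),(5,36471110),(0,780650)])], .leaf 1 [(4523832,[(31,506508270848),(37,876346146048),(16,2077408062792),(7,3055229001456),(6,7505416752),(2,697061464),(0,305954560),(47,840137405440)])], .leaf 1 [(27,[(25,1099216),(31,50046),(37,210132),(17,2368990),(12,79215),(8,6774),(4,10089),(47,200184)]),(0,[(37,20256),(7,122208)]),(182,[(31,309248),(32,1623904),(35,3855072),(17,23358176),(12,745984),(6,73920),(4,74784),(47,1236992)]),(1514593318,[(31,269754447349584),(37,145262177726068),(17,190170996351452),(16,1293805740837880),(8,2256191184000),(6,2080063872600),(2,116544375840),(0,148926030196),(47,681976238382400)]),(3,[(25,16880),(31,16682),(37,70044),(17,440138),(12,26405),(8,2258),(4,3363),(47,66728)])], .leaf 0 [(125580,[(27,236274560),(31,2942662208),(37,3234206976),(16,11020466688),(7,6643761152),(6,6782592),(0,1547520),(47,11770648832)])],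 .leaf 0 [(119,[(27,674288),(46,551600),(9,32),(7,835881),(3,38325)])], .leaf 1 [(30,[(32,80744),(35,12132),(7,215557),(6,784),(4,620),(3,9)])]]
noncomputable def a11 : TT := .leaf ⟨false,0,1,0,1,1,31,[[],[0,0,0,0,32,0,0,0,-5],[],[-1,-2,-1,0,0,0,0,1,6,1],[],[],[],[],[],[],[]]⟩ [.leaf 0 [(0,[])], .leaf 0 [(0,[(14,5)])], .leaf 0 [(0,[])], .leaf 0 [(0,[])], .leaf 0 [(0,[])], .leaf 0 [(0,[])], .leaf 0 [(0,[(30,128),(33,128)])], .leaf 0 [(0,[])], .leaf 0 [(0,[(14,4480)])], .leaf 0 [(0,[])], .leaf 0 [(0,[])], .leaf 0 [(0,[])], .leaf 0 [(0,[])], .leaf 0 [(0,[])], .leaf 0 [(0,[])], .leaf 0 [(0,[(14,4480)])], .leaf 0 [(0,[(23,128),(35,128),(15,3968)])], .leaf 0 [(0,[(31,128),(35,128)])], .leaf 0 [(28,[(24,59648),(29,640),(33,53568),(44,57856),(15,57472),(2,64),(45,2560)])], .leaf 0 [(0,[(25,64),(30,128),(33,128),(44,64),(5,148),(1,4)])], .leaf 0 [(0,[(30,128),(33,128)])], .leaf 0 [(30,[(30,6016),(33,1920),(14,4608),(4,128),(1,128)])],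 .leaf 0 [(0,[(25,64),(30,128),(33,128),(44,64),(12,4224),(5,4628),(1,4),(46,4096)])], .leaf 0 [(29781800,[(23,1613349216),(24,29600617248),(29,917002112),(44,5730532832),(3,496416128),(2,105643200),(0,9457344),(45,3668008448)]),(28,[(24,34256),(29,480),(44,24176),(15,23888),(2,48),(45,1920)]),(6,[(29,96),(44,672),(5,1344),(45,384)]),(24,[(29,688),(42,17600),(44,15840),(12,100112),(7,1024),(5,102272),(46,99648)]),(28,[(24,40336),(29,1120),(44,16816),(15,16144),(2,112),(45,4480)])], .leaf 1 [(0,[(30,128),(33,128),(14,256)])], .leaf 0 [(0,[(31,4),(35,4),(14,140)])], .leaf 0 [(30,[(30,5892),(33,5764),(5,9692),(4,128),(1,128)])], .leaf 1 [(56734,[(33,14524160),(36,807808),(7,14217216),(5,58931328),(4,444800),(2,2520320),(1,291328)])], .leaf 1 [(16618,[(29,8185616),(33,8728304),(44,8651744),(15,16627168),(4,281648),(0,8816),(45,32742464)]),(1974,[(29,913896),(33,866832),(38,1005776),(15,1880112),(0,1152),(45,3655584)]),(63958,[(29,21654488),(33,27278800),(44,41674320),(15,60440144),(3,958432),(0,37792),(45,86617952)]),(487937996,[(30,257950333344),(44,431749880832),(15,183757631488),(5,548447216832),(4,19834770144),(3,40238094336),(2,1707350048),(0,590615968)]),(120,[(29,624),(42,96800),(15,93680),(5,533584),(3,3120),(45,2496)])],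 .leaf 0 [(0,[(30,64),(33,192),(12,256),(5,148),(1,4)])], .leaf 0 [(1981478,[(31,1093400632),(38,355119620),(5,2698432560),(2,2499944),(1,12793556),(0,2133760)])], .leaf 0 [(1014,[(30,153700),(33,98020),(13,121984),(7,15744),(5,84376),(2,4736),(1,3812)])], .leaf 1 [(0,[(25,64),(30,128),(33,128),(44,64),(14,4628),(12,4224),(1,4),(46,4096)])], .leaf 4 [(0,[(23,1088),(35,64),(15,960)]),(0,[(23,960),(33,64),(15,1088)]),(0,[(37,64),(5,160)]),(60,[(29,8568),(35,3904),(15,58424),(14,228520),(11,11764),(10,5372),(6,136),(45,34272)]),(0,[(37,64),(43,896),(12,1152),(11,128)])], .leaf 0 [(0,[(30,128),(33,128),(5,256)])], .leaf 0 [(0,[(25,60),(35,8),(44,68),(5,72),(1,4)])], .leaf 1 [(0,[(31,4),(35,4),(14,140)])]]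
noncomputable def a12 : TT := .leaf ⟨false,0,1,0,1,1,127,[[],[2,14,31,0,125,-16,0,1,-71,-13],[],[2,-14,3,0,-3,-16,0,1,29,15],[],[],[],[],[],[],[]]⟩ [.leaf 0 [(0,[])], .leaf 0 [(25,[(34,364),(43,176),(6,15),(4,2255)])], .leaf 0 [(0,[])], .leaf 0 [(0,[])], .leaf 0 [(8815,[(28,48128),(29,254176),(34,149184),(43,255824),(11,8016),(5,25253),(3,7968),(2,32421),(44,192512)])], .leaf 0 [(0,[])], .leaf 0 [(246,[(24,266176),(29,135360),(32,329920),(43,153664),(2,4224),(1,18048)])], .leaf 0 [(0,[])], .leaf 0 [(12,[(34,163072),(43,78848),(6,6720),(4,1010240)])], .leaf 0 [(0,[])], .leaf 0 [(0,[])], .leaf 0 [(0,[])], .leaf 0 [(0,[])], .leaf 0 [(0,[])], .leaf 0 [(0,[])], .leaf 0 [(12,[(34,163072),(43,78848),(6,6720),(4,1010240)])], .leaf 0 [(0,[(29,7360),(14,4672),(9,7040),(5,180),(3,124),(1,896)])], .leaf 0 [(0,[(34,3584)])], .leaf 0 [(22,[(23,129344),(32,195264),(35,16128),(43,172736),(14,111168),(9,57600),(1,13184)])], .leaf 0 [(12,[(43,22528),(6,1920),(4,75648)])],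 .leaf 0 [(0,[(32,3584)])], .leaf 0 [(0,[(36,256),(13,5376)])], .leaf 0 [(432,[(23,150784),(28,312576),(34,4655616),(43,2197760),(13,16335872),(6,253440),(4,17703680),(0,59520),(45,5843968)])], .leaf 3 [(12,[(22,272),(23,79888),(32,13920),(35,1104),(43,21232),(14,17024),(9,3904),(1,896)]),(0,[(33,1056),(14,96),(13,32),(4,7936)]),(0,[(23,6628),(32,3580),(43,1180),(14,772),(1,120)]),(12,[(23,132288),(34,124800),(43,61504),(6,7440),(4,1092688)]),(8,[(23,63904),(29,3424),(41,6944),(43,8000),(6,544),(4,80192)])], .leaf 1 [(0,[(4,5888)])], .leaf 0 [(0,[(34,15),(43,7),(11,55),(9,135),(4,359),(2,1)])], .leaf 0 [(0,[(29,256),(32,144),(4,6176)])], .leaf 2 [(0,[(0,256),(45,16384)])], .split 4 3 (.leaf 4 [(216,[(29,312960),(30,416640),(33,209280),(44,649984),(15,1068416),(4,1792),(45,1251840)]),(296,[(25,1196032),(29,253952),(30,507904),(42,1110016),(4,2432),(1,9344),(45,1015808)]),(0,[(23,1280),(24,640),(29,1024),(33,3968),(15,3840),(45,4096)]),(0,[(0,1)]),(3030,[(24,14560768),(29,7462400),(35,8535296),(44,1914368),(7,1688576),(5,193473024),(1,228608),(45,29849600)])])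 (.leaf 3 [(6,[(25,17792),(29,4544),(33,19968),(44,9984),(15,25984),(2,2176),(45,18176)]),(38,[(25,76032),(29,33664),(30,13568),(33,136448),(15,93184),(2,16000),(45,134656)]),(4,[(42,22144),(7,2112),(4,492)]),(2079172,[(30,10521477120),(44,11879157760),(15,6429409280),(7,96337920),(6,257003520),(5,1359216640),(4,503869440),(2,1281884160),(0,475707),(46,7793983488)]),(24,[(25,24576),(31,70400),(44,266240),(7,45824),(5,1731072)])]), .leaf 0 [(0,[(37,248),(4,5208),(0,8)])], .leaf 1 [(8,[(35,224),(14,2048),(13,43984),(0,40)])], .leaf 0 [(24,[(35,4648),(41,3104),(43,40928),(6,4248),(4,139840)])], .leaf 1 [(2956,[(28,2121728),(34,32849152),(43,15941632),(6,1720320),(4,233103360),(0,424576),(45,39960576)])], .leaf 4 [(110,[(22,362432),(34,114504),(36,24896),(14,384200),(10,7056),(9,83552),(5,2000),(1,13336)]),(4,[(22,16048),(28,496),(43,2960),(14,23200),(1,240),(44,1984)]),(0,[(23,1536),(36,3040),(14,1152),(13,2624),(4,5344)]),(12,[(23,109664),(28,5200),(34,137024),(6,5392),(4,1098768),(44,20800)]),(0,[(22,3552),(28,64),(34,3040),(14,4192),(13,7808),(4,160),(44,256)])],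 .leaf 0 [(24,[(24,9472),(41,12800),(43,26880),(13,144384),(6,3328)])], .leaf 0 [(130,[(30,81920),(34,2384),(43,73728),(13,173568),(6,8192),(2,5632),(1,4096)])], .leaf 1 [(5845,[(30,199840),(43,11856),(13,2408912),(5,28949),(3,7392),(2,62069),(1,66016)])]]
noncomputable def a13 : TT := .leaf ⟨true,0,8,1,9,2,2047,[[],[-16,-8,8,0,2048,0,0,16,-704,-8],[0,0,0,0,0,0,0,0,80],[-24,120,144,0,0,0,0,24,744,-144],[0,0,0,0,0,0,0,0,80],[],[],[],[-2,-1,1,0,256,0,0,2,-88,-1],[0,0,0,0,0,0,0,0,80],[0,0,0,0,256]]⟩ [.leaf 0 [(0,[])], .leaf 0 [(0,[(29,2),(34,1),(4,91)])], .leaf 0 [(0,[])], .leaf 0 [(0,[(30,2),(32,1)])], .leaf 0 [(0,[])], .leaf 0 [(0,[])], .leaf 0 [(624,[(24,2048),(28,312320),(37,2048),(14,39040),(4,3968),(2,39040),(0,2048),(44,1249280)])], .leaf 0 [(0,[]),(0,[]),(0,[]),(0,[]),(0,[]),(0,[])], .leaf 0 [(0,[(29,3072),(34,18432)])], .leaf 0 [(0,[])], .leaf 0 [(0,[(29,14336),(34,7168),(13,662528)])], .leaf 0 [(0,[])], .leaf 0 [(0,[])],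 .leaf 0 [(0,[])], .leaf 0 [(0,[])], .leaf 0 [(0,[])], .leaf 0 [(0,[])], .leaf 0 [(0,[(29,14336),(34,7168),(4,652288)])], .leaf 0 [(0,[(22,5120),(32,19456),(14,257024)])], .leaf 0 [(0,[(30,1024),(32,17408)])], .leaf 0 [(0,[(22,5120),(23,121344),(32,140800),(43,140800),(14,135680)])], .leaf 0 [(5252,[(30,10722304),(34,105085952),(43,56492032),(6,5242880),(4,75623424),(2,2531328),(0,1179648)])], .leaf 0 [(0,[(29,1024),(34,17408)])], .leaf 0 [(84,[(34,1873920),(11,1347072),(9,88576),(6,47616),(4,2451968),(2,40960)])], .leaf 0 [(130,[(29,1238016),(34,3291136),(43,1179648),(11,37814272),(6,131072),(4,76349440),(2,90112),(1,65536),(45,34340864)])], .leaf 0 [(132,[(23,6783808),(28,81216),(43,10550848),(14,10240384),(0,4032),(44,324864)]),(2,[(23,31488),(29,67328),(43,200960),(1,40192)]),(0,[(37,256),(13,24832),(4,81408)]),(0,[(28,30720),(29,73984),(35,1536),(43,69632),(11,116736),(4,718848),(45,139264)]),(11570,[(23,380503808),(28,28245760),(43,1134101248),(14,1068702208),(9,8562176),(5,643328),(4,154907648),(0,2550016),(44,112983040)])],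 .leaf 1 [(0,[(29,5120),(34,19456),(13,37888)])], .leaf 0 [(0,[(32,448),(37,160),(13,8480),(9,320)])], .leaf 0 [(5280,[(34,70790144),(11,73642592),(9,5508992),(6,2943520),(4,138936896),(3,351072),(2,2565472)])], .leaf 0 [(0,[(29,5120),(34,19456)])], .leaf 1 [(9286,[(28,122010464),(32,471946112),(43,294076224),(14,780851744),(3,13093088),(1,25614272),(0,9352416),(44,488041856)]),(60,[(28,1108160),(32,2872192),(37,1589632),(14,5279360),(0,73728),(44,4432640)]),(468,[(29,5042688),(43,37110784),(14,56577344),(3,1053376),(0,584128)]),(4200442,[(24,92134319104),(29,303900693760),(43,543886109696),(14,231414580992),(6,23949050368),(5,15763974144),(3,7628772352),(1,1302788864),(0,8558521856)]),(0,[(24,65536),(29,9472),(32,24832),(41,65536),(14,65536),(13,723200)])], .leaf 0 [(16,[(30,44032),(34,330752),(11,532480),(4,461824),(2,8192)])], .leaf 0 [(84,[(30,22884),(34,594396),(4,1713204),(2,40960),(0,50244)])], .leaf 0 [(392,[(30,2728352),(34,4720288),(43,2170880),(6,360448),(4,6190752),(2,516096),(1,1253376)])],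 .leaf 1 [(130,[(29,1238016),(34,3291136),(43,1179648),(11,37814272),(6,131072),(4,85739520),(2,90112),(1,65536),(45,34340864)])], .leaf 4 [(0,[(22,66560),(32,8960),(14,64512)]),(0,[(22,63488),(34,9472),(14,67584)]),(0,[(42,65536),(14,1024),(13,33280),(10,7936)]),(60,[(28,377088),(41,46848),(42,4925696),(13,39595520),(10,529088),(9,271936),(5,8960),(44,1508352)]),(0,[(22,64512),(32,7936),(14,66560)])], .leaf 0 [(0,[(29,5120),(34,19456),(4,17408)])], .leaf 0 [(5252,[(30,37785760),(34,25952),(43,56492032),(13,110419296),(6,5242880),(2,2531328),(0,1179648)])], .leaf 1 [(0,[(30,160),(32,608),(4,9440)])]]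
noncomputable def a14 : TT := .leaf ⟨false,0,1,0,1,1,31,[[],[0,0,0,0,32,0,0,0,-5],[],[-1,-2,-1,0,0,0,0,1,6,1],[],[],[],[],[],[],[]]⟩ [.leaf 0 [(0,[])], .leaf 0 [(0,[(13,5)])], .leaf 0 [(0,[])], .leaf 0 [(0,[])], .leaf 0 [(0,[])], .leaf 0 [(0,[])], .leaf 0 [(0,[(29,128),(32,128)])], .leaf 0 [(0,[])], .leaf 0 [(0,[(13,4480)])], .leaf 0 [(0,[])], .leaf 0 [(0,[])], .leaf 0 [(0,[])], .leaf 0 [(0,[])], .leaf 0 [(0,[])], .leaf 0 [(0,[])], .leaf 0 [(0,[(13,4480)])], .leaf 0 [(0,[(22,128),(34,128),(14,3968)])], .leaf 0 [(0,[(30,128),(34,128)])], .leaf 0 [(0,[(22,128),(23,1984),(32,1856),(43,2112),(14,1984)])], .leaf 0 [(254,[(29,6016),(32,28544),(43,45056),(13,14208),(6,4096),(5,1152),(2,3072)])], .leaf 0 [(0,[(29,128),(32,128)])], .leaf 0 [(34,[(29,5760),(11,2368),(9,3264),(6,64),(1,640)])], .leaf 0 [(254,[(29,6016),(32,28544),(43,45056),(11,1128448),(6,4096),(5,1152),(4,1156608),(2,3072),(45,1044480)])], .leaf 0 [(0,[(22,96),(23,1760),(32,640),(43,288),(14,192)]),(0,[(22,96),(23,1952),(32,832),(43,96)]),(6,[(28,96),(33,1344),(43,672),(44,384)]),(24,[(28,688),(41,17600),(43,15840),(13,102272),(11,100112),(6,1024),(45,99648)]),(0,[(22,224),(23,1376),(32,128),(43,672),(14,448)])],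 .leaf 1 [(0,[(29,128),(32,128),(4,256)])], .leaf 0 [(0,[(30,4),(34,4),(13,140)])], .leaf 0 [(6,[(29,1252),(32,740),(13,1020),(11,640),(9,640),(1,128)])], .leaf 1 [(12,[(29,1664),(43,42240),(13,2560),(6,4224),(5,2744),(4,10112),(2,3008)])], .leaf 4 [(2,[(24,1472),(28,896),(29,1408),(43,2880),(14,4352),(44,3584)]),(2,[(24,1600),(28,1088),(29,1664),(32,896),(41,2368),(44,4352)]),(4,[(22,2496),(28,1152),(32,4160),(43,640),(14,5440),(44,4608)]),(16,[(28,1536),(29,448),(32,448),(0,1984),(45,63488)]),(0,[(28,1024),(29,960),(32,960),(13,6464),(44,4096)])], .leaf 0 [(6,[(29,896),(32,256),(43,512),(11,2048),(9,256),(1,128)])], .leaf 1 [(16,[(29,4088),(35,68),(43,2040),(13,1980),(11,4600),(9,4088),(2,8)])], .leaf 0 [(51,[(43,36848),(6,3040),(5,1900),(4,2672),(2,2909)])], .leaf 1 [(254,[(29,6016),(32,28544),(43,45056),(11,1128448),(6,4096),(5,1152),(4,1156608),(2,3072),(45,1044480)])], .leaf 4 [(0,[(22,1088),(34,64),(14,960)]),(0,[(22,960),(32,64),(14,1088)]),(0,[(36,64),(4,160)]),(304,[(28,44716),(42,273004),(10,59010),(9,32374),(6,1952),(5,276),(4,1148052),(44,178864)]),(6,[(28,1152),(36,448),(14,6272),(9,3200),(44,4608)])],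 .leaf 0 [(0,[(29,128),(32,128),(13,256)])], .leaf 0 [(254,[(30,27644),(34,5116),(43,45056),(13,56268),(6,4096),(5,1152),(2,3072)])], .leaf 1 [(0,[(30,4),(34,4),(13,140)])]]
noncomputable def a15 : TT := .leaf ⟨false,0,1,0,1,3,15,[[],[7,0,1,-28,8,-8,0,1,-8,7],[],[1,0,1,-7,-2,-2,0,1,2,1],[],[],[],[],[],[],[]]⟩ [.leaf 0 [(0,[])], .leaf 0 [(0,[(28,4),(29,1),(32,7),(4,16),(44,16)])], .leaf 0 [(0,[])], .leaf 0 [(0,[])], .leaf 0 [(1,[(29,6),(34,6),(0,1)])], .leaf 0 [(0,[])], .leaf 0 [(0,[(28,128),(29,128),(32,128),(44,512)])], .leaf 0 [(0,[])], .leaf 0 [(0,[(28,3584),(29,896),(32,6272),(4,14336),(44,14336)])], .leaf 0 [(0,[])], .leaf 0 [(0,[])], .leaf 0 [(0,[])], .leaf 0 [(0,[])], .leaf 0 [(0,[])], .leaf 0 [(0,[])], .leaf 0 [(0,[(28,3584),(29,896),(32,6272),(4,14336),(44,14336)])], .leaf 0 [(0,[(29,384),(34,384),(14,2048),(0,80)])], .leaf 0 [(0,[(28,384),(32,768),(44,1536)])], .leaf 0 [(0,[(23,1368),(29,384),(32,984),(43,680),(14,680),(0,80)])],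 .leaf 0 [(168,[(24,26896),(28,43072),(32,86144),(37,16368),(41,69488),(14,48816),(13,97632),(3,1056),(44,172288)])], .leaf 0 [(0,[(29,384),(34,384),(0,48)])], .leaf 0 [(190,[(28,118656),(29,43776),(32,180736),(14,12800),(11,23040),(4,350720),(3,64),(1,2560),(44,474624)])], .leaf 0 [(138,[(28,551296),(29,339328),(32,834944),(43,143360),(14,47104),(11,58368),(5,15680),(4,2122752),(1,35840),(44,1920512)])], .leaf 0 [(0,[(23,922),(32,410),(43,102),(14,102),(0,12)]),(0,[(23,896),(29,384),(43,128),(14,128),(0,76)]),(0,[(28,416),(29,32),(32,288),(41,960),(4,64),(44,1664)]),(138,[(28,552928),(29,144352),(32,896480),(43,154624),(14,138240),(11,273408),(5,1344),(4,1987584),(1,3072),(44,1927040)]),(30,[(28,7936),(41,21824),(43,18816),(3,32),(44,31744)])], .leaf 1 [(0,[(28,576),(29,128),(32,704),(41,256),(14,320),(11,448),(4,896),(1,64),(44,2304)])], .leaf 0 [(4,[(34,128),(13,332),(9,8),(2,8),(0,4)])], .leaf 0 [(4,[(28,3132),(29,1024),(32,4920),(43,192),(14,832),(11,896),(4,8768),(1,128),(44,12528)])],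 .leaf 1 [(73740,[(29,62947456),(43,111059200),(14,45359488),(6,5379200),(5,8131456),(4,50065152),(3,92992),(1,13431168)])], .leaf 4 [(0,[(23,384),(29,384)]),(4,[(24,1984),(28,2176),(29,1216),(32,3136),(41,1984),(14,1664),(4,2624),(44,8704)]),(0,[(23,320),(29,320),(14,64)]),(0,[(28,192),(29,384),(45,1280)]),(0,[(28,3776),(29,1280),(32,6272),(4,14336),(44,15104)])], .leaf 0 [(4,[(28,3072),(29,1024),(32,4480),(43,512),(14,832),(11,1536),(4,8128),(1,128),(44,12288)])], .leaf 1 [(4,[(28,2684),(29,728),(32,4160),(43,704),(14,1504),(11,2912),(4,6816),(1,96),(44,10736)])], .leaf 0 [(5078,[(28,787140),(32,1341440),(41,3581216),(14,1399296),(11,2752024),(3,69144),(1,46568),(44,3148560)])], .leaf 1 [(138,[(28,551296),(29,339328),(32,834944),(43,143360),(14,47104),(11,58368),(5,15680),(4,2122752),(1,35840),(44,1920512)])], .leaf 1 [(0,[(22,512),(14,512),(0,12)]),(32,[(28,1696),(41,8128),(42,14240),(14,864),(10,432),(9,1904),(5,736),(44,6784)]),(0,[(22,128),(34,384),(14,896),(0,76)]),(138,[(28,552928),(29,73184),(32,967648),(43,12288),(14,138240),(11,273408),(5,1344),(4,1987584),(1,3072),(44,1927040)]),(6,[(28,3392),(32,3200),(41,1952),(42,3808),(9,3360),(4,2368),(44,13568)])],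 .leaf 0 [(492,[(28,53376),(32,106752),(37,101952),(41,288768),(14,228160),(11,393216),(3,7360),(44,213504)])], .leaf 0 [(25,[(43,1344),(6,20),(4,1165),(0,65)])], .leaf 1 [(1,[(29,24),(34,24),(13,133),(0,5)])]]
noncomputable def t1 : TT := (.split [16,16,16,-48,-16,-48,0,1,0,0] (.split [12,0,57,-64,6,0,0,52,-3,-52] (.split [16,0,16,-32,-112,-32,0,16,-5,16] a2 (.split [35,6,35,-64,-96,-192,0,29,-3,25] a3 (.split [17,2,17,-112,-32,-32,0,15,-1,15] a4 (.split [-2,1,5,10,-6,-16,0,4,3,-3] a5 a6)))) (.split [16,0,16,-32,-112,-32,0,16,-5,16] a7 (.split [768,505,0,-2048,2048,0,0,-832,-715,254] (.split [-256,-1515,2048,-4096,-14336,-4096,0,4352,1889,1286] a8 (.split [-256,-1887,2057,-12255,-6135,-4096,0,4051,2496,1685] a9 a10)) a11))) (.split [0,5,3,-5,-9,-16,0,3,3,-1] (.split [2,0,17,-64,61,-16,0,-1,-21,1] a12 a13) (.split [8,0,8,-56,-16,-16,0,8,-1,8] a14 a15)))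
theorem c1 : chkT (([32,0,0,-32,0,-32,0,0,0,1] : Fm) :: fsm (-1) ([0,0,0,0,-1,0,0,0,1,0] : Fm) :: ([16,16,0,-48,-16,-32,0,1,0,0] : Fm) :: ([1,0,11,-13,8,-16,0,10,3,-10] : Fm) :: ([8,0,8,-16,16,-24,0,8,1,7] : Fm) :: ([8,0,8,-16,208,-56,0,8,-29,8] : Fm) :: ([0,0,-1,0,0,4,0,0,0,0] : Fm) :: ([4,4,-1,0,0,0,0,0,0,0] : Fm) :: fsm (-1) ([0,0,0,1,-1,0,0,0,0,0] : Fm) :: ([0,0,0,0,0,0,0,1,-1,0] : Fm) :: fsm (-1) ([0,0,0,0,-2,0,0,0,1,0] : Fm) :: ([0,0,0,-1,-1,0,0,1,-1,0] : Fm) :: K1O11.C0) t1 = true := by decide +kernel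
end K1O11M010100

namespace K1O11M010100
noncomputable def a16 : TT := .leaf ⟨false,0,1,0,1,1,31,[[],[-1,2,3,0,32,0,0,1,-13,-3],[],[0,6,6,0,0,0,0,0,6,-6],[],[],[],[],[],[],[]]⟩ [.leaf 0 [(0,[])], .leaf 0 [(434,[(34,462),(6,32),(4,5856),(3,13),(0,51)])], .leaf 0 [(0,[])], .leaf 0 [(0,[])], .leaf 0 [(0,[(30,1),(32,3)])], .leaf 0 [(0,[])], .leaf 0 [(0,[(34,768)])], .leaf 0 [(0,[])], .leaf 0 [(434,[(34,413952),(6,28672),(4,5246976),(3,11648),(0,45696)])], .leaf 0 [(0,[])], .leaf 0 [(0,[])], .leaf 0 [(0,[])], .leaf 0 [(0,[])], .leaf 0 [(0,[])], .leaf 0 [(0,[])], .leaf 0 [(434,[(34,413952),(6,28672),(4,5246976),(3,11648),(0,45696)])], .leaf 0 [(0,[(22,128),(32,1152),(14,3968)])], .leaf 0 [(0,[(29,128),(32,384)])], .leaf 0 [(0,[(22,128),(23,1856),(32,3008),(43,2240),(14,2112)])], .leaf 0 [(0,[(43,128),(0,128)])], .leaf 0 [(0,[(30,128),(34,384)])], .leaf 0 [(0,[(0,128)])], .leaf 0 [(656,[(11,7985056),(6,39392),(4,6996320),(3,181440),(0,194752),(45,2691072)])],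 .leaf 0 [(0,[(23,448),(43,1600),(14,1600)]),(0,[(22,128),(23,64),(43,1984),(14,1856)]),(0,[(33,704),(14,128),(4,384),(3,4)]),(371,[(28,301760),(35,261),(6,31264),(4,4736323),(3,31095),(0,20411),(45,316672)]),(0,[(32,320),(43,2048),(14,2048)])], .leaf 1 [(340,[(34,323584),(6,4096),(4,666240),(3,1408),(0,2688)])], .leaf 0 [(0,[(32,32),(43,4),(11,4),(9,4),(4,132)])], .leaf 0 [(1296,[(24,2388480),(26,15974),(29,30810),(9,2323488),(4,308736),(3,74640),(0,140394)])], .leaf 1 [(0,[(0,128)])], .leaf 4 [(6,[(28,3072),(29,6720),(32,3008),(43,8192),(14,8192),(44,12288)]),(234,[(24,227392),(28,53504),(29,110400),(41,121280),(14,99200),(6,1600),(44,214016)]),(4,[(22,2016),(23,640),(28,1152),(32,7520),(37,480),(14,5280),(44,4608)]),(0,[(1,64),(45,4096)]),(196,[(28,195200),(29,138240),(14,20672),(6,20672),(4,2385984),(3,7616),(44,780800)])], .leaf 0 [(0,[(24,1664),(30,72),(34,376),(11,256),(9,1536),(4,840),(3,56),(0,72)])], .leaf 1 [(154,[(28,661),(34,152438),(13,275711),(11,32531),(9,21762),(6,1922),(4,17033),(3,1322),(44,2644)])],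 .leaf 0 [(150,[(34,113376),(36,14848),(13,217312),(9,13920),(3,1532),(0,3876)])], .leaf 1 [(2,[(34,7424),(11,17152),(6,256),(4,44928),(3,256),(0,128),(45,12288)])], .leaf 4 [(0,[(22,992),(32,288),(14,1056)]),(0,[(22,992),(34,480),(14,1056)]),(0,[(31,640),(36,96),(13,800)]),(176,[(34,487104),(36,496),(42,93128),(14,269576),(13,2442464),(9,320),(6,496),(3,208)]),(6,[(28,960),(36,672),(42,7616),(10,864),(9,1952),(4,2464),(44,3840)])], .leaf 0 [(0,[(14,128),(2,128)])], .leaf 0 [(1890,[(26,113696),(32,897648),(43,357120),(9,115072),(4,182912),(3,5716),(0,122636)])], .leaf 1 [(0,[(30,4),(32,36),(13,140)])]]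
noncomputable def a17 : TT := .leaf ⟨false,0,1,0,1,1,15,[[],[0,0,0,0,16,0,0,0,-2],[],[0,0,0,0,0,0,0,0,3],[],[],[],[],[],[],[]]⟩ [.leaf 0 [(0,[])], .leaf 0 [(0,[(13,2)])], .leaf 0 [(0,[])], .leaf 0 [(0,[])], .leaf 0 [(0,[])], .leaf 0 [(0,[])], .leaf 0 [(0,[])], .leaf 0 [(0,[])], .leaf 0 [(0,[(13,1792)])], .leaf 0 [(0,[])], .leaf 0 [(0,[])], .leaf 0 [(0,[])], .leaf 0 [(0,[])], .leaf 0 [(0,[])], .leaf 0 [(0,[])], .leaf 0 [(0,[(13,1792)])], .leaf 0 [(0,[(14,2048)])], .leaf 0 [(0,[])], .leaf 0 [(0,[(23,960),(32,960),(43,1088),(14,1088)])], .leaf 0 [(0,[(25,64),(30,64),(45,2048)])], .leaf 0 [(0,[])], .leaf 0 [(0,[(26,64),(34,64)])], .leaf 0 [(0,[(25,64),(30,64),(11,4096),(4,1728),(45,4096)])], .leaf 0 [(0,[(23,880),(32,368),(43,144),(14,144)]),(0,[(23,512),(43,512),(14,512)]),(0,[(33,32)]),(24,[(28,5568),(29,11200),(43,13440),(13,56992),(11,24832),(6,64),(45,28928)]),(0,[(23,512),(43,512),(14,512)])], .leaf 1 [(0,[])], .leaf 0 [(0,[(13,68)])],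 .leaf 0 [(0,[(26,64)])], .leaf 0 [(0,[])], .leaf 4 [(2,[(24,512),(28,512),(29,1024),(43,1536),(14,2048),(44,2048)]),(142,[(28,25920),(32,51840),(41,49536),(42,1600),(6,2816),(44,103680)]),(228,[(28,33280),(32,54272),(14,118784),(0,1536),(44,133120)]),(59584,[(28,776704),(43,29833856),(11,20526592),(6,5181248),(5,2059712),(4,49552384),(3,758716),(1,673924),(0,3639676),(45,118923264)]),(24,[(28,4608),(29,5120),(4,55104),(1,512),(44,18432)])], .leaf 0 [(0,[(24,64),(26,60),(30,64),(32,4),(11,128),(3,4)])], .leaf 1 [(0,[(11,128),(9,64),(3,2)])], .leaf 2 [(75186,[(23,9460352),(29,40093312),(43,104455552),(14,60329344),(6,281600),(5,2612224),(3,105600),(0,1395328)])], .leaf 1 [(0,[(25,64),(30,64),(13,1728),(11,4096),(45,4096)])], .leaf 4 [(0,[(22,512),(14,512)]),(0,[(22,512),(14,512)]),(0,[]),(60,[(28,4032),(14,31168),(10,5536),(9,2528),(5,64),(4,78144),(44,16128)]),(6,[(28,1024),(9,2496),(44,4096)])], .leaf 0 [(0,[])], .leaf 1 [(0,[(25,64),(45,2048)])],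 .leaf 1 [(0,[(13,68)])]]
noncomputable def a18 : TT := .leaf ⟨false,0,1,0,1,1,223,[[],[36,-7,35,-273,146,-78,0,42,-77,43],[],[5,28,35,-42,-12,-12,0,7,42,-23],[],[],[],[],[],[],[]]⟩ [.leaf 0 [(0,[])], .leaf 0 [(0,[(28,39),(29,42),(32,43),(4,162),(44,156)])], .leaf 0 [(0,[])], .leaf 0 [(0,[])], .leaf 0 [(15,[(30,87),(32,287),(1,39)])], .leaf 0 [(0,[])], .leaf 0 [(0,[(28,768),(29,896),(34,2944),(44,3072)])], .leaf 0 [(0,[])], .leaf 0 [(0,[(28,34944),(29,37632),(32,38528),(4,145152),(44,139776)])], .leaf 0 [(0,[])], .leaf 0 [(0,[])], .leaf 0 [(0,[])], .leaf 0 [(0,[])], .leaf 0 [(0,[])], .leaf 0 [(0,[])], .leaf 0 [(0,[(28,34944),(29,37632),(32,38528),(4,145152),(44,139776)])], .leaf 0 [(35596,[(32,216451568),(14,978376576),(9,17356288),(5,1464960),(3,5232),(1,12348400),(0,81096)])], .leaf 0 [(0,[(28,4224),(29,4480),(32,8448),(44,16896)])], .leaf 0 [(204,[(22,141824),(32,1835648),(35,1152),(43,3589888),(14,2231552),(5,71424),(3,73728)])],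 .leaf 0 [(84,[(28,99584),(41,433920),(14,11776),(6,21632),(44,398336)])], .leaf 0 [(0,[(30,520),(34,1848),(1,264)])], .leaf 0 [(0,[(28,1792),(29,896),(42,1856),(14,3520),(11,22400),(44,7168)])], .leaf 0 [(2,[(28,120768),(29,129248),(32,123040),(43,2464),(11,94976),(6,224),(4,473376),(44,397056)])], .leaf 0 [(34,[(22,61464),(23,115424),(43,314912),(14,230984),(3,2376),(0,1116)]),(1520,[(30,1022396),(32,531356),(43,7569408),(5,444416),(3,458752),(1,70108)]),(0,[(28,4416),(29,4704),(32,544),(13,2368),(4,9600),(44,17664)]),(0,[(24,35920),(28,3440),(29,6416),(32,3152),(41,9656),(43,40600),(14,75624),(11,209168),(45,14912)]),(14,[(32,11648),(43,174720),(14,149632),(5,1568),(3,1568)])], .leaf 1 [(0,[(28,2624),(32,2560),(14,6272),(13,1664),(11,15680),(44,10496)])], .leaf 0 [(3,[(32,696),(43,109),(13,3405),(11,109),(9,109),(1,45)])], .leaf 0 [(0,[(24,2264),(28,1554),(32,1456),(42,2359),(14,4053),(11,21690),(44,6216)])], .leaf 1 [(14,[(24,27776),(29,106176),(43,120064),(11,127296),(6,9600),(5,9228),(4,203904),(0,64)])],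 .split 3 3 (.leaf 3 [(0,[(29,336),(44,4320),(15,2528),(1,112),(45,1344)]),(142,[(33,268288),(44,392704),(15,297024),(6,19300),(1,12928)]),(4,[(29,19648),(30,21952),(33,10624),(42,54016),(7,2688),(45,78592)]),(0,[(0,1)]),(32,[(29,1007936),(30,765632),(33,1179008),(42,35840),(14,2027776),(12,250880),(5,2567680),(1,17920),(45,4031744)])]) (.leaf 4 [(24,[(24,89672),(33,105128),(44,27960),(15,76344),(1,1008)]),(8,[(25,49664),(29,40768),(30,43072),(33,26368),(42,49664),(15,39936),(45,163072)]),(0,[(24,4544),(33,5888),(15,4032)]),(85982,[(25,291208960),(33,245280000),(44,336976640),(15,148834560),(6,28197120),(5,370917120),(1,22883840),(0,67317),(46,2465304576)]),(2,[(25,47872),(29,69824),(30,77120),(33,85376),(42,47872),(15,47872),(12,239360),(5,267008),(45,279296)])]), .leaf 0 [(0,[(28,2624),(32,2560),(42,4320),(14,1056),(11,17472),(4,1664),(44,10496)])], .leaf 0 [(17,[(43,53419),(14,46608),(9,6811),(1,3843),(0,1792)])], .leaf 0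 [(12,[(28,16926),(41,67100),(6,3486),(44,67704)])], .leaf 1 [(0,[(24,13184),(28,27520),(29,30720),(32,27904),(41,13184),(14,12288),(11,95488),(4,106624),(44,81408)])], .leaf 4 [(0,[(22,6272),(28,864),(32,2848),(14,8064),(44,3456)]),(0,[(22,5376),(28,1632),(34,96),(14,8960),(44,6528)]),(10,[(28,33888),(32,30816),(41,61056),(42,45792),(14,10208),(44,135552)]),(0,[(24,36528),(28,4272),(29,208),(32,10352),(41,9032),(43,27496),(14,78360),(11,182640),(44,17088)]),(0,[(28,5408),(32,8352),(42,8672),(14,4768),(13,2752),(11,4032),(44,21632)])], .leaf 0 [(24,[(24,93504),(28,14208),(41,156800),(6,9280),(4,5440),(44,56832)])], .leaf 0 [(103,[(29,30992),(43,84336),(13,67777),(6,553),(1,2054)])], .leaf 1 [(172,[(32,33372),(43,3488),(13,149964),(10,654),(9,218),(1,2028)])]]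
noncomputable def a19 : TT := .leaf ⟨false,0,1,0,1,1,223,[[],[36,-7,35,-273,146,-78,0,42,-77,43],[],[5,28,35,-42,-12,-12,0,7,42,-23],[],[],[],[],[],[],[]]⟩ [.leaf 0 [(0,[])], .leaf 0 [(0,[(31,39),(32,42),(35,43),(16,62),(7,100),(47,156)])], .leaf 0 [(0,[])], .leaf 0 [(0,[])], .leaf 0 [(15,[(33,87),(35,287),(4,39)])], .leaf 0 [(0,[])], .leaf 0 [(0,[(31,768),(32,896),(37,2944),(47,3072)])], .leaf 0 [(0,[])], .leaf 0 [(0,[(31,34944),(32,37632),(35,38528),(16,55552),(7,89600),(47,139776)])], .leaf 0 [(0,[])], .leaf 0 [(0,[])], .leaf 0 [(0,[])], .leaf 0 [(0,[])], .leaf 0 [(0,[])], .leaf 0 [(0,[])], .leaf 0 [(0,[(31,34944),(32,37632),(35,38528),(16,55552),(7,89600),(47,139776)])], .leaf 0 [(276,[(35,1674880),(17,7603808),(12,160448),(8,10464),(4,95360),(0,10464)])], .leaf 0 [(0,[(31,4224),(32,4480),(35,8448),(47,16896)])], .leaf 0 [(204,[(25,140672),(26,657152),(35,2493952),(46,2932736),(17,1575552),(8,71424),(6,73728)])], .leaf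 0 [(90,[(26,29312),(31,107648),(44,452480),(17,21056),(9,21952),(47,430592)])], .leaf 0 [(0,[(33,520),(37,1848),(4,264)])], .leaf 0 [(0,[(27,896),(31,4864),(32,5376),(35,1664),(17,896),(16,10624),(14,4480),(47,19456)])], .leaf 0 [(2,[(31,120768),(32,129248),(35,123040),(46,2464),(16,115296),(14,94976),(9,224),(7,358080),(47,397056)])], .leaf 0 [(430,[(25,335136),(26,4075840),(35,2480096),(38,25920),(46,1551168),(17,1164192),(6,16128),(0,35712)]),(430,[(25,343552),(33,2452448),(35,980064),(46,844672),(6,155904),(0,345216)]),(0,[(31,1792),(40,544),(46,1472),(17,6720),(14,13120),(47,7168)]),(2,[(27,26560),(31,91520),(32,100448),(35,90656),(44,69568),(17,23872),(14,221504),(7,324800),(47,280064)]),(7,[(25,2128),(26,28672),(35,34048),(46,65184),(17,51968),(8,651),(6,672)])], .leaf 1 [(0,[(31,1568),(32,448),(17,5824),(14,23520),(47,6272)])], .leaf 0 [(0,[(32,212),(35,88),(16,732),(3,12)])], .leaf 0 [(0,[(31,1554),(35,1456),(45,1227),(17,5185),(14,23954),(47,6216)])],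 .leaf 1 [(62,[(27,119424),(32,456448),(35,1280),(46,509312),(14,521344),(9,40576),(8,39192),(7,861696)])], .leaf 3 [(0,[(35,1344),(46,4544),(17,6476),(0,700)]),(0,[(26,3336),(35,4680),(46,1208),(17,3140),(0,700)]),(116,[(27,349280),(31,361504),(32,136576),(35,429184),(44,825056),(45,175584),(10,19872),(9,50976),(47,1446016)]),(10588,[(35,33818688),(46,47676544),(17,28058912),(9,1193632),(8,1224192),(7,8394576),(2,3605440),(0,19167824)]),(382,[(31,9859008),(32,6473024),(35,16161920),(44,9343488),(17,849408),(14,10831104),(9,849408),(7,40626688),(0,70400),(47,39436032)])], .leaf 0 [(0,[(31,2208),(35,1728),(40,832),(17,6208),(14,19552),(47,8832)])], .leaf 0 [(422,[(25,247332),(46,926584),(17,585060),(12,94192),(4,45576),(1,5264)])], .leaf 0 [(12,[(31,16926),(44,67100),(9,3486),(47,67704)])], .leaf 1 [(0,[(27,13184),(31,27520),(32,30720),(35,27904),(44,13184),(17,12288),(14,95488),(7,106624),(47,81408)])], .leaf 4 [(0,[(25,6272),(31,864),(35,2848),(17,8064),(47,3456)]),(0,[(25,5376),(31,1632),(37,96),(17,8960),(47,6528)]),(10,[(31,33888),(35,30816),(44,61056),(17,56000),(47,135552)]),(0,[(27,36528),(31,4272),(32,208),(35,10352),(44,9032),(46,27496),(17,78360),(14,182640),(47,17088)]),(0,[(31,5408),(35,8352),(17,13440),(16,2752),(14,4032),(47,21632)])],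 .leaf 0 [(84,[(31,99584),(44,433920),(17,87936),(9,21632),(47,398336)])], .leaf 0 [(3,[(27,553),(32,1192),(46,3031),(16,2543),(4,79)])], .leaf 1 [(3,[(33,109),(35,805),(16,3623),(4,45)])]]
noncomputable def a20 : TT := .leaf ⟨false,0,1,0,1,3,63,[[],[41,0,4,-158,19,-45,0,4,-19,41],[],[8,-2,-2,-28,-8,-8,0,0,10,10],[],[],[],[],[],[],[]]⟩ [.leaf 0 [(0,[])], .leaf 0 [(153,[(30,3),(34,3438),(35,609),(38,6267),(49,7),(20,14),(10,9772),(0,4),(50,13752)])], .leaf 0 [(0,[])], .leaf 0 [(0,[])], .leaf 0 [(31,[(35,547),(40,187),(7,45)])], .leaf 0 [(0,[])], .leaf 0 [(0,[(34,512),(38,1280),(50,2048)])], .leaf 0 [(0,[])], .leaf 0 [(10,[(30,192),(34,220032),(35,38976),(38,401088),(49,448),(20,896),(10,625408),(0,256),(50,880128)])], .leaf 0 [(0,[])], .leaf 0 [(0,[])], .leaf 0 [(0,[])], .leaf 0 [(0,[])], .leaf 0 [(0,[])], .leaf 0 [(0,[])], .leaf 0 [(10,[(30,192),(34,220032),(35,38976),(38,401088),(49,448),(20,896),(10,625408),(0,256),(50,880128)])],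 .leaf 0 [(0,[(35,2668),(40,1228),(20,8192),(7,212)])], .leaf 0 [(220,[(34,177088),(41,38400),(49,74048),(1,148800),(0,2048),(50,708352)])], .leaf 0 [(16022,[(38,97479936),(49,37231232),(20,59940672),(11,4532480),(9,4532480),(7,3632768),(5,6348608)])], .leaf 0 [(12,[(30,12544),(34,12224),(38,38080),(47,30592),(20,10688),(2,1472),(50,48896)])], .leaf 0 [(0,[(35,1708),(40,268),(7,148)])], .leaf 0 [(36,[(34,89216),(38,170752),(43,9472),(20,19840),(17,41984),(10,241408),(1,8576),(0,896),(50,356864)])], .leaf 0 [(6,[(30,21312),(34,99392),(38,200576),(47,28672),(20,26880),(10,242816),(0,7360),(50,340224)])], .leaf 0 [(52,[(29,137600),(38,55744),(49,8064),(11,2304),(9,2304),(5,1920)]),(17870,[(40,27354944),(49,2267520),(9,2267520),(7,1504640),(5,4686208)]),(4,[(34,12544),(35,2560),(38,11328),(47,19076),(10,1532),(9,4),(50,50176)]),(10,[(34,8496),(35,154816),(38,29616),(47,142336),(48,10904),(20,13720),(2,27440),(51,56128)]),(211192,[(34,250513024),(47,516046272),(49,94391584),(13,1938464),(11,2372128),(5,32541088),(1,32953888),(50,1002052096)])],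 .leaf 1 [(34,[(34,30976),(38,70912),(43,8704),(49,56704),(20,83328),(0,9216),(50,123904)])], .leaf 0 [(3627,[(35,205090),(42,176888),(19,750599),(9,11138),(7,19704),(6,4249)])], .leaf 0 [(131,[(34,76833),(38,357009),(43,130300),(20,297721),(2,19545),(0,17576),(50,307332)])], .split 2 0 (.leaf 2 [(0,[(0,1)])]) (.leaf 1 [(5388,[(31,9382656),(39,13914624),(50,10740224),(21,9580032),(12,744960),(11,3628032),(6,1263360),(1,2737152),(0,2405),(52,19701760)])]), .leaf 3 [(0,[(35,576),(40,640),(20,772),(7,8),(5,188)]),(76,[(35,28183),(40,38039),(42,17873),(20,39326),(12,234),(9,1872),(5,16754)]),(1598,[(30,2660864),(34,2396512),(38,5678144),(47,3955200),(20,2092768),(12,154880),(11,42528),(10,1015840),(50,9586048)]),(4375960,[(38,155222528),(49,1020308160),(20,457398720),(11,33112320),(7,28543872),(5,2920532224),(4,141952),(1,12671232)]),(566,[(30,6578176),(38,4291712),(47,7360448),(49,144640),(20,2920064),(11,272768),(0,834304)])],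 .leaf 0 [(66,[(34,183424),(35,128),(38,383872),(20,17024),(10,424704),(0,4864),(50,733696)])], .leaf 0 [(422,[(28,73752),(49,220772),(20,159708),(7,14328),(4,1504)])], .leaf 0 [(4064,[(30,790928),(34,4869808),(38,13095536),(47,10309644),(20,2305720),(19,2749768),(12,138752),(2,335400),(50,19479232)])], .leaf 1 [(104,[(30,198272),(34,398208),(38,823296),(47,993216),(49,408128),(20,811328),(0,231808),(50,732672)])], .leaf 4 [(11272,[(28,21565216),(34,5241152),(38,7560672),(20,24524000),(15,32768),(11,3072),(9,96),(1,2976),(50,20964608)]),(11272,[(28,21565216),(34,11012928),(38,21990112),(20,24524000),(15,32768),(11,3072),(9,96),(1,2976),(50,44051712)]),(1310,[(34,2970368),(38,3991936),(41,563072),(47,3206112),(48,1415104),(20,1510272),(15,378880),(11,35520),(50,11881472)]),(28,[(30,242112),(34,109664),(35,9472),(38,476592),(47,242112),(20,408016),(17,471952),(2,47120),(50,438656)]),(178,[(30,341968),(34,59208),(38,66832),(49,450448),(20,936040),(11,34680),(3,73800),(1,108480),(50,236832)])],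 .leaf 0 [(270,[(30,218624),(34,366592),(38,942336),(47,607104),(20,238592),(19,318464),(2,19968),(50,1466368)])], .leaf 0 [(207,[(35,3952),(49,47152),(12,381),(10,24309),(7,702)])], .leaf 1 [(6639,[(35,320290),(42,47585),(12,19034),(10,1528113),(9,9210),(7,44297)])]]
noncomputable def a21 : TT := .leaf ⟨true,0,8,1,9,2,2047,[[],[-16,-8,8,0,2048,0,0,16,-704,-8],[0,0,0,0,0,0,0,0,80],[-24,120,144,0,0,0,0,24,744,-144],[0,0,0,0,0,0,0,0,80],[],[],[],[-2,-1,1,0,256,0,0,2,-88,-1],[0,0,0,0,0,0,0,0,80],[0,0,0,0,256]]⟩ [.leaf 0 [(0,[])], .leaf 0 [(0,[(35,2),(40,1),(19,91)])], .leaf 0 [(0,[])], .leaf 0 [(0,[(36,2),(38,1)])], .leaf 0 [(0,[])], .leaf 0 [(0,[])], .leaf 0 [(144,[(34,3328),(43,2560),(49,1280),(20,18944),(3,9216),(1,3328),(0,2048),(50,13312)])], .leaf 0 [(0,[]),(0,[]),(0,[]),(0,[]),(0,[]),(0,[])], .leaf 0 [(0,[(35,3072),(40,18432)])], .leaf 0 [(0,[])], .leaf 0 [(364,[(35,2709504),(42,229376),(19,237371392),(15,136192),(12,229376),(9,93184)])],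 .leaf 0 [(0,[])], .leaf 0 [(0,[])], .leaf 0 [(0,[])], .leaf 0 [(0,[])], .leaf 0 [(0,[])], .leaf 0 [(0,[])], .leaf 0 [(0,[(35,14336),(40,7168),(19,652288)])], .leaf 0 [(0,[(28,5120),(38,19456),(20,257024)])], .leaf 0 [(0,[(36,1024),(38,17408)])], .leaf 0 [(0,[(28,5120),(38,19456),(49,262144),(20,257024)])], .leaf 0 [(426,[(40,5015552),(49,1802240),(12,163840),(7,138240)])], .leaf 0 [(0,[(35,1024),(40,17408)])], .leaf 0 [(25372,[(40,251622400),(15,34160640),(12,34160640),(10,320096768),(9,5039104),(7,854016),(6,5849600)])], .leaf 0 [(64960,[(40,173189120),(49,367280128),(19,35552175616),(17,17241956352),(12,164880384),(9,45609984),(6,16247296),(5,868352),(51,17029136384)])], .leaf 0 [(0,[(28,2304),(29,87296),(38,35584),(49,43776),(20,41472)]),(0,[(28,4352),(29,126720),(38,76032),(49,4352)]),(0,[(39,52480),(43,256),(10,53760)]),(0,[(34,30720),(35,73984),(41,1536),(49,69632),(19,718848),(17,116736),(51,139264)]),(24156,[(29,777917472),(34,29863248),(49,2430033984),(20,2358948368),(11,3935344),(10,50741264),(6,1844640),(0,4184768),(50,119452992)])],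 .leaf 0 [(164,[(35,6413504),(40,9633472),(49,1758208),(11,103424),(7,472896),(6,18944),(1,3147776)])], .leaf 0 [(0,[(38,448),(43,160),(19,8480),(15,320)])], .leaf 0 [(1064,[(40,926688),(42,1363456),(19,9372048),(15,1363456),(12,1363456),(9,272160),(6,281744)])], .leaf 2 [(5900,[(35,237962240),(40,4447232),(49,154402816),(17,1222246400),(12,15466496),(11,11034624),(6,7864320),(51,1546911744)])], .leaf 3 [(104,[(29,672256),(34,2686976),(35,5236224),(38,1562624),(49,7257600),(20,7257600),(5,458752),(50,10747904)]),(4,[(30,200192),(38,35840),(49,389632),(20,630784),(5,24576)]),(12,[(34,342080),(38,590976),(47,737152),(12,70912),(50,1368320)]),(1358,[(30,46791680),(34,22431744),(35,26811904),(38,77753856),(49,50360320),(20,36485120),(11,3568640),(5,21836800),(1,3568640),(50,89726976)]),(90,[(34,472320),(38,2994688),(47,8488448),(20,1748992),(19,50812672),(12,528640),(50,1889280)])], .leaf 0 [(4826,[(40,46040064),(17,73302016),(12,2891776),(10,44689920),(9,943104),(6,1286656)])],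 .leaf 0 [(308,[(38,697728),(43,70944),(20,1077952),(6,31072),(0,267712)])], .leaf 0 [(2054,[(40,5411600),(12,1403184),(9,452640),(7,611312),(5,1776880)])], .leaf 1 [(5040,[(40,26475520),(49,1540096),(17,1444061184),(12,7643136),(10,3143306240),(9,2662400),(7,1207296),(51,1321467904)])], .leaf 4 [(0,[(28,66560),(38,8960),(20,64512)]),(0,[(28,63488),(40,9472),(20,67584)]),(0,[(18,66560),(16,7936),(10,33280)]),(60,[(34,395136),(38,46848),(20,4928384),(19,39686528),(16,542528),(15,247744),(11,6272),(50,1580544)]),(0,[(28,64512),(38,7936),(20,66560)])], .leaf 0 [(158,[(40,2256384),(42,97280),(19,1289472),(12,69120),(9,30720),(6,1280)])], .leaf 0 [(0,[(35,2560),(49,7424),(12,48),(10,7024),(7,256)])], .leaf 0 [(949134,[(35,47327213184),(40,56569307456),(49,16793752064),(11,515121664),(7,2288491552),(6,404883712),(1,17864889344),(0,261369856)])]]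
noncomputable def a22 : TT := .leaf ⟨false,0,1,0,1,3,895,[[],[345,56,147,-1526,460,-436,0,91,-462,289],[],[100,-42,0,-497,-142,-142,0,42,210,142],[],[],[],[],[],[],[]]⟩ [.leaf 0 [(0,[])], .leaf 0 [(0,[(33,218),(34,91),(37,289),(18,54),(9,788),(49,872)])], .leaf 0 [(0,[])], .leaf 0 [(0,[])], .leaf 0 [(7,[(34,907),(37,413),(6,109)])], .leaf 0 [(0,[])], .leaf 0 [(0,[(33,9088),(34,5376),(37,18176),(49,36352)])], .leaf 0 [(0,[])], .leaf 0 [(0,[(33,195328),(34,81536),(37,258944),(18,48384),(9,706048),(49,781312)])], .leaf 0 [(0,[])], .leaf 0 [(0,[])], .leaf 0 [(0,[])], .leaf 0 [(0,[])], .leaf 0 [(0,[])], .leaf 0 [(0,[])], .leaf 0 [(0,[(33,195328),(34,81536),(37,258944),(18,48384),(9,706048),(49,781312)])], .leaf 0 [(0,[(34,17656),(37,2632),(19,114688),(6,2312)])], .leaf 0 [(0,[(33,18816),(34,6272),(37,18816),(49,75264)])], .leaf 0 [(20702,[(37,735258880),(40,6215552),(48,623907072),(19,105999360),(10,43634944),(8,56066048),(4,38536448)])],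 .leaf 0 [(0,[(29,17024),(33,16256),(37,30720),(46,24448),(47,6016),(19,7424),(18,25088),(49,65024)])], .leaf 0 [(0,[(34,11368),(37,10584),(6,1176)])], .leaf 0 [(16,[(34,223872),(37,185600),(47,379776),(9,75264),(1,62848)])], .leaf 0 [(16,[(33,3481728),(34,1942784),(37,4604928),(19,5888),(16,941568),(9,13592832),(1,66816),(49,11977216)])], .leaf 0 [(6838,[(28,191274560),(40,457728),(48,108854528),(19,73526720),(10,2024256),(8,2939712),(4,1756992)]),(74,[(35,1483648),(8,134400),(6,36480),(4,286720),(0,5312)]),(0,[(33,21088),(34,6720),(40,896),(9,57344),(49,84352)]),(70,[(29,2757120),(33,2903392),(34,9118400),(46,1751712),(48,5076832),(19,8965920),(18,20294208),(1,1386432),(49,3470720)]),(6,[(28,213440),(29,74368),(33,22304),(46,364224),(49,89216)])], .leaf 1 [(124,[(33,768640),(37,2389376),(42,2742912),(19,5639552),(16,11509376),(1,153728),(49,3074560)])], .leaf 0 [(0,[(34,2352),(41,380),(18,2336),(5,96)])], .leaf 0 [(186,[(33,5978804),(34,2940268),(37,9962228),(19,158512),(16,144640),(11,60928),(9,18680624),(1,97584),(49,23915216)])],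 .leaf 1 [(1022,[(29,49747328),(34,78170624),(37,65578496),(48,26682752),(19,7074944),(10,4387200),(9,11465088),(1,5227264),(0,19398144)])], .leaf 3 [(14,[(33,117824),(34,170304),(37,78784),(19,38400),(4,31232),(49,471296)]),(4,[(28,73088),(34,50624),(37,26944),(19,17920),(4,10752)]),(86,[(29,1528960),(33,1566272),(37,3197248),(46,3065856),(19,1147328),(18,891392),(11,168064),(10,8916),(49,6265088)]),(329022,[(29,2813513856),(37,4426509376),(48,2840411264),(19,1716145312),(10,242076672),(6,58156480),(4,2695575136),(3,1681088)]),(2,[(33,281408),(34,82880),(37,495168),(46,262912),(48,52480),(19,104448),(11,28672),(9,1303808),(1,23296),(49,1125632)])], .leaf 0 [(0,[(33,28480),(37,55168),(19,16592),(16,40272),(9,69256),(2,1576),(49,113920)])], .leaf 0 [(422,[(27,1057080),(48,3270844),(19,2106384),(14,107380),(6,188640),(3,21056)])], .leaf 0 [(104,[(29,803404),(33,1237452),(37,2292624),(46,3820756),(19,1229900),(16,2949464),(11,50176),(9,673536),(49,4949808)])],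 .leaf 1 [(0,[(29,145072),(34,3344),(37,31936),(48,145072),(19,299024),(16,644208),(9,82752),(1,12464),(50,114688)])], .leaf 1 [(0,[(27,26314),(39,2982),(19,31030),(6,426)]),(84,[(33,762656),(46,2014080),(19,2297504),(11,2848),(49,3050624)]),(0,[(27,11802),(37,3626),(19,45542),(6,2170)]),(0,[(33,216416),(34,60480),(37,282304),(47,21024),(19,32736),(16,118272),(9,753600),(49,750976)]),(0,[(33,24096),(37,8320),(47,36288),(14,21056),(9,22656),(49,96384)])], .leaf 0 [(0,[(29,17024),(33,16256),(37,30720),(46,24448),(47,6016),(19,11008),(18,25088),(49,65024)])], .leaf 0 [(7,[(34,1680),(48,23184),(11,343),(9,19999),(6,602)])], .leaf 1 [(3,[(34,2207),(37,329),(9,10817),(6,289)])]]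
noncomputable def a23 : TT := .leaf ⟨true,0,8,1,9,2,2047,[[],[-16,-8,8,0,2048,0,0,16,-704,-8],[0,0,0,0,0,0,0,0,80],[-24,120,144,0,0,0,0,24,744,-144],[0,0,0,0,0,0,0,0,80],[],[],[],[-2,-1,1,0,256,0,0,2,-88,-1],[0,0,0,0,0,0,0,0,80],[0,0,0,0,256]]⟩ [.leaf 0 [(0,[])], .leaf 0 [(364,[(33,378),(40,32),(13,19),(10,32),(8,32594),(7,13)])], .leaf 0 [(0,[])], .leaf 0 [(0,[(34,2),(36,1)])], .leaf 0 [(0,[])], .leaf 0 [(0,[])], .leaf 0 [(146,[(32,19200),(36,15104),(41,21504),(18,29440),(13,10240),(1,12288),(0,3328),(48,76800)])], .leaf 0 [(0,[]),(0,[]),(0,[]),(0,[]),(0,[]),(0,[])], .leaf 0 [(0,[(33,3072),(38,18432)])], .leaf 0 [(0,[])], .leaf 0 [(0,[(33,14336),(38,7168),(8,662528)])], .leaf 0 [(0,[])], .leaf 0 [(0,[])], .leaf 0 [(0,[])], .leaf 0 [(0,[])], .leaf 0 [(0,[])], .leaf 0 [(0,[])], .leaf 0 [(364,[(33,2709504),(40,229376),(13,136192),(10,229376),(8,233633792),(7,93184)])], .leaf 0 [(0,[(26,5120),(36,19456),(18,257024)])], .leaf 0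 [(0,[(34,1024),(36,17408)])], .leaf 0 [(0,[(26,5120),(36,19456),(47,262144),(18,257024)])], .leaf 0 [(426,[(38,5015552),(47,1802240),(10,163840),(5,138240)])], .leaf 0 [(0,[(33,1024),(38,17408)])], .leaf 0 [(1608,[(38,15371264),(17,18898432),(13,2277376),(10,2277376),(7,355328),(4,427520)])], .leaf 0 [(5040,[(38,26475520),(47,1540096),(17,2781967360),(15,1444061184),(10,7643136),(7,2662400),(5,1207296),(49,1321467904)])], .leaf 0 [(0,[(26,2304),(27,87296),(36,35584),(47,43776),(18,41472)]),(0,[(26,4352),(27,126720),(36,76032),(47,4352)]),(0,[(41,256),(45,69888),(17,24832),(8,11520)]),(10,[(45,854328),(47,534272),(15,2853888),(10,59904),(8,6418888),(7,6712),(49,2883584)]),(46,[(26,122112),(27,1346560),(32,139264),(47,4813824),(18,4691712),(5,8704),(48,557056)])], .leaf 0 [(28868,[(28,1276166656),(32,157820928),(33,1979324928),(47,949955072),(9,125274624),(4,44858368),(1,41081856),(0,96453120),(48,631283712)])], .leaf 0 [(0,[(36,448),(47,160),(17,8480),(15,160),(13,160)])],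 .leaf 0 [(25372,[(38,30739104),(13,34086400),(10,34086400),(8,254006192),(7,5012576),(5,852160),(4,5852464)])], .leaf 2 [(1098,[(32,3670016),(33,40098816),(38,3294208),(47,29097984),(15,231079936),(10,2883584),(9,1351680),(4,1310720),(49,273416192)])], .leaf 3 [(9254,[(27,61646336),(32,188874752),(33,609761792),(47,753777152),(18,639482368),(9,6696960),(3,26148864),(0,446464),(48,755499008)]),(2,[(33,21504),(47,266240),(18,372992),(3,20224)]),(12,[(32,342080),(36,590976),(45,737152),(10,70912),(48,1368320)]),(3290,[(28,137516032),(32,58632192),(33,91016704),(36,216136192),(47,137516032),(18,92317696),(9,10705920),(3,49053696),(0,713728),(48,234528768)]),(4,[(28,244224),(36,240640),(45,345600),(18,140800),(10,24576),(8,2930688)])], .leaf 0 [(4826,[(38,46040064),(15,73302016),(10,2891776),(8,44689920),(7,943104),(4,1286656)])], .leaf 0 [(1088,[(26,6339648),(47,9071968),(18,7321920),(4,156128),(0,1376832)])], .leaf 0 [(1100,[(38,9280256),(7,181056),(5,325472),(3,1576768)])],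 .leaf 1 [(5040,[(38,26475520),(47,1540096),(15,1444061184),(10,7643136),(8,3143306240),(7,2662400),(5,1207296),(49,1321467904)])], .leaf 4 [(0,[(26,66560),(36,8960),(18,64512)]),(0,[(26,63488),(38,9472),(18,67584)]),(0,[(17,65536),(16,34304),(14,7936)]),(60,[(32,395136),(36,46848),(18,4928384),(14,542528),(13,247744),(9,6272),(8,39686528),(48,1580544)]),(0,[(26,64512),(36,7936),(18,66560)])], .leaf 0 [(158,[(38,2205696),(17,1191936),(10,63488),(7,22528),(5,9216)])], .leaf 0 [(0,[(33,2560),(47,7424),(17,7024),(10,48),(5,256)])], .leaf 0 [(3218,[(28,247885136),(33,424743888),(47,231557584),(9,25735056),(4,8163776),(1,8227680),(0,15576720)])]]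
noncomputable def a24 : TT := .leaf ⟨false,0,1,0,1,3,15,[[],[7,0,1,-28,8,-8,0,1,-8,7],[],[1,0,1,-7,-2,-2,0,1,2,1],[],[],[],[],[],[],[]]⟩ [.leaf 0 [(0,[])], .leaf 0 [(1816,[(26,6095),(30,702),(34,5832),(43,5519),(16,8261),(13,12850),(0,36),(46,2808)])], .leaf 0 [(0,[])], .leaf 0 [(0,[])], .leaf 0 [(3,[(31,11),(36,3),(3,1)])], .leaf 0 [(0,[])], .leaf 0 [(0,[(30,128),(31,128),(34,128),(46,512)])], .leaf 0 [(0,[])], .leaf 0 [(1816,[(26,5461120),(30,628992),(34,5225472),(43,4945024),(16,7401856),(13,11513600),(0,32256),(46,2515968)])], .leaf 0 [(0,[])], .leaf 0 [(0,[])], .leaf 0 [(0,[])], .leaf 0 [(0,[])], .leaf 0 [(0,[])], .leaf 0 [(0,[])], .leaf 0 [(1816,[(26,5461120),(30,628992),(34,5225472),(43,4945024),(16,7401856),(13,11513600),(0,32256),(46,2515968)])], .leaf 0 [(0,[(31,344),(36,24),(16,2048),(3,40)])], .leaf 0 [(0,[(30,384),(34,768),(46,1536)])], .leaf 0 [(20702,[(34,15159296),(37,70144),(45,8539392),(7,947456),(5,1087744),(1,740608)])],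 .leaf 0 [(2306,[(30,325152),(34,1071456),(39,494816),(43,665984),(16,1550656),(0,3424),(46,1300608)])], .leaf 0 [(0,[(31,360),(36,168),(3,24)])], .leaf 0 [(3584,[(30,397696),(34,2149376),(16,2888192),(13,4653568),(0,11008),(46,1590784)])], .leaf 0 [(1272,[(30,1026784),(31,66144),(34,7564736),(44,7122912),(16,2312544),(0,45344),(46,1500032)])], .leaf 0 [(28,[(24,3720),(25,10948),(45,12988),(16,9088),(5,180),(1,372)]),(464,[(32,149862),(36,61802),(5,15360),(3,3302),(1,31744)]),(3072,[(30,576320),(34,425504),(44,978976),(16,350880),(0,6880),(46,2305280)]),(1344,[(30,1199104),(34,6972000),(39,909952),(44,7548384),(16,2181984),(0,42784),(46,2041856)]),(0,[(30,240),(43,704),(45,608),(7,2),(46,960)])], .leaf 1 [(2816,[(26,1238592),(30,205888),(34,1458752),(16,2244800),(13,3260800),(0,8512),(46,823552)])], .leaf 0 [(119,[(31,2826),(38,1552),(15,3387),(5,90),(2,157)])], .leaf 0 [(188,[(26,14144),(30,109020),(31,52672),(34,193208),(16,18624),(6,356544),(0,128),(46,436080)])],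 .leaf 2 [(384,[(26,148672),(30,139072),(31,385216),(34,192064),(16,124032),(6,303872),(0,2432),(47,232192)])], .leaf 4 [(0,[(30,192),(31,384),(46,768)]),(0,[(26,528),(30,304),(31,112),(34,496),(43,528),(16,464),(13,656),(46,1216)]),(0,[(25,320),(31,320),(16,64)]),(0,[(30,192),(31,384),(47,1280)]),(0,[(30,3776),(31,1280),(34,6272),(6,14336),(46,15104)])], .leaf 0 [(1272,[(30,250528),(31,88800),(34,1093184),(44,864224),(16,282336),(0,5536),(46,1002112)])], .leaf 1 [(1344,[(30,271596),(31,74552),(34,1129888),(44,947136),(16,274176),(0,5376),(46,1086384)])], .leaf 0 [(216,[(26,49952),(30,50628),(34,108144),(43,104992),(44,60984),(16,2856),(6,90512),(0,56),(46,202512)])], .leaf 1 [(1272,[(30,1026784),(31,66144),(34,7564736),(44,7122912),(16,2312544),(0,45344),(46,1500032)])], .leaf 1 [(0,[(24,518),(34,54),(16,506),(3,6)]),(3540,[(30,744800),(37,1258272),(43,1518592),(44,558656),(16,146240),(12,35584),(0,1472),(46,2979200)]),(0,[(24,166),(36,42),(16,858),(3,38)]),(272,[(30,527744),(34,1691104),(16,1504064),(15,1182464),(0,6304),(46,1551872)]),(0,[(30,528),(34,736),(16,544),(15,896),(11,288),(46,2112)])],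 .leaf 0 [(438,[(30,18880),(34,187328),(44,239936),(16,90112),(0,1216),(46,75520)])], .leaf 0 [(3,[(26,75),(34,40),(45,181),(6,165),(3,5)])], .leaf 1 [(26267,[(31,262830),(15,1089177),(11,1984),(8,1984),(5,702),(3,32784),(2,31)])]]
noncomputable def a25 : TT := .leaf ⟨true,0,8,1,9,2,2047,[[],[-16,-8,8,0,2048,0,0,16,-704,-8],[0,0,0,0,0,0,0,0,80],[-24,120,144,0,0,0,0,24,744,-144],[0,0,0,0,0,0,0,0,80],[],[],[],[-2,-1,1,0,256,0,0,2,-88,-1],[0,0,0,0,0,0,0,0,80],[0,0,0,0,256]]⟩ [.leaf 0 [(0,[])], .leaf 0 [(364,[(31,378),(38,32),(11,19),(8,32),(6,32594),(5,13)])], .leaf 0 [(0,[])], .leaf 0 [(0,[(32,2),(34,1)])], .leaf 0 [(0,[])], .leaf 0 [(0,[])], .leaf 0 [(763,[(30,71964),(39,34008),(16,112939),(3,918),(1,86915),(0,1528),(46,287856)])], .leaf 0 [(0,[]),(0,[]),(0,[]),(0,[]),(0,[]),(0,[])], .leaf 0 [(0,[(31,3072),(36,18432)])], .leaf 0 [(0,[])], .leaf 0 [(176,[(31,1268736),(38,111104),(16,46592),(11,64512),(8,111104),(6,115016704),(5,46592)])],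 .leaf 0 [(0,[])], .leaf 0 [(0,[])], .leaf 0 [(0,[])], .leaf 0 [(0,[])], .leaf 0 [(0,[])], .leaf 0 [(0,[])], .leaf 0 [(364,[(31,2709504),(38,229376),(11,136192),(8,229376),(6,233633792),(5,93184)])], .leaf 0 [(0,[(24,5120),(34,19456),(16,257024)])], .leaf 0 [(0,[(32,1024),(34,17408)])], .leaf 0 [(0,[(24,5120),(25,121344),(34,140800),(45,140800),(16,135680)])], .leaf 0 [(48,[(31,99584),(36,701696),(45,192512),(8,13056),(3,12544)])], .leaf 0 [(0,[(31,1024),(36,17408)])], .leaf 0 [(24438,[(36,217640960),(15,248310784),(8,34160640),(5,5199872),(3,427008),(2,7183360)])], .leaf 0 [(2458,[(36,5191680),(45,14598144),(13,651927552),(8,6414336),(6,1344152064),(5,1735680),(2,642560),(47,644612096)])], .leaf 0 [(0,[(24,2304),(25,87296),(34,35584),(45,43776),(16,41472)]),(0,[(24,4352),(25,50688),(45,80384),(16,76032)]),(0,[(35,52480),(39,256),(15,53760)]),(394,[(30,5523904),(43,30992000),(45,9141760),(13,76869696),(8,1146752),(6,227169536),(5,554880),(47,81451264)]),(46,[(24,122112),(25,1346560),(30,139264),(45,4813824),(16,4691712),(3,8704),(46,557056)])],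 .leaf 0 [(0,[(26,73728),(31,136104),(36,12072),(45,65536),(7,8192),(3,3544),(1,16384),(0,192)])], .leaf 0 [(6,[(30,32),(34,3200),(45,928),(11,928),(6,59360),(1,64),(46,128)])], .leaf 0 [(25372,[(36,30739104),(11,34086400),(8,34086400),(6,254006192),(5,5012576),(3,852160),(2,5852464)])], .leaf 2 [(5900,[(31,237962240),(36,4447232),(45,154402816),(13,1222246400),(8,15466496),(7,11034624),(2,7864320),(47,1546911744)])], .split 4 3 (.leaf 4 [(4,[(26,165888),(27,262144),(31,65536),(32,52736),(35,280064),(46,96256),(17,358400),(47,262144)]),(4,[(27,133632),(31,121344),(32,206848),(44,279040),(47,485376)]),(6,[(31,133632),(35,317440),(46,209408),(17,650240),(47,534528)]),(0,[(0,1)]),(0,[(31,65536),(32,77312),(35,68096),(16,801792),(47,262144)])]) (.leaf 3 [(0,[(27,66272),(32,27424),(35,10928),(46,66272),(17,97728),(8,2048),(1,16)]),(0,[(27,43392),(31,14780),(32,45952),(35,25858),(46,51584),(17,64000),(8,2304),(1,18),(47,59120)]),(70,[(26,411648),(27,289280),(31,48640),(44,307712),(10,504832),(9,46080),(47,194560)]),(175251,[(27,17895260160),(32,21433899520),(35,5416102400),(46,19899351040),(17,8920760320),(9,182190080),(8,1709178880),(1,24739840),(0,97123),(48,25460211712)]),(190,[(35,4302848),(44,2920448),(17,1848832),(16,120187392),(10,1246720),(9,294400)])]),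 .leaf 0 [(4826,[(36,46040064),(13,73302016),(8,2891776),(6,44689920),(5,943104),(2,1286656)])], .leaf 0 [(46,[(24,363328),(45,1031488),(16,649920),(11,18240),(3,26400),(0,6016)])], .leaf 0 [(22684,[(31,95688640),(45,114631680),(8,28481536),(5,1792000),(3,10223648)])], .leaf 1 [(5040,[(36,26475520),(45,1540096),(15,3143306240),(13,1444061184),(8,7643136),(5,2662400),(3,1207296),(47,1321467904)])], .leaf 4 [(0,[(24,66560),(34,8960),(16,64512)]),(0,[(24,63488),(36,9472),(16,67584)]),(0,[(16,66560),(15,33280),(12,7936)]),(60,[(30,395136),(34,46848),(44,4928384),(12,542528),(11,247744),(7,6272),(6,39686528),(46,1580544)]),(0,[(24,64512),(34,7936),(16,66560)])], .leaf 0 [(790,[(36,11298816),(38,634880),(44,317440),(15,6227968),(8,317440),(5,153600),(3,5120)])], .leaf 0 [(0,[(26,1248),(31,2560),(45,6944),(6,6880),(3,256)])], .leaf 0 [(432,[(26,32063488),(31,63928056),(36,6291896),(45,32063488),(7,3563520),(3,1527016),(1,7602176),(0,83264)])]]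
noncomputable def a26 : TT := .leaf ⟨false,0,1,0,1,3,15,[[],[7,0,1,-28,8,-8,0,1,-8,7],[],[1,0,1,-7,-2,-2,0,1,2,1],[],[],[],[],[],[],[]]⟩ [.leaf 0 [(0,[])], .leaf 0 [(0,[(30,4),(31,1),(34,7),(6,16),(46,16)])], .leaf 0 [(0,[])], .leaf 0 [(0,[])], .leaf 0 [(3,[(31,11),(36,3),(3,1)])], .leaf 0 [(0,[])], .leaf 0 [(0,[(30,128),(31,128),(34,128),(46,512)])], .leaf 0 [(0,[])], .leaf 0 [(0,[(30,3584),(31,896),(34,6272),(6,14336),(46,14336)])], .leaf 0 [(0,[])], .leaf 0 [(0,[])], .leaf 0 [(0,[])], .leaf 0 [(0,[])], .leaf 0 [(0,[])], .leaf 0 [(0,[])], .leaf 0 [(0,[(30,3584),(31,896),(34,6272),(6,14336),(46,14336)])], .leaf 0 [(0,[(31,344),(36,24),(16,2048),(3,40)])], .leaf 0 [(0,[(30,384),(34,768),(46,1536)])], .leaf 0 [(204,[(31,74752),(34,52480),(45,165632),(16,30464),(7,7936),(5,8192)])], .leaf 0 [(6,[(26,1792),(30,1984),(34,3968),(43,3200),(16,1344),(6,4800),(46,7936)])], .leaf 0 [(0,[(31,360),(36,168),(3,24)])], .leaf 0 [(75,[(26,4864),(30,25930),(34,54731),(44,16960),(16,28288),(15,56576),(1,7360),(0,29),(46,103720)])],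 .leaf 0 [(25,[(30,103826),(31,39552),(34,177703),(45,2816),(16,1408),(8,256),(6,409856),(0,97),(46,362056)])], .leaf 0 [(1024,[(24,3072),(25,754496),(34,328000),(37,96),(45,104448),(7,5952),(5,6144)]),(258,[(25,122430),(31,91118),(45,49538),(7,2914),(5,3008),(3,6834)]),(35,[(30,14290),(34,10247),(16,1280),(13,2560),(6,34176),(0,1),(46,57160)]),(9,[(30,38482),(31,13504),(34,61607),(43,9600),(45,640),(6,139776),(0,33),(46,133448)]),(6,[(25,704),(26,224),(30,1440),(43,4928),(45,4256),(46,5760)])], .leaf 1 [(7,[(26,1664),(30,74),(34,3019),(44,5248),(16,512),(0,29),(46,296)])], .leaf 0 [(9996,[(31,99904),(15,414600),(11,744),(8,744),(5,264),(3,12488)])], .leaf 0 [(25,[(30,274),(34,12211),(44,17920),(16,1664),(0,101),(46,1096)])], .leaf 2 [(1244,[(26,399808),(30,64320),(31,844608),(43,399808),(16,320128),(6,104512),(0,7232),(47,2292480)])], .leaf 4 [(0,[(25,384),(31,384)]),(0,[(26,528),(30,304),(31,112),(34,496),(43,528),(16,464),(13,656),(46,1216)]),(0,[(25,320),(31,320),(16,64)]),(0,[(30,192),(31,384),(47,1280)]),(0,[(30,3776),(31,1280),(34,6272),(6,14336),(46,15104)])],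 .leaf 0 [(28,[(30,17920),(31,7296),(34,28544),(6,57536),(1,576),(46,71680)])], .leaf 1 [(319,[(26,26752),(30,12234),(34,135051),(16,222336),(0,1117),(46,48936)])], .leaf 0 [(1567,[(26,403840),(30,339834),(34,791603),(43,749696),(16,397568),(15,795136),(7,6272),(0,117),(46,1359336)])], .leaf 1 [(19,[(26,640),(30,80574),(31,31488),(34,136689),(45,640),(6,317312),(0,71),(46,281336)])], .leaf 1 [(0,[(24,518),(34,54),(16,506),(3,6)]),(32,[(30,1696),(43,8128),(44,14240),(16,864),(12,432),(11,1904),(7,736),(46,6784)]),(0,[(24,166),(36,42),(16,858),(3,38)]),(85,[(26,225600),(30,13638),(34,130061),(43,298688),(16,308160),(13,616320),(0,1483),(47,121576)]),(2,[(30,928),(34,320),(37,352),(44,2144),(11,224),(1,288),(46,3712)])], .leaf 0 [(6,[(26,1792),(30,1984),(34,3968),(43,3200),(16,1792),(6,4800),(46,7936)])], .leaf 0 [(103,[(31,1040),(45,6096),(15,4395),(8,35),(3,130)])], .leaf 1 [(3,[(31,43),(36,3),(6,171),(3,5)])]]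
noncomputable def a27 : TT := .leaf ⟨false,0,1,0,1,1,15,[[],[0,0,0,0,16,0,0,0,-2],[],[0,0,0,0,0,0,0,0,3],[],[],[],[],[],[],[]]⟩ [.leaf 0 [(0,[])], .leaf 0 [(0,[(11,2)])], .leaf 0 [(0,[])], .leaf 0 [(0,[])], .leaf 0 [(0,[])], .leaf 0 [(0,[])], .leaf 0 [(0,[])], .leaf 0 [(0,[])], .leaf 0 [(0,[(11,1792)])], .leaf 0 [(0,[])], .leaf 0 [(0,[])], .leaf 0 [(0,[])], .leaf 0 [(0,[])], .leaf 0 [(0,[])], .leaf 0 [(0,[])], .leaf 0 [(0,[(11,1792)])], .leaf 0 [(0,[(12,2048)])], .leaf 0 [(0,[])], .leaf 0 [(0,[(41,2048),(12,2048)])], .leaf 0 [(0,[(23,64),(28,64),(43,2048)])], .leaf 0 [(0,[])], .leaf 0 [(0,[(24,64),(32,64)])], .leaf 0 [(0,[(23,64),(28,64),(11,1728),(9,4096),(43,4096)])], .leaf 0 [(0,[(21,512),(41,512),(12,512)]),(40,[(21,25600),(27,512),(41,16384),(0,512)]),(0,[(39,32)]),(24,[(26,5568),(27,11200),(41,13440),(9,24832),(4,64),(2,56992),(43,28928)]),(0,[(21,512),(41,512),(12,512)])], .leaf 1 [(0,[])], .leaf 0 [(0,[(11,68)])], .leaf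 0 [(0,[(24,64)])], .leaf 0 [(0,[])], .leaf 4 [(2,[(22,512),(26,512),(27,1024),(41,1536),(12,2048),(42,2048)]),(4,[(22,1856),(26,832),(27,960),(30,960),(39,1600),(42,3328)]),(4,[(26,512),(27,512),(12,2048),(0,64),(42,2048)]),(120,[(26,23808),(39,67072),(4,5888),(0,5952),(43,152576)]),(52,[(22,1536),(26,10240),(39,29696),(12,1536),(11,92736),(4,2560),(0,2560),(42,40960)])], .leaf 0 [(0,[(22,64),(24,60),(28,64),(30,4),(9,128),(1,4)])], .leaf 1 [(0,[(9,128),(7,64),(1,2)])], .leaf 2 [(11774,[(21,1986560),(33,1625088),(41,15828992),(12,11433984),(4,270848),(3,61440),(0,371200)])], .leaf 1 [(0,[(23,64),(28,64),(9,4096),(2,1728),(43,4096)])], .leaf 3 [(30,[(20,15360),(32,4608),(12,15872),(0,512)]),(0,[(32,288),(12,512),(0,32)]),(30,[(20,14848),(32,9216),(0,1024)]),(0,[(40,512),(9,3072),(2,1152),(43,2048)]),(14,[(20,6272),(32,12672),(12,7680),(2,5248),(0,1408)])], .leaf 0 [(0,[])], .leaf 1 [(0,[(23,64),(43,2048)])], .leaf 1 [(0,[(2,68)])]]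
noncomputable def t2 : TT := (.split [-1,8,9,32,32,0,0,0,-7,-9] (.split [17,-8,7,-112,-32,-32,0,15,7,25] (.split [-1,8,9,0,32,-32,0,1,-7,-10] a16 a17) (.split [-2,-18,16,-32,-48,-96,0,34,27,14] a18 (.split [-2,0,3,11,-1,-16,0,3,1,-2] (.split [-145,-123,56,521,-162,478,0,179,183,-38] (.split [0,0,2,4,-3,-16,0,2,1,0] a19 (.split [18,7,3,-64,2,-14,0,-5,-8,11] (.split [4,-2,-1,-16,-5,-5,0,1,6,5] (.split [11,0,1,-64,11,-12,0,0,-4,10] a20 a21) a22) a23)) a24) (.split [-220,-99,29,962,-36,92,0,128,135,-121] a25 a26)))) a27)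
theorem c2 : chkT (fsm (-1) ([32,0,0,-32,0,-32,0,0,0,1] : Fm) :: fsm (-1) ([0,0,0,0,-1,0,0,0,1,0] : Fm) :: ([16,16,0,-48,-16,-32,0,1,0,0] : Fm) :: ([1,0,11,-13,8,-16,0,10,3,-10] : Fm) :: ([8,0,8,-16,16,-24,0,8,1,7] : Fm) :: ([8,0,8,-16,208,-56,0,8,-29,8] : Fm) :: ([0,0,-1,0,0,4,0,0,0,0] : Fm) :: ([4,4,-1,0,0,0,0,0,0,0] : Fm) :: fsm (-1) ([0,0,0,1,-1,0,0,0,0,0] : Fm) :: ([0,0,0,0,0,0,0,1,-1,0] : Fm) :: fsm (-1) ([0,0,0,0,-2,0,0,0,1,0] : Fm) :: ([0,0,0,-1,-1,0,0,1,-1,0] : Fm) :: K1O11.C0) t2 = true := by decide +kernel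
end K1O11M010100

namespace K1O11M010100
noncomputable def a28 : TT := .leaf ⟨false,0,1,0,1,1,15,[[],[-5,-6,-1,0,16,0,0,5,-10,1],[],[-1,-2,-1,0,0,0,0,1,2,1],[],[],[],[],[],[],[]]⟩ [.leaf 0 [(0,[])], .leaf 0 [(7071,[(28,98256),(14,22040),(13,47380),(5,2185),(3,2356),(1,15105),(0,100),(44,393024)])], .leaf 0 [(0,[])], .leaf 0 [(0,[])], .leaf 0 [(0,[(30,5),(34,1)])], .leaf 0 [(0,[])], .leaf 0 [(0,[(29,128),(32,128)])], .leaf 0 [(0,[])], .leaf 0 [(220,[(28,2751168),(14,617120),(13,1326640),(5,61180),(3,65968),(1,422940),(0,2800),(44,11004672)])], .leaf 0 [(0,[])], .leaf 0 [(0,[])], .leaf 0 [(0,[])], .leaf 0 [(0,[])], .leaf 0 [(0,[])], .leaf 0 [(0,[])], .leaf 0 [(220,[(28,2751168),(14,617120),(13,1326640),(5,61180),(3,65968),(1,422940),(0,2800),(44,11004672)])], .leaf 0 [(0,[(22,768),(34,256),(14,1280)])], .leaf 0 [(0,[(29,512)])], .leaf 0 [(0,[(22,768),(23,1280),(32,1024),(43,768)])], .leaf 0 [(44,[(24,11520),(43,11520),(14,19200),(13,26880),(4,22528),(2,11520),(1,1472)])],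 .leaf 0 [(0,[(30,512)])], .leaf 0 [(222,[(24,29440),(14,170880),(13,35008),(11,363776),(9,31488),(5,10400),(1,3872),(0,1728)])], .leaf 0 [(10,[(28,165632),(14,27776),(13,74560),(3,1840),(1,26944),(0,576),(44,640000)])], .leaf 0 [(0,[(22,96),(23,928),(32,320),(43,96)]),(0,[(22,288),(23,736),(30,448),(43,288)]),(16,[(23,3520),(35,4640),(43,3520),(14,8416),(13,7904),(11,8928),(5,288)]),(30,[(28,325184),(43,34592),(14,146584),(13,160936),(11,132232),(5,9734),(3,10048),(1,51502),(44,1237248)]),(0,[(22,224),(23,800),(32,64),(43,224)])], .leaf 1 [(48,[(14,36752),(13,9488),(11,75696),(5,2216),(1,920),(0,544)])], .leaf 0 [(0,[(30,24),(34,8),(13,64)])], .leaf 0 [(17,[(24,2240),(14,13364),(13,3072),(11,28612),(5,687),(1,555),(0,220)])], .leaf 1 [(1680,[(28,2707712),(14,324096),(13,1157888),(6,28928),(3,131232),(1,577280),(0,25088),(44,10830848)])], .leaf 4 [(6,[(23,4096),(28,1536),(29,896),(32,2688),(44,6144)]),(24,[(24,9920),(29,11328),(32,1472),(41,9920),(42,8320),(13,3616),(0,288)]),(6,[(23,3456),(28,1408),(32,2688),(14,896),(44,5632)]),(0,[(28,512),(29,128),(32,384)]),(220,[(28,3273856),(14,588480),(13,1249824),(5,63096),(3,70832),(1,484152),(0,2208),(44,13095424)])],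 .leaf 0 [(508,[(14,248384),(13,170288),(11,586784),(9,57408),(5,26048),(4,104448),(0,7888)])], .leaf 1 [(232,[(43,18968),(14,144532),(13,55066),(11,314056),(9,32960),(5,11356),(4,49440),(0,2426)])], .leaf 0 [(44,[(41,11160),(14,17220),(13,16260),(4,14368),(2,18180),(1,1892)])], .leaf 1 [(220,[(28,3637568),(14,644960),(13,1484752),(5,71012),(3,76016),(1,548100),(0,5904),(44,14097664)])], .leaf 4 [(0,[(22,416),(34,32),(14,608)]),(0,[(22,288),(32,96),(14,736)]),(0,[(24,96),(41,96),(14,864),(13,256),(4,384),(2,96)]),(220,[(28,2839088),(14,874984),(13,1320300),(5,63943),(3,68732),(1,438351),(0,4124),(44,11356352)]),(0,[(24,64),(29,160),(32,96),(14,960),(13,512),(11,128),(4,128)])], .leaf 0 [(1124,[(24,264960),(41,518400),(14,390720),(13,384000),(6,23040),(4,182272),(1,60608)])], .leaf 0 [(16,[(30,752),(13,1568),(5,64),(2,1024)])], .leaf 1 [(0,[(30,24),(34,8),(13,64)])]]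
noncomputable def a29 : TT := .leaf ⟨false,0,1,0,1,1,15,[[],[-5,-6,-1,0,16,0,0,5,-10,1],[],[-1,-2,-1,0,0,0,0,1,2,1],[],[],[],[],[],[],[]]⟩ [.leaf 0 [(0,[])], .leaf 0 [(123,[(24,124),(28,1316),(43,92),(14,531),(13,709),(11,353),(5,31),(3,32),(1,212),(44,5264)])], .leaf 0 [(0,[])], .leaf 0 [(0,[])], .leaf 0 [(0,[(30,5),(34,1)])], .leaf 0 [(0,[])], .leaf 0 [(0,[(29,128),(32,128)])], .leaf 0 [(0,[])], .leaf 0 [(30,[(24,27776),(28,294784),(43,20608),(14,118944),(13,158816),(11,79072),(5,6944),(3,7168),(1,47488),(44,1179136)])], .leaf 0 [(0,[])], .leaf 0 [(0,[])], .leaf 0 [(0,[])], .leaf 0 [(0,[])], .leaf 0 [(0,[])], .leaf 0 [(0,[])], .leaf 0 [(30,[(24,27776),(28,294784),(43,20608),(14,118944),(13,158816),(11,79072),(5,6944),(3,7168),(1,47488),(44,1179136)])], .leaf 0 [(0,[(22,768),(34,256),(14,1280)])], .leaf 0 [(0,[(29,512)])], .leaf 0 [(0,[(22,768),(23,1280),(32,1024),(43,768)])], .leaf 0 [(1124,[(24,264960),(41,518400),(14,318720),(13,384000),(6,23040),(4,182272),(1,60608)])],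 .leaf 0 [(0,[(30,512)])], .leaf 0 [(0,[(24,256),(28,192),(43,192),(14,960),(13,64),(11,1856),(9,192),(5,44),(1,44),(44,768)])], .leaf 0 [(30,[(24,35712),(28,451968),(43,27520),(14,127008),(13,182496),(11,71520),(5,7936),(3,8192),(1,69152),(44,1744384)])], .leaf 0 [(0,[(22,96),(23,608),(43,416),(14,320)]),(0,[(22,288),(23,736),(30,448),(43,288)]),(8,[(23,4320),(29,4640),(43,4320),(14,4592),(13,8688),(11,496),(5,16)]),(30,[(24,12896),(28,300640),(43,35424),(14,149704),(13,157816),(11,141592),(5,8928),(3,9216),(1,48408),(44,1139072)]),(0,[(22,224),(23,800),(32,64),(43,224)])], .leaf 1 [(0,[(24,256),(28,192),(43,256),(14,1024),(13,64),(11,1856),(9,192),(5,44),(1,44),(44,768)])], .leaf 0 [(0,[(30,24),(34,8),(13,64)])], .leaf 0 [(4,[(24,1600),(28,2264),(43,1280),(14,4994),(13,366),(11,8982),(9,1056),(5,211),(1,417),(44,9056)])], .leaf 1 [(30,[(24,7936),(28,55808),(43,2816),(14,16512),(13,15232),(11,17792),(5,992),(3,3136),(1,11104),(44,223232)])],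 .leaf 4 [(6,[(23,1408),(28,1536),(29,896),(43,2688),(14,2688),(44,6144)]),(0,[(24,512),(29,384),(32,128),(41,512),(42,128),(14,320),(13,64),(11,576)]),(4,[(22,3008),(23,320),(28,576),(32,1920),(14,640),(44,2304)]),(0,[(28,512),(29,128),(32,384)]),(30,[(24,39680),(28,449920),(43,36352),(14,110208),(13,151680),(3,3328),(1,68992),(44,1799680)])], .leaf 0 [(0,[(24,256),(28,448),(43,256),(14,928),(13,96),(11,1760),(9,192),(5,44),(1,76),(44,1792)])], .leaf 1 [(88,[(24,15672),(28,7168),(32,704),(43,21368),(14,88992),(11,177984),(9,17376),(5,3889),(1,2481),(44,28672)])], .leaf 0 [(16,[(24,2477),(41,10726),(14,5084),(13,3007),(6,651),(1,1054)])], .leaf 1 [(30,[(24,35712),(28,451968),(43,27520),(14,127008),(13,182496),(11,71520),(5,7936),(3,8192),(1,69152),(44,1744384)])], .leaf 4 [(0,[(22,416),(34,32),(14,608)]),(0,[(22,288),(32,96),(14,736)]),(12,[(41,2688),(14,9792),(13,3760),(6,144),(4,4992)]),(30,[(24,30752),(28,323168),(43,23328),(14,156424),(13,159032),(11,74456),(5,7192),(3,7424),(1,51664),(44,1292672)]),(0,[(24,160),(41,96),(42,256),(14,608),(13,256),(11,384),(4,384)])],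 .leaf 0 [(44,[(24,11520),(43,11520),(14,22080),(13,26880),(4,22528),(2,11520),(1,1472)])], .leaf 0 [(16,[(30,752),(13,1568),(5,64),(2,1024)])], .leaf 1 [(0,[(30,24),(34,8),(13,64)])]]
noncomputable def a30 : TT := .leaf ⟨false,0,1,0,1,3,15,[[],[-2,-2,0,0,16,0,0,2,-6],[],[-1,-1,0,0,0,0,0,1,5],[],[],[],[],[],[],[]]⟩ [.leaf 0 [(0,[])], .leaf 0 [(0,[(29,2),(13,8)])], .leaf 0 [(0,[])], .leaf 0 [(0,[])], .leaf 0 [(0,[(30,2)])], .leaf 0 [(0,[])], .leaf 0 [(0,[(29,128)])], .leaf 0 [(0,[])], .leaf 0 [(0,[(29,1792),(13,7168)])], .leaf 0 [(0,[])], .leaf 0 [(0,[])], .leaf 0 [(0,[])], .leaf 0 [(0,[])], .leaf 0 [(0,[])], .leaf 0 [(0,[])], .leaf 0 [(0,[(29,1792),(13,7168)])], .leaf 0 [(0,[(22,384),(14,1664)])], .leaf 0 [(0,[(29,128)])], .leaf 0 [(0,[(22,384),(43,2048),(14,1664)])], .leaf 0 [(16,[(13,2176),(5,64),(4,5504),(2,3776)])], .leaf 0 [(0,[(30,128)])], .leaf 0 [(10,[(34,64),(13,1664),(11,10496),(6,64),(5,220),(4,768)])], .leaf 0 [(0,[(29,1152),(14,1024),(13,5632),(11,4096),(5,64),(2,1024),(45,2048)])],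 .leaf 0 [(0,[(22,96),(23,736),(32,224),(43,288),(14,192)]),(0,[(22,352),(23,512),(43,512),(14,160)]),(0,[(33,288),(35,160),(13,448)]),(4,[(23,2560),(29,5664),(43,2560),(14,6592),(13,29632),(11,18496),(5,256),(2,4096),(45,10240)]),(0,[(23,512),(41,448),(43,64),(13,288),(4,160),(2,80)])], .leaf 1 [(0,[(29,384),(13,576)])], .leaf 0 [(0,[(30,12),(13,72)])], .leaf 0 [(3,[(13,688),(11,4912),(5,97),(4,256)])], .leaf 1 [(54,[(29,5568),(34,320),(14,9264),(13,4624),(11,26512),(6,320),(5,752),(4,3840),(2,67712)])], .leaf 3 [(4,[(24,1280),(28,384),(43,2048),(14,3328),(0,64),(44,1536)]),(44,[(23,20480),(32,14336),(43,2048),(14,12288),(0,832)]),(12,[(28,1760),(32,6016),(41,6208),(42,2560),(6,640),(44,7040)]),(0,[(0,64)]),(32,[(24,14336),(29,49728),(32,2048),(41,19968),(14,13824),(13,194816),(6,512),(4,1024),(2,38400)])], .leaf 0 [(16,[(29,5504),(13,7680),(11,4160),(5,64)])], .leaf 1 [(3,[(13,496),(11,4976),(5,93),(4,256)])], .leaf 0 [(0,[(29,308),(34,64),(43,64),(13,496),(4,128),(2,64)])],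 .leaf 1 [(0,[(29,1152),(14,1024),(13,5632),(11,4096),(5,64),(2,1024),(45,2048)])], .leaf 4 [(0,[(22,512),(14,512)]),(0,[(22,384),(14,640)]),(0,[(31,192),(14,576)]),(0,[(29,1536),(14,1024),(13,6656)]),(0,[(22,256),(14,768)])], .leaf 0 [(0,[(29,384),(13,576)])], .leaf 0 [(16,[(30,956),(13,1704),(5,64),(2,1024)])], .leaf 1 [(0,[(30,12),(13,72)])]]
noncomputable def a31 : TT := .leaf ⟨false,0,1,0,1,2,1023,[[],[-29,74,103,0,1024,0,0,29,-600,-103],[],[-26,-9,17,0,0,0,0,26,143,-17],[],[],[],[],[],[],[]]⟩ [.leaf 0 [(0,[])], .leaf 0 [(378,[(25,46003),(44,42257),(15,106398),(14,110372),(4,3746),(3,163606),(1,10630)])], .leaf 0 [(0,[])], .leaf 0 [(0,[])], .leaf 0 [(0,[(31,29),(33,103)])], .leaf 0 [(0,[])], .leaf 0 [(0,[(30,3328),(35,2176)])], .leaf 0 [(0,[])], .leaf 0 [(378,[(25,41218688),(44,37862272),(15,95332608),(14,98893312),(4,3356416),(3,146590976),(1,9524480)])], .leaf 0 [(0,[])], .leaf 0 [(0,[])], .leaf 0 [(0,[])], .leaf 0 [(0,[])],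 .leaf 0 [(0,[])], .leaf 0 [(0,[])], .leaf 0 [(378,[(25,41218688),(44,37862272),(15,95332608),(14,98893312),(4,3356416),(3,146590976),(1,9524480)])], .leaf 0 [(0,[(23,7040),(33,15360),(15,124032)])], .leaf 0 [(0,[(30,384),(35,11008)])], .leaf 0 [(0,[(23,7040),(24,83584),(33,98944),(44,47488),(15,40448)])], .leaf 0 [(4954,[(24,8965120),(15,45829120),(14,238914048),(7,1143808),(4,3616768),(3,138570752),(1,8535936)])], .leaf 0 [(0,[(31,384),(33,11008)])], .leaf 0 [(14074,[(35,146876928),(37,3937792),(15,98548736),(14,875512320),(7,4525056),(6,37888),(1,9722240)])], .leaf 0 [(378,[(25,40401536),(44,36730752),(15,98444544),(14,117325824),(4,3670784),(3,157535488),(1,10150016),(46,49676288)])], .leaf 0 [(0,[(23,2496),(24,56608),(33,25472),(44,8928),(15,6432)]),(0,[(23,6208),(24,17952),(44,47584),(15,41376)]),(10,[(24,112384),(34,198048),(15,19456),(14,416640),(1,1216)]),(378,[(25,9308448),(44,30123360),(15,77056576),(14,140949504),(4,4023232),(3,109935680),(1,7635360),(46,49676288)]),(0,[(23,5824),(24,44704),(33,15744),(44,20832),(15,15008)])],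 .leaf 1 [(2,[(35,31744),(15,28672),(14,189056),(12,1408),(5,1408),(1,1792)])], .leaf 0 [(0,[(33,260),(44,220),(14,2528),(12,220),(10,220)])], .leaf 0 [(28,[(35,197480),(37,6064),(15,191040),(14,1798736),(7,9696),(5,7264),(1,19364)])], .split 1 0 (.leaf 1 [(0,[(0,1)])]) (.leaf 2 [(79,[(26,5339136),(31,849024),(34,168960),(45,4653056),(16,9664512),(5,337920),(4,20613120),(2,1005312),(0,85),(47,10485760)])]), .leaf 3 [(4,[(25,116992),(29,14080),(33,44800),(44,116992),(15,233984),(0,64),(45,56320)]),(4,[(24,175584),(25,57888),(30,34968),(33,156736),(15,78368),(0,72)]),(364,[(29,759200),(42,11035328),(15,2231232),(8,509376),(7,693888),(45,3036800)]),(0,[(0,64)]),(4750,[(24,169511424),(35,47853952),(15,103616512),(14,2408744704),(7,17568768),(4,4284928),(1,3379392)])], .leaf 0 [(54,[(29,90112),(35,432128),(15,419840),(14,3177984),(1,51584),(45,360448)])], .leaf 1 [(8,[(30,17900),(35,75488),(15,80000),(14,516096),(12,73728),(1,7304)])],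 .leaf 0 [(450,[(24,1792736),(35,2550112),(15,5710400),(14,21870064),(4,54560),(3,13471488),(1,526916)])], .leaf 1 [(166,[(25,14182528),(44,11935376),(15,37580712),(14,57947352),(6,714520),(4,2247152),(3,57000824),(1,4019968),(46,21889024)])], .leaf 1 [(0,[(23,35264),(33,1632),(15,30272)]),(0,[(32,5024),(37,11552),(15,13312),(14,39424)]),(0,[(23,38976),(33,14816),(15,26560)]),(378,[(25,13338912),(44,9512288),(15,63621696),(14,155432960),(4,3826624),(3,81165376),(1,6586784),(46,49676288)]),(0,[(23,38592),(33,3808),(15,26944)])], .leaf 0 [(4954,[(24,8965120),(15,66124800),(14,238914048),(7,1143808),(4,3616768),(3,138570752),(1,8535936)])], .leaf 0 [(16,[(31,65332),(35,5848),(14,121704),(6,4096),(3,65536)])], .leaf 1 [(0,[(31,220),(33,480),(14,2968)])]]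
noncomputable def a32 : TT := .leaf ⟨false,0,1,0,1,3,255,[[],[24,33,9,0,256,0,0,-24,-214,-9],[],[22,29,7,0,0,0,0,-22,29,-7],[],[],[],[],[],[],[]]⟩ [.leaf 0 [(0,[])], .leaf 0 [(56358,[(26,1750871),(45,3696029),(16,5446900),(15,3510439),(5,88652),(4,7318374),(1,6791)])], .leaf 0 [(0,[])], .leaf 0 [(0,[])], .leaf 0 [(0,[(31,24),(34,9)])], .leaf 0 [(0,[])], .leaf 0 [(0,[(32,2816),(36,896)])], .leaf 0 [(0,[])], .leaf 0 [(56358,[(26,1568780416),(45,3311641984),(16,4880422400),(15,3145353344),(5,79432192),(4,6557263104),(1,6084736)])], .leaf 0 [(0,[])], .leaf 0 [(0,[])], .leaf 0 [(0,[])], .leaf 0 [(0,[])], .leaf 0 [(0,[])], .leaf 0 [(0,[])], .leaf 0 [(56358,[(26,1568780416),(45,3311641984),(16,4880422400),(15,3145353344),(5,79432192),(4,6557263104),(1,6084736)])], .leaf 0 [(0,[(31,5888),(34,2048),(16,32768)])], .leaf 0 [(0,[(32,256),(36,256)])], .leaf 0 [(0,[(31,5888),(34,2048),(45,32768),(16,32768)])], .leaf 0 [(56358,[(26,67919872),(45,413019648),(16,423227904),(15,511591552),(5,24400384),(4,741476608),(1,874752)])],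 .leaf 0 [(0,[(31,256),(34,256)])], .leaf 0 [(5410,[(24,26565056),(25,1541632),(30,5510144),(45,20468224),(16,15428672),(15,85883392),(1,58688),(46,22040576)])], .leaf 0 [(15532,[(26,518002048),(45,1119679616),(16,1621775872),(15,780923136),(13,257878272),(5,28022272),(4,2208230144),(1,2064512),(47,508985344)])], .leaf 0 [(0,[(25,13600),(31,2112),(34,6080),(45,2784),(16,2784)]),(0,[(25,16384),(31,5184),(34,10016)]),(772,[(24,850944),(25,6582112),(45,5291168),(16,4636832),(15,12269056),(1,192)]),(56358,[(26,1415861408),(45,3574822496),(16,4932972288),(15,4430614080),(5,114238720),(4,5740995200),(1,5868512),(47,1846771712)]),(19738,[(24,14459904),(25,165645472),(45,155497312),(16,119055200),(15,312166912),(5,491520),(1,5952)])], .leaf 1 [(772,[(24,2257472),(30,1666048),(39,1537536),(45,2178048),(16,2995648),(15,12269056),(1,8384),(46,6664192)])], .leaf 0 [(0,[(34,64),(15,348),(13,184),(6,184)])], .leaf 0 [(3864,[(24,15078618),(30,4489576),(45,18490120),(16,14818390),(15,61345280),(1,41830),(46,17958304)])],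 .leaf 2 [(5900,[(26,59727872),(31,2330608),(34,62059648),(45,53637120),(16,107322368),(13,4502528),(5,6090752),(4,176728064),(1,211824),(47,193363968)])], .leaf 3 [(4,[(30,14336),(31,44544),(45,36864),(16,36864),(0,64),(46,57344)]),(406,[(25,1343488),(34,2359296),(16,2850816),(0,9664)]),(0,[(30,1984),(43,6144),(16,5248),(15,448),(4,7232),(46,7936)]),(0,[(0,64)]),(56358,[(26,1599676544),(45,3014498944),(16,4614175488),(15,3341027392),(5,70759680),(4,6174587520),(1,4779008)])], .leaf 0 [(3864,[(24,17350464),(30,5298688),(45,18577920),(16,11020480),(15,61345280),(1,41920),(46,21194752)])], .leaf 1 [(3864,[(24,22491806),(25,1658256),(30,1583104),(39,13346816),(45,2299504),(16,10459090),(15,61345280),(1,36890),(46,6332416)])], .leaf 0 [(8472,[(24,2557536),(45,55061168),(16,61179984),(15,78741828),(5,3427408),(4,108055848),(1,119144)])], .leaf 1 [(68830,[(26,2321964544),(34,386817408),(45,4587574784),(16,6839056384),(15,4168227072),(5,148114432),(4,9488582144),(1,9206528),(47,2255454208)])],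 .leaf 1 [(0,[(24,6080),(34,672),(16,10304)]),(10900,[(24,98372608),(36,3267936),(38,98304),(16,69066752),(15,172357120),(5,196608),(4,1130496),(1,3264)]),(0,[(24,3008),(34,1824),(16,13376)]),(9832,[(26,197618176),(34,37288864),(45,546877184),(16,895530240),(15,744287424),(5,21985024),(4,1057033088),(1,1092032),(47,322207744)]),(21968,[(30,32964992),(38,500960),(16,181908864),(15,277527616),(12,35582176),(11,120352),(1,51488),(46,131859968)])], .leaf 0 [(56358,[(26,67919872),(45,413019648),(16,480939520),(15,511591552),(5,24400384),(4,741476608),(1,874752)])], .leaf 0 [(16,[(32,16520),(36,136),(15,33180),(7,1024),(4,16384)])], .leaf 1 [(0,[(31,184),(34,64),(15,532)])]]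
noncomputable def a33 : TT := .leaf ⟨false,0,1,0,1,2,15,[[],[1,-3,-4,0,16,0,0,-1,-8,4],[],[-1,-1,0,0,0,0,0,1,1],[],[],[],[],[],[],[]]⟩ [.leaf 0 [(0,[])], .leaf 0 [(8197,[(31,1573),(44,8234),(46,2978),(12,2978),(1,30),(0,3700),(47,6292)])], .leaf 0 [(0,[])], .leaf 0 [(0,[])], .leaf 0 [(0,[(32,1),(37,4)])], .leaf 0 [(0,[])], .leaf 0 [(0,[(32,128)])], .leaf 0 [(0,[])], .leaf 0 [(4098,[(31,704704),(44,3688832),(46,1334144),(12,1334144),(1,13440),(0,1657600),(47,2818816)])], .leaf 0 [(0,[])], .leaf 0 [(0,[])], .leaf 0 [(0,[])], .leaf 0 [(0,[])], .leaf 0 [(0,[])], .leaf 0 [(0,[])], .leaf 0 [(4098,[(31,704704),(44,3688832),(46,1334144),(12,1334144),(1,13440),(0,1657600),(47,2818816)])], .leaf 0 [(0,[(37,512),(17,2048)])], .leaf 0 [(0,[(33,256),(35,512)])], .leaf 0 [(0,[(26,1728),(35,1216),(46,320),(17,320)])], .leaf 0 [(0,[(46,64),(0,64)])], .leaf 0 [(0,[(32,256),(37,512)])], .leaf 0 [(0,[(0,64)])], .leaf 0 [(3496,[(40,3936256),(46,1474688),(17,3757632),(16,1985024),(14,7385664),(12,5365760),(1,9792),(0,1474688),(48,7161856)])],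 .leaf 0 [(0,[(25,96),(26,928),(35,416),(46,96)]),(0,[(26,1024),(32,32)]),(0,[(25,224),(46,224),(16,608)]),(6,[(31,3232),(44,1462),(46,10046),(17,1758),(16,9716),(12,7840),(0,2964),(48,1408)]),(0,[(25,224),(26,512),(46,512),(17,288)])], .leaf 1 [(0,[(46,64),(17,64),(0,64)])], .leaf 0 [(0,[(37,16),(16,52)])], .leaf 0 [(378,[(35,33984),(40,11888),(17,27648),(1,108),(0,24256)])], .leaf 2 [(26401,[(27,7500768),(32,11637021),(35,19589592),(46,7369952),(17,13180992),(6,1742532),(2,41877),(0,1611716),(48,54071296)])], .split 4 3 (.leaf 4 [(0,[(32,384),(33,512),(47,256),(18,256),(48,1536)]),(0,[(28,448),(32,64),(33,64),(36,320),(45,448),(46,384),(15,256),(48,256)]),(6,[(32,1024),(36,256),(47,1536),(18,5120),(48,4096)]),(0,[(0,1)]),(14,[(32,7680),(36,3712),(41,5760),(47,6016),(18,6016),(17,14272),(13,49632),(1,6016),(48,30720)])]) (.leaf 3 [(30,[(27,10400),(33,15872),(36,2976),(47,4448),(18,4960),(7,512),(5,512)]),(30,[(28,4672),(33,9216),(36,1280),(47,6080),(18,13312),(7,576),(5,576)]),(46,[(32,7936),(33,13824),(18,10240),(1,1760),(48,31744)]),(836,[(28,204800),(33,1105920),(36,450560),(47,135680),(18,409600),(7,69120),(5,69120),(0,1723),(49,3528704)]),(0,[(45,1272),(47,384),(17,1080),(15,1408),(13,384),(1,312)])]),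 .leaf 0 [(31228,[(35,18259968),(46,8171328),(17,22564864),(14,11722368),(1,94208),(0,446272)])], .leaf 1 [(154523,[(31,26230456),(32,95860381),(46,126534064),(17,93431208),(12,42992392),(2,137325),(0,5271320),(47,104921824)])], .leaf 0 [(4,[(44,248),(46,496),(16,620),(12,1966),(7,496),(0,248)])], .leaf 1 [(15592,[(31,6692672),(40,3214336),(46,8739904),(17,3688832),(12,10481792),(1,38528),(0,8208960),(48,5163776)])], .leaf 1 [(0,[(25,608),(17,416)]),(4,[(44,2336),(16,256),(13,624),(12,560),(7,1120),(0,32)]),(0,[(25,480),(37,512),(17,544)]),(74,[(31,31680),(35,23392),(40,59040),(46,28096),(17,36736),(16,176512),(12,247632),(0,28096),(48,26880)]),(0,[(25,736),(17,288)])], .leaf 0 [(59746,[(46,29482496),(17,7954880),(16,39194496),(8,183744),(7,24651264),(1,16896),(0,505856)])], .leaf 0 [(44000,[(33,577232),(37,1318832),(46,1570304),(8,73280),(1,5444),(0,176640)])], .leaf 1 [(0,[(37,16),(16,52)])]]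
noncomputable def a34 : TT := .leaf ⟨false,0,1,0,1,2,7,[[],[1,1,0,0,8,0,0,-1,-7],[],[1,1,0,0,0,0,0,-1,1],[],[],[],[],[],[],[]]⟩ [.leaf 0 [(0,[])], .leaf 0 [(25761,[(27,25568),(35,656),(46,41316),(17,66884),(16,59531),(6,508),(5,86526),(1,295)])], .leaf 0 [(0,[])], .leaf 0 [(0,[])], .leaf 0 [(0,[(32,1)])], .leaf 0 [(0,[])], .leaf 0 [(0,[(33,128)])], .leaf 0 [(0,[])], .leaf 0 [(12880,[(27,11454464),(35,293888),(46,18509568),(17,29964032),(16,26669888),(6,227584),(5,38763648),(1,132160)])], .leaf 0 [(0,[])], .leaf 0 [(0,[])], .leaf 0 [(0,[])], .leaf 0 [(0,[])], .leaf 0 [(0,[])], .leaf 0 [(0,[])], .leaf 0 [(12880,[(27,11454464),(35,293888),(46,18509568),(17,29964032),(16,26669888),(6,227584),(5,38763648),(1,132160)])], .leaf 0 [(0,[(32,256),(17,1024)])], .leaf 0 [(0,[])], .leaf 0 [(0,[(32,256),(46,1024),(17,1024)])], .leaf 0 [(69448,[(46,13797696),(17,11324448),(16,23376224),(13,50176),(6,708288),(5,21231968),(1,100736)])], .leaf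 0 [(0,[])], .leaf 0 [(1754,[(31,89392),(36,62240),(46,191488),(17,116656),(16,770824),(1,2152),(47,357568)])], .leaf 0 [(8696,[(27,10281984),(46,16626688),(17,26630368),(16,13012192),(14,10132256),(6,174080),(5,34636800),(1,116672),(48,8905728)])], .leaf 0 [(0,[(26,416),(32,96),(35,160),(46,96),(17,96)]),(0,[(26,512),(32,224),(35,256)]),(502,[(31,3144),(36,120720),(40,33424),(17,67440),(16,128768),(1,288),(47,12576)]),(8696,[(27,7795200),(46,15066688),(17,22583584),(16,21495952),(14,3005216),(6,290240),(5,24680160),(1,91184),(48,8905728)]),(0,[(26,256),(32,224),(46,256),(17,256)])], .leaf 0 [(2307,[(33,31570),(35,244112),(9,8960),(7,8960),(5,537472),(1,385),(0,24704)])], .leaf 0 [(0,[(16,8),(14,8),(7,8)])], .leaf 0 [(2514,[(25,196288),(31,96736),(46,403200),(17,246560),(16,1247440),(1,2800),(47,386944)])], .leaf 2 [(4708,[(27,1281024),(32,692800),(35,1350144),(46,1148800),(17,2279136),(14,741536),(6,132224),(5,3797568),(1,18272),(48,4822016)])],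 .leaf 4 [(112,[(32,32128),(35,13568),(17,11264),(6,1632),(0,640)]),(0,[(27,128),(31,64),(44,256),(45,96),(16,32),(14,96),(47,256)]),(4,[(31,288),(32,96),(35,1160),(17,1824),(0,5),(47,1152)]),(5942,[(27,696320),(31,505600),(32,2877568),(35,1935104),(46,532480),(17,1228800),(6,158720),(1,7424),(0,5120),(48,4063232)]),(8696,[(27,9556224),(46,13714688),(17,23270912),(16,13042304),(14,12020992),(6,105472),(5,24129024),(1,80512)])], .leaf 0 [(3864,[(25,445576),(31,226432),(46,884800),(17,411480),(16,1917040),(2,1400),(47,905728)])], .leaf 0 [(390826,[(39,4987096),(17,192992),(12,10041688),(8,602040),(2,3176),(0,787448)])], .leaf 0 [(1546,[(25,68108),(46,290520),(17,271916),(16,490922),(6,11592),(5,541188),(1,2098)])], .leaf 1 [(1900,[(27,2389728),(31,566560),(35,575008),(46,3215072),(17,5543968),(16,3544880),(5,8422400),(1,26320),(47,319616)])], .leaf 1 [(0,[(25,160),(17,352)]),(1546,[(25,412128),(46,26304),(17,356736),(16,746336),(6,1344),(5,40608),(1,192)]),(0,[(25,32),(17,480)]),(12880,[(27,10647056),(35,4114064),(46,16685328),(17,33515264),(16,33333448),(6,633568),(5,37808496),(1,148840),(48,13190144)]),(0,[(25,32),(17,480)])],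 .leaf 0 [(69448,[(46,13797696),(17,13546816),(16,23376224),(13,50176),(6,708288),(5,21231968),(1,100736)])], .leaf 0 [(4358,[(46,43488),(16,124084),(9,1568),(8,91572),(5,1509712),(2,44)])], .leaf 0 [(8,[(32,208),(35,928),(46,256),(9,32),(6,16),(5,1632),(3,40),(0,80)])]]
noncomputable def a35 : TT := .leaf ⟨false,0,1,0,1,1,15,[[],[0,0,0,0,16,0,0,0,-2],[],[0,0,0,0,0,0,0,0,3],[],[],[],[],[],[],[]]⟩ [.leaf 0 [(0,[])], .leaf 0 [(0,[(13,2)])], .leaf 0 [(0,[])], .leaf 0 [(0,[])], .leaf 0 [(0,[])], .leaf 0 [(0,[])], .leaf 0 [(0,[])], .leaf 0 [(0,[])], .leaf 0 [(0,[(13,1792)])], .leaf 0 [(0,[])], .leaf 0 [(0,[])], .leaf 0 [(0,[])], .leaf 0 [(0,[])], .leaf 0 [(0,[])], .leaf 0 [(0,[])], .leaf 0 [(0,[(13,1792)])], .leaf 0 [(0,[(14,2048)])], .leaf 0 [(0,[])], .leaf 0 [(0,[(23,960),(32,960),(43,1088),(14,1088)])], .leaf 0 [(16,[(30,1024),(34,2048),(43,2048),(13,896),(5,64),(0,2048)])], .leaf 0 [(0,[])], .leaf 0 [(186,[(30,10176),(34,1088),(11,19648),(9,13056),(6,1088),(5,704)])],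 .leaf 0 [(254,[(30,37888),(34,2048),(43,22528),(13,470400),(11,588800),(6,2048),(5,960),(4,24576),(45,522240)])], .leaf 0 [(0,[(23,880),(32,368),(43,144),(14,144)]),(0,[(23,512),(43,512),(14,512)]),(0,[(33,32)]),(0,[(23,512),(41,448),(43,64),(13,1376),(11,2112),(45,2048)]),(0,[(23,512),(43,512),(14,512)])], .leaf 1 [(0,[])], .leaf 0 [(0,[(13,68)])], .leaf 0 [(0,[(11,192),(9,64),(5,4)])], .leaf 0 [(0,[])], .split 3 3 (.leaf 3 [(2,[(24,1536),(25,512),(29,512),(44,1536),(15,512),(1,2560),(45,2048)]),(2,[(44,1024),(15,2048),(0,1)]),(0,[(8,64)]),(0,[(0,1)]),(4462,[(42,1435648),(44,4442624),(14,7952064),(11,126976),(7,368128),(4,88064),(1,3046400)])]) (.leaf 4 [(0,[(29,256),(30,448),(44,512),(15,512),(1,64),(45,1024)]),(212,[(25,82432),(29,12800),(33,25600),(42,93696),(12,141824),(7,1024),(45,51200)]),(6,[(24,1376),(29,992),(33,3360),(38,224),(15,3808),(45,3968)]),(112,[(30,53248),(44,118272),(15,70144),(12,42496),(6,5120),(4,16896),(3,54272),(1,135168),(0,151),(46,231424)]),(0,[(29,256),(42,512),(14,1344),(12,1792),(1,512),(45,1024)])]),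 .leaf 0 [(16,[(30,1024),(11,4160),(5,64)])], .leaf 0 [(16,[(34,1024),(36,64),(13,1092),(9,1088),(5,64),(2,4296)])], .leaf 0 [(0,[(30,64),(34,192),(43,192),(13,132),(4,128),(0,128)])], .leaf 1 [(16,[(30,1024),(34,2048),(43,2048),(13,31360),(11,39936),(5,64),(0,2048),(45,34816)])], .leaf 4 [(0,[(22,512),(14,512)]),(0,[(22,512),(14,512)]),(0,[]),(4,[(28,384),(14,2432),(13,6528),(10,448),(9,192),(0,128),(44,1536)]),(6,[(28,1024),(9,2496),(44,4096)])], .leaf 0 [(0,[])], .leaf 0 [(16,[(30,1024),(34,2048),(43,2048),(13,3412),(5,64),(0,2048)])], .leaf 1 [(0,[(13,68)])]]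
noncomputable def a36 : TT := .leaf ⟨true,0,8,1,9,2,2047,[[],[-16,-8,8,0,2048,0,0,16,-704,-8],[0,0,0,0,0,0,0,0,80],[-24,120,144,0,0,0,0,24,744,-144],[0,0,0,0,0,0,0,0,80],[],[],[],[-2,-1,1,0,256,0,0,2,-88,-1],[0,0,0,0,0,0,0,0,80],[0,0,0,0,256]]⟩ [.leaf 0 [(0,[])], .leaf 0 [(9,[(29,9),(13,892),(6,1),(4,12),(0,11)])], .leaf 0 [(0,[])], .leaf 0 [(0,[(30,2),(32,1)])], .leaf 0 [(0,[])], .leaf 0 [(0,[])], .leaf 0 [(0,[(2,256)])], .leaf 0 [(0,[]),(0,[]),(0,[]),(0,[]),(0,[]),(0,[])], .leaf 0 [(0,[(29,3072),(34,18432)])], .leaf 0 [(0,[])], .leaf 0 [(0,[(29,14336),(34,7168),(13,662528)])], .leaf 0 [(0,[])], .leaf 0 [(0,[])], .leaf 0 [(0,[])], .leaf 0 [(0,[])], .leaf 0 [(0,[])], .leaf 0 [(0,[])], .leaf 0 [(4,[(29,32256),(13,3196928),(6,3584),(4,43008),(0,39424)])], .leaf 0 [(0,[(22,5120),(32,19456),(14,257024)])], .leaf 0 [(0,[(30,1024),(32,17408)])], .leaf 0 [(0,[(22,5120),(32,19456),(43,262144),(14,257024)])], .leaf 0 [(254,[(30,3544064),(34,5223424),(43,2883584),(13,5637120),(6,262144),(5,122880),(4,3145728)])],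 .leaf 0 [(0,[(29,1024),(34,17408)])], .leaf 0 [(84,[(34,1873920),(13,2451968),(11,1347072),(9,743936),(6,47616),(5,40960)])], .leaf 0 [(36,[(34,1024000),(43,428032),(13,21259264),(11,10963968),(6,38912),(5,18240),(4,466944),(45,9699328)])], .leaf 0 [(0,[(22,2304),(23,51712),(43,79360),(14,77056)]),(0,[(22,4352),(23,126720),(32,76032),(43,4352)]),(0,[(33,52480),(13,53760),(0,256)]),(24,[(35,425984),(41,2093056),(13,14250496),(11,5591808),(6,73984),(0,1018624),(45,6553600)]),(1298,[(22,3084032),(23,27041280),(43,126788096),(14,131502848),(3,243712),(1,147968),(0,12290048)])], .leaf 1 [(0,[(34,19456),(13,32768),(11,5120),(4,5120)])], .leaf 0 [(0,[(32,448),(43,160),(13,8480),(11,160),(9,160)])], .leaf 0 [(84,[(34,1134080),(13,2230832),(11,1350608),(9,743664),(6,47344),(5,40960)])], .leaf 0 [(0,[(29,5120),(34,19456)])], .split 4 3 (.leaf 4 [(524,[(24,6793280),(29,3661824),(33,34337856),(44,4147136),(15,37062592),(4,1028608),(2,36736),(45,14647296)]),(12,[(29,344448),(30,595712),(42,836864),(7,11136),(45,1377792)]),(4,[(29,73728),(33,183296),(38,152064),(15,466944),(3,40960),(45,294912)]),(0,[(0,1)]),(0,[(25,68096),(30,9216),(42,68096),(43,62976),(14,534528),(12,332800),(5,5120)])])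 (.leaf 3 [(224,[(24,6328832),(25,4816896),(30,9352704),(33,5928960),(44,10546688),(15,15298048),(4,458752),(2,16384)]),(28,[(25,1073152),(30,515584),(33,871936),(44,1236992),(15,2547712),(4,73728),(3,73728)]),(1782,[(42,8290304),(8,13020160),(7,1466368),(4,131584)]),(1003371,[(25,9044951040),(30,48192765440),(33,92559224320),(44,30933975040),(15,38420480000),(7,2733178880),(4,8175943680),(2,1072906240),(0,382913),(46,100378345472)]),(4,[(25,244224),(33,240640),(42,345600),(15,140800),(14,2930688),(7,24576)])]), .leaf 0 [(16,[(34,330752),(13,417792),(11,532480),(9,44032),(5,8192),(0,44032)])], .leaf 0 [(4,[(36,37920),(13,2400),(9,64672),(5,15008),(2,285888),(0,23712)])], .leaf 0 [(14,[(30,228704),(34,421984),(43,303104),(13,467040),(6,16384),(4,442368)])], .leaf 1 [(36,[(34,1024000),(43,428032),(13,23911424),(11,10963968),(6,38912),(5,18240),(4,466944),(45,9699328)])], .leaf 4 [(0,[(22,66560),(32,8960),(14,64512)]),(0,[(22,63488),(34,9472),(14,67584)]),(0,[(31,48384),(35,7936),(14,10240),(13,41216)]),(2,[(28,25088),(32,2304),(14,230144),(13,1964032),(10,28224),(9,9408),(4,12544),(44,100352)]),(0,[(22,64512),(32,7936),(14,66560)])],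 .leaf 0 [(2,[(34,48128),(13,29696),(6,1024),(4,16384),(0,11264)])], .leaf 0 [(254,[(30,4857824),(34,123424),(43,2883584),(13,7326240),(6,262144),(5,122880),(4,3145728)])], .leaf 1 [(0,[(30,160),(32,608),(13,9440)])]]
noncomputable def a37 : TT := .leaf ⟨false,0,1,0,1,3,15,[[],[-2,-2,0,0,16,0,0,2,-6],[],[-1,-1,0,0,0,0,0,1,5],[],[],[],[],[],[],[]]⟩ [.leaf 0 [(0,[])], .leaf 0 [(0,[(28,2),(12,8)])], .leaf 0 [(0,[])], .leaf 0 [(0,[])], .leaf 0 [(0,[(29,2)])], .leaf 0 [(0,[])], .leaf 0 [(0,[(28,128)])], .leaf 0 [(0,[])], .leaf 0 [(0,[(28,1792),(12,7168)])], .leaf 0 [(0,[])], .leaf 0 [(0,[])], .leaf 0 [(0,[])], .leaf 0 [(0,[])], .leaf 0 [(0,[])], .leaf 0 [(0,[])], .leaf 0 [(0,[(28,1792),(12,7168)])], .leaf 0 [(0,[(21,384),(13,1664)])], .leaf 0 [(0,[(28,128)])], .leaf 0 [(0,[(21,384),(22,896),(31,896),(42,1152),(13,768)])], .leaf 0 [(254,[(28,60032),(33,2048),(42,22528),(12,100864),(5,2048),(4,960),(3,24576)])], .leaf 0 [(0,[(29,128)])],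 .leaf 0 [(379,[(33,7104),(12,75523),(5,7104),(4,4236),(3,85248),(0,1533)])], .leaf 0 [(478,[(28,862080),(33,16384),(42,180224),(12,3556352),(10,161792),(5,16384),(3,196608),(0,7680),(44,980992)])], .leaf 0 [(0,[(21,96),(22,736),(31,224),(42,288),(13,192)]),(0,[(21,352),(22,672),(31,160),(42,352)]),(32,[(32,14784),(41,160),(12,9304),(3,5280),(0,40)]),(1428,[(22,574240),(28,2445056),(34,207584),(42,1025824),(13,476512),(12,10829600),(5,50176),(3,186944),(0,23520),(44,2926592)]),(0,[(22,512),(28,160),(40,448),(42,64),(12,448)])], .leaf 1 [(0,[(12,192),(10,384),(3,384)])], .leaf 0 [(0,[(29,12),(12,72)])], .leaf 0 [(16,[(28,5572),(12,8496),(10,4160),(4,64),(3,1088)])], .leaf 2 [(598,[(22,64),(28,4736),(33,20416),(42,225216),(12,153664),(10,202688),(5,20480),(3,245760),(0,9600),(44,1226752)])], .leaf 4 [(202,[(22,53152),(27,19904),(31,89824),(42,11872),(13,76832),(2,2240),(1,2240),(43,79616)]),(8,[(27,944),(28,3616),(40,3488),(13,864),(10,3792),(6,160),(43,3776)]),(4,[(21,2048),(27,576),(31,2240),(42,320),(13,1920),(43,2304)]),(12780,[(23,2399232),(27,1441280),(28,1690688),(31,4144640),(42,2061312),(13,4905984),(2,337920),(1,3456000),(0,111360),(44,20410368)]),(2126,[(23,277504),(27,565760),(28,3764160),(31,770560),(42,728064),(13,1123328),(12,14813696),(5,40960),(0,19200),(43,2263040)])],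 .leaf 0 [(0,[(12,128),(10,1216),(4,24)])], .leaf 0 [(16,[(29,140),(33,1088),(12,1160),(8,1088),(4,64),(1,4432)])], .leaf 0 [(14,[(28,3212),(33,1088),(42,2368),(12,6544),(5,128),(3,3456)])], .leaf 1 [(478,[(28,862080),(33,16384),(42,180224),(12,3556352),(10,161792),(5,16384),(3,196608),(0,7680),(44,980992)])], .leaf 4 [(0,[(21,512),(13,512)]),(0,[(21,384),(13,640)]),(0,[(41,768)]),(0,[(28,1536),(13,1024),(12,6656)]),(0,[(21,256),(13,768)])], .leaf 0 [(0,[(28,384),(12,576)])], .leaf 0 [(254,[(29,36868),(33,2048),(42,22528),(12,56280),(5,2048),(4,960),(3,24576)])], .leaf 1 [(0,[(29,12),(12,72)])]]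
noncomputable def a38 : TT := .leaf ⟨true,0,8,1,9,2,2047,[[],[0,0,0,0,2048,0,0,0,-920],[0,0,0,0,0,0,0,0,104],[0,0,0,0,0,0,0,0,216],[0,0,0,0,0,0,0,0,104],[],[],[],[0,0,0,0,256,0,0,0,-115],[0,0,0,0,0,0,0,0,104],[0,0,0,0,256]]⟩ [.leaf 0 [(0,[])], .leaf 0 [(0,[(13,115)])], .leaf 0 [(0,[])], .leaf 0 [(0,[])], .leaf 0 [(0,[])], .leaf 0 [(0,[])], .leaf 0 [(0,[(2,256)])], .leaf 0 [(0,[]),(0,[]),(0,[]),(0,[]),(0,[]),(0,[])], .leaf 0 [(0,[])], .leaf 0 [(0,[])], .leaf 0 [(0,[(13,837632)])], .leaf 0 [(0,[])], .leaf 0 [(0,[])], .leaf 0 [(0,[])], .leaf 0 [(0,[])], .leaf 0 [(0,[])], .leaf 0 [(0,[])], .leaf 0 [(0,[(13,824320)])], .leaf 0 [(0,[(14,262144)])], .leaf 0 [(0,[])], .leaf 0 [(0,[(23,182784),(32,182784),(43,79360),(14,79360)])], .leaf 0 [(254,[(30,2793472),(34,253952),(43,2916352),(13,23393280),(6,253952),(4,1081344),(3,122880)])], .leaf 0 [(0,[])], .leaf 0 [(16,[(34,131072),(13,1889280),(11,393216),(3,8192)])], .leaf 0 [(254,[(30,2793472),(34,253952),(43,2916352),(13,209832960),(11,73441280),(6,253952),(4,1081344),(3,122880),(45,66846720)])],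 .leaf 0 [(15630,[(23,1126039552),(28,50331648),(29,183042048),(35,293601280),(43,587202560),(1,458752),(44,201326592)]),(15630,[(23,1126039552),(28,50331648),(29,183042048),(35,293601280),(43,587202560),(1,458752),(44,201326592)]),(0,[(41,57344),(13,28928)]),(0,[(23,8192),(28,28672),(29,57344),(43,65536),(13,848128),(11,126976),(45,147456)]),(1560,[(23,107282432),(28,5308416),(29,6034176),(32,7531264),(35,17694720),(43,61931520),(1,48384),(44,21233664)])], .leaf 1 [(0,[(13,111616)])], .leaf 0 [(0,[(13,4960)])], .leaf 0 [(16,[(32,8192),(13,1850720),(11,393216),(3,8192)])], .leaf 0 [(0,[])], .leaf 4 [(44,[(28,917504),(29,720896),(32,1114112),(14,1572864),(6,65536),(0,94208),(44,3670016)]),(2,[(24,147200),(28,49408),(29,49408),(32,49408),(41,147200),(42,96768),(44,197632)]),(6,[(28,131072),(32,262144),(14,458752),(0,6144),(44,524288)]),(0,[(28,65536),(29,65536),(32,65536)]),(0,[(24,65536),(41,65536),(14,65536),(13,678144),(11,327680)])],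 .leaf 0 [(16,[(30,131072),(13,1889280),(11,532480),(5,8192)])], .leaf 0 [(86,[(23,7075904),(34,288704),(13,79904),(9,580608),(3,460288),(0,36288)])], .leaf 0 [(14,[(30,303104),(34,139264),(43,303104),(13,1595040),(6,16384),(4,442368)])], .leaf 2 [(0,[(13,909312)])], .leaf 4 [(0,[(22,65536),(14,65536)]),(0,[(22,65536),(14,65536)]),(0,[(31,57344),(42,8192),(13,36608)]),(8,[(28,17920),(14,589824),(13,7748352),(11,464384),(10,35840),(44,71680)]),(0,[(22,65536),(14,65536)])], .leaf 0 [(0,[(13,84992)])], .leaf 0 [(254,[(30,2793472),(34,253952),(43,2916352),(13,5074080),(6,253952),(4,1081344),(3,122880)])], .leaf 1 [(0,[(13,5792)])]]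
noncomputable def a39 : TT := .leaf ⟨true,0,8,1,9,2,2047,[[],[0,0,0,0,2048,0,0,0,-920],[0,0,0,0,0,0,0,0,104],[0,0,0,0,0,0,0,0,216],[0,0,0,0,0,0,0,0,104],[],[],[],[0,0,0,0,256,0,0,0,-115],[0,0,0,0,0,0,0,0,104],[0,0,0,0,256]]⟩ [.leaf 0 [(0,[])], .leaf 0 [(0,[(13,115)])], .leaf 0 [(0,[])], .leaf 0 [(0,[])], .leaf 0 [(0,[])], .leaf 0 [(0,[])], .leaf 0 [(0,[(2,256)])], .leaf 0 [(0,[]),(0,[]),(0,[]),(0,[]),(0,[]),(0,[])], .leaf 0 [(0,[])], .leaf 0 [(0,[])], .leaf 0 [(0,[(13,837632)])], .leaf 0 [(0,[])], .leaf 0 [(0,[])], .leaf 0 [(0,[])], .leaf 0 [(0,[])], .leaf 0 [(0,[])], .leaf 0 [(0,[])], .leaf 0 [(0,[(13,824320)])], .leaf 0 [(0,[(14,262144)])], .leaf 0 [(0,[])], .leaf 0 [(0,[(23,182784),(32,182784),(43,79360),(14,79360)])], .leaf 0 [(6,[(30,79360),(43,83200),(13,640768),(6,7936),(4,25856),(3,3840)])], .leaf 0 [(0,[])], .leaf 0 [(16,[(34,131072),(13,1889280),(11,393216),(3,8192)])], .leaf 0 [(6,[(30,79360),(43,83200),(13,5758720),(11,2025216),(6,7936),(4,25856),(3,3840),(45,1835008)])],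 .leaf 0 [(15630,[(23,1126039552),(28,50331648),(29,183042048),(35,293601280),(43,587202560),(1,458752),(44,201326592)]),(15630,[(23,1126039552),(28,50331648),(29,183042048),(35,293601280),(43,587202560),(1,458752),(44,201326592)]),(0,[(33,57344),(13,28928)]),(24,[(35,65536),(41,1302528),(43,925696),(13,18663680),(11,6627328),(6,65536),(45,6553600)]),(0,[(23,106880),(32,41344),(43,24192),(14,24192)])], .leaf 1 [(0,[(13,111616)])], .leaf 0 [(0,[(13,4960)])], .leaf 0 [(16,[(32,8192),(13,1850720),(11,393216),(3,8192)])], .leaf 0 [(0,[])], .leaf 4 [(2928,[(28,89456640),(29,176160768),(43,171442176),(14,87556096),(1,65536),(44,357826560)]),(2,[(24,147200),(28,49408),(29,49408),(32,49408),(41,147200),(42,96768),(44,197632)]),(10314,[(28,185532416),(32,362807296),(14,628621312),(1,196608),(44,742129664)]),(0,[(28,65536),(29,65536),(32,65536)]),(10,[(28,219648),(29,439296),(43,976896),(14,1002496),(13,8414976),(11,3150336),(6,25600),(44,878592)])],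 .leaf 0 [(16,[(30,131072),(43,8192),(13,1889280),(11,540672),(3,8192)])], .leaf 0 [(16,[(34,131072),(13,90272),(3,8192),(2,450880)])], .leaf 0 [(14,[(30,250880),(43,259584),(13,1429664),(6,25088),(4,259584),(0,8704)])], .leaf 2 [(0,[(13,909312)])], .leaf 4 [(0,[(22,65536),(14,65536)]),(0,[(22,65536),(14,65536)]),(0,[(31,57344),(13,44800)]),(230,[(28,2162688),(41,65536),(42,6646528),(14,8492288),(13,198808832),(10,2703360),(9,573440),(0,65536),(44,8650752)]),(0,[(22,65536),(14,65536)])], .leaf 0 [(0,[(13,84992)])], .leaf 0 [(6,[(30,79360),(43,83200),(13,137888),(6,7936),(4,25856),(3,3840)])], .leaf 1 [(0,[(13,5792)])]]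
noncomputable def a40 : TT := .leaf ⟨true,0,8,1,9,2,2047,[[],[0,0,0,0,2048,0,0,0,-920],[0,0,0,0,0,0,0,0,104],[0,0,0,0,0,0,0,0,216],[0,0,0,0,0,0,0,0,104],[],[],[],[0,0,0,0,256,0,0,0,-115],[0,0,0,0,0,0,0,0,104],[0,0,0,0,256]]⟩ [.leaf 0 [(0,[])], .leaf 0 [(0,[(12,115)])], .leaf 0 [(0,[])], .leaf 0 [(0,[])], .leaf 0 [(0,[])], .leaf 0 [(0,[])], .leaf 0 [(0,[(1,256)])], .leaf 0 [(0,[]),(0,[]),(0,[]),(0,[]),(0,[]),(0,[])], .leaf 0 [(0,[])], .leaf 0 [(0,[])], .leaf 0 [(0,[(12,837632)])], .leaf 0 [(0,[])], .leaf 0 [(0,[])], .leaf 0 [(0,[])], .leaf 0 [(0,[])], .leaf 0 [(0,[])], .leaf 0 [(0,[])], .leaf 0 [(0,[(12,824320)])], .leaf 0 [(0,[(13,262144)])], .leaf 0 [(0,[])], .leaf 0 [(0,[(22,182784),(31,182784),(42,79360),(13,79360)])], .leaf 0 [(197992,[(42,1424228352),(12,14575143936),(5,52166656),(4,24453120),(0,2883584)])], .leaf 0 [(0,[])], .leaf 0 [(4,[(12,500056),(10,23624),(5,1592),(3,3360),(0,80)])], .leaf 0 [(240,[(23,1110016),(31,294912),(42,987136),(12,193889280),(10,65150976),(0,4096),(44,63176704)])],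 .leaf 0 [(0,[(22,120704),(31,55168),(42,10368),(13,10368)]),(0,[(22,65536),(42,65536),(13,65536)]),(0,[(32,57344),(12,28928)]),(0,[(22,8192),(27,28672),(28,57344),(42,65536),(12,848128),(10,126976),(44,147456)]),(0,[(22,65536),(42,65536),(13,65536)])], .leaf 1 [(0,[(12,111616)])], .leaf 0 [(0,[(12,4960)])], .leaf 0 [(16,[(31,8192),(12,1850720),(10,393216),(2,8192)])], .leaf 0 [(0,[])], .leaf 4 [(0,[(27,32768),(28,65536),(42,65536),(13,65536),(43,131072)]),(2,[(23,147200),(27,49408),(28,49408),(31,49408),(40,147200),(13,96768),(43,197632)]),(6,[(27,131072),(31,262144),(42,196608),(13,655360),(43,524288)]),(0,[(27,65536),(28,65536),(31,65536)]),(0,[(23,45568),(27,19968),(28,19968),(31,19968),(40,45568),(13,45568),(12,758016),(10,227840),(43,79872)])], .leaf 0 [(0,[(31,672),(36,4336),(12,99728),(10,16384),(8,480),(0,16)])], .leaf 0 [(436,[(33,1843776),(35,701792),(2,122880),(1,10764288),(0,2912)])], .leaf 0 [(9410,[(42,153067520),(12,663127584),(9,20742144),(5,8896512),(3,113459200),(0,204800)])],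 .leaf 1 [(240,[(23,1110016),(31,294912),(42,987136),(12,216346624),(10,65150976),(0,4096),(44,63176704)])], .leaf 4 [(0,[(21,65536),(13,65536)]),(0,[(21,65536),(13,65536)]),(0,[(30,57344),(41,8192),(12,36608)]),(8,[(27,17920),(13,589824),(12,7748352),(10,464384),(9,35840),(43,71680)]),(0,[(21,65536),(13,65536)])], .leaf 0 [(0,[(12,84992)])], .leaf 0 [(197992,[(42,1424228352),(12,351326816),(5,52166656),(4,24453120),(0,2883584)])], .leaf 1 [(0,[(12,5792)])]]
noncomputable def a41 : TT := .leaf ⟨false,0,1,0,1,1,15,[[],[-5,-6,-1,0,16,0,0,5,-10,1],[],[-1,-2,-1,0,0,0,0,1,2,1],[],[],[],[],[],[],[]]⟩ [.leaf 0 [(0,[])], .leaf 0 [(255,[(22,256),(26,3008),(41,664),(12,2008),(11,552),(3,64),(1,408),(0,1837),(42,12032)])], .leaf 0 [(0,[])], .leaf 0 [(0,[])], .leaf 0 [(0,[(28,5),(32,1)])], .leaf 0 [(0,[])], .leaf 0 [(0,[(27,128),(30,128)])], .leaf 0 [(0,[])], .leaf 0 [(1,[(22,1792),(26,21056),(41,4648),(12,14056),(11,3864),(3,448),(1,2856),(0,12859),(42,84224)])],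 .leaf 0 [(0,[])], .leaf 0 [(0,[])], .leaf 0 [(0,[])], .leaf 0 [(0,[])], .leaf 0 [(0,[])], .leaf 0 [(0,[])], .leaf 0 [(1,[(22,1792),(26,21056),(41,4648),(12,14056),(11,3864),(3,448),(1,2856),(0,12859),(42,84224)])], .leaf 0 [(0,[(20,768),(32,256),(12,1280)])], .leaf 0 [(0,[(27,512)])], .leaf 0 [(0,[(20,768),(21,1280),(30,1024),(41,768)])], .leaf 0 [(0,[(22,256),(41,256),(12,480),(11,544),(3,32),(2,512),(0,128)])], .leaf 0 [(0,[(28,512)])], .leaf 0 [(0,[(22,256),(41,224),(12,1024),(9,2016),(3,32),(1,32),(0,4)])], .leaf 0 [(0,[(22,1152),(26,14656),(41,3128),(12,8568),(11,1416),(3,256),(1,1976),(0,8681),(42,56576)])], .leaf 0 [(0,[(20,96),(21,928),(30,320),(41,96)]),(0,[(20,288),(21,736),(28,448),(41,288)]),(66,[(21,14144),(33,18016),(41,15296),(12,33728),(11,30592),(9,36864),(1,1152)]),(18,[(22,7904),(26,80160),(41,38368),(12,138080),(11,50400),(9,161216),(3,5472),(1,11008),(0,64544),(42,281728)]),(0,[(20,224),(21,800),(30,64),(41,224)])],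 .leaf 1 [(120,[(22,29184),(30,1792),(41,32832),(12,129744),(11,3696),(9,240240),(3,3984),(1,3648),(0,64)])], .leaf 0 [(0,[(28,24),(32,8),(11,64)])], .leaf 0 [(1638,[(22,481136),(26,230032),(30,43344),(41,465136),(12,1800352),(9,3251952),(3,50240),(1,88896),(0,138960),(42,920128)])], .leaf 2 [(148,[(22,11008),(26,447744),(30,27136),(41,68352),(12,179712),(9,111360),(3,6464),(1,57344),(0,248064),(42,1485824)])], .leaf 4 [(0,[(26,320),(27,128),(41,384),(12,384),(42,1280)]),(24,[(22,2432),(30,12800),(39,10880),(40,512),(12,12608),(11,3904),(9,12864),(4,768)]),(0,[(26,256),(41,384),(12,512),(42,1024)]),(0,[(26,512),(27,128),(30,384)]),(3,[(22,5120),(26,48320),(41,11544),(12,30808),(11,2984),(3,832),(1,6424),(0,28221),(42,193280)])], .leaf 0 [(1638,[(22,406784),(26,211200),(30,12800),(41,484032),(12,1691136),(9,3276416),(3,53248),(1,77248),(0,105856),(42,844800)])], .leaf 1 [(32,[(22,5080),(30,992),(41,8091),(12,33728),(9,66627),(3,1085),(1,899)])],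 .leaf 0 [(0,[(22,184),(41,248),(12,527),(11,465),(3,31),(2,496),(0,140)])], .leaf 1 [(0,[(22,1152),(26,14656),(41,3128),(12,8568),(11,1416),(3,256),(1,1976),(0,8681),(42,56576)])], .leaf 4 [(0,[(20,416),(32,32),(12,608)]),(0,[(20,288),(30,96),(12,736)]),(12,[(39,2688),(40,3376),(12,6416),(11,3760),(4,144),(2,4992)]),(7,[(22,7936),(26,89280),(41,20088),(12,67768),(11,13640),(3,1856),(1,12152),(0,54513),(42,357120)]),(2,[(26,352),(30,288),(40,432),(12,1744),(11,1760),(2,1568),(42,1408)])], .leaf 0 [(48,[(39,12544),(12,18464),(11,22304),(3,1824),(2,20992),(0,8352)])], .leaf 0 [(16,[(28,752),(11,1568),(3,64),(0,256)])], .leaf 1 [(0,[(28,24),(32,8),(11,64)])]]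
noncomputable def a42 : TT := .leaf ⟨false,0,1,0,1,1,31,[[],[0,0,0,0,32,0,0,0,-4],[],[0,0,0,0,0,0,0,0,5],[],[],[],[],[],[],[]]⟩ [.leaf 0 [(0,[])], .leaf 0 [(0,[(10,4)])], .leaf 0 [(0,[])], .leaf 0 [(0,[])], .leaf 0 [(0,[])], .leaf 0 [(0,[])], .leaf 0 [(0,[])], .leaf 0 [(0,[])], .leaf 0 [(0,[(10,3584)])], .leaf 0 [(0,[])], .leaf 0 [(0,[])], .leaf 0 [(0,[])], .leaf 0 [(0,[])], .leaf 0 [(0,[])], .leaf 0 [(0,[])], .leaf 0 [(0,[(10,3584)])], .leaf 0 [(0,[(11,4096)])], .leaf 0 [(0,[])], .leaf 0 [(0,[(20,1984),(29,1984),(40,2112),(11,2112)])], .leaf 0 [(0,[(22,128),(27,128),(42,4096)])], .leaf 0 [(0,[])], .leaf 0 [(84,[(31,10240),(8,29888),(6,10944),(3,64),(2,640)])], .leaf 0 [(0,[(22,128),(27,128),(10,3584),(8,8192),(42,8192)])], .leaf 0 [(0,[(20,1024),(40,1024),(11,1024)]),(0,[(20,2000),(29,976),(40,48),(11,48)]),(0,[]),(0,[(20,1024),(38,896),(40,128),(10,2656),(8,4224),(42,4096)]),(0,[(20,1024),(40,1024),(11,1024)])], .leaf 1 [(0,[])],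 .leaf 0 [(0,[(10,132)])], .leaf 0 [(0,[(8,384),(6,128),(2,8)])], .leaf 0 [(0,[])], .leaf 4 [(6,[(20,928),(21,224),(25,3008),(26,6944),(40,7168),(11,7392),(41,12032)]),(50,[(21,26656),(25,11904),(38,25824),(3,1760),(0,744),(41,47616)]),(388,[(25,33792),(11,567296),(1,161792),(0,7168),(41,135168)]),(0,[(26,1024),(11,2080),(10,32),(8,2016),(1,2048),(0,32),(42,4096)]),(12,[(38,18432),(11,8192),(10,22336),(8,78336),(3,512)])], .leaf 0 [(16,[(27,2048),(8,8320),(2,128)])], .leaf 0 [(16,[(31,2176),(11,4352),(6,6144),(2,384),(1,3968)])], .leaf 1 [(16,[(11,2176),(6,4096),(2,256),(1,4096)])], .leaf 1 [(0,[(22,128),(27,128),(10,3584),(8,8192),(42,8192)])], .leaf 4 [(0,[(19,1024),(11,1024)]),(0,[(19,1024),(11,1024)]),(0,[]),(0,[(39,1024),(10,2496),(8,1024)]),(6,[(25,2048),(7,544),(6,4448),(41,8192)])], .leaf 0 [(0,[])], .leaf 1 [(0,[(22,128),(42,4096)])], .leaf 1 [(0,[(10,132)])]]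
noncomputable def a43 : TT := .leaf ⟨false,0,1,0,1,1,31,[[],[0,0,0,0,32,0,0,0,-4],[],[0,0,0,0,0,0,0,0,5],[],[],[],[],[],[],[]]⟩ [.leaf 0 [(0,[])], .leaf 0 [(0,[(14,4)])], .leaf 0 [(0,[])], .leaf 0 [(0,[])], .leaf 0 [(0,[])], .leaf 0 [(0,[])], .leaf 0 [(0,[])], .leaf 0 [(0,[])], .leaf 0 [(0,[(14,3584)])], .leaf 0 [(0,[])], .leaf 0 [(0,[])], .leaf 0 [(0,[])], .leaf 0 [(0,[])], .leaf 0 [(0,[])], .leaf 0 [(0,[])], .leaf 0 [(0,[(14,3584)])], .leaf 0 [(0,[(15,4096)])], .leaf 0 [(0,[])], .leaf 0 [(0,[(44,4096),(15,4096)])], .leaf 0 [(0,[(31,256),(2,128)])], .leaf 0 [(0,[])], .leaf 0 [(68,[(30,512),(35,8576),(12,25216),(10,8832),(6,520),(4,8)])], .leaf 0 [(0,[(31,256),(14,3584),(12,8192),(2,128),(46,4096)])], .leaf 0 [(64,[(24,63488),(30,1664),(36,14848),(44,33664),(7,768),(1,4736)]),(0,[(24,2000),(33,976),(44,48),(15,48)]),(0,[]),(62,[(29,30208),(30,60416),(44,68608),(14,280096),(12,119296),(4,128),(46,137216)]),(34,[(24,35840),(30,7424),(36,8352),(44,25632),(15,14496),(5,6496),(1,928)])],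 .leaf 1 [(0,[])], .leaf 0 [(0,[(14,132)])], .leaf 0 [(2,[(30,256),(33,128),(14,108),(10,512),(3,128)])], .leaf 0 [(0,[])], .leaf 4 [(2,[(25,1024),(29,1024),(30,2048),(44,3072),(15,4096),(45,4096)]),(4,[(25,768),(29,1152),(33,2304),(42,1024),(43,2432),(8,256),(45,4608)]),(22,[(29,6400),(33,13568),(15,22016),(1,768),(45,25600)]),(124,[(25,26400),(29,64640),(30,54080),(33,75200),(44,66528),(15,143616),(7,2112),(3,12144),(0,19536),(46,253440)]),(0,[(29,1024),(30,1024),(33,1024),(14,5696),(45,4096)])], .leaf 0 [(16,[(35,2048),(44,2048),(12,10368),(10,2048),(6,128)])], .leaf 0 [(46,[(30,8192),(44,6272),(15,6016),(10,16384),(4,256),(3,4096)])], .leaf 1 [(46,[(30,8192),(44,12288),(15,6016),(10,16384),(4,256),(3,4096)])], .leaf 1 [(0,[(31,256),(14,3584),(12,8192),(2,128),(46,4096)])], .leaf 4 [(0,[(23,1024),(15,1024)]),(0,[(23,1024),(15,1024)]),(0,[]),(1100,[(29,137216),(43,1117184),(14,2761408),(11,212992),(10,72704),(7,1024),(0,10240),(45,548864)]),(6,[(29,2048),(11,544),(10,4448),(45,8192)])],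 .leaf 0 [(0,[])], .leaf 1 [(0,[(26,128),(46,4096)])], .leaf 1 [(0,[(14,132)])]]
noncomputable def a44 : TT := .leaf ⟨true,0,8,1,9,3,2047,[[],[-64,-64,0,0,2048,0,0,64,-944],[8,16,8,0,0,0,0,-8,107,-8],[0,0,0,0,0,0,0,0,849],[0,0,0,0,0,0,0,0,64],[],[],[],[-8,-8,0,0,256,0,0,8,-118],[8,16,8,0,0,0,0,-8,107,-8],[0,0,0,0,256]]⟩ [.leaf 0 [(0,[])], .leaf 0 [(0,[(30,8),(14,126)])], .leaf 0 [(0,[(31,8),(35,8)])], .leaf 0 [(0,[(33,8)])], .leaf 0 [(0,[])], .leaf 0 [(0,[])], .leaf 0 [(16,[(30,2176),(15,2176),(10,4224),(6,128),(5,4224)])], .leaf 0 [(0,[]),(0,[]),(0,[]),(0,[]),(0,[]),(0,[])], .leaf 0 [(0,[])], .leaf 0 [(0,[])], .leaf 0 [(0,[(30,57344),(14,911360)])], .leaf 0 [(0,[(31,7168),(35,7168)])], .leaf 0 [(0,[])], .leaf 0 [(0,[])], .leaf 0 [(0,[(31,7168),(35,7168)])], .leaf 0 [(0,[])], .leaf 0 [(0,[])], .leaf 0 [(0,[(30,57344),(14,903168)])], .leaf 0 [(0,[(23,7168),(33,1024),(15,254976)])], .leaf 0 [(0,[(30,9216),(33,1024)])], .leaf 0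 [(6,[(29,208768),(30,203904),(33,201600),(36,328064),(44,1178880),(15,463104),(1,59648),(45,835072)])], .leaf 0 [(48,[(30,219648),(44,263168),(14,94208),(6,8224),(4,1568),(0,263168)])], .leaf 0 [(0,[(31,9216),(35,1024)])], .leaf 0 [(16,[(30,161280),(14,478976),(12,525824),(10,139264),(6,8416),(4,3808)])], .leaf 0 [(48,[(30,2674688),(44,270336),(14,38945664),(12,18247680),(6,8448),(4,12544),(0,270336),(46,12845056)])], .leaf 0 [(188,[(24,12832416),(29,297408),(30,1387904),(36,1734880),(44,9610496),(15,5793760),(1,346976),(45,1189632)]),(0,[(24,121856),(33,64512),(5,9216)]),(12,[(34,511488),(36,119808),(44,334848),(15,328368),(14,909232),(12,213840),(4,6480)]),(0,[(30,57344),(42,120576),(44,10496),(14,736096),(12,346368),(4,2304),(46,262144)]),(20,[(24,696320),(30,150528),(42,1862240),(44,193952),(4,21920)])], .leaf 1 [(0,[(30,9216),(33,1024),(14,44288)])], .leaf 0 [(0,[(14,7384),(10,256),(5,224),(3,32)])], .leaf 0 [(2,[(30,44896),(33,11360),(14,156624),(10,32768),(3,8192)])],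 .leaf 0 [(0,[(35,8192)])], .leaf 4 [(0,[(25,21248),(29,22016),(30,40448),(44,65792),(15,87040),(45,88064)]),(2,[(25,135776),(29,60832),(30,73888),(33,61600),(42,135776),(15,28224),(45,243328)]),(4,[(29,65536),(33,228736),(15,418944),(5,105344),(45,262144)]),(0,[(29,65536),(30,53504),(33,57600)]),(92,[(30,1646400),(33,3543744),(44,7054336),(15,15713472),(14,70889760),(12,29832320),(7,320960),(3,1174592)])], .leaf 0 [(16,[(30,25600),(33,17408),(14,482560),(12,532480),(6,8192)])], .leaf 0 [(1746,[(35,4131376),(10,24278992),(6,1134864),(4,385392),(3,1850256),(1,2029328)])], .leaf 0 [(0,[(30,7936),(36,7136),(44,8192),(14,5592),(12,8192),(0,16384)])], .leaf 2 [(48,[(30,3160576),(44,1024),(14,44881920),(12,69120),(6,32),(4,1568),(0,1024)])], .leaf 4 [(0,[(23,62976),(33,512),(15,68096)]),(0,[(23,64000),(35,512),(15,67072)]),(0,[(42,512),(43,33536),(15,42752),(14,69888),(11,512)]),(0,[(30,2560),(33,512),(15,131072),(14,864512)]),(0,[(23,61952),(35,6656),(15,69120)])],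 .leaf 0 [(48,[(30,350720),(44,1024),(14,626688),(6,32),(4,1568),(0,1024)])], .leaf 0 [(48,[(31,116960),(33,1568),(44,262144),(14,490928),(6,8192),(0,262144)])], .leaf 1 [(0,[(31,224),(33,32),(14,8496)])]]
noncomputable def a45 : TT := .leaf ⟨true,0,8,1,9,3,2047,[[],[-64,-64,0,0,2048,0,0,64,-944],[8,16,8,0,0,0,0,-8,107,-8],[0,0,0,0,0,0,0,0,849],[0,0,0,0,0,0,0,0,64],[],[],[],[-8,-8,0,0,256,0,0,8,-118],[8,16,8,0,0,0,0,-8,107,-8],[0,0,0,0,256]]⟩ [.leaf 0 [(0,[])], .leaf 0 [(0,[(29,8),(13,126)])], .leaf 0 [(0,[(30,8),(34,8)])], .leaf 0 [(0,[(32,8)])], .leaf 0 [(0,[])], .leaf 0 [(0,[])], .leaf 0 [(46,[(29,10112),(43,6144),(14,6016),(9,14208),(4,6016),(3,128),(2,2048)])], .leaf 0 [(0,[]),(0,[]),(0,[]),(0,[]),(0,[]),(0,[])], .leaf 0 [(0,[])], .leaf 0 [(0,[])], .leaf 0 [(0,[(29,57344),(13,911360)])], .leaf 0 [(0,[(30,7168),(34,7168)])], .leaf 0 [(0,[])], .leaf 0 [(0,[])], .leaf 0 [(0,[(30,7168),(34,7168)])], .leaf 0 [(0,[])], .leaf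 0 [(0,[])], .leaf 0 [(0,[(29,57344),(13,903168)])], .leaf 0 [(0,[(22,7168),(32,1024),(14,254976)])], .leaf 0 [(0,[(29,9216),(32,1024)])], .leaf 0 [(0,[(32,8192),(43,252928),(14,252928),(4,9216)])], .leaf 0 [(68,[(29,463360),(43,308736),(6,11264),(2,71168),(0,97792)])], .leaf 0 [(0,[(30,9216),(34,1024)])], .leaf 0 [(2,[(29,24064),(42,33280),(13,41728),(9,6144),(2,8192),(0,6656)])], .leaf 0 [(2608,[(29,129064960),(41,14868480),(13,2033546112),(11,710983680),(6,1351680),(3,253952),(0,7299072),(45,683933696)])], .leaf 0 [(0,[(23,90320),(32,24784),(43,40752),(14,40752)]),(0,[(22,9216),(23,66560),(43,64512),(14,55296)]),(0,[(28,2208),(33,55424),(43,12032),(14,30336),(13,46560),(0,4544),(44,8832)]),(0,[(29,57344),(41,120576),(43,10496),(13,736096),(11,346368),(3,2304),(45,262144)]),(20,[(23,696320),(29,150528),(41,1862240),(43,193952),(3,21920)])], .leaf 1 [(0,[(29,9216),(32,1024),(13,44288)])], .leaf 0 [(0,[(13,7384),(9,256),(4,224),(2,32)])],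 .leaf 0 [(2,[(29,44896),(32,11360),(13,156624),(9,32768),(2,8192)])], .leaf 0 [(0,[(34,8192)])], .leaf 4 [(4,[(28,131328),(29,308480),(43,328960),(14,328960),(4,63744),(44,525312)]),(2,[(24,47360),(28,74240),(29,162304),(41,197376),(42,22784),(44,296960)]),(4,[(28,65536),(32,228736),(14,418944),(4,105344),(44,262144)]),(0,[(28,65536),(29,53504),(32,57600)]),(92,[(29,1646400),(32,3543744),(43,7054336),(14,15713472),(13,70889760),(11,29832320),(6,320960),(2,1174592)])], .leaf 0 [(0,[(29,8192),(32,1024),(43,3072),(13,30976),(11,16384),(2,1024),(0,1024)])], .leaf 0 [(46,[(23,195896),(29,509560),(43,199212),(14,189128),(9,1040176),(3,10084),(2,260044)])], .leaf 0 [(82,[(32,83584),(35,999520),(43,801984),(6,117312),(0,399808)])], .leaf 1 [(150,[(29,9499136),(43,564736),(13,136324096),(11,40777728),(6,21504),(2,140800),(0,181760),(45,39583744)])], .leaf 4 [(0,[(22,62976),(32,512),(14,68096)]),(0,[(22,64000),(34,512),(14,67072)]),(0,[(41,512),(14,76288),(13,69888),(10,512)]),(0,[(29,2560),(32,512),(42,52992),(14,78080),(13,864512)]),(0,[(22,61952),(34,6656),(14,69120)])],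 .leaf 0 [(2020,[(29,14472192),(43,29696),(13,25825792),(6,1024),(3,64512),(2,6144),(0,9216)])], .leaf 0 [(130,[(30,126736),(43,581648),(13,496768),(6,16352),(2,76624),(0,168656)])], .leaf 1 [(4,[(30,768),(43,256),(13,41776),(10,60),(9,4),(0,48)])]]
noncomputable def a46 : TT := .leaf ⟨false,0,1,0,1,1,31,[[],[0,0,0,0,32,0,0,0,-4],[],[0,0,0,0,0,0,0,0,5],[],[],[],[],[],[],[]]⟩ [.leaf 0 [(0,[])], .leaf 0 [(0,[(12,4)])], .leaf 0 [(0,[])], .leaf 0 [(0,[])], .leaf 0 [(0,[])], .leaf 0 [(0,[])], .leaf 0 [(0,[])], .leaf 0 [(0,[])], .leaf 0 [(0,[(12,3584)])], .leaf 0 [(0,[])], .leaf 0 [(0,[])], .leaf 0 [(0,[])], .leaf 0 [(0,[])], .leaf 0 [(0,[])], .leaf 0 [(0,[])], .leaf 0 [(0,[(12,3584)])], .leaf 0 [(0,[(13,4096)])], .leaf 0 [(0,[])], .leaf 0 [(0,[(22,1984),(31,1984),(42,2112),(13,2112)])], .leaf 0 [(0,[(24,128),(29,128),(44,4096)])], .leaf 0 [(0,[])], .leaf 0 [(68,[(28,512),(33,8576),(10,25216),(8,8832),(4,520),(2,8)])], .leaf 0 [(0,[(24,128),(29,128),(12,3584),(10,8192),(44,8192)])],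 .leaf 0 [(0,[(22,1024),(42,1024),(13,1024)]),(0,[(22,1024),(28,64),(42,1024),(0,32)]),(0,[]),(0,[(22,128),(27,448),(28,896),(42,1024),(12,4448),(10,1984),(44,2304)]),(0,[(22,1488),(31,464),(42,560),(13,560)])], .leaf 1 [(0,[])], .leaf 0 [(0,[(12,132)])], .leaf 0 [(2,[(28,256),(31,128),(12,108),(8,512),(1,128)])], .leaf 0 [(0,[])], .leaf 4 [(4,[(22,2912),(23,4096),(27,1024),(28,1024),(31,3936),(42,1184),(13,5280),(43,4096)]),(42,[(23,24064),(27,9600),(31,19200),(40,32512),(41,30848),(5,768),(43,38400)]),(154,[(27,31744),(28,73728),(13,90112),(0,5120),(43,126976)]),(4,[(23,2976),(27,2144),(28,2816),(31,2144),(40,2976),(13,2640),(10,4464),(0,336),(44,11904)]),(0,[(27,1024),(28,1024),(31,1024),(12,5696),(43,4096)])], .leaf 0 [(16,[(33,2048),(42,2048),(10,10368),(8,2048),(4,128)])], .leaf 0 [(746,[(13,69120),(8,127488),(4,4360),(2,1992),(1,31872),(0,3008)])], .leaf 1 [(126,[(42,4736),(8,4736),(4,7440),(2,148),(0,4228)])], .leaf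 1 [(0,[(24,128),(29,128),(12,3584),(10,8192),(44,8192)])], .leaf 3 [(32,[(13,35840),(0,2048)]),(14,[(21,11264),(0,1088)]),(14,[(21,13312),(0,1024)]),(0,[(13,1024),(12,2240),(10,6144),(44,4096)]),(0,[(0,224)])], .leaf 0 [(0,[])], .leaf 1 [(0,[(24,128),(44,4096)])], .leaf 1 [(0,[(12,132)])]]
noncomputable def a47 : TT := .leaf ⟨true,0,8,1,9,3,1023,[[],[-16,-16,0,0,1024,0,0,16,-472],[0,0,0,0,0,0,0,0,56],[-16,-24,-8,0,0,0,0,16,440,8],[-40,-64,-24,0,0,0,0,40,72,24],[],[],[],[-2,-2,0,0,128,0,0,2,-59],[0,0,0,0,0,0,0,0,56],[0,0,0,0,128]]⟩ [.leaf 0 [(0,[])], .leaf 0 [(0,[(28,2),(12,61)])], .leaf 0 [(0,[])], .leaf 0 [(0,[(29,2)])], .leaf 0 [(0,[])], .leaf 0 [(0,[])], .leaf 0 [(16,[(28,1088),(13,1088),(8,2112),(4,64),(3,2112)])], .leaf 0 [(0,[]),(0,[]),(0,[]),(0,[]),(0,[]),(0,[])], .leaf 0 [(0,[(28,2048),(31,1024)])], .leaf 0 [(0,[(28,5120),(31,3072)])], .leaf 0 [(28,[(28,258816),(42,1536),(12,12709888),(10,92928),(5,768),(4,288),(2,2592),(0,2304)])],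 .leaf 0 [(0,[(29,5120),(33,3072)])], .leaf 0 [(0,[])], .leaf 0 [(0,[])], .leaf 0 [(0,[])], .leaf 0 [(0,[])], .leaf 0 [(0,[])], .leaf 0 [(0,[(28,14336),(12,437248)])], .leaf 0 [(0,[(21,4096),(33,1024),(13,126976)])], .leaf 0 [(0,[(33,1024)])], .leaf 0 [(0,[(22,65536),(31,68608),(34,4096),(42,57344),(13,57344),(3,8192)])], .leaf 0 [(26,[(29,249856),(31,289792),(42,65536),(12,555008),(5,32768),(4,12288),(0,98304)])], .leaf 0 [(0,[(31,1024)])], .leaf 0 [(84,[(28,107520),(12,1143296),(10,643584),(8,374272),(5,26112),(4,20480)])], .leaf 0 [(26,[(28,137216),(31,289792),(42,65536),(12,10506240),(10,3964928),(5,32768),(4,12288),(0,98304),(44,3538944)])], .leaf 0 [(0,[(22,43264),(31,11264),(42,20736),(13,20736),(3,1536)]),(0,[(22,29952),(42,32000),(13,32000),(3,3584)]),(182,[(27,669184),(40,8358656),(12,2490368),(3,7936),(2,101632),(0,720000),(43,2676736)]),(48,[(40,2593576),(42,231640),(12,18451672),(10,7005656),(5,74240),(2,16088),(0,400896),(44,6422528)]),(62,[(22,1018112),(28,354816),(40,2824448),(42,286208),(2,28160)])],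 .leaf 1 [(0,[(28,4096),(31,1024),(12,20480)])], .leaf 0 [(16,[(29,1600),(12,64704),(8,592),(4,1),(3,592),(2,17)])], .leaf 0 [(16,[(28,73728),(31,16864),(12,347904),(10,196608),(8,69632),(4,4096)])], .leaf 0 [(0,[(28,4096),(31,1024)])], .split 4 3 (.leaf 4 [(4,[(23,105344),(24,131072),(28,32768),(29,22528),(32,135552),(43,25728),(14,156800),(44,131072)]),(8,[(24,203008),(28,91904),(29,110336),(32,96512),(41,203008),(42,38400),(44,367616)]),(4,[(28,32768),(32,107008),(14,207872),(4,54272),(44,131072)]),(0,[(0,1)]),(128,[(24,3696128),(29,67072),(43,4450816),(14,8874112),(13,48034944),(11,21763968),(6,68608),(5,24704)])]) (.leaf 3 [(14,[(29,100352),(32,123392),(43,688128),(14,983040),(6,32768),(4,262144)]),(40,[(23,1051264),(32,1767552),(43,552320),(14,1617280),(6,100352),(4,821248),(2,6144)]),(12,[(28,140096),(32,313472),(41,424320),(6,35840),(44,560384)]),(2118,[(29,87109632),(32,504957952),(14,304578560),(11,144146432),(6,30081024),(4,501350400),(2,3129344),(1,107167744),(0,4307),(45,564527104)]),(4796,[(32,412087296),(43,258097152),(14,330016768),(13,1959590912),(11,218836992),(6,46712832),(4,366198784),(2,85248000),(0,4141),(45,542769152)])]),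 .leaf 0 [(16,[(28,4096),(31,17408),(12,212992),(10,266240),(4,4096)])], .leaf 0 [(16,[(28,68000),(35,70176),(13,69632),(8,267264),(4,12352),(3,197632)])], .leaf 0 [(2,[(29,45952),(31,62368),(42,7168),(12,118016),(5,6656),(4,1536),(0,26112)])], .leaf 1 [(26,[(28,137216),(31,289792),(42,65536),(12,11860992),(10,3964928),(5,32768),(4,12288),(0,98304),(44,3538944)])], .leaf 4 [(0,[(21,33280),(33,512),(13,32256)]),(0,[(21,31232),(31,512),(13,34304)]),(0,[(13,34288),(12,39696),(2,16)]),(8,[(27,13376),(13,437616),(12,4034448),(10,63184),(9,26752),(2,144),(43,53504)]),(0,[(21,31232),(33,512),(13,34304)])], .leaf 0 [(0,[(28,4096),(31,1024),(12,6144)])], .leaf 0 [(26,[(29,360448),(31,261280),(42,65536),(12,824576),(5,32768),(4,12288),(0,98304)])], .leaf 1 [(28,[(29,3800),(42,16),(12,124528),(5,8),(4,3),(2,27),(0,24)])]]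
noncomputable def a48 : TT := .leaf ⟨true,0,8,1,9,3,1023,[[],[-16,-16,0,0,1024,0,0,16,-472],[0,0,0,0,0,0,0,0,56],[-16,-24,-8,0,0,0,0,16,440,8],[-40,-64,-24,0,0,0,0,40,72,24],[],[],[],[-2,-2,0,0,128,0,0,2,-59],[0,0,0,0,0,0,0,0,56],[0,0,0,0,128]]⟩ [.leaf 0 [(0,[])], .leaf 0 [(0,[(30,2),(14,61)])], .leaf 0 [(0,[])], .leaf 0 [(0,[(31,2)])], .leaf 0 [(0,[])], .leaf 0 [(0,[])], .leaf 0 [(16,[(30,1088),(15,1088),(10,2112),(6,64),(5,2112)])], .leaf 0 [(0,[]),(0,[]),(0,[]),(0,[]),(0,[]),(0,[])], .leaf 0 [(0,[(30,2048),(33,1024)])], .leaf 0 [(0,[(30,5120),(33,3072)])], .leaf 0 [(22,[(30,168960),(44,6144),(14,10061824),(12,104448),(7,3072),(6,1728),(4,1728),(3,9216)])], .leaf 0 [(0,[(31,5120),(35,3072)])], .leaf 0 [(0,[])], .leaf 0 [(0,[])], .leaf 0 [(0,[])], .leaf 0 [(0,[])], .leaf 0 [(0,[])], .leaf 0 [(0,[(30,14336),(14,437248)])], .leaf 0 [(0,[(23,4096),(35,1024),(15,126976)])], .leaf 0 [(0,[(35,1024)])], .leaf 0 [(0,[(24,67584),(33,70656),(44,59392),(15,59392),(5,4096)])],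 .leaf 0 [(0,[(26,4096),(33,1024),(46,131072)])], .leaf 0 [(0,[(33,1024)])], .leaf 0 [(84,[(30,107520),(14,1143296),(12,643584),(10,374272),(7,26112),(6,20480)])], .leaf 1 [(0,[(30,18432),(33,1024),(14,393216)])], .leaf 0 [(0,[(24,43264),(33,11264),(44,20736),(15,20736),(5,1536)]),(0,[(24,29952),(44,32000),(15,32000),(5,3584)]),(30,[(44,902144),(15,900736),(14,1442944),(12,46464),(4,1408),(3,7936)]),(8,[(24,71680),(29,120320),(30,353280),(44,277504),(14,4272384),(12,614912),(3,10496),(46,698368)]),(16,[(42,504320),(44,519680),(7,5632),(4,13192),(3,50688)])], .leaf 1 [(0,[(30,4096),(33,1024),(14,20480)])], .leaf 0 [(28,[(44,96),(14,107552),(10,3776),(5,3648),(4,32),(2,32)])], .leaf 0 [(16,[(30,73728),(33,16864),(14,347904),(12,196608),(10,69632),(6,4096)])], .leaf 0 [(0,[(30,4096),(33,1024)])], .leaf 4 [(6,[(24,186880),(29,48128),(30,39424),(33,137984),(15,175616),(2,87808),(45,192512)]),(170,[(29,2245760),(30,4791424),(42,5382656),(15,109440),(8,44032),(2,137856),(45,8983040)]),(4,[(29,32768),(33,107008),(15,207872),(5,54272),(45,131072)]),(0,[(29,22016),(30,30720),(33,32256),(15,21504),(12,32256),(5,21504),(1,5376),(46,43008)]),(240,[(44,9337344),(15,17005568),(14,89494272),(12,41845760),(7,230400),(5,347648),(2,1211392)])],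 .leaf 0 [(16,[(30,4096),(33,17408),(14,212992),(12,266240),(6,4096)])], .leaf 0 [(16,[(15,137088),(10,198800),(6,12289),(5,129168),(4,2193)])], .leaf 1 [(16,[(15,67456),(10,131216),(6,8065),(5,131216),(4,17)])], .leaf 2 [(0,[(30,18432),(33,1024),(14,443392)])], .leaf 4 [(0,[(23,33280),(35,512),(15,32256)]),(0,[(23,31232),(33,512),(15,34304)]),(0,[(15,34288),(14,39696),(4,16)]),(8,[(29,13376),(15,437616),(14,4034448),(12,63184),(11,26752),(4,144),(45,53504)]),(0,[(23,31232),(35,512),(15,34304)])], .leaf 0 [(0,[(30,4096),(33,1024),(14,6144)])], .leaf 1 [(0,[(33,992),(0,4096)])], .leaf 1 [(0,[(31,130),(14,4289),(4,1),(0,1)])]]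
noncomputable def a49 : TT := .leaf ⟨false,0,1,0,1,1,31,[[],[0,0,0,0,32,0,0,0,-4],[],[0,0,0,0,0,0,0,0,5],[],[],[],[],[],[],[]]⟩ [.leaf 0 [(0,[])], .leaf 0 [(0,[(14,4)])], .leaf 0 [(0,[])], .leaf 0 [(0,[])], .leaf 0 [(0,[])], .leaf 0 [(0,[])], .leaf 0 [(0,[])], .leaf 0 [(0,[])], .leaf 0 [(0,[(14,3584)])], .leaf 0 [(0,[])], .leaf 0 [(0,[])], .leaf 0 [(0,[])], .leaf 0 [(0,[])], .leaf 0 [(0,[])], .leaf 0 [(0,[])], .leaf 0 [(0,[(14,3584)])], .leaf 0 [(0,[(15,4096)])], .leaf 0 [(0,[])], .leaf 0 [(0,[(24,1984),(33,1984),(44,2112),(15,2112)])], .leaf 0 [(0,[(26,128),(31,128),(46,4096)])], .leaf 0 [(0,[])], .leaf 0 [(288,[(30,896),(35,35712),(12,102784),(10,37120),(7,128),(6,2176)])], .leaf 0 [(0,[(26,128),(31,128),(14,3584),(12,8192),(46,8192)])], .leaf 0 [(0,[(24,1024),(44,1024),(15,1024)]),(0,[(24,2000),(33,976),(44,48),(15,48)]),(0,[]),(52,[(24,40192),(42,29184),(44,44800),(14,174560),(7,2816),(3,8448),(0,7040),(46,217088)]),(0,[(24,1024),(44,1024),(15,1024)])],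 .leaf 1 [(0,[])], .leaf 0 [(0,[(14,132)])], .leaf 0 [(2,[(30,32),(10,512),(6,16),(2,128),(0,16)])], .leaf 0 [(0,[])], .leaf 4 [(1574,[(24,1020288),(29,142592),(30,429632),(36,652736),(15,572544),(2,960064),(0,42112),(45,570368)]),(14,[(25,10688),(29,5056),(30,5440),(33,5440),(42,9920),(45,20224)]),(54,[(29,11264),(33,24576),(15,57344),(0,1024),(45,45056)]),(20,[(29,10240),(30,13408),(33,4608),(42,11264),(43,9680),(12,7216),(2,5632),(0,1584),(46,45056)]),(2,[(29,512),(42,3072),(43,3072),(14,4800),(12,12800),(2,1024),(45,2048)])], .leaf 0 [(30,[(31,3184),(6,264),(0,520)])], .leaf 0 [(2140,[(30,29576),(35,109312),(10,274048),(6,17440),(4,5148),(0,17284)])], .leaf 1 [(5983,[(44,50592),(10,712016),(6,45725),(5,644560),(4,1581),(2,16864),(0,26656)])], .leaf 1 [(0,[(26,128),(31,128),(14,3584),(12,8192),(46,8192)])], .leaf 3 [(14,[(23,13312),(0,1024)]),(32,[(15,35840),(0,2048)]),(30,[(23,29440),(15,28928),(0,1152)]),(124,[(29,10752),(43,148992),(14,280000),(11,16128),(10,5376),(0,20992),(46,468992)]),(30,[(23,21504),(15,36864),(0,5120)])],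 .leaf 0 [(0,[])], .leaf 1 [(0,[(26,128),(46,4096)])], .leaf 1 [(0,[(14,132)])]]
noncomputable def a50 : TT := .leaf ⟨false,0,1,0,1,1,31,[[],[0,0,0,0,32,0,0,0,-4],[],[0,0,0,0,0,0,0,0,5],[],[],[],[],[],[],[]]⟩ [.leaf 0 [(0,[])], .leaf 0 [(0,[(14,4)])], .leaf 0 [(0,[])], .leaf 0 [(0,[])], .leaf 0 [(0,[])], .leaf 0 [(0,[])], .leaf 0 [(0,[])], .leaf 0 [(0,[])], .leaf 0 [(0,[(14,3584)])], .leaf 0 [(0,[])], .leaf 0 [(0,[])], .leaf 0 [(0,[])], .leaf 0 [(0,[])], .leaf 0 [(0,[])], .leaf 0 [(0,[])], .leaf 0 [(0,[(14,3584)])], .leaf 0 [(0,[(15,4096)])], .leaf 0 [(0,[])], .leaf 0 [(0,[(44,4096),(15,4096)])], .leaf 0 [(0,[(26,128),(31,128),(46,4096)])], .leaf 0 [(0,[])], .leaf 0 [(288,[(30,896),(35,35712),(12,102784),(10,37120),(7,128),(6,2176)])], .leaf 0 [(0,[(26,128),(31,128),(14,3584),(12,8192),(46,8192)])], .leaf 0 [(132,[(24,218624),(33,74752),(36,23040),(44,30720),(2,7680),(0,480)]),(0,[(24,2000),(33,976),(44,48),(15,48)]),(0,[]),(2,[(42,5664),(44,480),(12,15840),(4,96),(1,640),(46,12288)]),(10,[(24,11264),(42,3072),(44,4096),(3,1024),(0,128)])],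 .leaf 1 [(0,[])], .leaf 0 [(0,[(1,44)])], .leaf 0 [(16,[(30,128),(12,6144),(10,2176),(6,128)])], .leaf 0 [(0,[])], .leaf 4 [(34,[(24,4736),(29,15104),(30,34496),(44,35840),(15,36736),(2,448),(45,60416)]),(142,[(29,51008),(33,102016),(42,100736),(43,9024),(7,5632),(45,204032)]),(4,[(29,1152),(30,1024),(15,3456),(2,1280),(0,40),(45,4608)]),(36,[(29,4096),(30,4096),(33,4096),(12,168960),(0,2112),(46,135168)]),(2,[(29,3072),(30,3072),(33,3072),(1,5696),(45,12288)])], .leaf 0 [(0,[(12,3136),(10,64),(6,64),(5,64)])], .leaf 0 [(5966,[(30,835584),(10,2058720),(6,40066),(5,894560),(4,26146),(2,254592),(0,4556)])], .leaf 1 [(407,[(35,4896),(10,74352),(6,4103),(5,56944),(4,119),(0,544)])], .leaf 1 [(2,[(26,384),(31,384),(12,24576),(1,3584),(46,24576)])], .leaf 4 [(0,[(23,1024),(15,1024)]),(0,[(23,1024),(15,1024)]),(0,[]),(0,[(15,1024),(14,2496),(12,1024)]),(6,[(29,2048),(10,4992),(45,8192)])], .leaf 0 [(0,[])], .leaf 1 [(0,[(26,128),(46,4096)])],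 .leaf 1 [(0,[(14,132)])]]
noncomputable def a51 : TT := .leaf ⟨true,0,8,1,9,3,2047,[[],[-64,-64,0,0,2048,0,0,64,-944],[8,16,8,0,0,0,0,-8,107,-8],[0,0,0,0,0,0,0,0,849],[0,0,0,0,0,0,0,0,64],[],[],[],[-8,-8,0,0,256,0,0,8,-118],[8,16,8,0,0,0,0,-8,107,-8],[0,0,0,0,256]]⟩ [.leaf 0 [(0,[])], .leaf 0 [(0,[(30,8),(14,126)])], .leaf 0 [(0,[(31,8),(35,8)])], .leaf 0 [(0,[(33,8)])], .leaf 0 [(0,[])], .leaf 0 [(0,[])], .leaf 0 [(16,[(30,2176),(15,2176),(10,4224),(6,128),(5,4224)])], .leaf 0 [(0,[]),(0,[]),(0,[]),(0,[]),(0,[]),(0,[])], .leaf 0 [(0,[])], .leaf 0 [(0,[])], .leaf 0 [(0,[(30,57344),(14,911360)])], .leaf 0 [(0,[(31,7168),(35,7168)])], .leaf 0 [(0,[])], .leaf 0 [(0,[])], .leaf 0 [(0,[(31,7168),(35,7168)])], .leaf 0 [(0,[])], .leaf 0 [(0,[])], .leaf 0 [(0,[(30,57344),(14,903168)])], .leaf 0 [(0,[(23,7168),(33,1024),(15,254976)])], .leaf 0 [(0,[(30,9216),(33,1024)])], .leaf 0 [(0,[(24,135296),(33,143488),(44,117632),(15,117632),(5,9216)])],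 .leaf 0 [(158,[(30,1139712),(44,789504),(4,13312),(2,263168),(1,211328),(0,32896)])], .leaf 0 [(0,[(31,9216),(35,1024)])], .leaf 0 [(70,[(30,630784),(14,2622272),(10,219136),(7,26624),(2,96256),(0,15168)])], .leaf 0 [(1752,[(30,93765632),(44,5947392),(14,1402039680),(12,480657408),(7,540672),(4,237568),(0,456192),(46,459538432)])], .leaf 0 [(0,[(24,90320),(33,24784),(44,40752),(15,40752)]),(0,[(23,9216),(24,121856),(33,55296),(44,9216)]),(20,[(34,1095680),(36,193536),(44,2048),(14,1014096),(12,67584),(4,2048),(1,328368)]),(4076,[(29,25534464),(44,247250944),(14,3446668944),(12,961200128),(7,14753792),(4,491520),(3,149807104),(1,47104368),(46,966623232)]),(3500,[(42,295210848),(44,85930144),(7,4858880),(4,3802272),(3,14977024)])], .leaf 1 [(2,[(30,27648),(33,3072),(1,44288)])], .leaf 0 [(64,[(31,16640),(10,2048),(5,2112),(4,64),(1,164854),(0,2)])], .leaf 0 [(50,[(30,509280),(33,53856),(12,1179648),(10,417792),(6,24576),(1,756464)])],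 .leaf 0 [(0,[(35,8192)])], .leaf 4 [(0,[(29,22016),(30,29824),(44,65792),(15,87040),(2,10624),(45,88064)]),(170,[(29,4502464),(30,9183392),(42,10863808),(8,55232),(2,609504),(45,18009856)]),(4,[(29,65536),(33,228736),(15,418944),(5,105344),(45,262144)]),(0,[(29,65536),(30,53504),(33,57600)]),(2,[(29,96384),(30,360192),(42,200448),(12,701568),(1,918304),(45,385536)])], .leaf 0 [(2,[(30,15360),(33,15360),(12,49152),(1,37376),(0,768)])], .leaf 0 [(16,[(30,206312),(15,68408),(10,409656),(6,12471),(5,270392),(4,4335)])], .leaf 0 [(38,[(30,104480),(33,122656),(44,237568),(7,32768),(3,147456),(1,101048),(0,13824)])], .leaf 1 [(36,[(30,2320384),(44,232448),(12,9975808),(7,13312),(2,28672),(1,11213952),(0,8576),(46,9699328)])], .leaf 4 [(0,[(23,62976),(33,512),(15,68096)]),(0,[(23,64000),(35,512),(15,67072)]),(2,[(36,1536),(13,227328),(1,70912)]),(2,[(30,7680),(33,1536),(43,393216),(1,864512)]),(0,[(23,61952),(35,6656),(15,69120)])],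 .leaf 0 [(160,[(30,1150848),(44,2816),(14,2060128),(7,256),(6,120),(4,5112),(0,96)])], .leaf 0 [(416,[(44,1684992),(6,17552),(5,321472),(4,12112),(2,561664),(1,1060962),(0,80254)])], .leaf 1 [(0,[(31,224),(33,32),(14,8496)])]]
noncomputable def t3 : TT := (.split [-1,-1,-1,1,1,1,0,1,0,0] (.split [16,16,16,-48,-16,-48,0,0,0,1] (.split [0,0,0,0,1,-2,0,0,0,0] (.split [-16,-16,-16,48,16,16,0,1,0,0] (.split [16,0,4,-70,-20,-20,0,4,-13,16] a28 a29) (.split [11,3,8,-16,-16,-56,0,5,1,8] a30 (.split [567,-65,392,-1024,-1024,-3584,0,457,457,632] a31 (.split [82,-62,112,-256,-256,-896,0,174,185,144] a32 (.split [0,-8,-8,0,32,-32,0,0,-14,7] a33 a34))))) (.split [0,0,0,128,-32,-32,0,4,1,0] (.split [0,-1,-1,0,0,0,0,1,0,0] a35 a36) a37)) (.split [0,0,0,0,-1,8,0,0,0,0] (.split [271,-42,199,-512,-1792,-512,0,241,273,313] (.split [16,0,16,0,-32,-32,0,0,0,1] a38 a39) a40) a41)) (.split [0,-32,-32,-32,0,0,0,-1,32,32] a42 (.split [2,0,2,0,0,0,0,-2,0,-1]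 (.split [-2,-2,0,32,32,0,0,1,-1,0] (.split [3,1,2,-5,-16,-5,0,2,4,2] (.split [0,0,0,-16,0,0,0,0,0,1] a43 a44) a45) a46) (.split [-2,1,-1,2,0,2,0,0,0,0] a47 (.split [0,0,0,0,-2,0,0,0,3,0] (.split [-2,-2,0,32,32,0,0,1,-1,0] a48 a49) (.split [16,0,16,-32,-112,-32,0,16,-5,16] a50 a51))))))
theorem c3 : chkT (fsm (-1) ([16,16,0,-48,-16,-32,0,1,0,0] : Fm) :: ([1,0,11,-13,8,-16,0,10,3,-10] : Fm) :: ([8,0,8,-16,16,-24,0,8,1,7] : Fm) :: ([8,0,8,-16,208,-56,0,8,-29,8] : Fm) :: ([0,0,-1,0,0,4,0,0,0,0] : Fm) :: ([4,4,-1,0,0,0,0,0,0,0] : Fm) :: fsm (-1) ([0,0,0,1,-1,0,0,0,0,0] : Fm) :: ([0,0,0,0,0,0,0,1,-1,0] : Fm) :: fsm (-1) ([0,0,0,0,-2,0,0,0,1,0] : Fm) :: ([0,0,0,-1,-1,0,0,1,-1,0] : Fm) :: K1O11.C0) t3 = true := by decide +kernel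
end K1O11M010100

namespace K1O11M010100
noncomputable def a52 : TT := .leaf ⟨false,0,1,0,1,1,31,[[],[0,0,0,0,32,0,0,0,-4],[],[0,0,0,0,0,0,0,0,5],[],[],[],[],[],[],[]]⟩ [.leaf 0 [(0,[])], .leaf 0 [(0,[(8,4)])], .leaf 0 [(0,[])], .leaf 0 [(0,[])], .leaf 0 [(0,[])], .leaf 0 [(0,[])], .leaf 0 [(0,[])], .leaf 0 [(0,[])], .leaf 0 [(0,[(8,3584)])], .leaf 0 [(0,[])], .leaf 0 [(0,[])], .leaf 0 [(0,[])], .leaf 0 [(0,[])], .leaf 0 [(0,[])], .leaf 0 [(0,[])], .leaf 0 [(0,[(8,3584)])], .leaf 0 [(0,[(9,4096)])], .leaf 0 [(0,[])], .leaf 0 [(0,[(38,4096),(9,4096)])], .leaf 0 [(0,[(20,128),(25,128),(40,4096)])], .leaf 0 [(0,[])], .leaf 0 [(0,[(21,128),(29,128)])], .leaf 0 [(0,[(20,128),(25,128),(8,3584),(6,8192),(40,8192)])], .leaf 0 [(0,[(18,1024),(38,1024),(9,1024)]),(0,[(18,1024),(38,1024),(9,1024)]),(0,[]),(0,[(18,1024),(36,896),(38,128),(8,2656),(6,4224),(40,4096)]),(0,[(18,1488),(27,464),(38,560),(9,560)])], .leaf 1 [(0,[])], .leaf 0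 [(0,[(8,132)])], .leaf 0 [(0,[(21,128)])], .leaf 0 [(0,[])], .leaf 3 [(20,[(18,10016),(23,2048),(27,14112),(38,224),(9,14560),(0,896),(39,8192)]),(2,[(38,2048),(9,4096),(0,128)]),(916,[(19,15872),(36,13312),(9,15872),(8,26368),(2,114816),(0,576)]),(0,[(0,128)]),(0,[(8,3520),(0,128)])], .split 0 0 (.leaf 0 [(0,[(0,1)])]) (.split 1 0 (.leaf 1 [(0,[(0,1)])]) (.split 2 0 (.leaf 2 [(0,[(0,1)])]) (.w 1 (.leaf 2 [(0,[(0,32)])]) (.leaf 0 [(0,[(30,128),(0,32)])]) (.leaf 1 [(0,[(35,128),(0,32)])])))), .leaf 1 [(10,[(24,1280),(29,1280),(8,812),(6,3072),(4,1280),(1,128)])], .leaf 2 [(34,[(18,32776),(23,3072),(24,28672),(27,10248),(38,31864),(9,27384),(1,4480),(0,2576),(39,12288)])], .leaf 1 [(0,[(20,128),(25,128),(8,3584),(6,8192),(40,8192)])], .leaf 4 [(0,[(17,1024),(9,1024)]),(0,[(17,1024),(9,1024)]),(0,[]),(0,[(37,1024),(8,2496),(6,1024)]),(6,[(23,2048),(4,4992),(39,8192)])], .leaf 0 [(0,[])], .leaf 1 [(0,[(20,128),(40,4096)])], .leaf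 1 [(0,[(8,132)])]]
noncomputable def a53 : TT := .leaf ⟨true,0,8,1,9,1,2047,[[],[-128,-256,-128,0,2048,0,0,128,-720,128],[16,32,16,0,0,0,0,-16,89,-16],[0,112,112,0,0,0,0,0,684,-112],[0,0,0,0,0,0,0,0,128],[],[],[],[-16,-32,-16,0,256,0,0,16,-90,16],[16,32,16,0,0,0,0,-16,89,-16],[0,0,0,0,256]]⟩ [.leaf 0 [(0,[])], .leaf 0 [(0,[(25,16),(28,16),(9,122)])], .leaf 0 [(0,[(26,16),(30,16)])], .leaf 0 [(0,[])], .leaf 0 [(0,[])], .leaf 0 [(0,[])], .leaf 0 [(154,[(24,12896),(25,27120),(30,1328),(32,27280),(10,16192),(2,4960),(1,2624),(40,51584)])], .leaf 0 [(0,[]),(0,[]),(0,[]),(0,[]),(0,[]),(0,[])], .leaf 0 [(0,[(30,14336)])], .leaf 0 [(0,[])], .leaf 0 [(0,[(25,114688),(28,114688),(9,890880)])], .leaf 0 [(0,[(26,14336),(30,14336)])], .leaf 0 [(0,[])], .leaf 0 [(0,[])], .leaf 0 [(0,[(26,14336),(30,14336)])], .leaf 0 [(0,[])], .leaf 0 [(0,[])], .leaf 0 [(0,[(25,114688),(28,114688),(9,874496)])], .leaf 0 [(0,[(18,14336),(10,247808)])], .leaf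 0 [(0,[(25,18432),(28,32768)])], .leaf 0 [(0,[(18,18432),(19,131904),(28,127808),(39,130240),(10,111808)])], .leaf 0 [(232,[(21,1122304),(30,98304),(0,384),(41,35913728)])], .leaf 0 [(0,[(26,18432),(30,32768)])], .leaf 0 [(0,[(25,22528),(9,39040),(7,8192),(1,512)])], .leaf 1 [(0,[(25,114688),(28,100352),(9,781824)])], .leaf 0 [(0,[(19,92864),(28,38080),(39,38208),(10,38208)]),(0,[(18,18432),(19,112640),(28,39424),(39,18432)]),(0,[(29,17920),(31,18432),(37,50176),(9,35584)]),(0,[(25,114688),(28,59904),(37,122880),(39,8192),(9,697984),(7,270336),(41,262144)]),(0,[(19,40448),(39,90624),(10,90624)])], .leaf 1 [(0,[(25,18432),(28,4096),(9,46720)])], .leaf 0 [(0,[(26,576),(30,128),(9,8396)])], .leaf 0 [(0,[(25,23104),(28,9216),(9,54804),(7,8192),(1,512)])], .leaf 0 [(0,[(30,14336)])], .split 4 4 (.leaf 4 [(0,[(25,33024),(26,57856),(40,65024),(11,65024),(41,132096)]),(8,[(21,408608),(25,181216),(26,259552),(29,195040),(38,408608),(39,92352),(41,724864)]),(30,[(19,889216),(25,486560),(29,1735360),(11,2048064),(3,19104),(41,1946240)]),(0,[(25,65536),(26,41472),(29,48640)]),(0,[(0,1)])])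 (.leaf 2 [(195,[(20,10256336),(21,11658752),(25,797696),(29,10719184),(40,3097136),(11,14755888),(0,7),(41,3190784)]),(186132,[(25,4796553216),(29,9200767488),(11,14104145920),(3,271250432),(0,6296),(41,19186212864)]),(223,[(21,1048528),(25,6989080),(26,11991600),(40,15513088),(11,14726608),(0,9),(41,27956320)]),(1119,[(20,3594992),(21,12845056),(25,63504384),(26,36299264),(29,52259056),(40,9250064),(11,12920080),(0,45),(42,39583744)]),(0,[(21,65536),(26,118784),(29,143872),(38,62848),(40,2688),(11,68224),(10,952960)])]), .leaf 0 [(0,[(25,14336),(28,8192),(9,39040),(7,16384),(1,512)])], .leaf 0 [(30,[(25,171296),(30,185184),(32,476160),(10,201024),(2,63488),(1,28436)])], .leaf 1 [(30,[(25,111584),(30,133408),(32,349184),(10,58560),(2,63488),(1,19532)])], .leaf 2 [(0,[(25,129024),(28,114688),(9,890240)])], .leaf 4 [(0,[(18,60416),(28,12288),(10,70656)]),(0,[(18,62464),(30,4096),(10,68608)]),(0,[(31,28672),(38,53952),(10,4416),(9,40768)]),(0,[(25,70656),(28,143360),(38,90304),(10,40768),(9,827200)]),(6,[(24,58368),(10,508928),(5,274432),(40,233472)])],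 .leaf 0 [(0,[(25,14336),(9,15744)])], .leaf 1 [(0,[(0,4)])], .leaf 1 [(0,[(26,448),(9,8852)])]]
noncomputable def a54 : TT := .leaf ⟨false,0,1,0,1,1,31,[[],[0,0,0,0,32,0,0,0,-4],[],[0,0,0,0,0,0,0,0,5],[],[],[],[],[],[],[]]⟩ [.leaf 0 [(0,[])], .leaf 0 [(0,[(9,4)])], .leaf 0 [(0,[])], .leaf 0 [(0,[])], .leaf 0 [(0,[])], .leaf 0 [(0,[])], .leaf 0 [(0,[])], .leaf 0 [(0,[])], .leaf 0 [(0,[(9,3584)])], .leaf 0 [(0,[])], .leaf 0 [(0,[])], .leaf 0 [(0,[])], .leaf 0 [(0,[])], .leaf 0 [(0,[])], .leaf 0 [(0,[])], .leaf 0 [(0,[(9,3584)])], .leaf 0 [(0,[(10,4096)])], .leaf 0 [(0,[])], .leaf 0 [(0,[(39,4096),(10,4096)])], .leaf 0 [(0,[(21,128),(26,128),(41,4096)])], .leaf 0 [(0,[])], .leaf 0 [(495,[(25,6032),(32,30464),(1,4096),(0,1)])], .leaf 0 [(0,[(21,128),(26,128),(9,3584),(7,8192),(41,8192)])], .leaf 0 [(0,[(19,1808),(28,784),(39,240),(10,240)]),(0,[(19,2000),(28,976),(39,48),(10,48)]),(0,[]),(0,[(19,128),(24,448),(25,896),(39,1024),(9,4448),(7,1984),(41,2304)]),(0,[(19,1488),(28,464),(39,560),(10,560)])],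 .leaf 1 [(0,[])], .leaf 0 [(0,[(9,132)])], .leaf 0 [(0,[(25,64),(28,64),(9,44),(7,128),(1,8)])], .leaf 0 [(0,[])], .leaf 4 [(2,[(20,1024),(24,1024),(25,2048),(39,3072),(10,4096),(40,4096)]),(14,[(20,10688),(24,5056),(25,5440),(28,5440),(37,9920),(40,20224)]),(7214,[(24,1477632),(28,3341312),(10,7626752),(0,64),(40,5910528)]),(309798,[(20,134086656),(24,183147520),(25,244142080),(28,185850880),(37,134086656),(10,112459776),(9,201129984),(0,10560),(41,536346624)]),(0,[(20,1024),(37,1024),(38,1024),(9,1600),(7,5120)])], .leaf 0 [(0,[(33,64),(7,256),(1,8)])], .leaf 0 [(25786,[(25,844480),(32,1471168),(9,1143424),(1,224216),(0,140)])], .leaf 1 [(0,[(10,512),(2,32),(1,40)])], .leaf 1 [(0,[(21,128),(26,128),(9,3584),(7,8192),(41,8192)])], .leaf 3 [(61,[(18,57712),(28,256),(10,67216),(0,1)]),(495,[(18,392432),(28,2304),(10,541456),(0,9)]),(63,[(31,768),(0,3)]),(0,[(10,1024),(9,2240),(7,6144),(41,4096)]),(1244,[(18,535552),(28,32768),(0,128)])],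 .leaf 0 [(0,[])], .leaf 1 [(0,[(21,128),(41,4096)])], .leaf 1 [(0,[(9,132)])]]
noncomputable def t4 : TT := (.split [8,0,8,-16,-16,-56,0,8,-1,8] a52 (.split [-5776,-6032,-256,65536,65536,0,0,3728,203,256] a53 a54))
theorem c4 : chkT (fsm (-1) ([1,0,11,-13,8,-16,0,10,3,-10] : Fm) :: ([8,0,8,-16,16,-24,0,8,1,7] : Fm) :: ([8,0,8,-16,208,-56,0,8,-29,8] : Fm) :: ([0,0,-1,0,0,4,0,0,0,0] : Fm) :: ([4,4,-1,0,0,0,0,0,0,0] : Fm) :: fsm (-1) ([0,0,0,1,-1,0,0,0,0,0] : Fm) :: ([0,0,0,0,0,0,0,1,-1,0] : Fm) :: fsm (-1) ([0,0,0,0,-2,0,0,0,1,0] : Fm) :: ([0,0,0,-1,-1,0,0,1,-1,0] : Fm) :: K1O11.C0) t4 = true := by decide +kernel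
end K1O11M010100

namespace K1O11M010100
noncomputable def a55 : TT := .leaf ⟨true,0,8,1,9,1,2047,[[],[-128,-256,-128,0,2048,0,0,128,-720,128],[16,32,16,0,0,0,0,-16,89,-16],[0,112,112,0,0,0,0,0,684,-112],[0,0,0,0,0,0,0,0,128],[],[],[],[-16,-32,-16,0,256,0,0,16,-90,16],[16,32,16,0,0,0,0,-16,89,-16],[0,0,0,0,256]]⟩ [.leaf 0 [(0,[])], .leaf 0 [(0,[(22,16),(25,16),(6,122)])], .leaf 0 [(0,[(23,16),(27,16)])], .leaf 0 [(0,[])], .leaf 0 [(0,[])], .leaf 0 [(0,[])], .leaf 0 [(30,[(21,896),(25,1792),(7,2048),(0,256),(37,3584)])], .leaf 0 [(0,[]),(0,[]),(0,[]),(0,[]),(0,[]),(0,[])], .leaf 0 [(0,[(27,14336)])], .leaf 0 [(0,[])], .leaf 0 [(0,[(22,114688),(25,114688),(6,890880)])], .leaf 0 [(0,[(23,14336),(27,14336)])], .leaf 0 [(0,[])], .leaf 0 [(0,[])], .leaf 0 [(0,[(23,14336),(27,14336)])], .leaf 0 [(0,[])], .leaf 0 [(0,[])], .leaf 0 [(0,[(22,114688),(25,114688),(6,874496)])], .leaf 0 [(0,[(15,14336),(7,247808)])], .leaf 0 [(0,[(22,18432),(25,32768)])],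 .leaf 0 [(0,[(15,18432),(16,131904),(25,127808),(36,130240),(7,111808)])], .leaf 0 [(56,[(17,253952),(22,817152),(36,212992),(6,122240),(1,9216),(0,40960)])], .leaf 0 [(0,[(23,18432),(27,32768)])], .leaf 0 [(14,[(22,337920),(29,4096),(6,569728),(4,131072),(0,8192)])], .leaf 0 [(56,[(17,253952),(22,6537216),(25,5720064),(36,212992),(6,43788800),(4,15409152),(1,9216),(0,40960),(38,14942208)])], .leaf 0 [(0,[(16,92864),(25,38080),(36,38208),(7,38208)]),(0,[(15,18432),(16,112640),(25,39424),(36,18432)]),(0,[(26,17920),(28,18432),(34,50176),(6,35584)]),(0,[(22,114688),(25,59904),(34,122880),(36,8192),(6,697984),(4,270336),(38,262144)]),(0,[(16,40448),(36,90624),(7,90624)])], .leaf 1 [(0,[(22,18432),(25,4096),(6,46720)])], .leaf 0 [(48,[(21,2048),(23,21056),(6,397068),(0,896),(37,8192)])], .leaf 0 [(14,[(22,350656),(25,134144),(6,806188),(4,131072),(0,8192)])], .leaf 2 [(90,[(17,557056),(21,1728512),(22,1728512),(25,423936),(36,188416),(4,15958016),(1,82944),(0,368640),(38,16941056)])],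 .leaf 4 [(0,[(17,23040),(21,21504),(22,34816),(36,65024),(7,88064),(37,86016)]),(8,[(17,408608),(21,181216),(22,259552),(25,195040),(34,408608),(7,92352),(37,724864)]),(22,[(21,481280),(25,868352),(7,1602560),(0,28096),(37,1925120)]),(0,[(21,65536),(22,41472),(25,48640)]),(368,[(17,27650816),(22,40241664),(25,42886656),(36,27091456),(7,54742272),(6,272676224),(4,120913920),(1,125856),(0,559360)])], .leaf 0 [(14,[(22,219136),(25,118784),(6,569728),(4,253952),(0,8192)])], .leaf 0 [(14,[(27,6720),(29,58816),(6,1708),(0,8192)])], .leaf 0 [(72,[(22,1105984),(28,234368),(3,18432),(1,50176),(0,92160)])], .leaf 1 [(56,[(17,253952),(22,7354368),(25,6537216),(36,212992),(6,49968512),(4,15409152),(1,9216),(0,40960),(38,14942208)])], .leaf 4 [(0,[(15,60416),(25,12288),(7,70656)]),(0,[(15,62464),(27,4096),(7,68608)]),(0,[(28,28672),(7,58368),(6,40768)]),(0,[(22,70656),(25,143360),(7,131072),(6,827200)]),(6,[(21,58368),(35,508928),(2,274432),(37,233472)])],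 .leaf 0 [(0,[(22,14336),(6,15744)])], .leaf 0 [(56,[(17,195584),(22,91200),(36,271360),(6,123380),(1,9216),(0,40960)])], .leaf 1 [(0,[(23,448),(6,8852)])]]
noncomputable def t5 : TT := a55
theorem c5 : chkT (fsm (-1) ([8,0,8,-16,16,-24,0,8,1,7] : Fm) :: ([8,0,8,-16,208,-56,0,8,-29,8] : Fm) :: ([0,0,-1,0,0,4,0,0,0,0] : Fm) :: ([4,4,-1,0,0,0,0,0,0,0] : Fm) :: fsm (-1) ([0,0,0,1,-1,0,0,0,0,0] : Fm) :: ([0,0,0,0,0,0,0,1,-1,0] : Fm) :: fsm (-1) ([0,0,0,0,-2,0,0,0,1,0] : Fm) :: ([0,0,0,-1,-1,0,0,1,-1,0] : Fm) :: K1O11.C0) t5 = true := by decide +kernel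
end K1O11M010100

namespace K1O11M010100
noncomputable def a56 : TT := .leaf ⟨true,0,33,31,64,0,65471,[[],[0,0,0,0,65472,0,0,0,-12276],[0,0,0,0,0,0,0,0,5115],[0,0,0,0,0,0,0,0,18414],[0,0,0,0,0,0,0,0,16368],[],[],[],[0,0,0,0,1984,0,0,0,-372],[0,0,0,0,0,0,0,0,165],[0,0,0,0,1984]]⟩ [.leaf 0 [(0,[])], .leaf 0 [(0,[(5,372)])], .leaf 0 [(0,[])], .leaf 0 [(0,[])], .leaf 0 [(0,[])], .leaf 0 [(0,[])], .leaf 0 [(98,[(29,246016),(6,492032),(5,399776),(0,30752)])], .leaf 0 [(0,[]),(0,[]),(0,[]),(0,[]),(0,[]),(0,[])], .leaf 0 [(0,[])], .leaf 0 [(0,[])], .leaf 0 [(0,[(5,13094400)])], .leaf 0 [(0,[])], .leaf 0 [(0,[])], .leaf 0 [(0,[])], .leaf 0 [(0,[])], .leaf 0 [(0,[])], .leaf 0 [(0,[])], .leaf 0 [(0,[(5,10999296)])], .leaf 0 [(0,[(6,8380416)])], .leaf 0 [(0,[])], .leaf 0 [(0,[(15,4124736),(24,4124736),(35,4255680),(6,4255680)])], .leaf 0 [(0,[(17,261888),(22,261888),(37,8380416)])], .leaf 0 [(0,[])], .leaf 0 [(0,[(28,130944),(5,343728),(3,261888),(0,16368)])],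 .leaf 0 [(0,[(17,261888),(22,261888),(5,5237760),(3,16760832),(37,16760832)])], .leaf 0 [(0,[(15,3306336),(24,1211232),(35,883872),(6,883872)]),(0,[(15,2095104),(35,2095104),(6,2095104)]),(0,[(25,1833216),(5,65472)]),(0,[(15,2095104),(33,1833216),(35,261888),(5,5172288),(3,8642304),(37,8380416)]),(0,[(15,2127840),(24,32736),(35,2062368),(6,2062368)])], .leaf 1 [(0,[(5,130944)])], .leaf 0 [(0,[(5,265980)])], .leaf 0 [(0,[(21,130944),(24,130944),(5,748836),(3,261888),(0,16368)])], .leaf 0 [(0,[])], .leaf 4 [(4,[(15,4894032),(16,8380416),(20,2095104),(21,2095104),(24,6989136),(35,3486384),(6,11866800),(36,8380416)]),(4,[(16,7518368),(20,3415456),(21,3873760),(24,3873760),(33,6601760),(36,13661824)]),(34,[(20,16498944),(24,32997888),(29,31492032),(6,105148032),(0,40920),(36,65995776)]),(0,[(20,2095104),(21,2095104),(24,2095104)]),(4,[(16,8118528),(20,2356992),(21,3666432),(24,2356992),(33,8118528),(34,6809088),(5,45601248),(36,9427968)])],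 .leaf 0 [(0,[(29,130944),(5,343728),(3,523776),(0,16368)])], .leaf 0 [(0,[(28,130944),(5,1571328),(0,16368)])], .leaf 1 [(0,[(29,130944),(5,1571328),(0,16368)])], .leaf 1 [(0,[(17,261888),(22,261888),(5,9820800),(3,16760832),(37,16760832)])], .leaf 4 [(0,[(14,2095104),(6,2095104)]),(0,[(14,2095104),(6,2095104)]),(0,[(5,1374912)]),(0,[(34,2095104),(5,10279104),(3,2095104)]),(0,[(14,2095104),(6,2095104)])], .leaf 0 [(0,[])], .leaf 1 [(0,[(17,261888),(37,8380416)])], .leaf 1 [(0,[(5,306900)])]]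
noncomputable def t6 : TT := a56
theorem c6 : chkT (fsm (-1) ([8,0,8,-16,208,-56,0,8,-29,8] : Fm) :: ([0,0,-1,0,0,4,0,0,0,0] : Fm) :: ([4,4,-1,0,0,0,0,0,0,0] : Fm) :: fsm (-1) ([0,0,0,1,-1,0,0,0,0,0] : Fm) :: ([0,0,0,0,0,0,0,1,-1,0] : Fm) :: fsm (-1) ([0,0,0,0,-2,0,0,0,1,0] : Fm) :: ([0,0,0,-1,-1,0,0,1,-1,0] : Fm) :: K1O11.C0) t6 = true := by decide +kernel
end K1O11M010100

namespace K1O11M010101
noncomputable def a0 : TT := .leaf ⟨false,0,1,0,1,0,7,[[],[0,0,0,0,8,0,0,0,-2],[],[0,0,0,0,0,0,0,0,3],[],[],[],[],[],[],[]]⟩ [.leaf 0 [(0,[])], .leaf 0 [(0,[(4,2)])], .leaf 0 [(0,[])], .leaf 0 [(0,[])], .leaf 0 [(0,[])], .leaf 0 [(0,[])], .leaf 0 [(0,[])], .leaf 0 [(0,[])], .leaf 0 [(0,[(4,1792)])], .leaf 0 [(0,[])], .leaf 0 [(0,[])], .leaf 0 [(0,[])], .leaf 0 [(0,[])], .leaf 0 [(0,[])], .leaf 0 [(0,[])], .leaf 0 [(0,[(4,1792)])], .leaf 0 [(0,[(5,1024)])], .leaf 0 [(0,[])], .leaf 0 [(0,[(34,1024),(5,1024)])], .leaf 0 [(0,[(16,32),(21,32),(36,1024)])],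 .leaf 0 [(0,[])], .leaf 0 [(0,[(17,32),(25,32)])], .leaf 0 [(0,[(16,32),(21,32),(4,1696),(2,2048),(36,2048)])], .leaf 3 [(0,[(14,384),(23,128),(34,128),(5,128)]),(0,[(4,256)]),(0,[(14,512),(23,256)]),(4,[(24,768),(32,512),(4,8960),(0,512)]),(0,[(14,256),(34,256),(5,256)])], .leaf 1 [(0,[])], .leaf 0 [(0,[(4,36)])], .leaf 0 [(0,[(17,32)])], .leaf 0 [(0,[])], .leaf 3 [(6,[(14,1056),(19,256),(23,1568),(34,224),(5,2016),(0,896),(35,1024)]),(0,[(34,256),(5,512),(0,128)]),(0,[(19,112),(20,160),(23,64),(32,160),(0,96),(35,448)]),(20,[(13,3584),(14,608),(19,256),(23,4704),(34,672),(5,6048),(0,8960),(35,1024)]),(6,[(19,256),(23,1408),(32,384),(33,1792),(4,12224),(1,224),(0,2912),(35,1024)])], .split 0 0 (.leaf 0 [(0,[(0,1)])]) (.split 1 0 (.leaf 1 [(0,[(0,1)])]) (.leaf 2 [(14,[(17,7424),(19,256),(27,256),(2,4096),(0,8)])])), .split 2 0 (.leaf 2 [(0,[(0,1)])]) (.leaf 1 [(23,[(21,3840),(5,1504),(3,5888),(2,768),(0,5)])]), .split 2 0 (.leaf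 2 [(0,[(0,1)])]) (.leaf 0 [(7,[(24,256),(27,256),(35,256),(1,256),(0,1)])]), .leaf 1 [(0,[(16,32),(21,32),(4,1696),(2,2048),(36,2048)])], .leaf 4 [(0,[(13,256),(5,256)]),(0,[(13,256),(5,256)]),(0,[(5,256)]),(0,[(5,256),(4,1792),(2,256)]),(0,[(13,256),(5,256)])], .leaf 0 [(0,[])], .leaf 1 [(0,[(16,32),(36,1024)])], .leaf 1 [(0,[(4,36)])]]
noncomputable def t0 : TT := a0
theorem c0 : chkT (fsm (-1) ([0,0,-1,0,0,4,0,0,0,0] : Fm) :: ([4,4,-1,0,0,0,0,0,0,0] : Fm) :: fsm (-1) ([0,0,0,1,-1,0,0,0,0,0] : Fm) :: ([0,0,0,0,0,0,0,1,-1,0] : Fm) :: fsm (-1) ([0,0,0,0,-2,0,0,0,1,0] : Fm) :: ([0,0,0,-1,-1,0,0,1,-1,0] : Fm) :: K1O11.C0) t0 = true := by decide +kernel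
end K1O11M010101

namespace K1O11M01011
noncomputable def a0 : TT := .leaf ⟨false,0,1,0,1,1,15,[[],[0,0,0,0,16,0,0,0,-1],[],[-1,0,1,0,0,0,0,1,8,-1],[],[],[],[],[],[],[]]⟩ [.leaf 0 [(0,[])], .leaf 0 [(0,[(6,1)])], .leaf 0 [(0,[])], .leaf 0 [(0,[])], .leaf 0 [(0,[])], .leaf 0 [(0,[])], .leaf 0 [(0,[(22,128),(27,128)])], .leaf 0 [(0,[])], .leaf 0 [(0,[(6,896)])], .leaf 0 [(0,[])], .leaf 0 [(0,[])], .leaf 0 [(0,[])], .leaf 0 [(0,[])], .leaf 0 [(0,[])], .leaf 0 [(0,[])], .leaf 0 [(0,[(6,896)])], .leaf 0 [(0,[(15,128),(25,128),(7,1920)])], .leaf 0 [(0,[(23,128),(25,128)])], .leaf 0 [(0,[(15,128),(25,128),(36,2048),(7,1920)])], .leaf 0 [(0,[(18,64),(22,64),(27,128),(38,2048)])], .leaf 0 [(0,[(22,128),(27,128)])], .leaf 0 [(0,[(19,64),(22,128),(27,192)])], .leaf 0 [(0,[(18,128),(27,128),(6,128),(4,6144),(38,6144)])], .leaf 3 [(0,[(15,64),(16,688),(25,240),(36,336),(7,272)]),(0,[(30,64),(34,160)]),(296,[(16,168960),(28,3136),(36,129024),(7,132096),(3,4224),(1,64)]),(0,[(16,120),(34,392),(36,128),(6,652),(1,4)]),(40,[(34,14272),(36,6208),(3,896),(1,224)])],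 .leaf 1 [(0,[(22,128),(27,128)])], .leaf 0 [(0,[(23,4),(25,4),(6,100)])], .leaf 0 [(0,[(19,64),(22,124),(27,124)])], .leaf 0 [(0,[(22,128),(27,128)])], .leaf 4 [(568,[(21,113152),(25,55360),(36,258048),(7,307200),(3,42736),(1,1024),(37,452608)]),(18,[(21,3584),(25,6464),(3,176),(1,128),(37,14336)]),(4,[(15,1856),(21,512),(7,2240),(3,720),(37,2048)]),(90,[(15,84800),(21,27776),(25,46272),(36,768),(7,35392),(6,50496),(3,23520),(1,384),(38,75264)]),(326,[(21,145472),(25,181184),(34,896),(35,139328),(6,479104),(3,27440),(1,448),(37,581888)])], .leaf 0 [(0,[(19,16),(22,64),(27,128),(4,64),(3,16)])], .leaf 1 [(0,[(0,4)])], .split 1 0 (.leaf 1 [(0,[(0,1)])]) (.leaf 0 [(78,[(20,4640),(21,3200),(28,9280),(4,2784),(0,129),(39,102400)])]), .leaf 1 [(0,[(18,128),(27,128),(6,128),(4,6144),(38,6144)])], .leaf 4 [(0,[(15,576),(25,64),(7,448)]),(0,[(15,448),(27,64),(7,576)]),(0,[(28,64),(7,160)]),(0,[(15,576),(25,64),(7,448),(6,672)]),(0,[(15,576),(19,64),(25,64),(7,448)])],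 .leaf 0 [(0,[(22,128),(27,128)])], .leaf 1 [(0,[(18,64),(22,124),(27,124),(38,2048)])], .leaf 1 [(0,[(23,4),(25,4),(6,100)])]]
noncomputable def a1 : TT := .leaf ⟨false,0,1,0,1,2,15,[[],[1,1,0,0,16,0,0,-1,-1],[],[3,3,0,0,0,0,0,-3,13],[],[],[],[],[],[],[]]⟩ [.leaf 0 [(0,[])], .leaf 0 [(0,[(25,1),(8,2)])], .leaf 0 [(0,[])], .leaf 0 [(0,[])], .leaf 0 [(0,[(24,1)])], .leaf 0 [(0,[])], .leaf 0 [(0,[(25,384)])], .leaf 0 [(0,[])], .leaf 0 [(0,[(25,896),(8,1792)])], .leaf 0 [(0,[])], .leaf 0 [(0,[])], .leaf 0 [(0,[])], .leaf 0 [(0,[])], .leaf 0 [(0,[])], .leaf 0 [(0,[])], .leaf 0 [(0,[(25,896),(8,1792)])], .leaf 0 [(0,[(24,512),(9,2048)])], .leaf 0 [(0,[(24,256)])], .leaf 0 [(30,[(30,3008),(36,6912),(38,23808),(9,38656),(5,3968),(2,64)])], .leaf 0 [(0,[(20,64),(25,576),(40,2048)])], .leaf 0 [(0,[(25,256)])], .leaf 0 [(24,[(21,1472),(25,11520),(1,64)])], .leaf 0 [(0,[(20,64),(25,1472),(8,832),(6,4096),(40,4096)])], .leaf 0 [(1038,[(36,162816),(9,353792),(5,95488),(2,1760)]),(5250,[(18,2157696),(36,810880),(9,1697024),(5,601376),(2,4704)]),(0,[(28,448),(9,160),(8,256),(5,40)]),(1208,[(23,301808),(25,348192),(38,618016),(8,2469088),(6,981904),(5,15872),(2,32),(40,1268800)]),(464,[(38,202864),(9,550560),(8,318928),(5,91468),(2,1136)])],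 .leaf 1 [(0,[(25,512)])], .leaf 0 [(0,[(24,16),(8,128)])], .leaf 0 [(0,[(21,64),(25,504)])], .leaf 0 [(0,[(25,512)])], .leaf 4 [(7212,[(23,778752),(36,2813952),(9,5722112),(5,851008),(2,5888),(39,3115008)]),(1374,[(23,324096),(38,137216),(5,74048),(2,1216),(39,1296384)]),(3658,[(23,400896),(9,2818048),(5,434624),(2,256),(39,1603584)]),(2224,[(23,745216),(27,680704),(36,426752),(9,1740544),(6,1033728),(5,344832),(2,1024),(40,1575936)]),(0,[(23,256),(25,128),(36,512),(8,1280),(6,1792),(39,1024)])], .leaf 0 [(0,[(25,452),(6,48),(5,16),(0,4)])], .leaf 1 [(0,[(0,16)])], .leaf 1 [(5920,[(22,115376),(25,194928),(8,143840),(5,93744),(2,1600),(1,1984),(40,3692032)])], .leaf 1 [(0,[(20,64),(25,1472),(8,832),(6,4096),(40,4096)])], .leaf 4 [(0,[(17,352),(9,672)]),(0,[(17,736),(9,288)]),(0,[(37,480)]),(0,[(17,1024),(25,352),(8,1728)]),(0,[(17,480),(9,544)])], .leaf 0 [(0,[(25,512)])], .leaf 1 [(0,[(20,64),(25,504),(40,2048)])], .leaf 1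 [(0,[(24,16),(8,128)])]]
noncomputable def a2 : TT := .leaf ⟨false,0,1,0,1,0,15,[[],[0,0,0,0,16,0,0,0,-2],[],[0,0,0,0,0,0,0,0,3],[],[],[],[],[],[],[]]⟩ [.leaf 0 [(0,[])], .leaf 0 [(0,[(10,2)])], .leaf 0 [(0,[])], .leaf 0 [(0,[])], .leaf 0 [(0,[])], .leaf 0 [(0,[])], .leaf 0 [(0,[])], .leaf 0 [(0,[])], .leaf 0 [(0,[(10,1792)])], .leaf 0 [(0,[])], .leaf 0 [(0,[])], .leaf 0 [(0,[])], .leaf 0 [(0,[])], .leaf 0 [(0,[])], .leaf 0 [(0,[])], .leaf 0 [(0,[(10,1792)])], .leaf 0 [(0,[(0,128)])], .leaf 0 [(0,[])], .leaf 0 [(80010,[(20,1333248),(7,2222080),(4,278528),(2,155648),(0,317440)])], .leaf 0 [(0,[(22,64),(27,64),(42,2048)])], .leaf 0 [(0,[])], .leaf 0 [(24,[(23,1472),(26,1280),(3,64)])], .leaf 0 [(0,[(22,64),(27,64),(10,1728),(8,4096),(42,4096)])], .leaf 0 [(754,[(19,121856),(25,8192),(40,158720),(2,5120),(41,32768)]),(830,[(25,171520),(7,97792),(4,1024),(41,686080)]),(0,[(10,32)]),(13588,[(25,4090944),(29,3256064),(38,2831808),(40,738752),(10,24293984),(7,2095104),(4,4224),(42,11466496)]),(2044,[(19,32768),(20,1045504),(7,32256),(4,2048)])],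 .leaf 1 [(0,[])], .leaf 0 [(0,[(10,68)])], .leaf 0 [(0,[(23,64)])], .leaf 0 [(0,[])], .leaf 4 [(218,[(25,48640),(29,65536),(2,1024),(41,194560)]),(4584,[(25,1008128),(29,127488),(38,2220032),(7,444416),(2,3584),(41,4032512)]),(4,[(19,1536),(25,512),(11,2560),(7,640),(41,2048)]),(546,[(25,243200),(29,278912),(32,1152),(39,129024),(11,131328),(7,47408),(2,576),(42,147456)]),(160,[(25,24832),(38,82432),(39,74496),(10,118080),(7,13008),(2,256),(41,99328)])], .leaf 0 [(4,[(23,278),(29,170),(8,320),(7,80),(3,16)])], .leaf 2 [(0,[(0,128)])], .leaf 1 [(4140,[(27,235756),(29,59404),(10,122496),(7,69696),(4,860),(1,2608)])], .leaf 1 [(0,[(22,64),(27,64),(10,1728),(8,4096),(42,4096)])], .leaf 4 [(0,[(19,512),(0,32)]),(0,[(19,512),(0,32)]),(0,[]),(0,[(19,512),(11,512),(10,1280)]),(0,[(19,512),(0,32)])], .leaf 0 [(0,[])], .leaf 1 [(0,[(22,64),(42,2048)])], .leaf 1 [(0,[(10,68)])]]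
noncomputable def a3 : TT := .leaf ⟨true,1,8,0,9,3,255,[[0,0,0,0,0,0,0,0,8],[0,0,0,0,256,0,0,0,-88],[],[-8,-8,0,0,0,0,0,8,96],[],[],[0,0,0,0,0,0,0,0,8],[0,0,0,0,0,0,0,0,8],[0,0,0,0,32,0,0,0,-11],[],[0,0,0,0,32]]⟩ [.leaf 0 [(0,[])], .leaf 0 [(0,[(10,11)])], .leaf 0 [(0,[])], .leaf 0 [(0,[])], .leaf 0 [(154,[(24,160),(31,248),(4,8),(2,8),(42,5120)])], .leaf 0 [(0,[])], .leaf 0 [(0,[])], .leaf 0 [(0,[]),(0,[]),(0,[]),(0,[]),(0,[]),(0,[])], .leaf 0 [(0,[(26,1024)])], .leaf 0 [(0,[])], .leaf 0 [(0,[(10,78848)])], .leaf 0 [(0,[])], .leaf 0 [(0,[])], .leaf 0 [(0,[])], .leaf 0 [(0,[])], .leaf 0 [(0,[])], .leaf 0 [(0,[])], .leaf 0 [(0,[(10,79872)])], .leaf 0 [(0,[(19,1024),(11,31744)])], .leaf 0 [(0,[(27,1024)])], .leaf 0 [(13946,[(20,1327104),(25,2080768),(7,8166400),(4,910336),(41,8323072)])], .leaf 0 [(2,[(26,3072),(10,3328),(0,256)])], .leaf 0 [(0,[(26,1024)])], .leaf 0 [(0,[(23,1024),(26,1024),(31,1024)])], .leaf 0 [(2,[(26,3072),(10,233728),(8,102400),(0,256),(42,98304)])],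 .leaf 0 [(30,[(25,63488),(7,138496),(4,768),(41,253952)]),(24,[(25,77824),(27,82688),(7,40960),(2,2048),(41,311296)]),(0,[(30,6400),(34,768),(10,6656)]),(1208,[(25,4059328),(38,7737600),(40,2051456),(10,102568832),(8,13312064),(7,1841152),(4,3712),(42,23379200)]),(480,[(38,3078400),(40,608000),(7,3904),(4,8192)])], .leaf 1 [(0,[(26,1024)])], .leaf 0 [(0,[(27,32),(10,1120)])], .leaf 0 [(0,[(23,1024),(26,992)])], .leaf 0 [(0,[(26,1024)])], .leaf 4 [(6,[(25,24576),(29,28032),(11,2048),(7,4384),(4,128),(41,98304)]),(18,[(25,57344),(29,20736),(7,25920),(5,2048),(41,229376)]),(3658,[(25,8773632),(11,28942336),(7,3918464),(4,27136),(41,35094528)]),(74,[(25,582656),(26,293776),(29,571744),(32,42656),(39,111104),(11,113088),(7,61504),(2,496),(42,126976)]),(610,[(25,4329472),(29,4884992),(38,40960),(39,4771840),(10,47223552),(7,865280),(4,2560),(41,17317888)])], .leaf 0 [(2,[(26,3072),(8,7168),(0,256)])], .leaf 0 [(0,[(29,32),(1,32)])],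 .leaf 1 [(464,[(24,35840),(31,58528),(4,1888),(2,1408),(0,39680),(42,1146880)])], .leaf 1 [(2,[(26,3072),(10,212224),(8,102400),(0,256),(42,98304)])], .leaf 1 [(0,[(19,8960),(11,7424)]),(0,[(10,8192),(9,5120)]),(0,[(19,8960),(11,7424)]),(0,[(39,6400),(10,76544),(8,42752),(42,32768)]),(1036,[(19,8008448),(23,828928),(11,8832256),(8,9568256),(4,9344),(3,41728),(1,9344)])], .leaf 0 [(0,[(26,1024),(10,2048)])], .leaf 0 [(0,[(10,856),(0,88)])], .leaf 1 [(2,[(10,3080),(0,8)])]]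
noncomputable def a4 : TT := .leaf ⟨true,31,33,0,64,0,261887,[[46035,46035,0,0,0,0,0,-46035,67518],[-36828,-36828,0,0,261888,0,0,36828,-87978],[],[-30690,-30690,0,0,0,0,0,30690,50127],[],[],[0,0,0,0,0,0,0,0,148335],[1485,1485,0,0,0,0,0,-1485,2178],[-1116,-1116,0,0,7936,0,0,1116,-2666],[],[0,0,0,0,7936]]⟩ [.leaf 0 [(0,[(28,1485)])], .leaf 0 [(0,[(27,1116),(11,3782)])], .leaf 0 [(0,[])], .leaf 0 [(0,[(27,369)])], .leaf 0 [(0,[(25,7936),(27,15376),(32,15376),(5,496),(43,253952)])], .leaf 0 [(0,[])], .leaf 0 [(0,[])], .leaf 0 [(0,[]),(0,[]),(0,[]),(0,[]),(0,[]),(0,[])], .leaf 0 [(0,[(27,3928320)])], .leaf 0 [(0,[])], .leaf 0 [(0,[(27,32997888),(11,111826176)])], .leaf 0 [(0,[])], .leaf 0 [(0,[])], .leaf 0 [(0,[(28,41247360)])], .leaf 0 [(0,[])], .leaf 0 [(0,[])], .leaf 0 [(0,[(28,41247360)])], .leaf 0 [(38,[(24,26974464),(27,1112707552),(11,4409364608),(9,166342528),(8,4495744),(3,5619680),(0,4495744)])], .leaf 0 [(0,[(20,14534784),(12,18986880)])],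 .leaf 0 [(0,[(27,6678144)])], .leaf 0 [(830,[(26,299949056),(41,581565952),(8,224394368),(5,54952832),(42,1199796224)])], .leaf 0 [(0,[(24,95232),(25,351744),(27,11499264),(11,19213056),(8,190464),(3,64128),(0,190464),(43,11255808)])], .leaf 0 [(0,[(28,6678144)])], .leaf 0 [(0,[(24,1047552),(27,2749824),(32,1047552)])], .leaf 0 [(0,[(24,95232),(25,95232),(27,34700160),(11,109921536),(9,42663936),(8,190464),(0,190464),(43,36569088)])], .leaf 0 [(630,[(26,2079194304),(41,674885376),(8,922631424),(3,51755616),(42,8316777216)]),(150,[(26,427204800),(41,908489472),(3,13519968),(42,1708819200)]),(0,[(12,6187104),(11,7987584),(8,1546776)]),(162,[(33,297504768),(39,1068503040),(40,5516016000),(11,7366320192),(8,1434687936),(3,12996192),(43,5464031232)]),(448,[(26,1684463616),(28,18505366176),(41,3503013888),(5,8380416),(42,6737854464)])], .leaf 1 [(0,[(27,2749824)])], .leaf 0 [(0,[(28,85932),(11,1252152)])], .leaf 0 [(0,[(24,1047552),(27,2958516)])],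 .leaf 0 [(0,[(28,38497536)])], .leaf 4 [(34,[(26,127801344),(12,10344576),(3,2586144),(42,511205376)]),(1903848,[(22,6017461595904),(26,3451851317376),(8,3029519434656),(3,5553171360),(2,17849729568),(42,13807405269504)]),(1167,[(26,2082533376),(35,4013008032),(8,367199712),(3,4877664),(1,115677771),(42,8330133504)]),(0,[(26,8380416),(28,44553696),(30,8380416)]),(0,[(39,8380416),(12,27661920),(11,23471712),(8,5082264),(3,65472)])], .leaf 0 [(0,[(24,261888),(27,1702272),(9,1047552),(8,261888)])], .leaf 2 [(0,[(27,10606464),(1,261888)])], .leaf 1 [(0,[(25,319176),(28,1577466),(11,364188),(8,261888),(3,14322),(43,10213632)])], .leaf 1 [(4,[(24,1047552),(28,32736000),(11,106457472),(9,201129984),(8,1047552),(0,1047552),(43,167608320)])], .leaf 4 [(0,[(20,7692960),(12,9067872)]),(0,[(20,3764640),(12,12996192)]),(0,[(27,3961056),(11,8380416),(10,15287712)]),(0,[(28,360096),(11,21114720),(9,16760832)]),(24,[(25,5859744),(27,45003816),(12,401441568),(9,187511808),(3,1464936),(1,183117),(43,187511808)])],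 .leaf 0 [(0,[(25,275968),(27,12396032),(11,20514560),(3,68992),(43,8830976)])], .leaf 0 [(0,[(24,95232),(25,95232),(28,838860),(11,1851816),(8,190464),(0,190464),(43,3047424)])], .leaf 1 [(0,[(28,454212),(11,1080288)])]]
noncomputable def a5 : TT := .leaf ⟨false,0,1,0,1,0,15,[[],[0,0,0,0,16,0,0,0,-2],[],[0,0,0,0,0,0,0,0,3],[],[],[],[],[],[],[]]⟩ [.leaf 0 [(0,[])], .leaf 0 [(0,[(12,2)])], .leaf 0 [(0,[])], .leaf 0 [(0,[])], .leaf 0 [(0,[])], .leaf 0 [(0,[])], .leaf 0 [(0,[])], .leaf 0 [(0,[])], .leaf 0 [(0,[(12,1792)])], .leaf 0 [(0,[])], .leaf 0 [(0,[])], .leaf 0 [(0,[])], .leaf 0 [(0,[])], .leaf 0 [(0,[])], .leaf 0 [(0,[])], .leaf 0 [(0,[(12,1792)])], .leaf 0 [(0,[(0,128)])], .leaf 0 [(0,[])], .leaf 0 [(3360,[(27,775168),(31,1902976),(9,513920),(6,10752),(43,3100672)])], .leaf 0 [(0,[(24,64),(29,64),(44,2048)])], .leaf 0 [(0,[])], .leaf 0 [(24,[(25,1472),(28,1280),(5,64)])], .leaf 0 [(0,[(24,64),(29,64),(12,1728),(10,4096),(44,4096)])],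 .leaf 0 [(1,[(21,64),(9,63),(6,4)]),(2568,[(22,1319936),(9,17920),(6,2048),(4,2048),(2,320)]),(0,[(40,32)]),(29764,[(27,8382528),(31,5711360),(40,7479744),(42,1909184),(12,52527200),(9,4190208),(3,4224),(44,27428608)]),(266,[(22,142336),(34,3840),(13,4096),(9,2048),(6,256)])], .leaf 1 [(0,[])], .leaf 0 [(0,[(12,68)])], .leaf 0 [(0,[(25,64)])], .leaf 0 [(0,[])], .leaf 4 [(6,[(27,1536),(31,1416),(13,128),(9,414),(6,8),(43,6144)]),(112,[(27,25088),(31,34304),(4,512),(43,100352)]),(3658,[(27,531968),(13,1921024),(9,265984),(6,1536),(43,2127872)]),(133,[(27,59104),(31,66916),(40,576),(41,32688),(13,34416),(9,12823),(6,36),(44,38016)]),(160,[(27,24832),(40,82432),(13,74496),(12,118080),(9,13008),(4,256),(43,99328)])], .leaf 0 [(0,[(25,16),(29,64),(10,64),(9,16)])], .leaf 2 [(0,[(0,128)])], .leaf 1 [(5920,[(26,110861),(29,309194),(12,70928),(9,93961),(6,1250),(5,1550),(44,3547552)])], .leaf 1 [(0,[(24,64),(29,64),(12,1728),(10,4096),(44,4096)])],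 .leaf 4 [(2,[(2,16),(0,64)]),(0,[(21,512),(0,32)]),(0,[]),(0,[(13,512),(12,1280),(2,4)]),(0,[(21,512),(0,32)])], .leaf 0 [(0,[])], .leaf 1 [(0,[(24,64),(44,2048)])], .leaf 1 [(0,[(12,68)])]]
noncomputable def a6 : TT := .leaf ⟨true,31,33,0,64,0,261887,[[46035,46035,0,0,0,0,0,-46035,67518],[-36828,-36828,0,0,261888,0,0,36828,-87978],[],[-30690,-30690,0,0,0,0,0,30690,50127],[],[],[0,0,0,0,0,0,0,0,148335],[1485,1485,0,0,0,0,0,-1485,2178],[-1116,-1116,0,0,7936,0,0,1116,-2666],[],[0,0,0,0,7936]]⟩ [.leaf 0 [(0,[(29,1485)])], .leaf 0 [(0,[(28,1116),(12,3782)])], .leaf 0 [(0,[])], .leaf 0 [(0,[(28,369)])], .leaf 0 [(4,[(26,39680),(33,61504),(6,1984),(4,1984),(44,1269760)])], .leaf 0 [(0,[])], .leaf 0 [(0,[])], .leaf 0 [(0,[]),(0,[]),(0,[]),(0,[]),(0,[]),(0,[])], .leaf 0 [(0,[(28,3928320)])], .leaf 0 [(0,[])], .leaf 0 [(0,[(28,32997888),(12,111826176)])], .leaf 0 [(0,[])], .leaf 0 [(0,[])], .leaf 0 [(0,[(29,41247360)])], .leaf 0 [(0,[])],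 .leaf 0 [(0,[])], .leaf 0 [(0,[(29,41247360)])], .leaf 0 [(330,[(25,161846784),(28,9829835136),(12,38457205248),(10,377642496),(4,40461696),(0,13487232)])], .leaf 0 [(0,[(21,14534784),(13,18986880)])], .leaf 0 [(0,[(28,6678144)])], .leaf 0 [(60,[(21,110042064),(22,26925360),(42,48498384),(9,30771840),(6,3846480)])], .leaf 0 [(0,[(26,259072),(28,12526976),(12,20078080),(4,64768),(0,87296),(44,8290304)])], .leaf 0 [(0,[(29,6678144)])], .leaf 0 [(0,[(25,1047552),(28,2749824),(33,1047552)])], .leaf 0 [(0,[(28,35747712),(12,110865920),(10,34918400),(0,87296),(44,33521664)])], .leaf 0 [(640,[(21,173500800),(22,5191667712),(9,86750400),(6,2582976),(4,33043296)]),(330,[(27,813293184),(36,827647920),(9,438269568),(6,7905744),(43,3253172736)]),(0,[(32,6833640),(40,499224),(12,6841824),(9,1546776)]),(162,[(34,297504768),(40,1068503040),(41,5516016000),(12,7366320192),(9,1434687936),(4,12996192),(44,5464031232)]),(0,[(22,8380416),(29,41214624),(42,8380416),(2,65472)])],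 .leaf 1 [(0,[(28,2749824)])], .leaf 0 [(0,[(29,85932),(12,1252152)])], .leaf 0 [(0,[(25,1047552),(28,2958516)])], .leaf 0 [(0,[(29,38497536)])], .leaf 4 [(6,[(21,2095104),(27,25141248),(4,523776),(43,100564992)]),(77398,[(27,243962290176),(9,143909665680),(4,4264715136),(3,257288592),(43,975849160704)]),(0,[(21,13012560),(27,1874136),(36,2316072),(42,990264),(9,1268520),(43,7496544)]),(0,[(27,8380416),(29,44553696),(31,8380416)]),(0,[(40,8380416),(41,27661920),(12,23471712),(9,5082264),(4,65472)])], .leaf 0 [(0,[(28,2749824),(10,2444288),(0,87296)])], .leaf 2 [(0,[(28,10606464),(2,261888)])], .leaf 1 [(4,[(26,394240),(33,697004),(6,22484),(4,8624),(0,436480),(44,12615680)])], .leaf 1 [(0,[(29,5499648),(12,20121728),(10,34918400),(0,87296),(44,33521664)])], .leaf 4 [(0,[(21,7692960),(13,9067872)]),(3,[(13,51984768),(2,117645)]),(0,[(28,3961056),(12,8380416),(11,15287712)]),(0,[(29,360096),(12,21114720),(2,130944)]),(24,[(26,5859744),(28,45003816),(13,401441568),(10,187511808),(4,1464936),(2,183117),(44,187511808)])],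 .leaf 0 [(0,[(26,275968),(28,12396032),(12,20514560),(4,68992),(44,8830976)])], .leaf 0 [(0,[(28,208692),(12,1118480),(0,87296)])], .leaf 1 [(0,[(12,663927),(0,37851)])]]
noncomputable def a7 : TT := .leaf ⟨false,0,1,0,1,1,7,[[],[0,0,0,0,8,0,0,0,-1],[],[0,0,0,0,0,0,0,0,6],[],[],[],[],[],[],[]]⟩ [.leaf 0 [(0,[])], .leaf 0 [(0,[(12,1)])], .leaf 0 [(0,[])], .leaf 0 [(0,[])], .leaf 0 [(0,[])], .leaf 0 [(0,[])], .leaf 0 [(0,[])], .leaf 0 [(0,[])], .leaf 0 [(0,[(12,896)])], .leaf 0 [(0,[])], .leaf 0 [(0,[])], .leaf 0 [(0,[])], .leaf 0 [(0,[])], .leaf 0 [(0,[])], .leaf 0 [(0,[])], .leaf 0 [(0,[(12,896)])], .leaf 0 [(0,[(13,1024)])], .leaf 0 [(0,[])], .leaf 0 [(29728,[(21,5572736),(31,823680),(40,662656),(42,6398080),(4,206336),(3,1664)])], .leaf 0 [(2,[(29,96),(2,1)])], .leaf 0 [(0,[])], .leaf 0 [(24,[(25,736),(28,640),(5,32)])], .leaf 0 [(2,[(29,96),(12,864),(10,3200),(2,1),(44,3072)])], .leaf 0 [(3,[(32,348),(13,64),(9,47),(6,4)]),(464,[(21,26656),(22,68960),(27,1792),(42,34720),(4,1120),(43,7168)]),(0,[(32,224),(12,224)]),(154,[(27,15876),(40,34448),(42,4968),(12,173880),(10,44620),(9,7936),(3,8),(44,95216)]),(156,[(27,2176),(29,1968),(36,30400),(42,9792),(12,46304),(4,1360),(43,8704)])],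 .leaf 1 [(0,[])], .leaf 0 [(0,[(12,52)])], .leaf 0 [(0,[(25,32)])], .leaf 0 [(0,[])], .leaf 4 [(544,[(27,53504),(13,49408),(9,16336),(4,1344),(43,214016)]),(77398,[(27,8165120),(9,4081088),(6,39616),(3,2944),(43,32660480)]),(408,[(27,25856),(36,27696),(13,133888),(9,12928),(6,48),(43,103424)]),(468612,[(27,73465120),(31,49781400),(40,60976992),(13,122159712),(9,24184096),(6,77452),(3,206228),(44,185999232)]),(310,[(27,32000),(40,71168),(13,79360),(12,227904),(9,15872),(3,256),(43,128000)])], .leaf 0 [(2,[(29,96),(10,224),(2,1)])], .leaf 1 [(0,[(0,4)])], .leaf 1 [(92,[(26,268),(29,5053),(12,682),(4,67),(2,31),(44,8576)])], .leaf 1 [(2,[(29,96),(12,864),(10,3200),(2,1),(44,3072)])], .leaf 4 [(0,[(21,256),(13,256)]),(0,[(21,256),(13,256)]),(0,[(13,256),(12,32)]),(0,[(21,256),(41,256),(12,928)]),(3316,[(21,826832),(25,98752),(26,6400),(13,871472),(10,409600),(6,400),(5,496),(1,1600),(44,204800)])], .leaf 0 [(0,[])], .leaf 0 [(2,[(29,96),(12,180),(2,1)])],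 .leaf 1 [(0,[(12,52)])]]
noncomputable def a8 : TT := .leaf ⟨true,31,33,0,64,3,261887,[[0,-17391,-17391,-158565,5115,-163680,0,0,65472,22506],[0,0,0,317130,251658,327360,0,0,-163680,-10230],[],[0,-7161,-7161,221991,-7161,229152],[],[],[0,0,0,-539121,17391,-556512,0,0,294624,17391],[0,-561,-561,-5115,165,-5280,0,0,2112,726],[0,0,0,9610,7626,9920,0,0,-4960,-310],[],[0,0,0,0,7936]]⟩ [.leaf 0 [(31,[(29,165),(31,17787),(3,165)])], .leaf 0 [(42929,[(25,1423272),(26,2337152),(12,165521152),(5,532332),(4,343440),(1,2705091),(0,120424),(44,74788864)])], .leaf 0 [(0,[])], .leaf 0 [(31,[(29,145),(33,18097),(3,145)])], .leaf 0 [(0,[(26,7936),(0,992),(44,253952)])], .leaf 0 [(0,[])], .leaf 0 [(0,[])], .leaf 0 [(0,[]),(0,[]),(0,[]),(0,[]),(0,[]),(0,[])], .leaf 0 [(0,[(1,229152)])], .leaf 0 [(0,[])], .leaf 0 [(7154,[(25,7013884416),(26,11517485056),(12,815688237056),(5,2623332096),(4,1692472320),(1,13330688448),(0,593449472),(44,368559521792)])],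 .leaf 0 [(0,[])], .leaf 0 [(0,[])], .leaf 0 [(0,[(29,143220),(31,15439116),(3,143220)])], .leaf 0 [(0,[])], .leaf 0 [(0,[(29,69564),(33,69564),(3,69564)])], .leaf 0 [(0,[(29,73656),(31,15508680),(3,73656)])], .leaf 0 [(8,[(25,87897152),(26,70732160),(12,460549888),(6,2592608),(5,7316000),(4,7312608),(44,2263429120)])], .leaf 0 [(0,[(21,90024),(31,1219416),(13,33431640),(3,90024)])], .leaf 0 [(0,[(33,4190208),(1,261888)])], .leaf 0 [(1214092,[(27,8460279793152),(31,4625632940544),(34,11090936372736),(42,21092697314304),(7,96342571776),(4,272293857792),(3,19170201600),(43,33841119172608)])], .leaf 0 [(51882,[(12,979701009408),(6,624915456),(5,9470917632),(4,4981954560),(2,877881312),(1,40111879104)])], .leaf 0 [(0,[(29,32736),(31,3109920),(3,32736)])], .leaf 0 [(0,[(25,371712),(26,675840),(31,523776),(10,43253760),(1,561792),(0,84480),(44,21626880)])], .leaf 0 [(315574,[(25,1038403204608),(12,34269582606336),(5,95868554496),(4,51186769920),(2,11916984288),(1,742941621312),(0,76087773696),(44,10578599116800)])],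 .leaf 0 [(46,[(22,401389736),(27,43537516),(9,26414883),(6,929225),(4,929225),(43,174150064)]),(212230,[(22,1289395681728),(27,376343531520),(42,1310819036736),(9,197883031104),(3,8700835968),(0,5943237168),(43,1505374126080)]),(0,[(32,2070552),(36,1792296),(12,11408496),(9,57816),(4,57816)]),(6696,[(12,894512476704),(9,4432127040),(5,2467967040),(4,1365931776),(0,656165664),(44,224494583808)]),(0,[(31,4736490),(40,15604842),(42,1155990),(3,108438)])], .leaf 1 [(0,[(31,1571328),(12,15189504),(1,392832)])], .leaf 0 [(0,[(33,49104),(12,703824),(10,1522224)])], .leaf 0 [(0,[(25,172032),(26,875520),(31,83328),(10,56033280),(6,43776),(4,43776),(1,619896),(44,28016640)])], .leaf 0 [(0,[(29,94116),(31,18630876),(3,94116)])], .leaf 4 [(142360,[(27,1171707863040),(31,1350280296024),(9,41339544576),(4,36438760776),(3,1166604648),(43,4686831452160)]),(0,[(32,1047552),(11,7332864),(9,515592)]),(858,[(27,5773233664),(31,9124254304),(34,855298928),(13,6316967712),(9,1091431880),(3,26510704),(43,23092934656)]),(0,[(27,8380416),(28,8176839),(31,26083431),(3,203577)]),(2,[(32,10410048),(13,25141248),(12,334338224),(9,4345704),(0,46640)])],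 .leaf 0 [(4292,[(25,451494912),(26,106151936),(29,4497140736),(31,6745711104),(12,63151846912),(2,46845216),(1,1573554048),(0,13268992),(44,3396861952)])], .leaf 0 [(0,[(33,916608),(1,239382)])], .leaf 1 [(1,[(26,248512),(29,1803890),(33,389422),(6,9394),(2,20801),(44,7952384)])], .leaf 1 [(2,[(25,3491840),(29,3142656),(31,37711872),(12,342549504),(2,32736),(1,3742816),(44,100564992)])], .leaf 1 [(0,[(21,8401899),(33,708939),(13,8358933),(3,21483)]),(74,[(26,78247136),(13,801377280),(12,697435024),(5,12570624),(0,954448),(44,2503908352)]),(0,[(21,8463279),(31,1455729),(13,8297553),(3,82863)]),(0,[(25,1484373),(26,3065931),(31,12570624),(41,5925216),(13,1407648),(12,97422336),(44,131631456)]),(0,[(21,8418267),(31,1500741),(41,1047552),(13,7295013),(10,32474112),(3,37851)])], .leaf 0 [(74,[(26,238168832),(12,1312626304),(5,12570624),(4,8110080),(2,1988712),(0,1851520),(44,7621402624)])], .leaf 0 [(24,[(25,556512),(29,23569920),(12,47270784),(5,130944),(2,272800)])],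 .leaf 1 [(115,[(28,9276564),(6,304854),(3,173910),(2,50809)])]]
noncomputable def a9 : TT := .leaf ⟨false,0,1,0,1,1,7,[[],[0,0,0,0,8,0,0,0,-1],[],[0,0,0,0,0,0,0,0,6],[],[],[],[],[],[],[]]⟩ [.leaf 0 [(0,[])], .leaf 0 [(0,[(12,1)])], .leaf 0 [(0,[])], .leaf 0 [(0,[])], .leaf 0 [(0,[])], .leaf 0 [(0,[])], .leaf 0 [(0,[])], .leaf 0 [(0,[])], .leaf 0 [(0,[(12,896)])], .leaf 0 [(0,[])], .leaf 0 [(0,[])], .leaf 0 [(0,[])], .leaf 0 [(0,[])], .leaf 0 [(0,[])], .leaf 0 [(0,[])], .leaf 0 [(0,[(12,896)])], .leaf 0 [(0,[(13,1024)])], .leaf 0 [(0,[])], .leaf 0 [(18025662,[(27,77066496),(40,1588604672),(9,198985280),(6,32091072),(4,32087744),(3,103168),(43,308265984)])], .leaf 0 [(2,[(29,96),(2,1)])], .leaf 0 [(0,[])], .leaf 0 [(0,[(25,32),(33,32)])], .leaf 0 [(2,[(29,96),(12,864),(10,3200),(2,1),(44,3072)])], .leaf 0 [(650,[(22,52992),(27,1280),(36,69440),(9,2880),(4,2240),(43,5120)]),(232,[(27,2304),(13,3584),(9,3784),(6,224),(43,9216)]),(0,[(32,224),(12,224)]),(154,[(27,15876),(40,34448),(42,4968),(12,173880),(10,44620),(9,7936),(3,8),(44,95216)]),(336,[(27,36288),(42,83328),(12,116672),(4,2688),(43,145152)])],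 .leaf 1 [(0,[])], .leaf 0 [(0,[(12,52)])], .leaf 0 [(0,[(25,32)])], .leaf 0 [(0,[])], .leaf 4 [(544,[(27,53504),(41,22016),(13,27392),(9,16336),(4,1344),(43,214016)]),(80,[(27,4352),(9,2160),(3,32),(43,17408)]),(3658,[(27,265984),(32,43712),(13,960512),(9,143920),(6,768),(43,1063936)]),(1504032,[(27,241840000),(31,171136320),(40,191895424),(13,345949568),(9,68198528),(4,1239232),(3,666688),(44,572769792)]),(2592,[(27,532736),(31,655360),(41,663552),(12,3145152),(9,102400),(3,256),(43,2130944)])], .leaf 0 [(2,[(29,96),(10,224),(2,1)])], .leaf 1 [(0,[(0,8)])], .leaf 1 [(142599,[(26,495264),(29,3067760),(12,303552),(6,26800),(5,33232),(2,46841),(44,15848448)])], .leaf 1 [(2,[(29,96),(12,864),(10,3200),(2,1),(44,3072)])], .leaf 4 [(0,[(21,256),(13,256)]),(0,[(21,256),(13,256)]),(0,[(12,256),(11,32)]),(0,[(21,256),(13,256),(12,928)]),(3316,[(21,826832),(25,105152),(13,871472),(6,400),(5,496),(0,1600)])], .leaf 0 [(0,[])], .leaf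 0 [(2,[(29,96),(12,180),(2,1)])], .leaf 1 [(0,[(12,52)])]]
noncomputable def a10 : TT := .leaf ⟨true,31,33,0,64,0,261887,[[46035,46035,0,0,0,0,0,-46035,67518],[-36828,-36828,0,0,261888,0,0,36828,-87978],[],[-30690,-30690,0,0,0,0,0,30690,50127],[],[],[0,0,0,0,0,0,0,0,148335],[1485,1485,0,0,0,0,0,-1485,2178],[-1116,-1116,0,0,7936,0,0,1116,-2666],[],[0,0,0,0,7936]]⟩ [.leaf 0 [(0,[(26,1485)])], .leaf 0 [(0,[(25,1116),(9,3782)])], .leaf 0 [(0,[])], .leaf 0 [(0,[(25,369)])], .leaf 0 [(0,[(23,7936),(25,15376),(30,15376),(3,496),(41,253952)])], .leaf 0 [(0,[])], .leaf 0 [(0,[])], .leaf 0 [(0,[]),(0,[]),(0,[]),(0,[]),(0,[]),(0,[])], .leaf 0 [(0,[(25,3928320)])], .leaf 0 [(0,[])], .leaf 0 [(0,[(25,32997888),(9,111826176)])], .leaf 0 [(0,[])], .leaf 0 [(0,[])], .leaf 0 [(0,[(26,41247360)])], .leaf 0 [(0,[])], .leaf 0 [(0,[])], .leaf 0 [(0,[(26,41247360)])], .leaf 0 [(138,[(23,215795712),(25,5004810624),(30,418104192),(9,16092493824),(7,7121258496),(3,13487232),(41,6905462784)])],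 .leaf 0 [(0,[(18,14534784),(10,18986880)])], .leaf 0 [(0,[(25,6678144)])], .leaf 0 [(20290,[(18,148958751744),(19,112512322560),(39,145411740672),(6,1773505536),(3,221688192),(2,4824369792)])], .leaf 0 [(0,[(0,130944)])], .leaf 0 [(0,[(26,6678144)])], .leaf 0 [(0,[(22,1047552),(25,2749824),(30,1047552)])], .leaf 0 [(0,[(25,21212928),(9,82756608),(7,67043328),(0,130944),(41,33521664)])], .leaf 0 [(33792,[(18,6897606144),(19,293331320832),(6,15145735968),(3,431100384),(2,817876224)]),(3576,[(19,27795941184),(24,1530375264),(39,9774020256),(3,58662912),(40,6121501056)]),(0,[(37,7332864),(10,6187104),(9,654720),(6,1546776)]),(10672,[(37,71918635008),(10,401030403840),(9,485383808448),(6,103626921024),(3,143547360),(2,523023072),(41,357776719872)]),(0,[(19,8380416),(26,41214624),(39,8380416),(1,65472)])], .leaf 1 [(0,[(25,2749824)])], .leaf 0 [(0,[(26,85932),(9,1252152)])], .leaf 0 [(0,[(22,1047552),(25,2958516)])], .leaf 0 [(0,[(26,38497536)])],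 .leaf 4 [(748,[(19,2260617216),(24,2690113536),(2,76765920),(40,10760454144)]),(14734,[(24,53401058304),(6,31660262304),(3,209444928),(2,514577184),(40,213604233216)]),(72,[(24,265379840),(26,198063712),(3,1396736),(40,1061519360)]),(0,[(24,8380416),(26,44553696),(28,8380416)]),(480,[(37,3771187200),(38,14541429408),(9,11423849184),(6,2688632232),(3,8380416)])], .leaf 0 [(0,[(22,261888),(25,1702272),(7,1047552),(6,261888)])], .leaf 2 [(0,[(25,10606464),(1,261888)])], .leaf 1 [(4,[(23,1614976),(26,5075444),(30,591976),(9,2116928),(6,1309440),(3,19096),(41,51679232)])], .leaf 1 [(0,[(21,1047552),(26,6547200),(9,21081984),(7,67043328),(41,67043328)])], .leaf 4 [(0,[(18,7692960),(10,9067872)]),(0,[(18,3764640),(10,12996192)]),(36,[(10,591954176),(9,1211232),(0,1320352)]),(0,[(26,360096),(9,21114720),(1,130944)]),(58,[(23,93755904),(25,634816512),(30,181652064),(10,707621376),(7,3000188928),(3,5859744),(1,2929872),(41,3000188928)])],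 .leaf 0 [(0,[(10,1047552),(0,130944)])], .split 1 0 (.leaf 1 [(0,[(0,1)])]) (.leaf 0 [(5458,[(22,4034122752),(1,2948466048),(0,20909),(42,129091928064)])]), .leaf 1 [(0,[(26,454212),(9,1080288)])]]
noncomputable def a11 : TT := .leaf ⟨false,0,1,0,1,1,7,[[],[0,0,0,0,8,0,0,0,-1],[],[0,0,0,0,0,0,0,0,6],[],[],[],[],[],[],[]]⟩ [.leaf 0 [(0,[])], .leaf 0 [(0,[(9,1)])], .leaf 0 [(0,[])], .leaf 0 [(0,[])], .leaf 0 [(0,[])], .leaf 0 [(0,[])], .leaf 0 [(0,[])], .leaf 0 [(0,[])], .leaf 0 [(0,[(9,896)])], .leaf 0 [(0,[])], .leaf 0 [(0,[])], .leaf 0 [(0,[])], .leaf 0 [(0,[])], .leaf 0 [(0,[])], .leaf 0 [(0,[])], .leaf 0 [(0,[(9,896)])], .leaf 0 [(0,[(10,1024)])], .leaf 0 [(0,[])], .leaf 0 [(3112,[(29,21632),(37,320000),(10,206336),(6,78208),(3,6656)])], .leaf 0 [(0,[(21,32),(26,32),(41,1024)])], .leaf 0 [(0,[])], .leaf 0 [(0,[(22,32),(30,32)])], .leaf 0 [(0,[(21,32),(26,32),(9,288),(7,2048),(41,2048)])], .leaf 0 [(3,[(29,348),(10,64),(6,47),(3,4)]),(15676,[(19,364032),(10,390656),(6,181888),(4,3360),(3,14336)]),(0,[(29,224),(9,224)]),(634,[(24,102912),(28,73216),(39,70144),(9,922048),(6,47616),(2,768),(41,238592)]),(960,[(29,178560),(10,67456),(9,327360),(6,25568),(3,2176)])],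 .leaf 1 [(0,[])], .leaf 0 [(0,[(9,52)])], .leaf 0 [(0,[(22,32)])], .leaf 0 [(0,[])], .leaf 4 [(537160,[(24,36083968),(37,27498496),(10,119514112),(6,18041984),(4,1311936),(3,96512),(40,144335872)]),(1826,[(20,243712),(24,165632),(6,22272),(2,5632),(40,662528)]),(3658,[(24,265984),(29,43712),(10,960512),(6,143920),(3,768),(40,1063936)]),(7900,[(24,1726848),(28,1872256),(37,51200),(10,2121856),(9,1533120),(6,395360),(3,3200),(41,1183232)]),(164,[(24,18624),(37,39040),(10,39680),(9,121152),(7,125632),(6,7936),(2,128),(40,74496)])], .leaf 0 [(7,[(22,66),(26,153),(6,66),(0,1)])], .leaf 2 [(6024,[(23,50176),(25,1528672),(30,97216),(10,4524032),(9,1605632),(3,3136),(0,12896),(41,1605632)])], .leaf 1 [(30,[(23,760),(30,992),(9,7440),(6,248),(3,32),(41,24320)])], .leaf 1 [(0,[(21,32),(26,32),(9,288),(7,2048),(41,2048)])], .leaf 3 [(30,[(18,4384),(10,11232),(0,32)]),(358,[(10,144640),(0,512)]),(358,[(10,136448),(0,544)]),(0,[(10,256),(9,864),(7,1536),(41,1024)]),(4360,[(23,171520),(25,1791104),(30,332320),(10,2047232),(7,5488640),(3,10720),(0,23200),(41,5488640)])],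 .leaf 0 [(0,[])], .leaf 1 [(0,[(21,32),(41,1024)])], .leaf 1 [(0,[(9,52)])]]
noncomputable def a12 : TT := .leaf ⟨true,31,33,0,64,3,261887,[[0,-17391,-17391,-158565,5115,-163680,0,0,65472,22506],[0,0,0,317130,251658,327360,0,0,-163680,-10230],[],[0,-7161,-7161,221991,-7161,229152],[],[],[0,0,0,-539121,17391,-556512,0,0,294624,17391],[0,-561,-561,-5115,165,-5280,0,0,2112,726],[0,0,0,9610,7626,9920,0,0,-4960,-310],[],[0,0,0,0,7936]]⟩ [.leaf 0 [(91,[(26,139194),(30,111804),(7,473044),(3,66),(2,7062),(1,11)])], .leaf 0 [(10575,[(22,1785120),(23,3049408),(30,4799808),(32,1493440),(10,1521248),(9,34632704),(3,97248),(1,31403),(41,97581056)])], .leaf 0 [(0,[])], .leaf 0 [(6347,[(26,8298114),(30,13344444),(7,28711444),(3,4746),(2,422262),(1,791)])], .leaf 0 [(1432,[(23,11126272),(30,38747520),(32,1476096),(3,603136),(2,861056),(1,15376),(0,61504),(41,356040704)])], .leaf 0 [(0,[])], .leaf 0 [(0,[])], .leaf 0 [(0,[]),(0,[]),(0,[]),(0,[]),(0,[]),(0,[])],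 .leaf 0 [(0,[(0,229152)])], .leaf 0 [(0,[])], .leaf 0 [(660,[(22,3298901760),(23,5635305984),(30,8870045184),(32,2759877120),(10,2811266304),(9,64001236992),(3,179714304),(1,58032744),(41,180329791488)])], .leaf 0 [(0,[])], .leaf 0 [(0,[])], .leaf 0 [(22,[(26,966563136),(30,776366976),(7,3284817536),(3,458304),(2,49038528),(1,76384)])], .leaf 0 [(0,[])], .leaf 0 [(528,[(26,11113020864),(30,12955730304),(7,36634508416),(3,3470016),(2,561029568),(1,578336)])], .leaf 0 [(528,[(26,11117931264),(30,4900710144),(7,38916294912),(3,7070976),(2,566856576),(1,1178496)])], .leaf 0 [(660,[(22,5693626752),(23,6973291776),(30,15646025472),(32,1836569856),(10,8115828864),(9,59731415040),(3,321045120),(1,103670820),(41,223145336832)])], .leaf 0 [(0,[(18,10172712),(30,16605336),(10,21908568),(7,92184576),(3,90024),(2,720192)])], .leaf 0 [(0,[(30,4190208),(0,261888)])], .leaf 0 [(12838,[(24,113581349376),(39,165660920832),(6,16376904192),(3,250364928),(2,8671111680),(40,454325397504)])],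 .leaf 0 [(88,[(23,323566848),(30,503086848),(10,36926208),(9,2165551872),(3,4198656),(1,4026528),(41,10354139136)])], .leaf 0 [(0,[(26,10475520),(30,8904192),(7,32474112),(2,523776)])], .leaf 0 [(2560,[(23,3050471424),(30,11312514048),(10,515395584),(7,200727724032),(3,190654464),(2,269744640),(1,5368704),(0,1811610240),(41,97615085568)])], .leaf 0 [(660,[(22,4840644864),(23,5903479296),(30,9828825600),(32,2256781824),(10,4116262656),(9,61503873024),(3,227918592),(1,73598712),(41,211069157376)])], .leaf 0 [(320,[(19,3236433728),(24,448308608),(39,1183624640),(6,61565504),(2,32517760),(40,1793234432)]),(82,[(24,368299008),(7,1441915200),(6,290957568),(3,9090048),(40,1473196032)]),(30,[(29,105409920),(10,14338368),(9,364417152),(6,5434704),(3,462528)]),(30,[(30,233473152),(10,69072960),(9,4584480384),(6,38489616),(3,3275712),(41,1039171584)]),(78,[(24,439464960),(28,1422902976),(7,3061646016),(6,431264064),(3,18002688),(40,1757859840)])],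 .leaf 1 [(6,[(22,229152),(23,3044448),(28,10999296),(9,106326528),(1,31713),(0,1931424),(41,97422336)])], .leaf 0 [(0,[(30,49104),(9,703824),(7,1522224)])], .leaf 0 [(2560,[(23,3050471424),(30,8965080960),(10,515395584),(7,200727724032),(3,190654464),(2,269744640),(1,5368704),(0,1832569464),(41,97615085568)])], .leaf 2 [(0,[(26,31164672),(30,15909696),(7,128281472),(2,1505856),(1,10912),(41,33521664)])], .leaf 4 [(18,[(24,69836800),(7,770649088),(6,35384888),(3,1865270),(40,279347200)]),(0,[(37,8380416),(6,253704)]),(1356,[(24,10649086272),(28,1154960862),(7,40912241568),(6,16302528),(3,5622408),(2,577325958),(40,42596345088)]),(1356,[(24,10700154432),(28,1997004438),(7,285236330016),(6,1285935552),(3,405492648),(2,1197124830),(41,2688280320)]),(30,[(29,98895456),(10,268467936),(9,3468804768),(6,42736848),(3,279840)])], .leaf 0 [(22,[(22,25272192),(23,23303808),(28,12046848),(9,132515328),(3,777216),(1,364188),(41,745721856)])],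 .leaf 0 [(0,[(30,916608),(0,239382)])], .leaf 1 [(22,[(26,20541840),(30,4681248),(3,114576),(1,270072),(0,175956)])], .leaf 1 [(2,[(22,3491840),(26,3142656),(28,37711872),(9,342549504),(1,32736),(0,3742816),(41,100564992)])], .leaf 1 [(0,[(18,10807995),(30,4962573),(10,5609109),(7,21998592),(3,21483),(2,171864)]),(4,[(23,7845024),(32,23782704),(10,15713280),(9,69220272),(3,91344),(41,251040768)]),(0,[(18,15435024),(26,2308911),(30,14951145),(7,84851712),(3,82863),(2,662904)]),(0,[(22,1854699),(23,2695605),(28,12570624),(10,7332864),(9,97422336),(41,119781024)]),(190,[(18,3141608448),(30,1735908240),(7,13493680992),(3,3731904),(2,85817424)])], .leaf 0 [(14,[(23,54407936),(30,62853120),(32,21693056),(9,366686848),(3,699776),(1,450120),(41,1741053952)])], .leaf 0 [(0,[(26,1047552),(30,130944),(9,2095104),(1,10912),(0,8184)])], .leaf 1 [(3,[(25,697686),(30,173910),(3,22506),(1,3751)])]]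
noncomputable def a13 : TT := .leaf ⟨false,0,1,0,1,1,7,[[],[0,0,0,0,8,0,0,0,-1],[],[0,0,0,0,0,0,0,0,6],[],[],[],[],[],[],[]]⟩ [.leaf 0 [(0,[])], .leaf 0 [(0,[(10,1)])], .leaf 0 [(0,[])], .leaf 0 [(0,[])], .leaf 0 [(0,[])], .leaf 0 [(0,[])], .leaf 0 [(0,[])], .leaf 0 [(0,[])], .leaf 0 [(0,[(10,896)])], .leaf 0 [(0,[])], .leaf 0 [(0,[])], .leaf 0 [(0,[])], .leaf 0 [(0,[])], .leaf 0 [(0,[])], .leaf 0 [(0,[])], .leaf 0 [(0,[(10,896)])], .leaf 0 [(0,[(11,1024)])], .leaf 0 [(0,[])], .leaf 0 [(0,[(40,1024),(11,1024)])], .leaf 0 [(2,[(27,96),(2,1)])], .leaf 0 [(0,[])], .leaf 0 [(0,[(23,32),(31,32)])], .leaf 0 [(2,[(27,96),(10,864),(8,3200),(2,1),(42,3072)])], .leaf 0 [(3,[(30,348),(11,64),(7,47),(4,4)]),(72,[(20,4128),(38,480),(11,1984),(7,15520),(4,64)]),(0,[(30,224),(10,224)]),(18424,[(25,2975232),(29,2711296),(40,1910272),(10,26807872),(7,1523712),(4,3072),(42,6966272)]),(960,[(30,178560),(11,67456),(10,327360),(7,25568),(4,2176)])],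 .leaf 1 [(0,[])], .leaf 0 [(0,[(10,52)])], .leaf 0 [(0,[(23,32)])], .leaf 0 [(0,[])], .leaf 4 [(2,[(25,360),(38,304),(11,608),(7,94),(3,8),(41,1440)]),(448724,[(25,49264896),(38,108443648),(7,22062080),(4,14592),(3,239104),(41,197059584)]),(5394,[(25,392000),(38,43712),(11,1418816),(7,196000),(4,1216),(41,1568000)]),(95254,[(25,8489344),(11,25063808),(10,668096),(7,4942720),(4,21888),(1,698048),(42,63583744)]),(80,[(25,16640),(29,20736),(39,20736),(10,98496),(7,3200),(1,64),(41,66560)])], .leaf 0 [(2,[(27,96),(8,224),(2,1)])], .leaf 1 [(0,[(0,8)])], .leaf 1 [(1394,[(24,4288),(27,36332),(31,8308),(10,14384),(4,268),(2,465),(42,137216)])], .leaf 1 [(2,[(27,96),(10,864),(8,3200),(2,1),(42,3072)])], .leaf 4 [(0,[(19,256),(11,256)]),(0,[(19,256),(11,256)]),(0,[(28,224),(10,64)]),(0,[(19,256),(11,256),(10,928)]),(216,[(19,54560),(23,6944),(31,992),(11,56544),(4,32),(0,128)])], .leaf 0 [(0,[])], .leaf 0 [(2,[(27,96),(10,180),(2,1)])],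 .leaf 1 [(0,[(10,52)])]]
noncomputable def a14 : TT := .leaf ⟨true,0,33,31,64,3,32735,[[],[0,0,0,0,32736,0,0,0,-6138],[0,0,0,0,0,0,0,0,4092],[0,0,0,0,0,0,0,0,7161],[0,0,0,0,0,0,0,0,3069],[],[],[],[0,0,0,0,992,0,0,0,-186],[0,0,0,0,0,0,0,0,132],[0,0,0,0,992]]⟩ [.leaf 0 [(0,[])], .leaf 0 [(0,[(5,186)])], .leaf 0 [(0,[])], .leaf 0 [(0,[])], .leaf 0 [(0,[])], .leaf 0 [(0,[])], .leaf 0 [(24,[(14,1010972),(24,103788),(35,3844),(6,126852),(2,226796),(0,7688)])], .leaf 0 [(0,[]),(0,[]),(0,[]),(0,[]),(0,[]),(0,[])], .leaf 0 [(0,[])], .leaf 0 [(0,[])], .leaf 0 [(0,[(5,5892480)])], .leaf 0 [(0,[])], .leaf 0 [(0,[])], .leaf 0 [(0,[])], .leaf 0 [(0,[])], .leaf 0 [(0,[])], .leaf 0 [(0,[])], .leaf 0 [(0,[(5,5499648)])], .leaf 0 [(0,[(6,4190208)])], .leaf 0 [(0,[])], .leaf 0 [(0,[(15,2291520),(24,2291520),(35,1898688),(6,1898688)])], .leaf 0 [(14,[(22,2400640),(26,742016),(2,392832),(1,130944),(0,152768)])], .leaf 0 [(0,[])], .leaf 0 [(4,[(28,349184),(5,2029632),(3,698368),(0,21824)])],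 .leaf 0 [(14,[(22,2400640),(26,742016),(5,17481024),(3,63551488),(2,392832),(1,130944),(0,152768),(37,62853120)])], .leaf 0 [(0,[(15,1751376),(24,703824),(35,343728),(6,343728)]),(0,[(15,1047552),(35,1047552),(6,1047552)]),(0,[(25,916608),(5,32736)]),(24,[(20,10148160),(33,20034432),(35,4713984),(5,21442080),(3,36336960),(2,5237760),(1,65472),(37,64162560)]),(0,[(15,1047552),(35,1047552)])], .leaf 1 [(0,[(5,523776)])], .leaf 0 [(0,[(5,118668)])], .leaf 0 [(66,[(24,4583040),(34,5237760),(5,31307892),(3,5237760),(2,1047552),(0,327360)])], .leaf 0 [(0,[])], .leaf 4 [(4,[(15,2651616),(16,4190208),(20,1047552),(21,1047552),(24,3699168),(35,1538592),(6,5728800),(36,4190208)]),(292,[(16,200693504),(20,102572800),(21,78610048),(24,104798848),(33,200693504),(2,5237760),(1,65472),(36,410291200)]),(4,[(14,3142656),(20,1047552),(6,5237760),(2,1309440),(36,4190208)]),(0,[(20,1047552),(21,1047552),(24,1047552)]),(190,[(20,170750976),(24,188559360),(34,188559360),(5,1247830848),(2,36664320),(1,523776),(36,683003904)])],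 .leaf 0 [(24,[(22,2924416),(24,305536),(5,13116224),(3,3971968),(2,654720),(0,21824)])], .leaf 0 [(16,[(14,6809088),(28,392832),(6,1702272),(2,1702272),(0,130944)])], .leaf 1 [(24,[(14,8995239),(24,201531),(35,1545753),(6,269049),(2,2198427),(0,124806)])], .leaf 1 [(14,[(22,2400640),(26,742016),(5,72477504),(3,63551488),(2,392832),(1,130944),(0,152768),(37,62853120)])], .leaf 4 [(0,[(14,1047552),(6,1047552)]),(0,[(14,1047552),(6,1047552)]),(0,[(5,654720)]),(0,[(34,1047552),(5,5106816),(3,1047552)]),(0,[(14,1047552),(6,1047552)])], .leaf 0 [(0,[])], .leaf 1 [(0,[(17,130944),(37,4190208)])], .leaf 1 [(0,[(5,151404)])]]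
noncomputable def a15 : TT := .leaf ⟨true,0,33,31,64,3,32735,[[],[0,0,0,0,32736,0,0,0,-6138],[0,0,0,0,0,0,0,0,4092],[0,0,0,0,0,0,0,0,7161],[0,0,0,0,0,0,0,0,3069],[],[],[],[0,0,0,0,992,0,0,0,-186],[0,0,0,0,0,0,0,0,132],[0,0,0,0,992]]⟩ [.leaf 0 [(0,[])], .leaf 0 [(0,[(4,186)])], .leaf 0 [(0,[])], .leaf 0 [(0,[])], .leaf 0 [(0,[])], .leaf 0 [(0,[])], .leaf 0 [(60,[(13,107632),(34,84568),(5,169136),(1,38440),(0,3844)])], .leaf 0 [(0,[]),(0,[]),(0,[]),(0,[]),(0,[]),(0,[])], .leaf 0 [(0,[])], .leaf 0 [(0,[])], .leaf 0 [(0,[(4,5892480)])], .leaf 0 [(0,[])], .leaf 0 [(0,[])], .leaf 0 [(0,[])], .leaf 0 [(0,[])], .leaf 0 [(0,[])], .leaf 0 [(0,[])], .leaf 0 [(0,[(4,5499648)])], .leaf 0 [(0,[(5,4190208)])], .leaf 0 [(0,[])], .leaf 0 [(0,[(14,2291520),(23,2291520),(34,1898688),(5,1898688)])], .leaf 0 [(0,[(16,130944),(21,130944),(36,4190208)])], .leaf 0 [(0,[])], .leaf 0 [(0,[(20,49104),(27,40920),(4,560604),(2,130944),(0,4092)])], .leaf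 0 [(0,[(16,130944),(21,130944),(4,1309440),(2,8380416),(36,8380416)])], .leaf 0 [(0,[(14,1047552),(34,1047552),(5,1047552)]),(0,[(14,2095104),(23,1047552)]),(0,[(4,949344)]),(0,[(14,1047552),(32,916608),(34,130944),(4,818400),(2,4321152),(36,4190208)]),(0,[(14,1047552),(34,1047552)])], .leaf 1 [(0,[(4,523776)])], .leaf 0 [(0,[(4,118668)])], .leaf 0 [(0,[(20,90024),(23,90024),(4,761112),(2,130944),(0,4092)])], .leaf 0 [(0,[])], .leaf 4 [(0,[(15,349184),(19,349184),(20,698368),(34,1047552),(5,1396736),(35,1396736)]),(4,[(15,1047552),(19,2095104),(20,4190208),(32,5237760),(35,8380416)]),(1542,[(19,464065536),(5,1650941952),(1,236746752),(0,1571328),(35,1856262144)]),(0,[(19,1047552),(20,1047552),(23,1047552)]),(0,[(15,1047552),(32,1047552),(33,1047552),(4,4517568),(2,5237760)])], .leaf 0 [(4,[(21,564696),(23,90024),(4,2737548),(2,785664),(1,130944),(0,4092)])], .leaf 0 [(0,[(20,49104),(27,40920),(4,785664),(0,4092)])], .leaf 1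 [(178,[(21,19387896),(23,4051080),(4,26581632),(1,4386624),(0,184140)])], .leaf 1 [(0,[(16,130944),(21,130944),(4,4975872),(2,8380416),(36,8380416)])], .leaf 4 [(0,[(13,1047552),(5,1047552)]),(0,[(13,1047552),(5,1047552)]),(0,[(33,654720)]),(0,[(33,1047552),(4,5106816),(2,1047552)]),(0,[(13,1047552),(5,1047552)])], .leaf 0 [(0,[])], .leaf 1 [(0,[(16,130944),(36,4190208)])], .leaf 1 [(0,[(4,151404)])]]
noncomputable def t0 : TT := (.split [10,-12,10,-32,416,-112,0,22,-29,22] (.split [16,0,16,-32,-48,-96,0,16,-3,14] (.split [-47,0,15,-16,496,512,0,31,217,-31] a0 (.split [20,43,23,0,64,64,0,-20,6,-25] (.split [27,31,-4,-4,124,128,0,-31,93,0] a1 (.split [1,2,1,992,-32,1024,0,-1,-1,-33] (.split [0,0,0,-16,-16,0,0,12,-1,0] a2 a3) (.w 2 (.split [-1,-1,0,32,0,-32,0,0,1,0] a4 (.split [0,0,0,-16,-16,0,0,12,-1,0] a5 a6)) (.split [-8,0,-8,-8,248,256,0,0,155,0] a7 a8) a9))) (.w 2 (.split [-111,-111,0,256,256,0,0,103,-103,0] a10 a11) a12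 a13))) a14) a15)
theorem c0 : chkT (fsm (-1) ([4,4,-1,0,0,0,0,0,0,0] : Fm) :: fsm (-1) ([0,0,0,1,-1,0,0,0,0,0] : Fm) :: ([0,0,0,0,0,0,0,1,-1,0] : Fm) :: fsm (-1) ([0,0,0,0,-2,0,0,0,1,0] : Fm) :: ([0,0,0,-1,-1,0,0,1,-1,0] : Fm) :: K1O11.C0) t0 = true := by decide +kernel
end K1O11M01011

namespace K1O11M010100
theorem top : ∃ t, chkT (([0,0,-1,0,0,4,0,0,0,0] : Fm) :: ([4,4,-1,0,0,0,0,0,0,0] : Fm) :: fsm (-1) ([0,0,0,1,-1,0,0,0,0,0] : Fm) :: ([0,0,0,0,0,0,0,1,-1,0] : Fm) :: fsm (-1) ([0,0,0,0,-2,0,0,0,1,0] : Fm) :: ([0,0,0,-1,-1,0,0,1,-1,0] : Fm) :: K1O11.C0) t = true := ⟨_, (spl (spl (spl (spl (spl c0 (spl c1 c2)) c3) c4) c5) c6)⟩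
end K1O11M010100
namespace K1O11M010101
theorem top : ∃ t, chkT (fsm (-1) ([0,0,-1,0,0,4,0,0,0,0] : Fm) :: ([4,4,-1,0,0,0,0,0,0,0] : Fm) :: fsm (-1) ([0,0,0,1,-1,0,0,0,0,0] : Fm) :: ([0,0,0,0,0,0,0,1,-1,0] : Fm) :: fsm (-1) ([0,0,0,0,-2,0,0,0,1,0] : Fm) :: ([0,0,0,-1,-1,0,0,1,-1,0] : Fm) :: K1O11.C0) t = true := ⟨_, c0⟩
end K1O11M010101
namespace K1O11M01011
theorem top : ∃ t, chkT (fsm (-1) ([4,4,-1,0,0,0,0,0,0,0] : Fm) :: fsm (-1) ([0,0,0,1,-1,0,0,0,0,0] : Fm) :: ([0,0,0,0,0,0,0,1,-1,0] : Fm) :: fsm (-1) ([0,0,0,0,-2,0,0,0,1,0] : Fm) :: ([0,0,0,-1,-1,0,0,1,-1,0] : Fm) :: K1O11.C0) t = true := ⟨_, c0⟩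
end K1O11M01011
def K1O11P0101 := (splE (splE K1O11M010100.top K1O11M010101.top) K1O11M01011.top)

end Vale.Agent.P235
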