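import Vale.Agent.P235.T.K1O12C

namespace Vale.Agent.P235

set_option maxRecDepth 100000

namespace K1O12M00000
noncomputable def a0 : TT := .leaf ⟨true,0,33,31,64,3,8183,[[],[0,0,0,0,4092],[0,0,0,0,2046],[0,0,0,0,-3069,0,0,0,5115],[0,0,0,0,6138],[],[],[],[0,0,0,0,124],[0,0,0,0,66],[0,0,0,0,248]]⟩ [.leaf 0 [(0,[])], .leaf 0 [(0,[])], .leaf 0 [(0,[])], .leaf 0 [(0,[])], .leaf 0 [(0,[])], .leaf 0 [(0,[])], .leaf 0 [(0,[(3,7688)])], .leaf 0 [(0,[]),(0,[]),(0,[]),(0,[]),(0,[]),(0,[])], .leaf 0 [(0,[(5,196416)])], .leaf 0 [(0,[])], .leaf 0 [(0,[])], .leaf 0 [(0,[])], .leaf 0 [(0,[])], .leaf 0 [(0,[])], .leaf 0 [(0,[])], .leaf 0 [(0,[])], .leaf 0 [(0,[])], .leaf 0 [(0,[])], .leaf 0 [(12,[(20,392832),(21,785664),(24,785664),(34,2880768),(35,7987584),(6,7201920),(36,1571328)])], .leaf 0 [(0,[(5,196416)])], .leaf 0 [(0,[(6,1047552)])], .leaf 0 [(0,[(17,32736),(22,32736),(5,327360),(37,1047552)])],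 .leaf 0 [(0,[])], .leaf 0 [(0,[(18,32736),(26,32736),(5,589248)])], .leaf 1 [(0,[])], .leaf 1 [(0,[(15,261888),(33,147312),(6,114576)]),(0,[(15,261888),(33,261888)]),(0,[(6,229152)]),(0,[(15,261888),(33,261888)]),(0,[(15,261888),(17,32736),(22,32736),(6,261888),(37,1047552)])], .leaf 1 [(0,[(5,81840)])], .split 0 0 (.leaf 0 [(0,[(0,1)])]) (.leaf 1 [(30,[(19,1014816),(0,33)])]), .leaf 0 [(0,[(18,32736),(5,595386)])], .leaf 0 [(0,[])], .leaf 0 [(31,[(20,261888),(21,523776),(28,392832),(34,6809088),(35,654720),(6,9427968),(1,58311),(36,1047552)]),(0,[(16,261888),(34,65472),(35,196416),(6,425568)]),(0,[(33,98208),(34,229152),(6,163680),(1,2046)]),(0,[(16,261888),(34,261888),(6,261888)]),(0,[(33,261888),(34,261888),(1,2046)])], .leaf 2 [(0,[(1,8184)])], .split 2 0 (.leaf 2 [(0,[(0,1)])]) (.leaf 0 [(135,[(25,9166080),(36,22784256),(4,22800624),(1,572880),(0,29)])]), .split 0 0 (.leaf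 0 [(0,[(0,1)])]) (.leaf 1 [(406,[(18,13323552),(20,9198816),(23,13323552),(6,156576288),(0,281),(38,720715776)])]), .leaf 2 [(0,[])], .leaf 4 [(0,[(14,261888),(35,261888),(6,261888),(5,32736)]),(0,[(20,130944),(24,261888),(35,261888),(5,229152),(36,523776)]),(0,[(35,65472),(6,65472)]),(6,[(14,1440384),(20,196416),(27,392832),(34,458304),(35,392832),(36,785664)]),(0,[(20,41664),(24,83328),(34,148800),(35,83328),(36,166656)])], .leaf 0 [(0,[])], .leaf 1 [(0,[(17,32736),(5,333498),(37,1047552)])], .split 2 0 (.leaf 2 [(0,[(0,1)])]) (.leaf 0 [(87,[(21,1833216),(22,6547200),(25,3666432),(36,3666432),(0,13),(37,7332864)])])]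
noncomputable def a1 : TT := .leaf ⟨true,0,33,31,64,3,8183,[[],[0,0,0,0,4092],[0,0,0,0,2046],[0,0,0,0,-3069,0,0,0,5115],[0,0,0,0,6138],[],[],[],[0,0,0,0,124],[0,0,0,0,66],[0,0,0,0,248]]⟩ [.leaf 0 [(0,[])], .leaf 0 [(0,[])], .leaf 0 [(0,[])], .leaf 0 [(0,[])], .leaf 0 [(0,[])], .leaf 0 [(0,[])], .leaf 0 [(0,[(3,7688)])], .leaf 0 [(0,[]),(0,[]),(0,[]),(0,[]),(0,[]),(0,[])], .leaf 0 [(0,[(5,196416)])], .leaf 0 [(0,[])], .leaf 0 [(0,[])], .leaf 0 [(0,[])], .leaf 0 [(0,[])], .leaf 0 [(0,[])], .leaf 0 [(0,[])], .leaf 0 [(0,[])], .leaf 0 [(0,[])], .leaf 0 [(0,[])], .leaf 0 [(12,[(20,392832),(21,785664),(24,785664),(34,2880768),(35,7987584),(6,7201920),(36,1571328)])], .leaf 0 [(0,[(5,196416)])], .leaf 0 [(0,[(33,589248),(6,458304)])], .leaf 0 [(0,[(17,32736),(22,32736),(5,327360),(37,1047552)])], .leaf 0 [(0,[])], .leaf 0 [(1,[(26,32736),(5,113553),(0,2046)])], .leaf 1 [(0,[])], .leaf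 1 [(0,[(15,261888),(33,147312),(6,114576)]),(0,[(15,261888),(6,261888)]),(0,[(4,229152)]),(0,[(15,261888),(6,261888)]),(0,[(15,261888),(17,32736),(22,32736),(33,261888),(37,1047552)])], .leaf 1 [(0,[(5,81840)])], .split 0 0 (.leaf 0 [(0,[(0,1)])]) (.leaf 1 [(30,[(25,507408),(1,31713),(0,2)])]), .leaf 0 [(1,[(24,32736),(5,125829),(0,2046)])], .leaf 0 [(0,[])], .leaf 0 [(0,[(16,233244),(20,8184),(21,16368),(28,12276),(34,212784),(35,20460),(6,294624),(36,32736)]),(0,[(34,65472),(35,196416),(6,425568),(1,2046)]),(3,[(28,916608),(33,1309440),(6,654720),(1,1023)]),(0,[(34,261888),(6,261888),(1,2046)]),(0,[(33,261888),(34,261888),(1,2046)])], .leaf 0 [(13,[(20,65472),(22,458304),(24,1473120),(5,68541),(2,589248),(0,92070),(36,261888)])], .leaf 1 [(13,[(20,65472),(24,1473120),(5,154473),(2,589248),(0,92070),(36,261888)])], .split 1 0 (.leaf 1 [(0,[(0,1)])]) (.leaf 0 [(8,[(23,65472),(25,867504),(3,360096),(1,54219),(0,2)])]),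 .leaf 2 [(0,[])], .leaf 4 [(0,[(14,261888),(35,261888),(6,261888),(5,32736)]),(6,[(14,1309440),(20,261888),(24,523776),(35,523776),(5,1604064),(36,1047552)]),(0,[(35,65472),(6,65472)]),(0,[(20,41664),(24,83328),(34,148800),(35,83328),(36,166656)]),(0,[(20,41664),(24,83328),(34,148800),(35,83328),(36,166656)])], .leaf 0 [(0,[])], .leaf 1 [(0,[(17,32736),(5,333498),(37,1047552)])], .split 2 0 (.leaf 2 [(0,[(0,1)])]) (.leaf 0 [(103,[(21,1833216),(22,5237760),(28,1833216),(1,114576),(0,9),(37,7332864)])])]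
noncomputable def a2 : TT := .leaf ⟨true,0,33,31,64,3,8183,[[],[0,0,0,0,4092],[0,0,0,0,2046],[0,0,0,0,-3069,0,0,0,5115],[0,0,0,0,6138],[],[],[],[0,0,0,0,124],[0,0,0,0,66],[0,0,0,0,248]]⟩ [.leaf 0 [(0,[])], .leaf 0 [(0,[])], .leaf 0 [(0,[])], .leaf 0 [(0,[])], .leaf 0 [(0,[])], .leaf 0 [(0,[])], .leaf 0 [(0,[(3,7688)])], .leaf 0 [(0,[]),(0,[]),(0,[]),(0,[]),(0,[]),(0,[])], .leaf 0 [(0,[(5,196416)])], .leaf 0 [(0,[])], .leaf 0 [(0,[])], .leaf 0 [(0,[])], .leaf 0 [(0,[])], .leaf 0 [(0,[])], .leaf 0 [(0,[])], .leaf 0 [(0,[])], .leaf 0 [(0,[])], .leaf 0 [(0,[])], .leaf 0 [(12,[(20,392832),(21,785664),(24,785664),(34,2880768),(35,7987584),(6,7201920),(36,1571328)])], .leaf 0 [(0,[(5,196416)])], .leaf 0 [(0,[(33,589248),(6,458304)])], .leaf 0 [(0,[(17,32736),(22,32736),(5,327360),(37,1047552)])], .leaf 0 [(0,[])], .leaf 0 [(0,[(17,1984),(22,32736),(35,32736),(5,589248),(0,7688),(37,63488)])],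 .leaf 1 [(0,[])], .leaf 1 [(0,[(15,261888),(33,147312),(6,114576)]),(0,[(15,261888),(33,261888)]),(0,[(6,229152)]),(0,[(15,261888),(6,261888)]),(0,[(15,261888),(17,32736),(22,32736),(33,261888),(37,1047552)])], .leaf 1 [(0,[(5,81840)])], .split 0 0 (.leaf 0 [(0,[(0,1)])]) (.leaf 1 [(1022,[(18,2029632),(23,33488928),(25,33488928),(36,33488928),(1,7864824),(0,1027),(38,64948224)])]), .leaf 0 [(0,[(18,32736),(5,595386)])], .leaf 0 [(0,[])], .leaf 0 [(6,[(16,1767744),(20,32736),(21,65472),(34,1440384),(35,229152),(6,2062368),(36,130944)]),(0,[(16,261888),(34,65472),(35,196416),(6,425568)]),(0,[(16,32736),(28,229152),(6,491040)]),(0,[(16,261888),(33,261888),(34,261888)]),(0,[(16,261888),(33,261888),(34,261888)])], .leaf 0 [(0,[(22,32736),(5,589248),(0,8184)])], .leaf 1 [(25,[(20,229152),(22,229152),(24,229152),(35,229152),(5,8965572),(1,11253),(0,114576),(36,916608)])], .split 0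 0 (.leaf 0 [(0,[(0,1)])]) (.leaf 1 [(406,[(18,13323552),(23,13323552),(6,156576288),(2,95821),(0,281),(38,426353664)])]), .leaf 2 [(0,[])], .leaf 4 [(0,[(14,261888),(35,261888),(6,261888),(5,32736)]),(0,[(20,65472),(27,130944),(35,130944),(5,294624),(36,261888)]),(0,[(35,65472),(6,65472)]),(6,[(14,1440384),(20,196416),(27,392832),(34,458304),(35,392832),(36,785664)]),(6,[(14,1440384),(20,196416),(27,392832),(34,458304),(35,392832),(36,785664)])], .leaf 0 [(0,[])], .leaf 1 [(0,[(17,32736),(5,333498),(37,1047552)])], .split 2 0 (.leaf 2 [(0,[(0,1)])]) (.leaf 0 [(87,[(21,1833216),(22,6547200),(25,3666432),(36,3666432),(0,13),(37,7332864)])])]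
noncomputable def a3 : TT := .leaf ⟨true,0,33,31,64,3,8183,[[],[0,0,0,0,4092],[0,0,0,0,2046],[0,0,0,0,-3069,0,0,0,5115],[0,0,0,0,6138],[],[],[],[0,0,0,0,124],[0,0,0,0,66],[0,0,0,0,248]]⟩ [.leaf 0 [(0,[])], .leaf 0 [(0,[])], .leaf 0 [(0,[])], .leaf 0 [(0,[])], .leaf 0 [(0,[])], .leaf 0 [(0,[])], .leaf 0 [(0,[(4,7688)])], .leaf 0 [(0,[]),(0,[]),(0,[]),(0,[]),(0,[]),(0,[])], .leaf 0 [(0,[(6,196416)])], .leaf 0 [(0,[])], .leaf 0 [(0,[])], .leaf 0 [(0,[])], .leaf 0 [(0,[])], .leaf 0 [(0,[])], .leaf 0 [(0,[])], .leaf 0 [(0,[])], .leaf 0 [(0,[])], .leaf 0 [(0,[])], .leaf 0 [(12,[(21,392832),(22,785664),(25,785664),(35,2880768),(36,7987584),(7,7201920),(37,1571328)])], .leaf 0 [(0,[(6,196416)])], .leaf 0 [(126,[(21,458304),(25,24944832),(34,76438560),(7,31655712),(2,18414),(1,212784),(37,1833216)])], .leaf 0 [(0,[(18,32736),(23,32736),(6,327360),(38,1047552)])], .leaf 0 [(0,[])], .leaf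 0 [(0,[(19,32736),(27,32736),(6,589248)])], .leaf 1 [(0,[])], .leaf 1 [(24,[(21,567424),(34,3770096),(7,2777104),(3,1309440),(1,43648),(37,2269696)]),(0,[(16,261888),(34,261888)]),(0,[(5,229152)]),(0,[(16,261888),(7,261888)]),(0,[(30,32736),(7,229152),(3,42240),(1,2376)])], .leaf 1 [(0,[(6,81840)])], .leaf 2 [(126,[(21,763840),(25,8314944),(7,91464384),(2,30690),(1,354640),(37,3055360)])], .leaf 0 [(0,[(19,32736),(6,595386)])], .leaf 0 [(0,[])], .leaf 0 [(6,[(17,1767744),(21,32736),(22,65472),(35,1440384),(36,229152),(7,2062368),(37,130944)]),(0,[(17,261888),(35,65472),(36,196416),(7,425568)]),(0,[(17,32736),(29,229152),(34,327360),(7,163680)]),(0,[(17,261888),(34,261888),(35,261888)]),(0,[(17,261888),(34,261888),(35,261888)])], .leaf 1 [(0,[(27,32736),(6,327360),(0,8184)])], .split 0 0 (.leaf 0 [(0,[(0,1)])]) (.leaf 1 [(92,[(20,229152),(28,229152),(7,10369128),(3,31713),(0,7)])]),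 .leaf 0 [(0,[(18,2464),(2,341),(1,616),(38,78848)])], .leaf 2 [(0,[])], .leaf 4 [(0,[(15,229152),(21,32736),(25,32736),(28,32736),(36,229152),(7,163680),(6,65472),(37,130944)]),(0,[(15,174592),(21,87296),(25,87296),(28,87296),(36,174592),(6,185504),(37,349184)]),(0,[(36,65472),(7,65472)]),(6,[(15,1440384),(21,196416),(28,392832),(35,458304),(36,392832),(37,785664)]),(6,[(15,1440384),(21,196416),(28,392832),(35,458304),(36,392832),(37,785664)])], .leaf 0 [(0,[])], .leaf 1 [(0,[(18,32736),(6,333498),(38,1047552)])], .split 1 0 (.leaf 1 [(0,[(0,1)])]) (.leaf 0 [(91,[(3,31713),(2,8184),(1,761112),(0,100)])])]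
noncomputable def t0 : TT := (.w 1 (.split [0,16,16,0,17,-32,0,0,-54,16] a0 a1) a2 a3)
theorem c0 : chkT (([-1,4,4,0,0,0,0,0,0,0] : Fm) :: ([0,0,0,0,-1,1,0,0,0,0] : Fm) :: ([0,0,0,0,0,0,0,0,-1,1] : Fm) :: ([0,0,0,0,-2,0,0,0,1,0] : Fm) :: ([0,0,0,0,-1,-1,0,0,-1,1] : Fm) :: K1O12.C0) t0 = true := by decide +kernel
end K1O12M00000

namespace K1O12M00001
noncomputable def a0 : TT := .leaf ⟨false,0,1,0,1,1,7,[[],[0,0,0,0,4],[],[0,0,0,0,0,0,0,0,3],[],[],[],[],[],[],[]]⟩ [.leaf 0 [(0,[])], .leaf 0 [(0,[])], .leaf 0 [(0,[])], .leaf 0 [(0,[])], .leaf 0 [(0,[])], .leaf 0 [(0,[])], .leaf 0 [(0,[])], .leaf 0 [(0,[])], .leaf 0 [(0,[])], .leaf 0 [(0,[])], .leaf 0 [(0,[])], .leaf 0 [(0,[])], .leaf 0 [(0,[])], .leaf 0 [(0,[])], .leaf 0 [(0,[])], .leaf 0 [(0,[])], .leaf 0 [(90,[(18,5760),(19,6400),(25,6400),(32,3136),(33,49728),(4,38208),(0,1280),(34,23040)])], .leaf 0 [(0,[(3,256)])], .leaf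 0 [(0,[(4,1024)])], .leaf 0 [(0,[(15,32),(20,32),(3,256),(35,1024)])], .leaf 0 [(0,[])], .leaf 0 [(0,[(16,32),(24,32),(3,256)])], .leaf 1 [(0,[])], .leaf 3 [(0,[(13,256),(4,256),(3,64)]),(0,[(3,64)]),(0,[(13,256),(4,256),(3,64)]),(0,[(13,256),(31,256)]),(0,[(13,256),(15,32),(4,256),(3,320),(35,1024)])], .leaf 1 [(0,[])], .split 2 0 (.leaf 2 [(0,[(0,1)])]) (.leaf 0 [(95,[(32,8448),(0,11)])]), .leaf 0 [(0,[(16,32),(3,264)])], .leaf 0 [(0,[(3,256)])], .split 3 3 (.leaf 3 [(6,[(14,2560),(19,512),(20,448),(32,1792),(1,784),(35,2048)]),(0,[(14,512),(5,256),(1,128)]),(6,[(14,2784),(19,512),(20,1792),(32,1568),(1,504),(35,2048)]),(0,[(0,1)]),(0,[(0,1)])]) (.leaf 0 [(4,[(14,272),(15,552),(19,264),(33,160),(5,1280),(1,200),(35,1056)]),(0,[(19,48),(34,176),(5,288),(1,24),(35,192)]),(0,[(14,224),(27,32),(32,64),(5,224),(1,56)]),(6,[(14,2176),(19,256),(34,1792),(5,3584),(4,1344),(2,896),(1,672),(35,1024)]),(25,[(14,23040),(15,1024),(19,1280),(32,9984),(33,9984),(1,6400),(0,13),(35,5120)])]),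 .leaf 1 [(0,[(13,32),(15,16),(24,32),(0,16),(35,512)])], .leaf 2 [(90,[(18,5760),(19,6400),(25,6400),(32,3136),(33,49728),(4,38208),(0,1280),(34,23040)])], .split 0 0 (.leaf 0 [(0,[(0,1)])]) (.leaf 1 [(154,[(16,4960),(18,4512),(21,4960),(4,45632),(0,141),(36,303104)])]), .leaf 2 [(0,[])], .leaf 4 [(0,[(12,256),(33,256),(4,256),(3,64)]),(6,[(18,512),(3,1728),(0,256),(34,2048)]),(0,[(3,64)]),(6,[(18,512),(0,256),(34,2048)]),(6,[(18,512),(0,312),(34,2048)])], .leaf 0 [(0,[])], .leaf 1 [(0,[(15,32),(3,264),(35,1024)])], .leaf 2 [(90,[(18,5760),(19,6400),(25,6400),(32,3136),(33,49728),(4,38208),(0,1280),(34,23040)])]]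
noncomputable def t0 : TT := a0
theorem c0 : chkT (fsm (-1) ([-1,4,4,0,0,0,0,0,0,0] : Fm) :: ([0,0,0,0,-1,1,0,0,0,0] : Fm) :: ([0,0,0,0,0,0,0,0,-1,1] : Fm) :: ([0,0,0,0,-2,0,0,0,1,0] : Fm) :: ([0,0,0,0,-1,-1,0,0,-1,1] : Fm) :: K1O12.C0) t0 = true := by decide +kernel
end K1O12M00001

namespace K1O12M00010
noncomputable def a0 : TT := .leaf ⟨false,0,1,1,2,3,15,[[],[0,0,0,0,8],[0,0,0,0,0,4],[0,0,0,1,-11,0,0,0,11],[0,0,0,0,0,4],[],[],[],[],[],[]]⟩ [.leaf 0 [(0,[])], .leaf 0 [(0,[])], .leaf 0 [(0,[])], .leaf 0 [(0,[])], .leaf 0 [(0,[])], .leaf 0 [(0,[])], .leaf 0 [(0,[(5,704)])], .leaf 0 [(0,[])], .leaf 0 [(0,[(3,512)])], .leaf 0 [(0,[])], .leaf 0 [(0,[])], .leaf 0 [(0,[])], .leaf 0 [(0,[])], .leaf 0 [(0,[])], .leaf 0 [(0,[])], .leaf 0 [(0,[])], .leaf 0 [(10,[(20,768),(21,768),(24,768),(27,768),(34,8576),(35,9984),(6,8448),(3,5632),(36,3072)])], .leaf 0 [(542,[(20,384),(21,512),(27,256),(35,1280),(5,46912),(3,290816),(0,512),(36,1536)])],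 .leaf 0 [(70,[(20,128),(21,256),(24,192),(33,61184),(6,42176),(3,6976),(0,64),(36,512)])], .leaf 0 [(0,[(17,64),(22,64),(5,1216),(37,2048)])], .leaf 0 [(0,[(5,192)])], .leaf 0 [(224,[(17,8832),(22,8832),(26,1856),(35,16256),(5,206784),(0,1856),(37,282624)])], .leaf 0 [(2,[(26,64),(35,64),(0,64),(37,6144)])], .split 3 4 (.leaf 3 [(6,[(16,2944),(21,64),(7,3584),(4,1408),(3,128),(37,256)]),(6,[(21,64),(34,1344),(3,128),(37,256)]),(4,[(16,2048),(7,2048),(6,2112),(0,1)]),(6,[(21,64),(34,1344),(3,128),(37,256)]),(0,[(0,1)])]) (.leaf 0 [(69,[(16,29184),(21,1024),(7,39424),(4,12672),(3,2048),(0,7),(37,4096)]),(69,[(16,21888),(21,1152),(34,46592),(3,2304),(0,21),(37,4608)]),(69,[(21,1152),(34,42112),(3,2304),(0,21),(37,4608)]),(18317,[(21,2389120),(23,403840),(5,25334016),(3,5182080),(1,192128),(0,31913),(38,27958784)]),(9,[(30,640),(34,5888),(7,128),(3,640),(0,3)])]), .leaf 0 [(774,[(17,27488),(18,5000),(22,27488),(26,10704),(35,50304),(5,761856),(0,5704),(37,879616)])],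 .leaf 2 [(70,[(20,128),(21,256),(24,192),(33,61184),(6,42176),(3,6976),(0,64),(36,512)])], .leaf 0 [(1549,[(17,19532),(18,70275),(22,19532),(24,25794),(35,32056),(5,1762784),(0,3131),(37,625024)])], .leaf 2 [(30,[(17,128),(18,368),(22,128),(26,864),(35,128),(5,19840),(0,496),(37,67584)])], .leaf 3 [(2,[(16,1408),(20,128),(21,128),(24,128),(33,64),(34,960),(6,1344),(3,1152),(36,512)]),(0,[(34,192),(6,512),(1,3)]),(0,[(20,416),(21,512),(24,320),(33,128),(3,448),(36,1664)]),(6,[(16,3328),(20,128),(24,256),(34,3392),(6,1792),(36,512)]),(2,[(20,240),(21,480),(33,1536),(34,1056),(3,5408),(1,11),(36,960)])], .leaf 0 [(3,[(17,132),(18,31),(22,132),(26,62),(5,3748),(0,31),(37,4224)])], .leaf 1 [(50,[(19,2412),(21,568),(27,284),(35,1420),(5,23660),(3,14716),(0,568),(37,77184)])], .leaf 0 [(0,[(19,64),(5,978),(3,1584),(37,2048)])], .leaf 1 [(24,[(17,512),(22,512),(26,96),(35,896),(0,496),(37,67584)])],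 .leaf 4 [(24,[(14,11776),(20,1024),(24,1024),(27,1024),(35,8256),(6,6208),(5,384),(3,6400),(36,4096)]),(6,[(14,3200),(20,192),(27,384),(35,2176),(5,5152),(36,768)]),(0,[(23,192),(3,256)]),(2,[(14,1280),(20,128),(24,256),(34,832),(35,256),(3,768),(36,512)]),(794,[(14,405312),(20,1728),(24,1408),(27,1728),(35,406592),(6,402816),(5,234048),(0,320),(36,6912)])], .leaf 0 [(0,[(5,224)])], .leaf 1 [(0,[(17,64),(5,1210),(37,2048)])], .leaf 0 [(63,[(17,2108),(18,497),(21,1988),(26,994),(5,59548),(0,497),(37,67456)])]]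
noncomputable def a1 : TT := .leaf ⟨false,0,1,0,1,3,127,[[],[0,-1,-1,0,76,0,0,0,-1,1],[],[0,0,0,0,-52,24,0,0,47,1],[],[],[],[],[],[],[]]⟩ [.leaf 0 [(0,[])], .leaf 0 [(0,[(19,1),(34,1),(4,31)])], .leaf 0 [(0,[])], .leaf 0 [(0,[])], .leaf 0 [(0,[(27,1)])], .leaf 0 [(0,[])], .leaf 0 [(0,[(6,3328)])], .leaf 0 [(0,[])], .leaf 0 [(0,[(19,896),(34,896),(4,27776)])], .leaf 0 [(0,[])], .leaf 0 [(0,[])], .leaf 0 [(0,[])], .leaf 0 [(0,[])], .leaf 0 [(0,[])], .leaf 0 [(0,[])], .leaf 0 [(0,[(19,896),(34,896),(4,27776)])], .leaf 0 [(10,[(21,10496),(22,10496),(25,9088),(28,10496),(35,18176),(36,88576),(7,66176),(4,35200),(37,41984)])], .leaf 0 [(0,[(19,128),(6,5632),(4,7168)])], .leaf 0 [(0,[(16,128),(34,4992),(7,11136),(4,3200)])], .leaf 0 [(0,[(18,416),(20,96),(23,512),(25,224),(6,5120),(38,16384)])], .leaf 0 [(0,[])], .leaf 0 [(0,[(19,384),(27,256),(6,4608)])], .leaf 1 [(0,[(25,1024)])],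 .leaf 1 [(0,[(16,4096),(7,4000),(4,2400)]),(0,[(16,4224),(7,3872),(4,2400)]),(0,[(26,544)]),(0,[(34,5024),(4,5472)]),(0,[(16,1664),(23,256),(30,256),(34,3552),(7,320),(4,4960),(3,512)])], .leaf 1 [(0,[(25,128)])], .leaf 2 [(0,[(16,128),(34,896),(7,11136),(4,7296)])], .leaf 0 [(0,[(19,388),(25,256),(6,4672)])], .split 0 0 (.leaf 0 [(0,[(0,1)])]) (.leaf 1 [(3,[(20,128),(26,1792),(7,80896),(5,23552),(0,11)])]), .leaf 2 [(74,[(17,253408),(21,7200),(22,7200),(36,31040),(7,277248),(4,153792),(0,2912),(37,28800)]),(182,[(21,8784),(35,141264),(7,383280),(0,13504),(37,35136)]),(0,[(16,96),(17,3520),(29,576),(7,4480),(6,64),(4,2400)]),(424,[(19,5472),(21,126336),(22,129408),(25,76992),(36,4992),(4,288768),(2,252),(0,99200),(38,6457856)]),(0,[(17,4096),(25,800),(35,4096),(7,2528),(4,3872)])], .leaf 1 [(30,[(18,9728),(19,2176),(23,9728),(25,1792),(36,9728),(6,142848),(38,311296)])], .leaf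 2 [(106,[(21,13696),(22,13696),(28,159104),(36,784768),(7,452864),(4,260608),(0,9088),(37,54784)])], .leaf 0 [(0,[(18,119),(20,392),(25,248),(6,5456),(4,10080),(3,1),(38,16352)])], .leaf 2 [(0,[(25,1024)])], .leaf 4 [(0,[(15,4096),(25,32),(36,4096),(7,4032),(4,1600)]),(2,[(15,12928),(21,1760),(25,4256),(28,4160),(36,8128),(6,11552),(37,7040)]),(0,[(28,160),(36,64),(4,1600)]),(6,[(15,11392),(21,5056),(25,224),(28,17280),(36,10560),(4,11200),(37,20224)]),(2,[(15,11168),(21,320),(28,1120),(36,11168),(7,10336),(6,11104),(4,4800),(37,1280)])], .leaf 0 [(0,[(25,128)])], .leaf 1 [(0,[(18,419),(20,93),(25,225),(6,5168),(38,16384)])], .leaf 1 [(28,[(18,2136),(20,264),(23,1872),(25,88),(5,616),(1,468),(38,76800)])]]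
noncomputable def a2 : TT := .leaf ⟨true,0,31,33,64,3,8183,[[],[0,0,0,0,0,3069],[0,0,0,0,0,3069],[0,0,0,0,-5115,-3069,0,0,5115],[0,0,0,0,0,10230],[],[],[],[0,0,0,0,0,99],[0,0,0,0,0,93],[0,0,0,0,0,248]]⟩ [.leaf 0 [(0,[])], .leaf 0 [(0,[])], .leaf 0 [(0,[])], .leaf 0 [(0,[])], .leaf 0 [(0,[])], .leaf 0 [(0,[(4,7688)])], .leaf 0 [(0,[])], .leaf 0 [(0,[]),(0,[]),(0,[]),(0,[]),(0,[]),(0,[])], .leaf 0 [(0,[(6,523776),(4,392832)])], .leaf 0 [(0,[])], .leaf 0 [(0,[])], .leaf 0 [(0,[])], .leaf 0 [(0,[])], .leaf 0 [(0,[])], .leaf 0 [(0,[])], .leaf 0 [(0,[])], .leaf 0 [(0,[])], .leaf 0 [(0,[])], .leaf 0 [(0,[(21,35712),(22,35712),(25,35712),(28,35712),(35,529728),(36,267840),(7,196416),(4,392832),(37,142848)])], .leaf 0 [(0,[(6,196416)])], .leaf 0 [(0,[(7,654720)])], .leaf 0 [(4,[(30,87296),(6,1669536),(0,5456)])], .leaf 0 [(0,[(4,392832)])], .leaf 0 [(3,[(21,425568),(22,425568),(25,425568),(36,32736),(6,1080288),(2,1023),(0,32736),(37,1702272)])],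 .leaf 2 [(3,[(21,425568),(22,425568),(25,425568),(36,32736),(6,1080288),(2,1023),(0,32736),(37,1702272)])], .leaf 2 [(0,[(34,98208),(7,130944)]),(0,[(34,261888)]),(0,[(7,229152)]),(0,[(7,229152)]),(0,[(30,32736),(34,98208),(7,130944),(3,32736)])], .leaf 0 [(3,[(21,425568),(22,425568),(25,425568),(36,32736),(6,98208),(4,2095104),(2,1023),(0,32736),(37,1702272)])], .leaf 1 [(111,[(21,12406944),(22,11490336),(25,16989984),(36,1800480),(4,59710464),(2,19437),(0,949344),(37,49627776)])], .split 0 0 (.leaf 0 [(0,[(0,1)])]) (.leaf 1 [(75718,[(20,2324845248),(22,1596665664),(23,1257979008),(28,107930592),(37,435454272),(1,120959520),(0,8601),(38,6386662656)])]), .leaf 1 [(3,[(21,425568),(22,425568),(25,425568),(36,32736),(6,1080288),(2,1023),(0,32736),(37,1702272)])], .leaf 0 [(2,[(17,774752),(21,10912),(22,10912),(25,10912),(34,774752),(35,720192),(37,43648)]),(0,[(35,261888),(5,229152),(2,2046)]),(0,[(34,261888),(35,229152)]),(139,[(22,43648),(36,36446080),(7,73197696),(6,1833216),(2,331793),(1,43648)]),(0,[(34,261888),(35,261888),(2,2046)])],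 .leaf 1 [(4,[(29,76384),(6,1669536),(0,5456)])], .leaf 0 [(12,[(22,13144),(29,151280),(1,13144),(0,15500)])], .leaf 0 [(4,[(28,76384),(6,1618386),(0,5456)])], .leaf 0 [(3,[(21,425568),(22,425568),(25,425568),(36,32736),(6,1080288),(2,1023),(0,32736),(37,1702272)])], .leaf 0 [(6,[(15,1767744),(21,32736),(28,65472),(35,1604064),(36,65472),(37,130944)]),(108,[(24,24813888),(28,32736),(7,32736),(6,1374912),(1,32736)]),(0,[(15,261888),(35,261888),(4,392832)]),(0,[(15,261888),(35,229152),(36,32736)]),(0,[(15,261888),(35,229152),(36,32736)])], .leaf 0 [(0,[(6,343728)])], .leaf 0 [(53,[(25,54219),(30,1058464),(7,54219),(4,693935),(1,54219),(0,66154)])], .leaf 1 [(53,[(25,66495),(30,141856),(7,66495),(1,66495),(0,8866)])]]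
noncomputable def a3 : TT := .leaf ⟨false,0,1,1,2,3,15,[[],[0,0,0,0,8],[0,0,0,0,0,4],[0,0,0,1,-11,0,0,0,11],[0,0,0,0,0,4],[],[],[],[],[],[]]⟩ [.leaf 0 [(0,[])], .leaf 0 [(0,[])], .leaf 0 [(0,[])], .leaf 0 [(0,[])], .leaf 0 [(0,[])], .leaf 0 [(0,[])], .leaf 0 [(0,[(7,704)])], .leaf 0 [(0,[])], .leaf 0 [(0,[(5,512)])], .leaf 0 [(0,[])], .leaf 0 [(0,[])], .leaf 0 [(0,[])], .leaf 0 [(0,[])], .leaf 0 [(0,[])], .leaf 0 [(0,[])], .leaf 0 [(0,[])], .leaf 0 [(10,[(22,768),(23,768),(26,768),(29,768),(36,8576),(37,9984),(8,8448),(5,5632),(38,3072)])], .leaf 0 [(52,[(22,96),(23,96),(26,96),(37,96),(7,9456),(5,27168),(3,1),(0,192),(38,384)])], .leaf 0 [(15,[(22,384),(26,1920),(35,15680),(8,8768),(4,288),(3,5),(38,1536)])], .leaf 0 [(0,[(19,64),(24,64),(7,1216),(39,2048)])], .leaf 0 [(0,[(7,192)])], .leaf 0 [(30,[(19,326),(20,1472),(24,326),(28,1472),(37,512),(7,40672),(0,186),(39,10432)])],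 .leaf 0 [(14,[(24,106),(2,368),(0,854),(39,30720)])], .split 3 4 (.leaf 3 [(6,[(18,2944),(23,64),(9,3584),(6,1408),(5,128),(39,256)]),(6,[(23,64),(28,1344),(5,128),(39,256)]),(12,[(8,5696),(0,9)]),(6,[(23,64),(28,1344),(5,128),(39,256)]),(0,[(0,1)])]) (.leaf 0 [(69,[(18,29184),(23,1024),(36,24512),(9,14912),(6,12672),(5,2048),(0,7),(39,4096)]),(69,[(18,21888),(23,1152),(36,46592),(5,2304),(0,21),(39,4608)]),(69,[(23,1152),(9,42112),(5,2304),(0,21),(39,4608)]),(4861,[(23,280832),(32,43776),(7,2764544),(5,561664),(4,456),(1,267392),(0,623),(40,8834048)]),(9,[(32,640),(36,5888),(9,128),(5,640),(0,3)])]), .leaf 1 [(0,[(7,224)])], .leaf 2 [(112,[(22,384),(23,384),(26,384),(8,159872),(5,13440),(3,4),(0,384),(38,1536)])], .leaf 0 [(49615,[(19,516672),(26,358688),(37,358688),(7,65774368),(3,29341),(2,575016),(0,358688),(39,16533504)])], .leaf 0 [(0,[(7,1216)])], .leaf 3 [(20,[(18,8704),(22,1024),(23,2048),(36,6976),(8,9856),(5,8960),(38,4096)]),(0,[(18,384),(35,256),(36,192),(8,256)]),(4,[(18,1664),(22,448),(23,896),(8,2240),(7,32),(5,2240),(38,1792)]),(6,[(18,3328),(22,128),(26,256),(36,3392),(8,1792),(38,512)]),(2,[(18,1408),(22,64),(23,128),(35,1536),(36,1408),(5,5760),(38,256)])],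 .leaf 0 [(30,[(19,310),(24,1782),(7,40928),(2,368),(0,202),(39,9920)])], .leaf 1 [(1695,[(22,608),(23,608),(26,608),(37,608),(7,353760),(3,1137),(0,1216),(38,2432)])], .leaf 0 [(2,[(7,558),(3,2)])], .leaf 1 [(30,[(24,140),(2,128),(0,1844),(39,63488)])], .leaf 4 [(2,[(16,1408),(22,64),(29,128),(37,1408),(8,1280),(7,704),(5,768),(38,256)]),(0,[(16,384),(22,64),(26,128),(37,128),(7,736),(38,256)]),(0,[(25,192),(5,256)]),(2,[(16,1408),(22,64),(29,128),(36,576),(37,832),(5,1472),(38,256)]),(39,[(16,19936),(22,544),(26,544),(29,64),(37,20416),(8,19808),(7,11584),(3,5),(38,2176)])], .leaf 0 [(0,[(7,224)])], .leaf 1 [(0,[(19,64),(7,1210),(39,2048)])], .leaf 2 [(204,[(22,7296),(23,7296),(26,7296),(36,50368),(37,260160),(8,252864),(5,107392),(3,76),(0,2944),(38,29184)])]]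
noncomputable def a4 : TT := .leaf ⟨false,0,1,1,2,0,63,[[],[-1,0,0,0,26],[0,0,0,0,0,16],[0,1,1,0,-2,-2,0,0,5],[0,0,0,0,0,16],[],[],[],[],[],[]]⟩ [.leaf 0 [(0,[])], .leaf 0 [(863,[(23,128),(6,8832),(4,9),(3,64),(39,512)])], .leaf 0 [(0,[])], .leaf 0 [(0,[])], .leaf 0 [(0,[])], .leaf 0 [(0,[])], .leaf 0 [(0,[(18,128),(8,128),(6,128)])], .leaf 0 [(0,[])], .leaf 0 [(26,[(23,3584),(6,302592),(4,252),(3,1792),(39,14336)])], .leaf 0 [(0,[])], .leaf 0 [(0,[])], .leaf 0 [(0,[])], .leaf 0 [(0,[])], .leaf 0 [(0,[])], .leaf 0 [(0,[])], .leaf 0 [(26,[(23,3584),(6,247296),(4,252),(3,1792),(39,14336)])], .leaf 0 [(28,[(23,17664),(24,15808),(27,23232),(30,15808),(38,113920),(9,74880),(8,17280),(6,55680),(39,70656)])], .leaf 0 [(5680,[(21,386560),(24,2304),(8,42894848),(6,34991616),(4,3560),(3,95488),(0,1152)])], .leaf 0 [(0,[(27,128),(9,5888)])], .leaf 0 [(14,[(20,2048),(25,3968),(8,5632),(4,40),(1,128),(40,65536)])],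 .leaf 0 [(0,[])], .leaf 0 [(2016,[(25,143616),(29,380160),(38,136192),(8,743424),(4,1320),(3,67584),(1,16896),(0,4736)])], .leaf 0 [(130,[(23,23296),(6,1607424),(4,1638),(3,11648),(0,16768),(40,979968)])], .leaf 0 [(0,[(18,1952),(9,1952)]),(0,[(9,1856)]),(0,[(8,288),(5,128)]),(750,[(23,1333376),(27,1225152),(32,143552),(7,169344),(4,37031),(0,24352),(40,818688)]),(0,[(18,1824),(9,1824)])], .leaf 1 [(204,[(24,768),(5,6656),(4,192),(0,384)])], .leaf 2 [(0,[(27,128),(9,5888)])], .leaf 0 [(6154,[(21,413848),(27,4064),(38,4064),(8,3773096),(4,4191),(3,100584),(1,11512),(0,7788)])], .leaf 2 [(0,[(0,128),(40,8192)])], .leaf 4 [(8,[(19,13088),(23,5632),(24,5344),(27,6496),(36,1280),(37,2784),(9,10656),(6,4032),(39,22528)]),(4,[(19,2496),(23,4032),(24,7744),(9,10240),(6,2880),(39,16128)]),(2,[(23,2240),(24,3392),(27,1280),(37,2752),(9,2880),(39,8960)]),(8,[(19,11968),(23,7168),(24,6464),(27,9280),(37,1664),(38,11968),(9,21120),(0,832),(40,45056)]),(8,[(19,8416),(23,6272),(24,12320),(27,3104),(36,15328),(37,2976),(39,25088)])],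 .leaf 0 [(126,[(25,30752),(8,43648),(4,310),(3,3968),(1,992),(0,1376)])], .leaf 1 [(841,[(23,55168),(24,11856),(4,4297),(0,5928),(39,220672)])], .leaf 0 [(95,[(5,2976),(4,349)])], .leaf 2 [(420,[(23,30208),(24,13056),(6,636928),(4,4916),(0,6528),(39,120832)])], .leaf 3 [(4,[(17,8304),(23,2016),(27,2416),(30,1936),(38,8304),(9,3952),(8,6256),(6,4800),(39,8064)]),(8,[(23,6080),(27,12736),(38,12736),(6,8640),(39,24320)]),(4,[(17,8896),(23,2272),(27,2880),(30,3040),(38,5920),(8,5920),(39,9088)]),(1471,[(23,2778912),(24,466016),(27,2228064),(37,433984),(38,2228064),(6,9774752),(4,36257),(0,56704),(40,942976)]),(0,[(17,1504),(23,480),(27,512),(30,768),(38,1280),(39,1920)])], .leaf 0 [(0,[(5,32),(4,1)])], .leaf 1 [(14,[(20,2008),(25,28),(8,9272),(4,40),(1,28),(40,64256)])], .leaf 2 [(28,[(23,17664),(24,15808),(27,23232),(30,15808),(38,113920),(9,74880),(8,17280),(6,55680),(39,70656)])]]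
noncomputable def a5 : TT := .leaf ⟨false,0,1,0,1,3,127,[[],[0,-1,-1,0,76,0,0,0,-1,1],[],[0,0,0,0,-52,24,0,0,47,1],[],[],[],[],[],[],[]]⟩ [.leaf 0 [(0,[])], .leaf 0 [(607,[(23,32),(36,608),(6,21056),(4,7),(3,168),(39,128)])], .leaf 0 [(0,[])], .leaf 0 [(0,[])], .leaf 0 [(0,[(29,1)])], .leaf 0 [(0,[])], .leaf 0 [(0,[(8,3328)])], .leaf 0 [(0,[])], .leaf 0 [(18,[(23,896),(36,17024),(6,589568),(4,196),(3,4704),(39,3584)])], .leaf 0 [(0,[])], .leaf 0 [(0,[])], .leaf 0 [(0,[])], .leaf 0 [(0,[])], .leaf 0 [(0,[])], .leaf 0 [(0,[])], .leaf 0 [(18,[(23,896),(36,17024),(6,589568),(4,196),(3,4704),(39,3584)])], .leaf 0 [(1396,[(23,1560192),(24,1577792),(27,1328576),(30,1577792),(37,5314752),(38,8905152),(9,5641152),(0,35200),(39,6240768)])], .leaf 0 [(32,[(20,256),(25,4224),(27,4224),(38,4224),(8,181888),(6,228608),(3,992),(40,8192)])], .leaf 0 [(0,[(36,4864),(9,11264),(6,3328)])], .leaf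 0 [(50,[(20,21888),(25,21888),(27,6528),(32,4224),(8,271872),(4,44),(40,700416)])], .leaf 0 [(0,[])], .leaf 0 [(0,[(21,384),(29,256),(8,4608)])], .leaf 1 [(0,[(27,1024)])], .leaf 1 [(0,[(18,4096),(36,1248),(9,2752),(6,2400)]),(0,[(18,4224),(9,3872),(6,2400)]),(0,[(36,544)]),(0,[(9,5024),(6,5472)]),(30,[(32,19312),(36,108656),(5,21032),(0,1720)])], .leaf 1 [(0,[(27,128)])], .leaf 2 [(0,[(36,768),(9,11264),(6,7424)])], .leaf 0 [(0,[(21,388),(27,256),(8,4672)])], .split 0 0 (.leaf 0 [(0,[(0,1)])]) (.leaf 1 [(3,[(22,128),(28,1792),(9,80896),(7,23552),(0,11)])]), .leaf 3 [(0,[(19,2912),(23,640),(24,1184),(37,2848),(9,3968),(6,1632),(0,32),(39,2560)]),(0,[(23,56),(9,3968),(6,3696),(0,48),(39,224)]),(0,[(19,5504),(23,384),(24,2176),(27,2240),(9,1472),(6,3008),(39,1536)]),(74,[(19,195248),(23,108080),(24,111952),(27,91664),(38,179760),(9,385696),(6,672512),(0,7744),(39,432320)]),(0,[(19,4960),(24,864),(27,1696),(37,3232),(9,3168),(6,22080)])],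 .leaf 1 [(22,[(20,7232),(21,1600),(25,5888),(38,5888),(8,105984),(4,14),(40,231424)])], .leaf 1 [(103,[(23,17312),(25,4416),(27,30208),(38,4416),(8,175584),(4,735),(3,5432),(39,69248)])], .leaf 0 [(2,[(27,372),(4,16)])], .leaf 2 [(0,[(27,1024)])], .leaf 4 [(888,[(17,3290144),(23,345600),(27,357248),(30,351200),(38,2290144),(9,1553248),(0,11200),(39,1382400)]),(6,[(17,20064),(23,4192),(30,8608),(38,7936),(8,31920),(39,16768)]),(0,[(27,160),(38,64),(6,1600)]),(12,[(23,13856),(27,416),(30,32864),(38,20384),(6,23520),(4,85),(39,55424)]),(126,[(17,406112),(23,47680),(30,114080),(38,402912),(9,301024),(8,416736),(0,1600),(39,190720)])], .leaf 0 [(0,[(27,128)])], .leaf 1 [(119,[(20,52704),(27,24576),(8,658944),(4,91),(40,1686528)])], .leaf 1 [(20,[(21,4244),(25,9856),(29,168),(4,146),(3,192),(0,4928)])]]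
noncomputable def a6 : TT := .leaf ⟨false,0,1,1,2,2,63,[[],[0,0,0,0,11],[0,0,0,0,0,15],[0,0,0,0,-32,-16,0,0,32,1],[0,0,0,0,0,50],[],[],[],[],[],[]]⟩ [.leaf 0 [(0,[])], .leaf 0 [(0,[])], .leaf 0 [(0,[])], .leaf 0 [(0,[])], .leaf 0 [(0,[])], .leaf 0 [(0,[])], .leaf 0 [(0,[(7,128),(6,2944),(4,1920)])], .leaf 0 [(0,[])], .leaf 0 [(0,[(4,6400)])], .leaf 0 [(0,[])], .leaf 0 [(0,[])], .leaf 0 [(0,[])], .leaf 0 [(0,[])], .leaf 0 [(0,[])], .leaf 0 [(0,[])], .leaf 0 [(0,[])], .leaf 0 [(76,[(21,1728),(22,7328),(35,303360),(36,67520),(0,3872),(37,6912)])], .leaf 0 [(4044,[(18,516864),(23,645248),(27,382464),(36,135296),(6,16815488),(4,4149888),(2,1328),(1,63968),(0,254976),(38,16539648)])], .leaf 0 [(0,[(34,3456),(7,768)])], .leaf 0 [(48,[(18,7552),(23,7552),(30,4992),(6,193152),(4,12928),(2,52),(38,241664)])], .leaf 0 [(0,[(7,128)])], .leaf 0 [(0,[(19,128),(27,128),(6,3392)])], .leaf 0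 [(8,[(19,2976),(23,4256),(30,608),(2,64),(0,1280),(38,73728)])], .leaf 0 [(0,[(16,1536),(7,1024)]),(0,[(34,1280)]),(0,[(7,1024)]),(226,[(30,118016),(7,82688),(3,104960),(2,448),(0,29952),(38,1859584)]),(8,[(23,3360),(30,16416),(3,6240),(2,244),(0,9888)])], .leaf 0 [(32,[(18,256),(23,4224),(36,4224),(6,97408),(4,139904),(1,992),(38,8192)])], .leaf 0 [(68,[(18,17460),(23,17848),(27,276),(2,97),(0,8924),(38,558720)])], .leaf 0 [(7,[(19,1057),(25,991),(6,28000)])], .leaf 2 [(8,[(19,2432),(23,3712),(30,1152),(6,35648),(2,64),(0,1280),(38,73728)])], .leaf 4 [(4,[(17,7856),(21,2048),(22,1712),(25,2384),(35,8528),(7,5808),(37,8192)]),(0,[(17,1376),(21,928),(22,1792),(25,1184),(7,928),(4,1440),(37,3712)]),(124,[(21,4096),(35,215040),(0,8192),(37,16384)]),(18,[(21,6144),(25,9216),(35,32768),(0,3072),(38,131072)]),(470,[(17,751168),(21,176192),(22,213440),(25,64448),(7,870016),(4,2575200),(0,74496),(37,704768)])],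 .leaf 0 [(2948,[(23,407296),(30,372736),(6,11734528),(4,2006912),(2,3752),(1,108096),(0,12544)])], .leaf 1 [(180,[(30,3584),(6,214158),(3,448),(2,534),(0,1792)])], .leaf 0 [(2,[(7,372),(6,4436),(4,1432),(2,8)])], .leaf 1 [(2844,[(23,1102272),(30,364160),(6,12396128),(4,24776640),(2,9593),(1,228640),(0,369056),(38,23306240)])], .leaf 3 [(0,[(15,1600),(21,448),(25,448),(28,448),(35,272),(36,1136),(7,176),(37,1792)]),(686,[(21,494272),(25,32320),(28,658880),(36,735168),(2,3030),(0,6464),(37,1977088)]),(130,[(15,252800),(21,8064),(28,8384),(6,198096),(0,7744),(37,32256)]),(282,[(21,184448),(25,333632),(35,157312),(36,351744),(0,35264),(38,1580544)]),(268,[(15,333632),(21,172224),(25,155200),(28,158208),(36,330624),(0,31040),(37,688896)])], .leaf 0 [(0,[(7,128),(6,1408)])], .leaf 1 [(171,[(18,25120),(25,18912),(6,663584),(4,46544),(2,197),(38,803840)])], .leaf 0 [(44247,[(25,3836448),(30,310464),(6,172515776),(4,236666720),(2,46431),(1,1833952),(0,155232)])]]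
noncomputable def a7 : TT := .leaf ⟨false,0,1,0,1,3,127,[[],[0,-1,-1,0,76,0,0,0,-1,1],[],[0,0,0,0,-52,24,0,0,47,1],[],[],[],[],[],[],[]]⟩ [.leaf 0 [(0,[])], .leaf 0 [(0,[(19,1),(7,1),(4,31)])], .leaf 0 [(0,[])], .leaf 0 [(0,[])], .leaf 0 [(0,[(27,1)])], .leaf 0 [(0,[])], .leaf 0 [(0,[(6,3328)])], .leaf 0 [(0,[])], .leaf 0 [(0,[(19,896),(7,896),(4,27776)])], .leaf 0 [(0,[])], .leaf 0 [(0,[])], .leaf 0 [(0,[])], .leaf 0 [(0,[])], .leaf 0 [(0,[])], .leaf 0 [(0,[])], .leaf 0 [(0,[(19,896),(7,896),(4,27776)])], .leaf 0 [(340,[(21,325376),(22,360576),(25,281728),(28,325376),(35,1689856),(36,1654656),(7,960256),(1,8800),(37,1301504)])], .leaf 0 [(0,[(19,128),(6,5632),(4,7168)])], .leaf 0 [(0,[(7,16128),(4,3328)])], .leaf 0 [(50,[(18,21888),(23,21888),(25,6528),(30,4224),(6,271872),(2,44),(38,700416)])], .leaf 0 [(0,[])], .leaf 0 [(0,[(19,384),(27,256),(6,4608)])], .leaf 1 [(0,[(25,1024)])],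 .leaf 1 [(28,[(16,100784),(21,400),(34,107192),(7,8808),(3,3600),(1,700),(37,1600)]),(0,[(16,4224),(7,3872),(4,2400)]),(0,[(34,544)]),(0,[(7,5024),(4,5472)]),(0,[(16,1408),(23,512),(7,4128),(4,4960),(3,512)])], .leaf 1 [(0,[(25,128)])], .leaf 2 [(182,[(21,262208),(25,562176),(34,1639680),(4,280448),(2,6100),(1,15296),(37,1048832)])], .leaf 0 [(0,[(19,388),(25,256),(6,4672)])], .split 0 0 (.leaf 0 [(0,[(0,1)])]) (.leaf 1 [(3,[(20,128),(26,1792),(7,80896),(5,23552),(0,11)])]), .leaf 0 [(278,[(17,1025728),(21,117056),(22,138656),(25,90272),(34,409696),(35,462048),(7,589248),(1,5400),(37,468224)]),(8,[(21,7184),(22,13424),(25,80),(35,23440),(7,29808),(37,28736)]),(14,[(16,1136),(17,61136),(35,7680),(7,58560),(4,27184),(1,76)]),(118,[(17,450848),(21,8128),(25,25152),(36,487424),(7,926848),(6,315264),(1,5080),(37,32512)]),(30,[(17,93648),(21,10208),(22,35728),(25,11888),(34,136912),(35,91248),(1,600),(37,40832)])],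 .leaf 1 [(22,[(18,7232),(19,1600),(23,5888),(36,5888),(6,105984),(2,14),(38,231424)])], .leaf 1 [(12,[(19,5556),(21,3584),(25,3224),(6,65968),(2,144),(37,14336)])], .leaf 0 [(2,[(25,372),(2,16)])], .leaf 2 [(0,[(25,1024)])], .leaf 4 [(30,[(15,109352),(21,16024),(25,17016),(28,16024),(36,34032),(6,4884),(1,400),(37,64096)]),(2,[(15,12928),(21,1760),(25,4256),(28,4160),(36,8128),(6,11552),(37,7040)]),(0,[(25,160),(36,64),(4,1600)]),(6,[(15,11392),(21,5056),(25,224),(28,17280),(36,10560),(4,11200),(37,20224)]),(216,[(15,512896),(21,144736),(28,324192),(36,303360),(6,201376),(1,12936),(37,578944)])], .leaf 0 [(0,[(25,128)])], .leaf 1 [(119,[(18,52704),(25,24576),(6,658944),(2,91),(38,1686528)])], .leaf 2 [(340,[(21,325376),(22,360576),(25,281728),(28,325376),(35,1689856),(36,1654656),(7,960256),(1,8800),(37,1301504)])]]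
noncomputable def t0 : TT := (.w 1 (.split [0,-1,-1,-128,24,24,0,-4,46,2] a0 (.split [16,0,16,-96,-12,-41,0,14,-21,16] a1 a2)) (.split [-1,1,1,64,24,14,0,-2,5,0] (.split [0,0,0,-32,64,0,0,-1,0,0] a3 (.split [-1,1,1,-64,24,126,0,-2,5,0] a4 a5)) a6) a7)
theorem c0 : chkT (([-1,4,4,0,0,0,0,0,0,0] : Fm) :: fsm (-1) ([0,0,0,0,-1,1,0,0,0,0] : Fm) :: ([0,0,0,0,0,0,0,0,-1,1] : Fm) :: ([0,0,0,0,-2,0,0,0,1,0] : Fm) :: ([0,0,0,0,-1,-1,0,0,-1,1] : Fm) :: K1O12.C0) t0 = true := by decide +kernel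
end K1O12M00010

namespace K1O12M00011
noncomputable def a0 : TT := .leaf ⟨false,0,1,0,1,3,15,[[],[0,0,0,0,9],[],[0,0,0,0,-6,-5,0,0,10],[],[],[],[],[],[],[]]⟩ [.leaf 0 [(0,[])], .leaf 0 [(0,[])], .leaf 0 [(0,[])], .leaf 0 [(0,[])], .leaf 0 [(0,[])], .leaf 0 [(0,[])], .leaf 0 [(0,[(3,704),(1,640)])], .leaf 0 [(0,[])], .leaf 0 [(0,[])], .leaf 0 [(0,[])], .leaf 0 [(0,[])], .leaf 0 [(0,[])], .leaf 0 [(0,[])], .leaf 0 [(0,[])], .leaf 0 [(0,[])], .leaf 0 [(0,[])], .leaf 0 [(18,[(18,1536),(25,3840),(32,10048),(33,18112),(4,14272),(0,768),(34,6144)])], .leaf 0 [(0,[(3,64)])], .leaf 0 [(0,[(31,512),(4,896)])], .leaf 0 [(0,[(15,64),(20,64),(3,1152),(1,640),(35,2048)])], .leaf 0 [(0,[(3,256),(1,640)])], .leaf 0 [(0,[(16,64),(24,64),(3,1152),(1,640)])], .leaf 1 [(0,[(1,640)])], .leaf 1 [(0,[(13,96),(31,48),(4,400)]),(0,[(13,32),(4,512)]),(0,[(31,448)]),(0,[(13,32),(31,512)]),(1,[(13,864),(15,103),(17,25),(20,128),(4,1024),(35,4096)])],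 .leaf 1 [(0,[])], .leaf 2 [(0,[(31,512),(4,896)])], .leaf 0 [(0,[(16,64),(3,1144),(1,620)])], .leaf 0 [(0,[(3,1152),(1,640)])], .leaf 0 [(0,[(18,86),(26,26),(32,422),(4,538),(0,43),(34,344)]),(0,[(18,96),(21,160),(32,352),(4,448),(0,88),(34,384)]),(0,[(21,160),(26,32),(32,256),(4,544),(0,40)]),(4,[(12,264),(13,5640),(18,328),(33,2560),(4,5120),(0,1640),(34,1312)]),(6,[(18,512),(31,3584),(32,3584),(0,256),(34,2048)])], .leaf 1 [(0,[(15,16),(24,64),(3,416),(1,704),(0,16),(35,512)])], .split 0 0 (.leaf 0 [(0,[(0,1)])]) (.leaf 1 [(214,[(16,2112),(18,15872),(25,19008),(1,4224),(0,297),(36,575488)])]), .leaf 0 [(0,[(17,64),(3,1180),(1,2732),(35,2048)])], .leaf 2 [(0,[(1,640)])], .leaf 4 [(0,[(12,432),(18,32),(33,368),(4,368),(0,16),(34,128)]),(6,[(13,192),(18,1024),(3,4592),(0,560),(34,4096)]),(0,[(21,128)]),(6,[(18,512),(32,3584),(0,256),(34,2048)]),(0,[(12,512),(33,512),(4,512),(3,368)])],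 .leaf 0 [(0,[(3,160),(1,640)])], .leaf 1 [(0,[(15,64),(3,1144),(1,620),(35,2048)])], .split 2 0 (.leaf 2 [(0,[(0,1)])]) (.leaf 0 [(175,[(19,7168),(20,29184),(4,27584),(2,82624),(1,3584),(0,19),(35,28672)])])]
noncomputable def t0 : TT := a0
theorem c0 : chkT (fsm (-1) ([-1,4,4,0,0,0,0,0,0,0] : Fm) :: fsm (-1) ([0,0,0,0,-1,1,0,0,0,0] : Fm) :: ([0,0,0,0,0,0,0,0,-1,1] : Fm) :: ([0,0,0,0,-2,0,0,0,1,0] : Fm) :: ([0,0,0,0,-1,-1,0,0,-1,1] : Fm) :: K1O12.C0) t0 = true := by decide +kernel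
end K1O12M00011

namespace K1O12M00100
noncomputable def a0 : TT := .leaf ⟨true,8,1,0,9,1,63,[[0,0,0,8],[0,0,0,8],[],[0,8,8,-8,-32,-24,0,0,16,8],[],[],[0,0,0,24],[0,0,0,1],[0,0,0,8],[],[0,0,0,8]]⟩ [.leaf 0 [(0,[])], .leaf 0 [(0,[])], .leaf 0 [(0,[])], .leaf 0 [(6,[(16,10),(18,1),(4,318),(2,318),(0,2),(34,4)])], .leaf 0 [(0,[])], .leaf 0 [(6,[(16,80),(18,8),(4,2544),(2,2544),(0,16),(34,32)])], .leaf 0 [(0,[])], .leaf 0 [(0,[]),(0,[]),(0,[]),(0,[]),(0,[]),(0,[])], .leaf 0 [(6,[(18,1024),(22,3072),(4,19456),(3,3584),(2,15360),(0,2048),(34,4096)])], .leaf 0 [(0,[])], .leaf 0 [(0,[])], .leaf 0 [(0,[])], .leaf 0 [(0,[])], .leaf 0 [(0,[])], .leaf 0 [(0,[])], .leaf 0 [(0,[])], .leaf 0 [(0,[])], .leaf 0 [(0,[])], .leaf 0 [(10,[(18,2048),(19,2048),(22,13312),(25,2048),(32,37888),(33,26624),(34,8192)])], .leaf 0 [(0,[(22,1024),(3,2048),(2,2048)])], .leaf 0 [(6,[(18,1024),(22,17408),(4,33792),(2,2048),(0,2048),(34,4096)])],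 .leaf 0 [(0,[(20,256),(22,256),(4,3072),(3,512),(2,2304),(0,256)])], .leaf 0 [(6,[(18,1024),(22,3072),(4,19456),(2,15360),(0,2048),(34,4096)])], .leaf 0 [(0,[(3,2048)])], .leaf 0 [(0,[(20,256),(22,256),(4,3072),(3,512),(2,2304),(0,256),(35,8192)])], .leaf 3 [(0,[(13,1536),(4,1536),(3,512)]),(0,[(4,1536),(3,1280)]),(0,[(13,2560),(4,3072),(3,1280),(2,512)]),(0,[(13,1536),(4,5632),(3,2560),(2,4096)]),(0,[(13,256),(4,2304),(3,768),(2,768),(0,256)])], .leaf 0 [(6,[(18,1024),(22,3072),(4,21248),(2,18944),(0,2048),(34,4096)])], .leaf 1 [(6,[(18,1056),(22,5408),(31,20512),(2,18976),(0,2112),(34,4224)])], .leaf 0 [(0,[(4,992),(3,1616)])], .leaf 2 [(0,[(20,256),(22,256),(4,3072),(3,512),(2,2304),(0,256),(35,8192)])], .leaf 4 [(8,[(14,15104),(18,3328),(19,3328),(22,7936),(31,5888),(32,14592),(34,13312)]),(4,[(14,13312),(18,2304),(19,7680),(22,5120),(31,2304),(4,7936),(2,2560),(34,9216)]),(8,[(18,3328),(22,11264),(27,2048),(32,20480),(34,13312)]),(8,[(14,15104),(18,3328),(19,3328),(22,7936),(31,5888),(32,14592),(35,60416)]),(8,[(14,15104),(18,3328),(19,3328),(22,7936),(31,5888),(32,14592),(34,13312)])],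 .leaf 0 [(0,[(20,256),(22,256),(4,768),(3,1664),(0,256)])], .leaf 1 [(0,[(22,288),(4,704),(3,1632),(0,256)])], .leaf 0 [(0,[(22,288),(4,3232),(3,368),(2,2528),(0,256)])], .leaf 1 [(0,[(20,256),(22,256),(4,3072),(3,512),(2,2304),(0,256),(35,8192)])], .leaf 3 [(0,[(12,1728),(18,320),(22,832),(25,320),(33,1664),(34,1280)]),(4,[(12,6912),(18,1792),(22,4608),(25,1536),(33,8704),(34,7168)]),(8,[(18,8192),(22,3584),(25,8192),(33,2560),(3,19456),(2,4608),(34,32768)]),(0,[(25,512),(33,1024),(3,1024),(35,8192)]),(6,[(16,32000),(18,13056),(25,8960),(33,5376),(4,1012224),(2,1019392),(0,2816),(34,52224)])], .leaf 0 [(0,[(13,1024),(4,2048),(3,640),(2,1024)])], .leaf 1 [(0,[(22,288),(4,2976),(3,624),(2,2272),(0,256)])], .leaf 0 [(6,[(16,4080),(18,1248),(22,10416),(31,25200),(4,123696),(2,152368),(0,4288),(34,4992)])]]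
noncomputable def t0 : TT := a0
theorem c0 : chkT (([-1,4,4,0,0,0,0,0,0,0] : Fm) :: ([0,0,0,0,-1,1,0,0,0,0] : Fm) :: fsm (-1) ([0,0,0,0,0,0,0,0,-1,1] : Fm) :: ([0,0,0,0,-2,0,0,0,1,0] : Fm) :: ([0,0,0,0,-1,-1,0,0,-1,1] : Fm) :: K1O12.C0) t0 = true := by decide +kernel
end K1O12M00100

namespace K1O12M00101
noncomputable def a0 : TT := .leaf ⟨false,0,0,1,1,2,7,[[],[],[0,0,0,0,0,4],[0,1,1,0,3,-6,0,0,2,1],[],[],[],[],[],[],[]]⟩ [.leaf 0 [(0,[])], .leaf 0 [(0,[])], .leaf 0 [(0,[])], .leaf 0 [(0,[])], .leaf 0 [(0,[])], .leaf 0 [(0,[])], .leaf 0 [(0,[(13,128),(4,640),(2,512)])], .leaf 0 [(0,[])], .leaf 0 [(0,[])], .leaf 0 [(0,[])], .leaf 0 [(0,[])], .leaf 0 [(0,[])], .leaf 0 [(0,[])], .leaf 0 [(0,[])], .leaf 0 [(0,[])], .leaf 0 [(0,[])], .leaf 0 [(6,[(18,320),(19,1120),(25,1120),(32,432),(33,4496),(4,2480),(0,104),(34,1280)])], .leaf 0 [(0,[(22,128),(4,640),(3,384),(2,896)])], .leaf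 0 [(0,[(22,128),(4,384)])], .leaf 0 [(0,[(13,128),(15,32),(20,32),(4,128),(3,192),(35,1024)])], .leaf 0 [(0,[(13,128),(4,128)])], .leaf 0 [(0,[(13,128),(4,128),(2,32)])], .leaf 1 [(0,[(4,128),(3,256)])], .leaf 3 [(0,[(13,192),(4,192),(3,288)]),(0,[(4,192),(3,320),(1,128)]),(0,[(13,320),(4,704),(2,384)]),(0,[(13,192),(4,192),(3,320),(1,960)]),(0,[(13,192),(4,1152),(3,320),(2,960)])], .leaf 0 [(0,[(13,128),(31,160),(2,64)])], .leaf 1 [(0,[(13,92),(4,156),(2,32)])], .leaf 0 [(0,[(13,92),(31,156),(2,32)])], .leaf 0 [(0,[(4,128),(3,256)])], .leaf 3 [(0,[(18,64),(32,64),(4,128),(0,48),(34,256)]),(0,[(4,192),(0,16)]),(2,[(13,1442),(14,458),(18,154),(19,310),(4,864),(0,312),(34,616)]),(8,[(18,512),(32,1024),(4,1728),(0,400),(34,2048)]),(6,[(18,256),(32,1792),(0,296),(34,1024)])], .leaf 1 [(0,[(13,128),(31,160),(2,64)])], .leaf 2 [(0,[(18,64),(19,96),(25,96),(32,48),(33,528),(4,304),(0,40),(34,256)])],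 .leaf 0 [(0,[(13,92),(15,32),(4,156),(3,202),(2,32),(35,1024)])], .leaf 2 [(0,[(13,128),(4,128),(3,192)])], .leaf 4 [(78,[(13,13760),(18,5312),(26,1792),(33,3264),(3,10112),(1,31232),(0,7808),(34,21248)]),(6,[(18,512),(3,1504),(0,144),(34,2048)]),(0,[(12,208),(33,256),(4,192),(3,280),(0,16)]),(10,[(12,576),(13,5056),(18,320),(33,2816),(4,2112),(3,3520),(1,6400),(0,1600),(34,1280)]),(8,[(12,2080),(18,32),(33,2304),(4,1728),(3,2880),(1,8224),(0,160),(34,128)])], .leaf 0 [(0,[(13,128),(31,128)])], .leaf 1 [(0,[(13,124),(15,32),(4,124),(3,218),(35,1024)])], .leaf 2 [(0,[(18,64),(25,192),(33,576),(4,256),(0,64),(34,256)])]]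
noncomputable def t0 : TT := a0
theorem c0 : chkT (fsm (-1) ([-1,4,4,0,0,0,0,0,0,0] : Fm) :: ([0,0,0,0,-1,1,0,0,0,0] : Fm) :: fsm (-1) ([0,0,0,0,0,0,0,0,-1,1] : Fm) :: ([0,0,0,0,-2,0,0,0,1,0] : Fm) :: ([0,0,0,0,-1,-1,0,0,-1,1] : Fm) :: K1O12.C0) t0 = true := by decide +kernel
end K1O12M00101

namespace K1O12M00110
noncomputable def a0 : TT := .leaf ⟨true,8,1,0,9,1,63,[[0,0,0,8],[0,0,0,8],[],[0,8,8,-8,-32,-24,0,0,16,8],[],[],[0,0,0,24],[0,0,0,1],[0,0,0,8],[],[0,0,0,8]]⟩ [.leaf 0 [(0,[])], .leaf 0 [(0,[])], .leaf 0 [(0,[])], .leaf 0 [(6,[(16,10),(18,1),(4,318),(2,318),(0,2),(34,4)])], .leaf 0 [(0,[])], .leaf 0 [(6,[(16,80),(18,8),(4,2544),(2,2544),(0,16),(34,32)])], .leaf 0 [(0,[])], .leaf 0 [(0,[]),(0,[]),(0,[]),(0,[]),(0,[]),(0,[])], .leaf 0 [(6,[(18,1024),(22,3072),(4,19456),(3,3584),(2,15360),(0,2048),(34,4096)])], .leaf 0 [(0,[])], .leaf 0 [(0,[])], .leaf 0 [(0,[])], .leaf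 0 [(0,[])], .leaf 0 [(0,[])], .leaf 0 [(0,[])], .leaf 0 [(0,[])], .leaf 0 [(0,[])], .leaf 0 [(0,[])], .leaf 0 [(10,[(18,2048),(19,2048),(22,13312),(25,2048),(32,37888),(33,26624),(34,8192)])], .leaf 0 [(0,[(22,1024),(3,2048),(2,2048)])], .leaf 0 [(6,[(18,1024),(22,17408),(4,31744),(1,2048),(0,2048),(34,4096)])], .leaf 0 [(0,[(20,256),(22,256),(4,3072),(3,512),(2,2304),(0,256)])], .leaf 0 [(6,[(18,1024),(22,3072),(1,19456),(0,2048),(34,4096)])], .leaf 0 [(0,[(3,2048)])], .leaf 0 [(0,[(20,256),(22,256),(4,3072),(3,512),(2,2304),(0,256),(35,8192)])], .leaf 3 [(0,[(13,1536),(4,1536),(3,512)]),(0,[(4,1536),(3,1280)]),(0,[(13,2560),(4,3072),(3,1280),(2,512)]),(0,[(13,1536),(4,5632),(3,2560),(2,4096)]),(0,[(13,256),(4,2304),(3,768),(2,768),(0,256)])], .leaf 0 [(6,[(18,1024),(22,3072),(4,2304),(1,18944),(0,2048),(34,4096)])], .leaf 1 [(6,[(18,1056),(22,5408),(31,1536),(1,18976),(0,2112),(34,4224)])],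 .leaf 0 [(0,[(4,992),(3,1616)])], .leaf 2 [(0,[(20,256),(22,256),(4,3072),(3,512),(2,2304),(0,256),(35,8192)])], .leaf 4 [(8,[(14,15104),(18,3328),(19,3328),(22,7936),(31,5888),(32,14592),(34,13312)]),(6,[(14,17920),(18,3328),(19,11776),(22,6656),(4,11264),(1,3584),(34,13312)]),(8,[(18,3328),(22,11264),(27,2048),(32,20480),(34,13312)]),(8,[(14,15104),(18,3328),(19,3328),(22,7936),(31,5888),(32,14592),(35,60416)]),(8,[(14,15104),(18,3328),(19,3328),(22,7936),(31,5888),(32,14592),(34,13312)])], .leaf 0 [(0,[(20,256),(22,256),(4,768),(3,1664),(0,256)])], .leaf 1 [(0,[(22,288),(4,704),(3,1632),(0,256)])], .leaf 0 [(0,[(22,288),(4,3232),(3,368),(2,2528),(0,256)])], .leaf 1 [(0,[(20,256),(22,256),(4,3072),(3,512),(2,2304),(0,256),(35,8192)])], .leaf 3 [(0,[(12,1728),(18,320),(22,832),(25,320),(33,1664),(34,1280)]),(4,[(12,6912),(18,1792),(22,4608),(25,1536),(33,8704),(34,7168)]),(8,[(18,8192),(22,3584),(25,8192),(33,2560),(3,19456),(2,4608),(34,32768)]),(0,[(25,512),(33,1024),(3,1024),(35,8192)]),(6,[(16,32000),(18,13056),(25,8960),(33,5376),(4,1012224),(2,1019392),(0,2816),(34,52224)])],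 .leaf 0 [(0,[(13,1024),(4,1024),(3,1664),(1,1024)])], .leaf 1 [(0,[(22,288),(4,2976),(3,624),(2,2272),(0,256)])], .leaf 0 [(6,[(16,14496),(18,1248),(4,482208),(2,475264),(0,4288),(34,4992)])]]
noncomputable def t0 : TT := a0
theorem c0 : chkT (([-1,4,4,0,0,0,0,0,0,0] : Fm) :: fsm (-1) ([0,0,0,0,-1,1,0,0,0,0] : Fm) :: fsm (-1) ([0,0,0,0,0,0,0,0,-1,1] : Fm) :: ([0,0,0,0,-2,0,0,0,1,0] : Fm) :: ([0,0,0,0,-1,-1,0,0,-1,1] : Fm) :: K1O12.C0) t0 = true := by decide +kernel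
end K1O12M00110

namespace K1O12M00111
noncomputable def a0 : TT := .leaf ⟨false,0,0,1,1,2,7,[[],[],[0,0,0,0,0,4],[0,1,1,0,3,-6,0,0,2,1],[],[],[],[],[],[],[]]⟩ [.leaf 0 [(0,[])], .leaf 0 [(0,[])], .leaf 0 [(0,[])], .leaf 0 [(0,[])], .leaf 0 [(0,[])], .leaf 0 [(0,[])], .leaf 0 [(0,[(13,128),(4,128),(1,512)])], .leaf 0 [(0,[])], .leaf 0 [(0,[])], .leaf 0 [(0,[])], .leaf 0 [(0,[])], .leaf 0 [(0,[])], .leaf 0 [(0,[])], .leaf 0 [(0,[])], .leaf 0 [(0,[])], .leaf 0 [(0,[])], .leaf 0 [(6,[(18,320),(19,1120),(25,1120),(32,432),(33,4496),(4,2480),(0,104),(34,1280)])], .leaf 0 [(0,[(22,128),(4,640),(3,384),(2,896)])], .leaf 0 [(0,[(22,128),(4,384)])], .leaf 0 [(0,[(13,128),(15,32),(20,32),(4,128),(3,192),(35,1024)])], .leaf 0 [(0,[(4,128),(1,128)])], .leaf 0 [(0,[(13,128),(1,128)])], .leaf 1 [(0,[(4,128),(3,256)])], .leaf 3 [(0,[(13,192),(4,192),(3,288)]),(0,[(13,160),(4,192),(3,304)]),(0,[(13,320),(4,320),(3,160),(1,384)]),(0,[(13,192),(4,1152),(3,320),(2,960)]),(0,[(13,192),(4,1152),(3,320),(2,960)])],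 .leaf 0 [(0,[(31,96),(1,192)])], .leaf 1 [(0,[(13,92),(4,124),(1,32)])], .leaf 0 [(0,[(13,92),(31,124),(1,32)])], .leaf 0 [(0,[(4,128),(3,256)])], .leaf 3 [(0,[(18,64),(32,64),(4,128),(0,48),(34,256)]),(0,[(4,192),(0,16)]),(2,[(14,416),(18,160),(4,864),(1,1472),(0,32),(34,640)]),(8,[(18,512),(32,1024),(4,1728),(0,400),(34,2048)]),(6,[(18,256),(32,1792),(0,296),(34,1024)])], .leaf 1 [(0,[(13,128),(31,96),(1,64)])], .leaf 2 [(0,[(18,64),(19,96),(25,96),(32,48),(33,528),(4,304),(0,40),(34,256)])], .leaf 0 [(0,[(13,92),(15,32),(4,124),(3,234),(1,32),(35,1024)])], .leaf 2 [(0,[(13,128),(4,128),(3,192)])], .leaf 4 [(6,[(13,384),(18,256),(33,1792),(4,1344),(3,2240),(0,336),(34,1024)]),(6,[(18,512),(3,1504),(0,144),(34,2048)]),(0,[(12,208),(33,256),(4,192),(3,280),(0,16)]),(6,[(18,256),(33,1792),(4,8896),(3,2240),(2,7552),(0,240),(34,1024)]),(6,[(18,256),(33,1792),(4,8896),(3,2240),(2,7552),(0,240),(34,1024)])],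 .leaf 0 [(0,[(31,128),(1,128)])], .leaf 1 [(0,[(13,124),(15,32),(4,124),(3,218),(35,1024)])], .leaf 2 [(0,[(18,64),(25,192),(33,576),(4,256),(0,64),(34,256)])]]
noncomputable def t0 : TT := a0
theorem c0 : chkT (fsm (-1) ([-1,4,4,0,0,0,0,0,0,0] : Fm) :: fsm (-1) ([0,0,0,0,-1,1,0,0,0,0] : Fm) :: fsm (-1) ([0,0,0,0,0,0,0,0,-1,1] : Fm) :: ([0,0,0,0,-2,0,0,0,1,0] : Fm) :: ([0,0,0,0,-1,-1,0,0,-1,1] : Fm) :: K1O12.C0) t0 = true := by decide +kernel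
end K1O12M00111

namespace K1O12M00000
theorem top : ∃ t, chkT (([-1,4,4,0,0,0,0,0,0,0] : Fm) :: ([0,0,0,0,-1,1,0,0,0,0] : Fm) :: ([0,0,0,0,0,0,0,0,-1,1] : Fm) :: ([0,0,0,0,-2,0,0,0,1,0] : Fm) :: ([0,0,0,0,-1,-1,0,0,-1,1] : Fm) :: K1O12.C0) t = true := ⟨_, c0⟩
end K1O12M00000
namespace K1O12M00001
theorem top : ∃ t, chkT (fsm (-1) ([-1,4,4,0,0,0,0,0,0,0] : Fm) :: ([0,0,0,0,-1,1,0,0,0,0] : Fm) :: ([0,0,0,0,0,0,0,0,-1,1] : Fm) :: ([0,0,0,0,-2,0,0,0,1,0] : Fm) :: ([0,0,0,0,-1,-1,0,0,-1,1] : Fm) :: K1O12.C0) t = true := ⟨_, c0⟩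
end K1O12M00001
namespace K1O12M00010
theorem top : ∃ t, chkT (([-1,4,4,0,0,0,0,0,0,0] : Fm) :: fsm (-1) ([0,0,0,0,-1,1,0,0,0,0] : Fm) :: ([0,0,0,0,0,0,0,0,-1,1] : Fm) :: ([0,0,0,0,-2,0,0,0,1,0] : Fm) :: ([0,0,0,0,-1,-1,0,0,-1,1] : Fm) :: K1O12.C0) t = true := ⟨_, c0⟩
end K1O12M00010
namespace K1O12M00011
theorem top : ∃ t, chkT (fsm (-1) ([-1,4,4,0,0,0,0,0,0,0] : Fm) :: fsm (-1) ([0,0,0,0,-1,1,0,0,0,0] : Fm) :: ([0,0,0,0,0,0,0,0,-1,1] : Fm) :: ([0,0,0,0,-2,0,0,0,1,0] : Fm) :: ([0,0,0,0,-1,-1,0,0,-1,1] : Fm) :: K1O12.C0) t = true := ⟨_, c0⟩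
end K1O12M00011
namespace K1O12M00100
theorem top : ∃ t, chkT (([-1,4,4,0,0,0,0,0,0,0] : Fm) :: ([0,0,0,0,-1,1,0,0,0,0] : Fm) :: fsm (-1) ([0,0,0,0,0,0,0,0,-1,1] : Fm) :: ([0,0,0,0,-2,0,0,0,1,0] : Fm) :: ([0,0,0,0,-1,-1,0,0,-1,1] : Fm) :: K1O12.C0) t = true := ⟨_, c0⟩
end K1O12M00100
namespace K1O12M00101
theorem top : ∃ t, chkT (fsm (-1) ([-1,4,4,0,0,0,0,0,0,0] : Fm) :: ([0,0,0,0,-1,1,0,0,0,0] : Fm) :: fsm (-1) ([0,0,0,0,0,0,0,0,-1,1] : Fm) :: ([0,0,0,0,-2,0,0,0,1,0] : Fm) :: ([0,0,0,0,-1,-1,0,0,-1,1] : Fm) :: K1O12.C0) t = true := ⟨_, c0⟩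
end K1O12M00101
namespace K1O12M00110
theorem top : ∃ t, chkT (([-1,4,4,0,0,0,0,0,0,0] : Fm) :: fsm (-1) ([0,0,0,0,-1,1,0,0,0,0] : Fm) :: fsm (-1) ([0,0,0,0,0,0,0,0,-1,1] : Fm) :: ([0,0,0,0,-2,0,0,0,1,0] : Fm) :: ([0,0,0,0,-1,-1,0,0,-1,1] : Fm) :: K1O12.C0) t = true := ⟨_, c0⟩
end K1O12M00110
namespace K1O12M00111
theorem top : ∃ t, chkT (fsm (-1) ([-1,4,4,0,0,0,0,0,0,0] : Fm) :: fsm (-1) ([0,0,0,0,-1,1,0,0,0,0] : Fm) :: fsm (-1) ([0,0,0,0,0,0,0,0,-1,1] : Fm) :: ([0,0,0,0,-2,0,0,0,1,0] : Fm) :: ([0,0,0,0,-1,-1,0,0,-1,1] : Fm) :: K1O12.C0) t = true := ⟨_, c0⟩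
end K1O12M00111
def K1O12P00 := (splE (splE (splE K1O12M00000.top K1O12M00001.top) (splE K1O12M00010.top K1O12M00011.top)) (splE (splE K1O12M00100.top K1O12M00101.top) (splE K1O12M00110.top K1O12M00111.top)))

end Vale.Agent.P235
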