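import Vale.Agent.P235.T.K1O12C

namespace Vale.Agent.P235

set_option maxRecDepth 100000

namespace K1O12M01010
noncomputable def a0 : TT := .leaf ⟨false,0,1,0,1,0,15,[[],[0,0,0,0,16,0,0,0,-4],[],[0,0,0,0,0,0,0,0,5],[],[],[],[],[],[],[]]⟩ [.leaf 0 [(0,[])], .leaf 0 [(0,[(4,4)])], .leaf 0 [(0,[])], .leaf 0 [(0,[])], .leaf 0 [(0,[])], .leaf 0 [(0,[])], .leaf 0 [(0,[])], .leaf 0 [(0,[])], .leaf 0 [(0,[(4,3584)])], .leaf 0 [(0,[])], .leaf 0 [(0,[])], .leaf 0 [(0,[])], .leaf 0 [(0,[])], .leaf 0 [(0,[])], .leaf 0 [(0,[])], .leaf 0 [(0,[(4,3584)])], .leaf 0 [(0,[(34,2048),(5,2048)])], .leaf 0 [(0,[])], .leaf 0 [(0,[(5,2048)])], .leaf 0 [(0,[(16,64),(21,64),(36,2048)])], .leaf 0 [(0,[])], .leaf 0 [(0,[(17,64),(25,64)])], .leaf 1 [(0,[(4,3520)])], .leaf 3 [(0,[(14,512),(5,512)]),(0,[(4,448)]),(0,[(14,512),(5,512)]),(0,[(14,512),(5,512),(4,3520)]),(0,[(14,512),(5,512)])], .leaf 1 [(0,[])], .leaf 0 [(0,[(4,68)])], .leaf 0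 [(0,[(17,64)])], .leaf 0 [(0,[])], .leaf 0 [(4,[(19,944),(20,1888),(27,160),(5,2208),(0,32),(35,3776)]),(84,[(19,10912),(20,21824),(5,26304),(0,736),(35,43648)]),(4,[(15,320),(19,832),(20,1664),(5,1984),(0,36),(35,3328)]),(0,[(0,32)]),(0,[(15,512),(33,512),(5,512),(4,3808)])], .split 1 0 (.leaf 1 [(0,[(0,1)])]) (.split 0 0 (.leaf 0 [(0,[(0,1)])]) (.split 2 0 (.leaf 2 [(0,[(0,1)])]) (.w 1 (.leaf 2 [(0,[(0,16)])]) (.leaf 0 [(0,[(26,64),(0,16)])]) (.leaf 1 [(0,[(31,64),(0,16)])])))), .split 2 0 (.leaf 2 [(0,[(0,1)])]) (.leaf 0 [(1543,[(19,53760),(35,159744),(6,7168),(1,3360),(0,139),(37,1720320)])]), .split 0 0 (.leaf 0 [(0,[(0,1)])]) (.leaf 2 [(4,[(24,1280),(6,6400),(3,4096),(2,256),(0,4)])]), .leaf 2 [(0,[(4,3520)])], .leaf 4 [(116,[(13,63488),(19,3072),(20,6656),(23,3072),(26,10240),(34,20480),(0,448),(35,12288)]),(0,[(13,1024),(20,512)]),(0,[(33,448)]),(0,[(13,512),(33,512),(4,3520)]),(844,[(13,419328),(19,3072),(23,13312),(34,410112),(5,389632),(0,448),(35,12288)])],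 .leaf 0 [(0,[])], .leaf 1 [(0,[(16,64),(36,2048)])], .leaf 1 [(0,[(4,68)])]]
noncomputable def a1 : TT := .leaf ⟨false,0,1,0,1,0,63,[[],[1,3,2,0,64,0,0,-1,-15,-2],[],[0,-6,-6,0,0,0,0,0,13,6],[],[],[],[],[],[],[]]⟩ [.leaf 0 [(0,[])], .leaf 0 [(0,[(25,1),(29,2),(8,18)])], .leaf 0 [(0,[])], .leaf 0 [(0,[])], .leaf 0 [(0,[(24,1),(27,2)])], .leaf 0 [(0,[])], .leaf 0 [(0,[(27,768)])], .leaf 0 [(0,[])], .leaf 0 [(0,[(25,896),(29,1792),(8,16128)])], .leaf 0 [(0,[])], .leaf 0 [(0,[])], .leaf 0 [(0,[])], .leaf 0 [(0,[])], .leaf 0 [(0,[])], .leaf 0 [(0,[])], .leaf 0 [(0,[(25,896),(29,1792),(8,16128)])], .leaf 0 [(124,[(23,12288),(24,58496),(38,880640),(9,798720),(0,3584),(39,49152)])], .leaf 0 [(0,[(25,128),(29,1024)])], .leaf 0 [(0,[(18,512),(24,128),(9,7680)])], .leaf 0 [(0,[(25,128),(27,512),(32,128),(8,936),(4,8),(2,64)])], .leaf 0 [(0,[(24,128),(27,1024)])], .leaf 0 [(16,[(27,6336),(38,128),(8,11220),(4,132),(3,64)])],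 .leaf 0 [(0,[(25,896),(29,1792),(8,16128),(3,128),(40,8192)])], .leaf 3 [(0,[(18,2496),(25,32),(9,1600)]),(0,[(28,1184),(32,160)]),(0,[(18,1728),(25,32),(9,2368)]),(0,[(25,1056),(29,448),(8,16128),(1,512)]),(0,[(18,2752),(25,160),(9,1344)])], .leaf 1 [(0,[(25,128),(27,512),(8,1152)])], .leaf 0 [(0,[(24,4),(29,16),(8,268)])], .leaf 0 [(50,[(27,30352),(38,256),(8,50728),(4,400),(3,196)])], .leaf 2 [(0,[(3,128),(40,8192)])], .leaf 1 [(74,[(23,49096),(24,76592),(9,100720),(2,7808),(0,4816),(39,196384)]),(18,[(23,8680),(24,11888),(9,19632),(0,1424),(39,34720)]),(4,[(18,1440),(19,1280),(31,6272),(9,13152),(0,288)]),(0,[(23,576),(24,864),(31,356),(9,1344),(1,1056),(0,84),(39,2304)]),(6,[(23,4096),(29,8064),(8,125888),(1,2560),(39,16384)])], .leaf 0 [(32,[(25,3968),(27,15872),(32,3968),(8,29016),(4,248),(3,256)])], .leaf 1 [(32,[(27,19180),(30,516),(38,256),(8,28132),(4,256),(3,256)])], .leaf 0 [(0,[(27,620),(30,4),(8,908),(6,512),(4,8)])],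 .leaf 1 [(0,[(23,1056),(29,336),(8,14291),(4,71),(3,48),(2,40),(40,3968)])], .leaf 4 [(240,[(17,445056),(23,29568),(30,46032),(38,197120),(0,8624),(39,118272)]),(436,[(17,902912),(23,48384),(27,230560),(30,161280),(38,322560),(0,14112),(39,193536)]),(0,[(26,1184),(31,704)]),(8,[(23,4096),(29,14272),(38,8192),(8,145888),(39,16384)]),(0,[(17,2208),(18,704),(38,1888),(9,1184)])], .leaf 0 [(0,[(25,128),(27,512),(8,1152)])], .leaf 0 [(0,[(25,36),(32,96),(8,188),(6,256),(4,8)])], .leaf 1 [(0,[(24,4),(29,16),(8,268)])]]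
noncomputable def a2 : TT := .leaf ⟨false,0,1,0,1,0,15,[[],[2,0,-2,0,16,0,0,-2,-7,2],[],[0,0,0,0,0,0,0,0,1],[],[],[],[],[],[],[]]⟩ [.leaf 0 [(0,[])], .leaf 0 [(681,[(18,48),(26,203),(28,179),(10,1584),(9,2732),(4,24),(1,99)])], .leaf 0 [(0,[])], .leaf 0 [(0,[])], .leaf 0 [(0,[(25,2),(30,2)])], .leaf 0 [(0,[])], .leaf 0 [(0,[])], .leaf 0 [(0,[])], .leaf 0 [(340,[(18,21504),(26,90944),(28,80192),(10,709632),(9,1223936),(4,10752),(1,44352)])], .leaf 0 [(0,[])], .leaf 0 [(0,[])], .leaf 0 [(0,[])], .leaf 0 [(0,[])], .leaf 0 [(0,[])], .leaf 0 [(0,[])], .leaf 0 [(340,[(18,21504),(26,90944),(28,80192),(10,709632),(9,1223936),(4,10752),(1,44352)])], .leaf 0 [(0,[(19,256),(25,256),(39,2048),(10,1792)])], .leaf 0 [(0,[(26,256),(28,256)])], .leaf 0 [(0,[(19,256),(25,256),(10,1792)])], .leaf 0 [(12,[(26,1434),(28,1434),(33,416),(10,2528),(9,8644),(2,104),(1,210)])], .leaf 0 [(0,[(25,256),(30,256)])], .leaf 0 [(30,[(18,256),(26,1744),(28,1616),(10,6464),(9,16224),(4,128),(1,528)])],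 .leaf 0 [(246,[(20,78120),(24,23376),(39,93480),(10,795360),(9,498976),(4,15584),(1,51672),(41,412352)])], .leaf 0 [(0,[(19,512),(10,512)]),(0,[(19,768),(25,256),(10,256)]),(0,[(33,256),(37,448),(9,32)]),(340,[(18,15360),(26,315936),(28,100928),(10,856064),(9,1572608),(4,18592),(1,31680),(41,698368)]),(0,[(19,512),(10,512)])], .leaf 1 [(352,[(24,1392),(10,116512),(9,111968),(4,2784),(1,7456),(40,5568)])], .leaf 0 [(24,[(25,128),(39,160),(9,1064),(6,32),(1,8)])], .leaf 0 [(340,[(18,3712),(26,240),(28,20208),(10,100672),(9,127616),(4,1856),(1,7656)])], .leaf 1 [(246,[(20,10267),(24,1662),(39,12483),(10,88380),(9,46452),(4,1108),(2,65208),(1,6581),(40,6648)])], .leaf 3 [(6,[(19,2432),(24,1024),(25,4480),(10,2240),(2,448),(0,14),(40,4096)]),(15,[(24,4305),(25,8610),(32,606),(10,4574),(2,1152),(0,68),(40,17220)]),(4,[(20,3072),(24,64),(28,1280),(38,1600),(10,1600),(7,2880),(40,256)]),(0,[(20,64),(24,128),(25,256),(32,320),(39,64),(10,448),(2,320),(0,10),(40,512)]),(10,[(18,512),(26,8032),(28,7776),(10,16896),(9,60352),(4,256),(3,7040),(1,352)])],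 .leaf 0 [(20,[(26,992),(28,602),(33,542),(10,5892),(9,8082),(4,130),(1,436)])], .leaf 1 [(340,[(18,24832),(26,11812),(28,32132),(10,77440),(9,167568),(4,1504),(1,6204)])], .leaf 0 [(12,[(26,892),(28,1724),(10,2560),(9,8032),(3,416),(1,212)])], .leaf 1 [(246,[(20,78120),(24,23376),(39,93480),(10,795360),(9,498976),(4,15584),(1,51672),(41,412352)])], .leaf 1 [(14,[(18,7168),(24,512),(28,512),(31,512),(39,4608),(0,112),(40,2048)]),(12,[(28,480),(31,2672),(10,256),(9,6336),(1,16)]),(0,[(18,768),(19,256),(25,512),(39,256)]),(78,[(18,57248),(38,29312),(39,480),(10,203232),(9,188288),(4,5600),(1,12672),(41,161792)]),(14,[(18,7168),(24,512),(28,512),(31,512),(39,4608),(0,112),(40,2048)])], .leaf 0 [(12,[(26,1392),(28,1392),(10,2816),(9,9376),(1,176)])], .leaf 0 [(0,[(26,8),(28,8),(33,32),(9,58),(5,2),(3,16)])], .leaf 1 [(0,[(25,8),(30,8),(9,56)])]]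
noncomputable def a3 : TT := .leaf ⟨false,0,1,0,1,0,15,[[],[-2,-3,-1,0,16,0,0,2,-13,1],[],[-1,-1,0,0,0,0,0,1,1],[],[],[],[],[],[],[]]⟩ [.leaf 0 [(0,[])], .leaf 0 [(46,[(25,94),(28,47),(10,256),(9,248),(0,8)])], .leaf 0 [(0,[])], .leaf 0 [(0,[])], .leaf 0 [(0,[(26,2),(30,1)])], .leaf 0 [(0,[])], .leaf 0 [(0,[(25,128)])], .leaf 0 [(0,[])], .leaf 0 [(46,[(25,84224),(28,42112),(10,229376),(9,222208),(0,7168)])], .leaf 0 [(0,[])], .leaf 0 [(0,[])], .leaf 0 [(0,[])], .leaf 0 [(0,[])], .leaf 0 [(0,[])], .leaf 0 [(0,[])], .leaf 0 [(46,[(25,84224),(28,42112),(10,229376),(9,222208),(0,7168)])], .leaf 0 [(0,[(18,384),(19,128),(39,1664),(10,1536)])], .leaf 0 [(0,[(25,128),(28,128)])], .leaf 0 [(0,[(19,128),(26,384),(10,1920)])], .leaf 0 [(46,[(25,17108),(28,6956),(10,35456),(9,24948),(2,376),(1,188),(0,1108)])], .leaf 0 [(0,[(26,128),(30,128)])], .leaf 0 [(46,[(25,18048),(28,6016),(10,32832),(9,28704),(0,1120)])], .leaf 0 [(46,[(25,103776),(28,42112),(10,289792),(9,192000),(4,1504),(0,9056),(41,96256)])],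 .leaf 0 [(0,[(19,512),(26,96),(10,512)]),(0,[(19,640),(26,352),(10,384)]),(2,[(31,368),(39,112),(10,1472),(9,2272),(6,112)]),(62,[(25,124992),(28,24192),(10,518144),(4,2016),(0,14176),(41,129024)]),(0,[(19,512),(26,224),(10,512)])], .leaf 1 [(46,[(25,18048),(28,6016),(10,35840),(9,28704),(0,1120)])], .leaf 0 [(7,[(26,96),(9,193),(0,1)])], .leaf 0 [(46,[(25,18236),(28,9212),(10,36928),(9,26656),(0,1248)])], .leaf 1 [(46,[(25,18048),(28,6016),(10,37056),(9,20388),(2,12408),(0,1252)])], .leaf 4 [(0,[(24,288),(25,320),(10,448),(40,1152)]),(10,[(20,5632),(25,2208),(28,320),(37,2784),(38,5120),(10,2848),(9,32),(4,96)]),(0,[(18,192),(24,192),(25,320),(10,448),(40,768)]),(0,[(24,512),(25,320),(28,448)]),(516,[(20,264704),(25,864800),(28,412096),(39,240640),(10,2077184),(9,3292928),(4,4512),(0,49120)])], .leaf 0 [(3859,[(25,1911193),(10,4046176),(4,21709),(1,71396),(0,102561)])], .leaf 1 [(1550,[(25,597464),(28,162808),(31,52640),(10,1182336),(9,681968),(4,3008),(1,5828),(0,37136)])],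 .leaf 0 [(46,[(25,18048),(28,5264),(31,1504),(10,34816),(9,23200),(3,1504),(1,188),(0,1088)])], .leaf 1 [(46,[(25,103776),(28,42112),(10,289792),(9,192000),(4,1504),(0,9056),(41,96256)])], .leaf 1 [(0,[(18,608),(39,416),(10,416)]),(46,[(27,10528),(31,6016),(39,12032),(10,16128),(9,28032),(0,128)]),(0,[(18,864),(19,128),(39,160),(10,32)]),(46,[(25,69184),(28,42112),(38,48128),(10,257024),(9,160256),(4,1504),(0,8032),(41,96256)]),(0,[(18,736),(39,288),(10,288)])], .leaf 0 [(46,[(25,18048),(28,6016),(10,35840),(9,28704),(0,1120)])], .leaf 0 [(0,[(28,8),(33,16),(9,32),(3,16),(1,4)])], .leaf 1 [(7,[(26,96),(9,193),(7,32),(0,1)])]]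
noncomputable def a4 : TT := .leaf ⟨true,0,8,1,9,0,1023,[[],[0,-24,-24,0,1024,0,0,0,-480,24],[0,0,0,0,0,0,0,0,56],[0,32,32,0,0,0,0,0,320,-32],[0,0,0,0,0,0,0,0,48],[],[],[],[0,-3,-3,0,128,0,0,0,-60,3],[0,0,0,0,0,0,0,0,56],[0,0,0,0,128]]⟩ [.leaf 0 [(0,[])], .leaf 0 [(0,[(27,3),(8,63)])], .leaf 0 [(0,[])], .leaf 0 [(0,[(29,3)])], .leaf 0 [(0,[])], .leaf 0 [(0,[])], .leaf 0 [(0,[(1,128)])], .leaf 0 [(0,[]),(0,[]),(0,[]),(0,[]),(0,[]),(0,[])], .leaf 0 [(0,[(29,4096)])], .leaf 0 [(0,[])], .leaf 0 [(0,[(27,21504),(8,457728)])], .leaf 0 [(0,[])], .leaf 0 [(0,[])], .leaf 0 [(0,[])], .leaf 0 [(0,[])], .leaf 0 [(0,[])], .leaf 0 [(0,[])], .leaf 0 [(0,[(27,21504),(8,451584)])], .leaf 0 [(0,[(17,71680),(24,71680),(27,1024),(38,59392),(9,59392)])], .leaf 0 [(0,[(27,7168)])], .leaf 0 [(0,[(27,1024),(9,131072)])], .leaf 0 [(0,[(25,1024),(32,1024),(8,14976),(4,128),(2,1024)])], .leaf 0 [(0,[(29,7168)])], .leaf 0 [(16,[(29,18944),(38,35840),(8,498656),(4,2144),(3,512)])],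 .leaf 0 [(0,[(24,2048),(27,12288),(8,403456),(3,2048),(40,131072)])], .leaf 0 [(0,[(18,29696),(9,35840)]),(0,[(18,32768),(9,32768)]),(0,[(9,34816),(8,31744)]),(0,[(24,2048),(36,52224),(8,377856),(6,13312),(5,3328),(3,2048),(40,131072)]),(0,[(18,25600),(9,39936)])], .leaf 1 [(0,[(29,1024),(8,32768)])], .leaf 0 [(0,[(27,32),(8,3264)])], .leaf 0 [(16,[(27,54496),(38,35840),(8,592416),(4,2144),(3,512)])], .leaf 2 [(0,[(24,2048),(29,9216),(3,2048),(40,131072)])], .leaf 4 [(3946,[(23,54362112),(24,110657536),(9,127533056),(2,3735552),(0,29184),(39,217448448)]),(2,[(19,28160),(23,35840),(24,70144),(36,96768),(37,15872),(39,143360)]),(34,[(23,483328),(24,974848),(27,9056),(9,1126400),(0,224),(39,1933312)]),(2984,[(19,65536),(23,96731136),(24,96813056),(27,97907968),(38,229376),(9,294912),(3,81920),(0,7936),(40,4325376)]),(36,[(19,559616),(24,844800),(36,1865216),(37,488960),(8,13744896),(3,40448)])], .leaf 0 [(32,[(25,46080),(32,13312),(8,970112),(4,3968),(3,4096)])],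 .leaf 1 [(32,[(24,53216),(30,20512),(38,4096),(8,964160),(4,4096),(3,4096)])], .leaf 0 [(0,[(24,992),(30,1056),(8,14080),(6,8192),(4,128)])], .leaf 1 [(0,[(24,2048),(27,12288),(8,453632),(3,2048),(40,131072)])], .leaf 0 [(0,[(17,32768),(27,3072),(38,32768),(9,32768)]),(0,[(17,11520),(26,15104),(30,6144),(38,7424),(9,7424),(8,42240)]),(12,[(17,401408),(23,24576),(27,23232),(30,81920),(38,163840),(0,448),(39,98304)]),(0,[(17,32768),(27,27648),(37,11520),(38,21248),(9,17152),(8,493824),(2,33792)]),(0,[(17,52096),(24,19328),(27,7168),(38,13440),(9,13440)])], .leaf 0 [(0,[(29,1024),(8,18432)])], .leaf 0 [(0,[(27,224),(32,2048),(8,4288),(4,128),(2,1024)])], .leaf 1 [(0,[(27,32),(8,3712)])]]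
noncomputable def a5 : TT := .leaf ⟨true,0,8,1,9,3,31,[[],[0,0,0,0,32,0,0,0,-24],[0,0,0,0,0,0,0,0,3],[0,0,0,0,0,0,0,0,3],[0,0,0,0,0,0,0,0,9],[],[],[],[0,0,0,0,4,0,0,0,-3],[0,0,0,0,0,0,0,0,3],[0,0,0,0,4]]⟩ [.leaf 0 [(0,[])], .leaf 0 [(200,[(19,128),(27,3),(38,128),(9,256),(8,82),(0,1)])], .leaf 0 [(0,[])], .leaf 0 [(0,[])], .leaf 0 [(0,[])], .leaf 0 [(0,[])], .leaf 0 [(0,[(1,4)])], .leaf 0 [(0,[]),(0,[]),(0,[]),(0,[]),(0,[]),(0,[])], .leaf 0 [(0,[])], .leaf 0 [(0,[])], .leaf 0 [(200,[(19,1064960),(27,24960),(38,1064960),(9,2129920),(8,219136),(0,8320)])], .leaf 0 [(0,[])], .leaf 0 [(0,[])], .leaf 0 [(0,[])], .leaf 0 [(0,[])], .leaf 0 [(0,[])], .leaf 0 [(0,[])], .leaf 0 [(200,[(19,917504),(27,21504),(38,917504),(9,1835008),(8,587776),(0,7168)])], .leaf 0 [(0,[(17,3200),(24,3200),(38,896),(9,896)])], .leaf 0 [(0,[])], .leaf 0 [(0,[(9,4096)])], .leaf 0 [(200,[(19,25728),(24,1344),(31,30272),(9,88960),(8,255424),(0,448)])],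 .leaf 0 [(0,[])], .leaf 0 [(200,[(19,155648),(27,3648),(38,155648),(9,285568),(8,9664),(0,1216)])], .leaf 0 [(6456,[(19,32415232),(23,206976),(38,33592960),(9,66008192),(3,397568),(2,19973504),(0,259584),(40,25619968)])], .leaf 0 [(0,[(18,1024),(9,1024)]),(0,[(18,1024),(9,1024)]),(0,[(18,704),(9,896),(8,1824)]),(120098,[(19,201962240),(23,62105472),(38,322726016),(9,770651008),(8,1028434912),(3,2981376),(2,32543424),(0,2571520),(40,243503616)]),(0,[(32,128),(36,896),(5,128),(2,288)])], .leaf 1 [(200,[(19,155648),(27,3648),(38,155648),(9,311296),(8,9664),(0,1216)])], .leaf 0 [(0,[(8,32)])], .leaf 0 [(520,[(19,441344),(27,77032),(38,441344),(9,816000),(1,139392),(0,3448)])], .leaf 2 [(0,[(24,64),(29,256),(3,64),(40,4096)])], .leaf 4 [(6,[(18,1024),(23,3072),(24,7168),(9,7168),(39,12288)]),(12,[(19,11584),(23,1728),(24,1824),(27,1344),(37,10112),(9,11584),(3,96),(39,6912)]),(4,[(23,2048),(24,4096),(38,1024),(9,6144),(39,8192)]),(0,[(23,1024),(24,1024),(27,1024)]),(19370,[(19,108860456),(23,1050192),(38,116653480),(9,225513936),(3,1423160),(2,4428912),(0,723032),(39,4200768)])],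 .leaf 0 [(135790,[(19,103973120),(38,91637120),(9,194292736),(3,1261312),(1,66872320),(0,822144)])], .leaf 1 [(2210,[(19,1278592),(24,8576),(27,2296),(38,1578752),(9,3140352),(8,216768),(3,8576),(0,12200)])], .leaf 0 [(200,[(24,768),(31,6272),(38,25728),(9,65536),(8,310432),(2,12864),(0,256)])], .leaf 0 [(200,[(19,1042432),(27,24432),(38,1042432),(9,2059136),(8,568112),(2,212256),(0,8144)])], .leaf 1 [(0,[(17,1760),(24,736),(38,288),(9,288)]),(0,[(17,768),(26,256),(38,640),(9,640),(8,1728)]),(0,[(17,1024),(38,1024),(9,1024)]),(3540,[(19,14241280),(23,1814912),(38,21319552),(9,38903424),(8,9137344),(3,139776),(0,138496),(40,7244288)]),(2,[(23,640),(27,192),(30,1088),(38,1664),(39,2560)])], .leaf 0 [(200,[(24,1344),(31,56000),(9,114688),(8,255424),(0,448)])], .leaf 0 [(1,[(27,3),(32,128),(2,64),(0,1)])], .leaf 1 [(0,[(8,56)])]]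
noncomputable def a6 : TT := .leaf ⟨true,0,8,1,9,0,1023,[[],[0,-16,-16,0,1024,0,0,0,-472,16],[0,0,0,0,0,0,0,0,56],[0,32,32,0,0,0,0,0,160,-32],[0,0,0,0,0,0,0,0,48],[],[],[],[0,-2,-2,0,128,0,0,0,-59,2],[0,0,0,0,0,0,0,0,56],[0,0,0,0,128]]⟩ [.leaf 0 [(0,[])], .leaf 0 [(0,[(25,2),(6,61)])], .leaf 0 [(0,[])], .leaf 0 [(0,[(27,2)])], .leaf 0 [(0,[])], .leaf 0 [(0,[])], .leaf 0 [(0,[(0,128)])], .leaf 0 [(0,[]),(0,[]),(0,[]),(0,[]),(0,[]),(0,[])], .leaf 0 [(0,[(27,4096)])], .leaf 0 [(0,[])], .leaf 0 [(0,[(25,14336),(6,443392)])], .leaf 0 [(0,[])], .leaf 0 [(0,[])], .leaf 0 [(0,[])], .leaf 0 [(0,[])], .leaf 0 [(0,[])], .leaf 0 [(0,[])], .leaf 0 [(0,[(25,14336),(6,437248)])], .leaf 0 [(0,[(15,80896),(22,80896),(25,2048),(36,50176),(7,50176)])], .leaf 0 [(0,[(25,6144)])], .leaf 0 [(0,[(25,2048),(7,131072)])], .leaf 0 [(0,[(23,2048),(6,35456),(4,4096),(2,128)])], .leaf 0 [(0,[(27,6144)])], .leaf 0 [(16,[(27,36352),(36,35840),(6,846816),(2,2144),(1,512)])],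 .leaf 0 [(0,[(22,2048),(25,4096),(6,407552),(1,2048),(38,131072)])], .leaf 0 [(0,[(16,29696),(7,35840)]),(0,[(16,31744),(7,33792)]),(0,[(26,27648),(7,6144),(6,16384)]),(662,[(21,756736),(34,29590528),(35,1059840),(6,237718528),(4,12346368),(3,2771968),(1,1258496),(38,83873792)]),(0,[(16,25600),(7,39936)])], .leaf 1 [(0,[(27,2048),(6,53248)])], .leaf 0 [(0,[(25,64),(6,2688)])], .leaf 0 [(16,[(22,34816),(25,192),(36,2048),(6,891072),(2,2112),(1,1024)])], .leaf 2 [(0,[(22,2048),(27,10240),(1,2048),(38,131072)])], .leaf 4 [(6,[(21,98304),(22,203776),(29,25600),(7,262144),(37,393216)]),(2,[(17,31744),(21,34816),(22,66560),(34,95232),(35,19456),(6,17152),(37,139264)]),(0,[(21,13312),(22,27648),(36,5120),(7,38912),(37,53248)]),(0,[(21,32768),(22,32768),(25,33792)]),(10,[(17,360448),(22,51200),(25,144384),(35,327680),(7,360448),(6,3868416),(1,6144)])], .leaf 0 [(48,[(21,53248),(30,43008),(6,2351360),(2,9472),(1,2048),(37,212992)])],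 .leaf 0 [(0,[(22,64),(36,1984),(2,128),(0,18432)])], .leaf 0 [(0,[(22,1984),(28,64),(6,33920),(4,8192),(2,128)])], .leaf 1 [(0,[(22,2048),(25,4096),(6,457728),(1,2048),(38,131072)])], .leaf 4 [(0,[(15,32768),(25,2560),(36,32768),(7,32768)]),(0,[(15,62080),(16,1536),(22,29312),(36,3456),(7,1920)]),(0,[(24,24064),(28,4608),(6,32512)]),(274,[(15,5251072),(25,1117696),(36,12992512),(7,20291584),(6,113604608),(2,228096),(1,110592)]),(0,[(15,43648),(22,10880),(25,4608),(36,21888),(7,21888)])], .leaf 0 [(0,[(27,2048),(6,38912)])], .leaf 0 [(0,[(25,192),(30,2048),(6,3584),(4,4096),(2,128)])], .leaf 1 [(0,[(25,64),(6,3136)])]]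
noncomputable def a7 : TT := .leaf ⟨true,1,8,0,9,3,1023,[[0,0,0,0,0,0,0,0,56],[8,0,-8,0,1024,0,0,-8,-480,8],[],[0,0,0,0,0,0,0,0,320],[],[],[0,0,0,0,0,0,0,0,64],[0,0,0,0,0,0,0,0,56],[1,0,-1,0,128,0,0,-1,-60,1],[],[0,0,0,0,128]]⟩ [.leaf 0 [(0,[])], .leaf 0 [(0,[(23,1),(25,1),(6,62)])], .leaf 0 [(0,[])], .leaf 0 [(0,[(22,1),(27,1)])], .leaf 0 [(170,[(25,1536),(30,512),(7,1024),(6,1856),(4,1024),(2,64),(1,512)])], .leaf 0 [(0,[])], .leaf 0 [(0,[])], .leaf 0 [(0,[]),(0,[]),(0,[]),(0,[]),(0,[]),(0,[])], .leaf 0 [(0,[])], .leaf 0 [(0,[])], .leaf 0 [(0,[(23,7168),(25,7168),(6,444416)])], .leaf 0 [(0,[])], .leaf 0 [(0,[])], .leaf 0 [(0,[])], .leaf 0 [(0,[])], .leaf 0 [(0,[])], .leaf 0 [(0,[])], .leaf 0 [(0,[(23,7168),(25,7168),(6,452608)])], .leaf 0 [(70,[(21,32768),(22,136448),(36,9191424),(7,9125888),(1,1792),(37,131072)])], .leaf 0 [(0,[(23,1024),(25,1024)])], .leaf 0 [(0,[(16,1024),(22,1024),(7,130048)])], .leaf 0 [(0,[(23,3072),(25,3072),(6,34432),(4,4096),(2,128)])],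 .leaf 0 [(0,[(22,1024),(27,1024)])], .leaf 0 [(6,[(17,9216),(21,2048),(25,4096),(36,9216),(6,102400),(2,1024),(37,8192)])], .leaf 0 [(0,[(0,1024),(38,131072)])], .leaf 1 [(0,[(16,32768),(7,32768)]),(0,[(16,33792),(22,1024),(7,31744)]),(0,[(30,1024),(34,11008),(7,17664),(6,36096)]),(1396,[(16,23523328),(21,7839744),(23,4792320),(7,68030464),(6,637609984),(4,1187840),(2,527104),(1,593920),(37,31358976)]),(0,[(16,13312),(23,3072),(30,2048),(7,31744),(4,20480),(3,4096)])], .leaf 1 [(0,[(23,1024),(25,1024),(6,19456)])], .leaf 0 [(6,[(22,128),(36,160),(6,25908),(3,32),(2,4)])], .leaf 0 [(0,[(17,4160),(25,6208),(36,2048),(6,23914),(2,194)])], .leaf 0 [(0,[(23,1024),(25,1024)])], .leaf 4 [(118,[(17,581632),(21,1671168),(22,3369600),(7,3874816),(1,9088),(37,6684672)]),(6,[(17,44032),(21,90880),(22,181760),(35,7936),(7,232960),(37,363520)]),(6,[(21,102400),(22,203840),(25,2304),(7,225280),(1,448),(37,409600)]),(0,[(21,32768),(22,33280),(25,32256)]),(162,[(17,2331648),(21,3009536),(22,2631168),(25,3387904),(36,2684928),(7,5016576),(6,29733376),(0,88320),(37,12038144)])],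 .leaf 0 [(4,[(21,8192),(25,16384),(30,7168),(6,88704),(2,1152),(37,32768)])], .leaf 0 [(0,[(22,1248),(6,2640),(2,154),(1,416)])], .leaf 0 [(0,[(25,1984),(28,1056),(6,29856),(4,8192),(2,128)])], .leaf 1 [(6836,[(21,30507008),(22,61014016),(4,75464704),(2,4264960),(0,6398976),(38,774111232)])], .leaf 1 [(0,[(15,32768),(36,32768),(7,32768)]),(0,[(15,10240),(24,22528),(28,1024),(36,4096),(7,4096),(6,39936)]),(70,[(15,4472832),(21,32768),(22,2282752),(36,65536),(1,1792),(37,131072)]),(4,[(15,69632),(21,135168),(25,176128),(28,59392),(36,118784),(6,2360448),(2,4736),(38,114688)]),(2,[(15,94208),(21,2048),(28,7168),(35,71680),(36,16384),(6,60416),(37,8192)])], .leaf 0 [(0,[(23,1024),(25,1024),(6,33792)])], .leaf 0 [(0,[(23,32),(25,32),(30,2048),(6,4128),(4,4096),(2,128)])], .leaf 1 [(0,[(22,32),(27,32),(6,3296)])]]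
noncomputable def a8 : TT := .leaf ⟨true,1,8,0,9,3,1023,[[0,0,0,0,0,0,0,0,56],[8,0,0,0,1024,-8,0,0,-480,8],[],[0,0,0,0,0,0,0,0,320],[],[],[0,0,0,0,0,0,0,0,64],[0,0,0,0,0,0,0,0,56],[1,0,0,0,128,-1,0,0,-60,1],[],[0,0,0,0,128]]⟩ [.leaf 0 [(0,[])], .leaf 0 [(0,[(7,1),(6,59)])], .leaf 0 [(0,[])], .leaf 0 [(34959,[(21,11744),(22,27424),(27,3936),(4,720),(2,1849),(0,180),(37,46976)])], .leaf 0 [(170,[(25,1536),(30,512),(7,1024),(6,1856),(4,1024),(2,64),(1,512)])], .leaf 0 [(0,[])], .leaf 0 [(0,[])], .leaf 0 [(0,[]),(0,[]),(0,[]),(0,[]),(0,[]),(0,[])], .leaf 0 [(0,[])], .leaf 0 [(0,[])], .leaf 0 [(0,[(7,7168),(6,422912)])], .leaf 0 [(0,[])], .leaf 0 [(0,[])], .leaf 0 [(0,[])], .leaf 0 [(0,[])], .leaf 0 [(0,[])], .leaf 0 [(0,[])], .leaf 0 [(0,[(34,7168),(6,431104)])], .leaf 0 [(402,[(21,109568),(22,623616),(25,227328),(36,52186112),(7,51554304),(0,1024),(37,438272)])], .leaf 0 [(0,[(34,512),(7,512)])], .leaf 0 [(2184,[(16,251904),(21,751616),(22,1755136),(7,286140416),(4,46080),(2,118336),(0,11520),(37,3006464)])],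 .leaf 0 [(0,[(23,2560),(25,2560),(6,33248),(4,4096),(2,96)])], .leaf 0 [(2184,[(21,751616),(22,1755136),(27,251904),(4,46080),(2,118336),(0,11520),(37,3006464)])], .leaf 0 [(0,[(17,1536),(36,1536),(6,13792),(2,96)])], .leaf 1 [(0,[(34,8192),(6,439296)])], .leaf 0 [(0,[(16,32768),(7,32768)]),(2184,[(16,71849984),(21,751616),(22,1755136),(7,71346176),(4,46080),(2,118336),(0,11520),(37,3006464)]),(0,[(7,29696),(6,35072)]),(42,[(21,1089536),(22,819200),(34,354816),(7,2401792),(6,19652096),(4,225280),(3,12288),(2,62208),(38,1277952)]),(0,[(16,16384),(23,4096),(34,33792),(4,16384),(3,3072)])], .leaf 0 [(2194,[(17,4651520),(21,2510848),(22,3010048),(25,2011648),(36,4339200),(4,17981440),(2,517888),(0,78080),(37,10043392)])], .leaf 0 [(4,[(21,32),(22,112),(27,48),(6,18595),(2,7),(37,128)])], .leaf 0 [(0,[(17,1520),(25,4096),(36,1520),(6,21307),(2,95)])], .leaf 0 [(0,[(7,1024)])], .leaf 2 [(254,[(17,33536),(21,4127616),(22,8255232),(7,8227072),(0,8384),(37,16510464)]),(84,[(21,1373824),(22,2747648),(7,2396928),(0,3136),(37,5495296)]),(30,[(16,775936),(17,164608),(22,832384),(7,1067264),(1,18816)]),(1198,[(17,5035264),(21,33766656),(22,33846272),(25,33687040),(7,5035264),(4,52992),(0,44288),(38,22088704)]),(0,[(17,32768),(34,39168),(35,32768),(6,339712)])],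 .leaf 0 [(4,[(21,7168),(25,14336),(30,5632),(6,85536),(2,928),(37,28672)])], .leaf 0 [(370,[(22,434544),(29,41504),(6,688256),(2,56912),(1,144848)])], .leaf 0 [(0,[(25,992),(28,1552),(6,28709),(4,8192),(2,97)])], .leaf 1 [(4,[(21,126976),(22,96256),(25,157696),(6,2256512),(4,20480),(2,7296),(38,147456)])], .leaf 1 [(0,[(15,32768),(36,32768),(7,32768)]),(0,[(24,21504),(36,7168),(7,8192),(6,36864)]),(1046,[(15,29345792),(21,4660224),(25,4358144),(28,5196288),(36,10392576),(0,29248),(37,18640896)]),(4,[(21,126976),(25,204800),(28,19456),(36,153600),(6,2374720),(2,1856),(38,147456)]),(0,[(15,32768),(35,29696),(36,3072),(6,14336)])], .leaf 0 [(0,[(7,1024),(6,30720)])], .leaf 0 [(0,[(23,16),(25,16),(30,2048),(6,4091),(4,4096),(2,127)])], .leaf 0 [(2184,[(21,6382528),(22,11124288),(25,10590528),(4,9304480),(2,761778),(0,88680),(37,25530112)])]]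
noncomputable def t0 : TT := (.split [16,0,16,-32,-112,-32,0,16,-5,16] a0 (.split [1,-3,-4,-64,64,0,0,-3,-2,4] (.split [0,0,0,0,1,-4,0,0,0,0] (.split [0,0,0,0,1,-8,0,0,0,0] (.split [5,0,11,-16,-56,-16,0,11,8,5] a1 (.split [0,0,0,0,-64,-32,0,0,31,32] a2 a3)) (.split [128,-3,125,-256,-896,-256,0,128,268,131] a4 a5)) a6) (.split [8,0,-8,-128,1024,0,0,-12,-433,8] a7 a8)))
theorem c0 : chkT (([-1,4,4,0,0,0,0,0,0,0] : Fm) :: fsm (-1) ([0,0,0,0,-1,1,0,0,0,0] : Fm) :: ([0,0,0,0,0,0,0,0,-1,1] : Fm) :: fsm (-1) ([0,0,0,0,-2,0,0,0,1,0] : Fm) :: ([0,0,0,0,-1,-1,0,0,-1,1] : Fm) :: K1O12.C0) t0 = true := by decide +kernel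
end K1O12M01010

namespace K1O12M010110
noncomputable def a0 : TT := .leaf ⟨false,0,1,0,1,1,7,[[],[0,0,0,0,8,0,0,0,-2],[],[0,0,0,0,0,0,0,0,5],[],[],[],[],[],[],[]]⟩ [.leaf 0 [(0,[])], .leaf 0 [(0,[(4,2)])], .leaf 0 [(0,[])], .leaf 0 [(0,[])], .leaf 0 [(0,[])], .leaf 0 [(0,[])], .leaf 0 [(0,[])], .leaf 0 [(0,[])], .leaf 0 [(0,[(4,1792)])], .leaf 0 [(0,[])], .leaf 0 [(0,[])], .leaf 0 [(0,[])], .leaf 0 [(0,[])], .leaf 0 [(0,[])], .leaf 0 [(0,[])], .leaf 0 [(0,[(4,1792)])], .leaf 0 [(0,[(34,1024),(5,1024)])], .leaf 0 [(0,[])], .leaf 0 [(0,[(5,1024)])], .leaf 0 [(0,[(21,32),(1,8),(0,40)])], .leaf 0 [(0,[])], .leaf 0 [(0,[(17,32),(25,32)])], .leaf 1 [(0,[(4,1440)])], .leaf 3 [(0,[(14,256),(5,256)]),(0,[(5,256),(4,128)]),(0,[(14,256),(5,256)]),(0,[(5,256),(4,1920),(2,256)]),(0,[(32,128),(5,128),(4,128),(2,256),(0,32)])], .leaf 1 [(0,[])], .leaf 0 [(0,[(4,44)])], .leaf 0 [(0,[(17,32)])], .leaf 0 [(0,[])], .leaf 1 [(6,[(14,1840),(19,368),(20,784),(34,1008),(5,2800),(1,448),(35,1472)]),(6,[(14,1504),(19,256),(34,1792),(5,3360),(1,504),(35,1024)]),(0,[(13,32),(14,256),(34,224),(5,480),(1,72)]),(6,[(14,6352),(19,352),(20,672),(33,1120),(5,1568),(2,2128),(1,1596),(35,1408)]),(6,[(19,512),(27,512),(32,2304),(4,18528),(2,256),(1,256),(35,2048)])],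 .leaf 1 [(0,[(25,32),(2,32),(1,8),(0,8)])], .leaf 0 [(0,[(14,120),(25,32),(4,44),(1,38),(0,38)])], .leaf 0 [(0,[(2,32),(1,8),(0,40)])], .leaf 2 [(0,[(4,1440)])], .leaf 4 [(0,[(13,256),(34,256),(5,256)]),(0,[(13,512),(20,256)]),(0,[(22,224),(4,160)]),(6,[(19,256),(33,1792),(4,13440),(1,128),(35,1024)]),(6,[(19,256),(33,1792),(4,896),(1,184),(35,1024)])], .leaf 0 [(0,[])], .leaf 0 [(0,[(21,32),(4,60),(1,8),(0,40)])], .leaf 1 [(0,[(4,44)])]]
noncomputable def t0 : TT := a0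
theorem c0 : chkT (([-1,0,0,4,0,0,0,0,0,0] : Fm) :: fsm (-1) ([-1,4,4,0,0,0,0,0,0,0] : Fm) :: fsm (-1) ([0,0,0,0,-1,1,0,0,0,0] : Fm) :: ([0,0,0,0,0,0,0,0,-1,1] : Fm) :: fsm (-1) ([0,0,0,0,-2,0,0,0,1,0] : Fm) :: ([0,0,0,0,-1,-1,0,0,-1,1] : Fm) :: K1O12.C0) t0 = true := by decide +kernel
end K1O12M010110

namespace K1O12M010111
noncomputable def a0 : TT := .leaf ⟨false,0,1,0,1,1,15,[[],[0,0,0,0,16,0,0,0,-1],[],[0,0,0,0,0,0,0,0,8],[],[],[],[],[],[],[]]⟩ [.leaf 0 [(0,[])], .leaf 0 [(0,[(5,1)])], .leaf 0 [(0,[])], .leaf 0 [(0,[])], .leaf 0 [(0,[])], .leaf 0 [(0,[])], .leaf 0 [(0,[])], .leaf 0 [(0,[])], .leaf 0 [(0,[(5,896)])], .leaf 0 [(0,[])], .leaf 0 [(0,[])], .leaf 0 [(0,[])], .leaf 0 [(0,[])], .leaf 0 [(0,[])], .leaf 0 [(0,[])], .leaf 0 [(0,[(5,896)])], .leaf 0 [(0,[(35,2048),(6,2048)])], .leaf 0 [(0,[])], .leaf 0 [(0,[(6,2048)])], .leaf 0 [(0,[(17,64),(22,64),(37,2048)])], .leaf 0 [(0,[])], .leaf 0 [(0,[(18,64),(26,64)])],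 .leaf 1 [(0,[(5,64)])], .leaf 3 [(0,[(15,512),(6,512)]),(0,[(4,160)]),(0,[(15,512),(6,512)]),(0,[(15,512),(33,512),(5,544)]),(0,[(15,512),(17,64),(6,512),(37,2048)])], .leaf 1 [(0,[])], .leaf 0 [(0,[(5,92)])], .leaf 0 [(0,[(18,64)])], .leaf 0 [(0,[])], .leaf 1 [(6,[(15,2560),(20,512),(35,3584),(6,7168),(2,896),(36,2048)]),(6,[(15,3008),(20,512),(35,3584),(6,6720),(2,1008),(36,2048)]),(2,[(15,2048),(28,1024),(6,2560),(2,512)]),(0,[(15,1896),(20,72),(21,144),(34,368),(6,448),(3,584),(2,474),(1,38),(36,288)]),(6,[(20,512),(34,3584),(6,3584),(5,11872),(3,2560),(2,256),(36,2048)])], .leaf 1 [(0,[(26,64),(3,48),(2,16),(0,1)])], .split 2 0 (.leaf 2 [(0,[(0,1)])]) (.leaf 0 [(127,[(16,36288),(20,4032),(22,4032),(36,43584),(7,35392),(3,8064),(0,31),(38,129024)])]), .leaf 0 [(0,[(0,4)])], .leaf 2 [(0,[(5,64)])], .leaf 4 [(0,[(14,752),(21,240),(35,272),(6,272)]),(0,[(14,1024),(21,512)]),(0,[(5,160)]),(0,[(5,1056),(1,256)]),(6,[(20,512),(34,3584),(2,368),(36,2048)])],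 .leaf 0 [(0,[])], .leaf 1 [(0,[(17,64),(37,2048)])], .leaf 1 [(0,[(5,92)])]]
noncomputable def a1 : TT := .leaf ⟨false,0,1,0,1,2,0,[[],[0,0,0,0,1],[],[0,0,0,0,0,0,0,0,1],[],[],[],[],[],[],[]]⟩ [.leaf 0 [(0,[])], .leaf 0 [(0,[])], .leaf 0 [(0,[])], .leaf 0 [(0,[])], .leaf 0 [(0,[])], .leaf 0 [(0,[])], .leaf 0 [(0,[])], .leaf 0 [(0,[])], .leaf 0 [(0,[])], .leaf 0 [(0,[])], .leaf 0 [(0,[])], .leaf 0 [(0,[])], .leaf 0 [(0,[])], .leaf 0 [(0,[])], .leaf 0 [(0,[])], .leaf 0 [(0,[])], .leaf 0 [(1082,[(16,106560),(22,11840),(28,15936),(35,94912),(36,15936),(3,23680),(1,256)])], .leaf 0 [(0,[])], .leaf 0 [(0,[(7,128)])], .leaf 0 [(0,[(18,4),(23,4),(38,128)])], .leaf 0 [(0,[])], .leaf 0 [(0,[(19,4),(27,4)])], .leaf 1 [(0,[])], .leaf 3 [(0,[(16,32),(7,32)]),(0,[(26,28),(5,4)]),(0,[(16,32),(7,32)]),(0,[(16,32),(34,32)]),(0,[(16,32),(7,32)])], .leaf 1 [(0,[])], .leaf 0 [(0,[(6,8)])], .leaf 0 [(0,[(19,4)])], .leaf 0 [(0,[])],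 .leaf 4 [(6,[(16,96),(21,64),(35,112),(36,112),(7,336),(3,56),(37,256)]),(6,[(21,96),(22,192),(7,224),(4,32),(37,384)]),(712,[(35,8928),(7,22816),(2,6688),(1,64)]),(10586,[(21,94016),(22,118048),(35,220736),(7,338784),(4,168160),(3,17496),(2,233896),(1,1088),(38,979072)]),(428,[(21,7312),(22,6076),(35,7652),(7,13728),(3,2137),(2,2147),(1,56),(37,29248)])], .leaf 1 [(0,[(18,1),(27,4),(4,4),(3,1),(38,32)])], .leaf 0 [(92,[(20,125),(27,372),(6,310),(3,93),(1,2),(38,4000)])], .leaf 0 [(1,[(23,9),(27,9),(0,1)])], .leaf 2 [(0,[])], .leaf 3 [(15,[(21,24),(3,24),(1,3),(37,96)]),(15,[(21,24),(3,24),(1,3),(37,96)]),(60,[(15,1760),(16,128),(3,64),(1,8)]),(2,[(22,64),(35,32),(6,128),(2,160),(38,384)]),(15,[(21,56),(3,56),(1,7),(37,224)])], .leaf 0 [(0,[])], .leaf 1 [(0,[(18,4),(38,128)])], .leaf 1 [(0,[(6,8)])]]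
noncomputable def a2 : TT := .leaf ⟨false,0,1,0,1,1,63,[[],[-14,-15,-1,0,64,0,0,14,-15,1],[],[14,15,1,0,0,0,0,-14,17,-1],[],[],[],[],[],[],[]]⟩ [.leaf 0 [(0,[])], .leaf 0 [(0,[(23,14),(26,1),(7,30)])], .leaf 0 [(0,[])], .leaf 0 [(0,[])], .leaf 0 [(0,[(24,14),(28,1)])], .leaf 0 [(0,[])], .leaf 0 [(0,[(24,1792),(28,128)])], .leaf 0 [(0,[])], .leaf 0 [(0,[(23,12544),(26,896),(7,26880)])], .leaf 0 [(0,[])], .leaf 0 [(0,[])], .leaf 0 [(0,[])], .leaf 0 [(0,[])], .leaf 0 [(0,[])], .leaf 0 [(0,[])], .leaf 0 [(0,[(23,12544),(26,896),(7,26880)])], .leaf 0 [(0,[(23,560),(29,96),(4,112),(1,32),(0,8)])], .leaf 0 [(0,[(23,3584),(26,256)])], .leaf 0 [(0,[(8,8192)])], .leaf 0 [(0,[(19,256),(24,256),(39,8192)])], .leaf 0 [(0,[(24,3584),(28,256)])], .leaf 0 [(0,[(20,256),(28,256)])], .leaf 1 [(0,[(23,12544),(26,896),(7,26880)])], .leaf 1 [(0,[(17,1952),(23,1344),(8,2144)]),(0,[(17,2080),(24,448),(8,2016)]),(460,[(19,7680),(23,615392),(29,838944),(8,99072),(7,989824),(1,960),(39,245760)]),(0,[(17,928),(23,15680),(35,960),(8,2208),(7,27712)]),(182,[(17,308864),(19,20992),(23,577824),(29,19680),(8,293760),(1,2624),(0,5248),(39,671744)])],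 .leaf 1 [(0,[])], .leaf 0 [(0,[(7,264)])], .leaf 0 [(0,[(20,256),(23,112),(26,8)])], .leaf 0 [(0,[])], .leaf 4 [(6,[(17,2048),(22,6144),(23,13440),(8,14336),(4,224),(38,24576)]),(6,[(22,6144),(23,1408),(4,2720),(0,512),(38,24576)]),(1950,[(22,1300480),(8,2596864),(4,703744),(1,11264),(38,5201920)]),(650,[(22,945152),(23,1330176),(29,3072),(35,372224),(8,957952),(4,140032),(3,630016),(2,384),(39,1552384)]),(1060,[(23,13344512),(36,2956672),(8,3942656),(5,1131264),(4,661120),(1,91008)])], .leaf 1 [(0,[(19,64),(28,256),(5,256),(4,64),(39,2048)])], .leaf 0 [(352,[(21,25826),(23,3528),(28,86840),(7,3424),(4,22690),(1,392),(39,826432)])], .leaf 2 [(0,[(0,256)])], .leaf 2 [(0,[(23,12544),(26,896),(7,26880)])], .leaf 3 [(0,[(17,160),(8,32),(4,96),(2,12)]),(942,[(16,2705408),(17,72448),(4,46752),(1,12064),(0,752)]),(234,[(16,739328),(17,19808),(8,2208),(4,11008),(1,2752)]),(0,[(23,13960),(29,1112),(35,448),(7,14608),(4,224),(1,56),(39,8192)]),(60,[(16,174080),(17,21888),(28,5856),(4,10944),(2,1368)])],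 .leaf 0 [(0,[])], .leaf 1 [(0,[(19,256),(23,112),(26,8),(39,8192)])], .leaf 1 [(0,[(7,264)])]]
noncomputable def a3 : TT := .leaf ⟨true,0,33,31,64,2,65471,[[],[-1023,-1023,0,0,65472,0,0,1023,-32736],[-3069,-3069,0,0,0,0,0,3069,26598],[2046,2046,0,0,0,0,0,-2046,6138],[0,0,0,0,0,0,0,0,45012],[],[],[],[-31,-31,0,0,1984,0,0,31,-992],[-99,-99,0,0,0,0,0,99,858],[0,0,0,0,1984]]⟩ [.leaf 0 [(0,[])], .leaf 0 [(1193,[(21,1488),(25,37293),(28,1767),(31,1395),(9,1180976),(7,3472),(3,186),(2,62),(41,47616)])], .leaf 0 [(0,[(25,99)])], .leaf 0 [(0,[(26,130)])], .leaf 0 [(0,[])], .leaf 0 [(0,[])], .leaf 0 [(0,[(23,1984),(4,124),(41,63488)])], .leaf 0 [(0,[]),(0,[]),(0,[]),(0,[]),(0,[]),(0,[])], .leaf 0 [(0,[(26,261888)])], .leaf 0 [(0,[])], .leaf 0 [(214,[(25,153662784),(28,63442368),(31,50086080),(9,6181604352),(7,124658688),(3,6678144),(2,2226048),(0,53425152)])], .leaf 0 [(0,[(25,2749824)])], .leaf 0 [(0,[])], .leaf 0 [(0,[])],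 .leaf 0 [(0,[(25,2749824)])], .leaf 0 [(0,[])], .leaf 0 [(0,[])], .leaf 0 [(198,[(21,7332864),(25,183779904),(28,8707776),(31,6874560),(9,5819849728),(7,17110016),(3,916608),(2,305536),(41,234651648)])], .leaf 0 [(0,[(25,114576),(31,294624),(6,114576),(3,32736),(1,2046)])], .leaf 0 [(0,[])], .leaf 0 [(0,[(25,523776),(10,8380416)])], .leaf 0 [(0,[(26,261888),(0,261888)])], .leaf 0 [(0,[])], .leaf 0 [(1690,[(23,127801344),(26,733941120),(28,151764096),(33,7987584),(9,8760677376),(3,15975168),(2,19117824),(41,4089643008)])], .leaf 1 [(0,[(25,3928320),(9,9689856)])], .leaf 1 [(0,[(25,196416),(10,2095104),(1,16368)]),(0,[(19,2095104),(25,458304),(10,2095104)]),(94,[(23,2684352),(33,3199944),(10,173975472),(9,327630072),(3,335544),(41,85899264)]),(0,[(25,4386624),(9,9427968),(7,4190208)]),(0,[(19,2095104),(25,458304),(10,2095104)])], .leaf 1 [(8454,[(23,678813696),(26,3622434816),(28,806091264),(33,42425856),(9,44786121600),(3,84851712),(2,3535488),(41,21722038272)])],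 .leaf 0 [(0,[(25,16368),(9,65472)])], .leaf 0 [(8454,[(23,739571712),(26,3550284672),(28,3092504448),(33,46223232),(9,45353763840),(3,92446464),(2,96112896),(41,23666294784)])], .leaf 0 [(0,[(25,3011712)])], .leaf 4 [(6,[(19,8282208),(24,6285312),(25,14436576),(10,8478624),(6,1546776),(40,25141248)]),(6,[(24,6285312),(37,14665728),(9,3208128),(7,2095104),(6,2856216),(40,25141248)]),(50,[(24,20252672),(6,8017592),(3,698368),(40,81010688)]),(0,[(24,1396736),(25,5205024),(10,1396736),(6,174592),(5,1222144),(41,2793472)]),(1950,[(24,240936960),(10,5034174816),(9,44327555712),(7,3500493216),(6,859581888),(3,105180768),(40,963747840)])], .leaf 1 [(0,[(25,261888),(9,272800),(7,611072),(2,10912)])], .leaf 0 [(0,[(23,19712),(26,8184),(4,1232),(2,10912),(41,630784)])], .leaf 2 [(0,[(25,523776),(28,6285312),(1,65472)])], .leaf 2 [(214,[(25,244014144),(28,13683648),(31,10802880),(9,6279375872),(7,26887168),(3,1440384),(2,480128),(0,11523072)])],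 .leaf 3 [(0,[(10,196416),(6,104346),(3,24552)]),(0,[(19,196416),(6,153450),(3,24552)]),(60,[(18,113135616),(19,8445888),(6,4222944),(4,527868)]),(52,[(37,20918304),(38,182274048),(9,985680960),(6,9878088),(3,2324256),(41,444162048)]),(1,[(25,2168760),(6,401016),(4,57288),(1,7161)])], .leaf 0 [(0,[(25,261888),(9,523776)])], .leaf 1 [(0,[(0,261888)])], .leaf 1 [(0,[(26,8184),(9,270072)])]]
noncomputable def a4 : TT := .leaf ⟨true,0,33,31,64,2,297504767,[[],[9297024,74376192,65079168,-148752384,9297024,-139455360,0,-4648512,-80767896,39512352],[-9297024,-27891072,-18594048,148752384,284721360,135968976,0,4648512,29053200,-83382684],[-10459152,-92970240,-82511088,55782144,50843100,-4939044,0,8715960,94978048,86215371],[0,0,0,0,0,0,0,0,9297024],[],[],[],[281728,2253824,1972096,-4507648,281728,-4225920,0,-140864,-2447512,1197344],[-299904,-899712,-599808,4798464,9184560,4386096,0,149952,937200,-2689764],[0,0,0,0,9015296]]⟩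 [.leaf 0 [(0,[])], .leaf 0 [(0,[(27,140864),(11,1197344),(8,3169440),(5,8804)])], .leaf 0 [(1,[(22,299904),(26,299904),(29,1199616),(3,274131),(42,9596928)])], .leaf 0 [(7,[(29,11939360),(2,10011),(1,72704)])], .leaf 0 [(0,[])], .leaf 0 [(0,[])], .leaf 0 [(0,[(24,9015296),(5,563456),(42,288489472)])], .leaf 0 [(0,[]),(0,[]),(0,[]),(0,[]),(0,[]),(0,[])], .leaf 0 [(0,[(22,223128576),(26,1115642880),(29,11035567488),(2,4939044),(42,7140114432)])], .leaf 0 [(0,[])], .leaf 0 [(0,[(32,520633344),(11,39568134144),(8,89548935168),(4,520633344)])], .leaf 0 [(0,[(22,4165066752),(26,4165066752),(29,16660267008),(3,3807131328),(42,133282136064)])], .leaf 0 [(0,[])], .leaf 0 [(0,[])], .leaf 0 [(0,[(22,4165066752),(26,4165066752),(29,16660267008),(3,3807131328),(42,133282136064)])], .leaf 0 [(0,[])], .leaf 0 [(0,[])], .leaf 0 [(0,[(27,4165066752),(11,35403067392),(8,93714001920),(5,260316672)])], .leaf 0 [(246,[(26,423948942912),(40,980575715328),(7,78015976896),(4,39800559744),(2,8067202044)])],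 .leaf 0 [(0,[(27,892514304),(29,4694997120),(2,270485292),(1,1413147648)])], .leaf 0 [(0,[(22,966890496),(26,74376192),(29,148752384),(11,2194097664),(42,30940495872)])], .leaf 0 [(542,[(22,730671710208),(29,2938454593536),(2,4304522112),(0,43648),(42,23381494726656)])], .leaf 0 [(0,[(22,1413147648),(26,2305661952),(29,21271590912),(3,1081941168),(42,45220724736)])], .leaf 0 [(0,[(26,1013375616),(29,1905889920),(4,120861312)])], .leaf 1 [(492,[(26,671170756608),(31,16720697664000),(10,38013643621888),(2,15373791312),(0,130944)])], .leaf 1 [(0,[(20,17381948496),(27,728654256),(11,1243476960),(5,3704283),(1,108077904)]),(0,[(22,1022672640),(26,353286912),(31,6731045376),(3,323168428),(42,32725524480)]),(0,[(20,17097227136),(27,2026751232),(5,84835344)]),(0,[(27,648467424),(31,43491478272),(10,93093261888),(4,20918304),(2,174246567)]),(0,[(22,1344969472),(4,216930560),(3,326654812),(2,235330920),(42,43039023104)])],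 .leaf 1 [(0,[(26,1013375616),(29,1905889920),(4,120861312)])], .leaf 0 [(1,[(22,60430656),(26,4648512),(29,9297024),(10,2345330141),(3,70090845),(42,1933780992)])], .leaf 0 [(0,[(26,991004652),(29,2525013612),(4,126381420)])], .leaf 0 [(0,[(22,4388195328),(26,5280709632),(29,21271590912),(3,3773429616),(42,140422250496)])], .leaf 4 [(13,[(25,54740877312),(11,57985538688),(8,8330133504),(7,24263489448),(2,174246567),(41,218963509248)]),(6,[(25,39270629376),(26,59091884544),(11,141644809152),(8,8241811776),(7,5382976896),(41,157082517504)]),(0,[(19,5652590592),(5,88209264)]),(22,[(26,319036675584),(31,255721912512),(7,136419374256),(3,67201879360),(42,875854036992)]),(0,[(25,9520152576),(32,4351007232),(11,45866867904),(8,96321817152),(5,295180512),(41,38080610304)])], .leaf 1 [(492,[(26,671170756608),(29,2337197457408),(10,210710632704),(8,1368918605824),(3,11075854592),(0,130944)])], .leaf 0 [(73,[(24,6796124544),(26,5494541184),(31,2208043200),(4,897162816),(3,3763043097),(42,217475985408)])],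 .leaf 2 [(0,[(22,966890496),(26,74376192),(29,1794325632),(2,17141388),(42,30940495872)])], .leaf 2 [(0,[(27,3049423872),(38,40823232384),(8,89149163136),(5,246371136)])], .leaf 3 [(234,[(19,1847207104512),(20,1135175927424),(31,99897685008),(7,164219145552),(4,26648757168)]),(0,[(40,9531192792),(7,985484544),(6,1098937290),(1,122604504)]),(0,[(40,9334212096),(7,2138315520),(6,343989888)]),(244,[(20,14102496303104),(25,2332437381120),(32,2276723306176),(11,7764512537408),(8,9844847843776),(4,53618927296),(1,801044856832)]),(12,[(26,140175137344),(31,343150187776),(40,36282378176),(7,152744713792),(3,28181309376)])], .leaf 0 [(0,[(22,1308556128),(26,30215328),(29,4611323904),(38,808841088),(8,269613696),(42,41873796096)])], .leaf 0 [(0,[(0,1364)])], .leaf 1 [(1,[(27,69727680),(31,288207744),(10,3086186741),(3,2106357)])]]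
noncomputable def a5 : TT := .leaf ⟨true,0,33,31,64,3,1047551,[[],[5115,21483,16368,-163680,687456,-196416,0,0,-360096,130944],[5115,21483,16368,-163680,163680,327360,0,0,163680,-261888],[11253,-5115,-16368,-360096,-687456,-327360,0,0,360096,261888],[19437,-5115,-24552,-621984,589248,1211232,0,0,621984,-883872],[],[],[],[155,651,496,-4960,20832,-5952,0,0,-10912,3968],[165,693,528,-5280,5280,10560,0,0,5280,-8448],[0,0,0,0,31744]]⟩ [.leaf 0 [(0,[])], .leaf 0 [(7,[(26,1395),(38,33139),(10,20057),(8,15717),(4,155)])], .leaf 0 [(0,[(26,165),(31,528),(3,330),(1,165)])], .leaf 0 [(0,[(22,320),(29,4480),(2,36),(42,10240)])], .leaf 0 [(0,[])], .leaf 0 [(0,[])], .leaf 0 [(0,[(24,31744),(5,1984),(42,1015808)])], .leaf 0 [(0,[]),(0,[]),(0,[]),(0,[]),(0,[]),(0,[])], .leaf 0 [(70005,[(27,111062248704),(29,2359628852064),(2,23660998713),(0,120032)])], .leaf 0 [(0,[(26,2487936),(29,3142656),(3,4844928),(1,2487936)])], .leaf 0 [(0,[(26,2356992),(38,232818432),(10,111826176),(8,100303104),(4,261888)])],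 .leaf 0 [(35002,[(27,80772544512),(31,665890046976),(3,149089401120),(0,87296)])], .leaf 0 [(0,[])], .leaf 0 [(0,[])], .leaf 0 [(0,[(26,4583040),(31,14665728),(3,9166080),(1,4583040)])], .leaf 0 [(0,[])], .leaf 0 [(0,[])], .leaf 0 [(0,[(26,5155920),(38,122481744),(10,74130672),(8,58090032),(4,572880)])], .leaf 0 [(96,[(26,463869120),(32,178149312),(39,322122240),(40,1718509056),(7,46616064),(4,9493440)])], .leaf 0 [(0,[(22,1440384),(29,16760832),(2,196416),(42,46092288)])], .leaf 0 [(0,[(20,2095104),(22,1440384),(11,23046144),(42,46092288)])], .leaf 0 [(0,[(22,1440384),(27,4190208),(29,16760832),(2,196416),(42,46092288)])], .leaf 0 [(35002,[(27,55531124352),(29,44086487808),(3,26012927886),(0,60016)])], .leaf 0 [(0,[(29,3535488),(9,4951320),(5,90024)])], .leaf 1 [(0,[(26,13405392),(31,6105264),(8,27803776),(4,1489488),(3,3377264)])], .leaf 1 [(0,[(20,34569216),(22,1080288),(11,1047552),(42,34569216)]),(0,[(22,1080288),(31,35092992),(3,283712),(42,34569216)]),(0,[(22,1080288),(10,15713280),(9,52377600),(42,34569216)]),(66639994,[(26,701462370736908),(31,3245542872262548),(4,78099564822444),(3,184519065708604),(0,1549504)]),(24,[(22,20067168),(24,16760832),(27,104755200),(31,886752768),(3,89631168),(42,1178496000)])],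 .leaf 1 [(240,[(29,852052608),(32,164547504),(5,12554256),(4,18283056)])], .leaf 0 [(0,[(24,45012),(10,3644608),(3,109120),(42,1440384)])], .leaf 0 [(481,[(29,3670532184),(32,474372261),(5,15681567),(4,52708029)])], .leaf 0 [(35002,[(27,282703905792),(31,735580538880),(3,285766113072),(0,305536)])], .leaf 4 [(6,[(20,48711168),(25,61805568),(38,117325824),(8,18332160),(7,46116840),(41,247222272)]),(4,[(21,50282496),(25,84851712),(26,112906464),(38,239365632),(11,95851008),(7,13749120),(41,339406848)]),(0,[(11,26188800),(7,1121208),(6,10213632)]),(222,[(26,8617326432),(31,25161675264),(7,3577390080),(6,11129192448),(3,1287637824),(1,1141995360),(42,29901324288)]),(246,[(25,1996164896),(38,70371400704),(39,9307499520),(8,29530381760),(7,588350488),(6,1814657416),(4,114183168),(41,7984659584)])], .leaf 1 [(0,[(38,12570624),(7,2618880),(2,130944)])], .leaf 0 [(184,[(24,58748844),(26,66783486),(29,62998386),(34,18575634),(4,5356428),(3,37727217),(42,1879963008)])],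 .leaf 2 [(0,[(22,1440384),(29,16760832),(2,196416),(42,46092288)])], .leaf 2 [(0,[(32,8249472),(11,95981952),(8,112480896),(4,916608)])], .leaf 3 [(7170786,[(25,921781335552),(40,28413230055936),(0,15189504),(41,3687125342208)]),(0,[(25,2095104),(40,20951040),(7,1702272),(1,163680),(41,8380416)]),(198,[(19,4682164608),(25,124615040),(33,127686768),(7,453753696),(4,78462736),(41,498460160)]),(186,[(25,2438082048),(32,5025916416),(39,2929383936),(11,20951468544),(8,12107653632),(4,187416576),(42,15321876480)]),(30600,[(31,2202725752128),(40,888108564288),(7,416347763568),(6,629139398448),(3,52199750889),(0,148808)])], .leaf 0 [(0,[(20,8380416),(11,16760832),(7,1571328)])], .leaf 1 [(0,[(22,1485396),(29,17284608),(2,202554),(42,47532672)])], .leaf 1 [(0,[(22,85932),(29,65472),(10,4934952),(3,24552),(42,2749824)])]]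
noncomputable def a6 : TT := .leaf ⟨true,0,33,31,64,2,65471,[[],[-1023,-1023,0,0,65472,0,0,1023,-32736],[-3069,-3069,0,0,0,0,0,3069,26598],[2046,2046,0,0,0,0,0,-2046,6138],[0,0,0,0,0,0,0,0,45012],[],[],[],[-31,-31,0,0,1984,0,0,31,-992],[-99,-99,0,0,0,0,0,99,858],[0,0,0,0,1984]]⟩ [.leaf 0 [(0,[])], .leaf 0 [(40287,[(21,47616),(25,1257856),(31,44640),(10,8928),(9,39851616),(7,114080),(3,5952),(1,589),(41,1523712)])], .leaf 0 [(0,[(25,99)])], .leaf 0 [(0,[(26,130)])], .leaf 0 [(0,[])], .leaf 0 [(0,[])], .leaf 0 [(0,[(23,1984),(4,124),(41,63488)])], .leaf 0 [(0,[]),(0,[]),(0,[]),(0,[]),(0,[]),(0,[])], .leaf 0 [(0,[(26,261888)])], .leaf 0 [(0,[])], .leaf 0 [(1348,[(21,20034432),(25,1597123968),(10,360619776),(9,39401180544),(7,166953600),(3,40068864),(1,3965148),(0,75129120),(41,641101824)])], .leaf 0 [(0,[(25,2749824)])], .leaf 0 [(0,[])], .leaf 0 [(0,[])], .leaf 0 [(0,[(25,2749824)])], .leaf 0 [(0,[])], .leaf 0 [(0,[])],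 .leaf 0 [(1258,[(21,43997184),(25,1162258944),(31,41247360),(10,8249472),(9,36822893184),(7,105409920),(3,5499648),(1,544236),(41,1407909888)])], .leaf 0 [(0,[(25,392832),(31,32736),(10,261888),(6,130944),(3,32736)])], .leaf 0 [(0,[])], .leaf 0 [(0,[(25,523776),(10,8380416)])], .leaf 0 [(0,[(21,261888),(41,8380416)])], .leaf 0 [(0,[])], .leaf 0 [(56,[(23,4190208),(26,24879360),(33,261888),(9,293489152),(3,523776),(2,436480),(1,51832),(41,134086656)])], .leaf 1 [(0,[(25,3928320),(9,9689856)])], .leaf 1 [(0,[(19,2095104),(25,196416),(10,2095104)]),(0,[(19,2095104),(25,458304),(10,2095104)]),(370,[(23,17808384),(29,695901888),(33,4255680),(9,1053313536),(3,2226048),(41,569868288)]),(0,[(19,2095104),(25,4386624),(37,2095104),(9,7332864)]),(0,[(19,2095104),(25,458304),(10,2095104)])], .leaf 1 [(4426,[(23,339406848),(26,1915710720),(33,21212928),(10,360619776),(9,23142780672),(3,42425856),(1,4198392),(41,10861019136)])],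 .leaf 0 [(0,[(25,16368),(9,65472)])], .leaf 0 [(4426,[(23,343597056),(26,1910734848),(33,21474816),(10,365071872),(9,23013408000),(3,42949632),(1,16327080),(41,10995105792)])], .leaf 0 [(0,[(25,3011712)])], .leaf 4 [(6,[(19,8282208),(24,6285312),(25,14436576),(10,8478624),(6,1546776),(40,25141248)]),(2,[(20,3038992),(24,1544048),(37,2651616),(38,5008608),(7,3791920),(6,649264),(40,6176192)]),(0,[(29,425568),(8,294624),(5,489984),(4,8448)]),(24,[(24,44520960),(25,129601824),(31,523776),(7,16760832),(6,9297024),(5,5368704),(4,65472),(41,31426560)]),(0,[(32,235290),(37,2845986),(9,21681462),(7,1802526),(6,394878),(3,57288)])], .leaf 1 [(0,[(25,261888),(9,272800),(7,611072),(2,10912)])], .leaf 0 [(184,[(23,3666432),(25,2610696),(3,458304),(2,1846856),(1,47740),(41,117325824)])], .leaf 0 [(6,[(25,1947792),(4,2112),(0,466752)])], .leaf 2 [(1258,[(21,69138432),(25,1496689920),(31,64817280),(10,12963456),(9,36762658944),(7,165644160),(3,8642304),(1,855228),(41,2212429824)])],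 .leaf 3 [(12,[(24,63488),(10,2856960),(6,1380864),(3,317440),(40,253952)]),(312,[(18,525871104),(10,45044736),(6,23930016),(3,5630592)]),(0,[(19,196416),(6,98208),(4,12276)]),(0,[(31,57288),(37,458304),(9,18896856),(6,229152),(3,57288),(41,8380416)]),(0,[(19,458304),(25,1113024),(31,515592),(6,229152),(3,57288)])], .leaf 0 [(0,[(25,261888),(9,523776)])], .leaf 0 [(6,[(21,1833216),(26,1833216),(4,16896),(0,67584),(41,58662912)])], .leaf 1 [(0,[(26,8184),(9,270072)])]]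
noncomputable def a7 : TT := .leaf ⟨true,0,33,31,64,2,32735,[[],[1023,0,-1023,0,32736,0,0,-1023,-18414,1023],[-1023,-2046,-1023,0,0,0,0,1023,12276,1023],[2046,2046,0,0,0,0,0,-2046,2046],[0,0,0,0,0,0,0,0,4092],[],[],[],[31,0,-31,0,992,0,0,-31,-558,31],[-33,-66,-33,0,0,0,0,33,396,33],[0,0,0,0,992]]⟩ [.leaf 0 [(0,[])], .leaf 0 [(21631,[(22,55552),(27,608096),(11,733088),(10,10355488),(8,373984),(4,6944),(2,8215),(42,1777664)])], .leaf 0 [(0,[(26,33),(29,33)])], .leaf 0 [(0,[(27,2),(31,64)])], .leaf 0 [(0,[])], .leaf 0 [(0,[])], .leaf 0 [(0,[(24,992),(5,62),(42,31744)])], .leaf 0 [(0,[]),(0,[]),(0,[]),(0,[]),(0,[]),(0,[])], .leaf 0 [(0,[(27,261888)])], .leaf 0 [(0,[])], .leaf 0 [(168,[(22,15975168),(27,136934688),(11,172878816),(10,2383606368),(8,94901664),(4,1996896),(2,1967229),(42,511205376)])], .leaf 0 [(0,[(26,916608),(29,916608)])], .leaf 0 [(0,[])], .leaf 0 [(0,[])], .leaf 0 [(0,[(26,916608),(29,916608)])], .leaf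 0 [(0,[])], .leaf 0 [(0,[])], .leaf 0 [(168,[(22,12832512),(27,140470176),(11,169343328),(10,2392117728),(8,86390304),(4,1604064),(2,1897665),(42,410640384)])], .leaf 0 [(0,[(20,384648),(26,446028),(40,261888),(7,61380),(1,30690)])], .leaf 0 [(0,[])], .leaf 0 [(0,[(26,523776),(11,4190208)])], .leaf 0 [(228,[(22,20361792),(24,8838720),(27,79352064),(29,70578816),(8,609675264),(4,1178496),(2,6138),(0,2553408),(42,934416384)])], .leaf 0 [(0,[])], .leaf 0 [(8664,[(27,4065942144),(10,23838704384),(4,52508544),(3,27585536),(2,9298388),(0,105017088)])], .leaf 1 [(0,[(27,261888),(11,2095104),(10,4321152),(8,698368),(2,21824)])], .leaf 1 [(0,[(20,1047552),(26,196416),(11,1047552)]),(0,[(20,1047552),(26,458304),(11,1047552)]),(94,[(24,1505856),(34,4525752),(11,84246096),(10,164981256),(4,188232),(42,48187392)]),(0,[(26,196416),(38,3142656),(10,2618880),(8,349184),(2,10912)]),(0,[(20,1047552),(26,458304),(11,1047552)])], .leaf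 1 [(4426,[(24,219985920),(27,2057523072),(34,13749120),(11,233735040),(10,12337674624),(4,27498240),(2,2721180),(42,7039549440)])], .leaf 0 [(0,[(26,16368),(10,32736)])], .leaf 0 [(4426,[(24,222081024),(27,2055035136),(34,13880064),(11,235961088),(10,12272988288),(4,27760128),(2,8785524),(42,7106592768)])], .leaf 0 [(0,[(26,654720),(29,1178496)])], .leaf 4 [(6,[(20,4484832),(25,3142656),(26,8478624),(11,3895584),(7,687456),(41,12570624)]),(1602,[(25,350929920),(8,2737253376),(7,144644016),(4,10082688),(41,1403719680)]),(0,[(6,244992),(4,8448)]),(70,[(25,52591872),(26,162370560),(32,1270752),(8,46473216),(7,25778112),(6,14885952),(4,363072),(42,87137280)]),(246,[(20,72903072),(39,184794720),(11,572912736),(7,82290120),(4,16040640)])], .leaf 1 [(0,[(27,261888),(38,130944),(10,654720),(8,349184),(2,2728)])], .leaf 0 [(91,[(26,752928),(5,57288),(3,533324),(2,1705),(0,229152)])], .leaf 1 [(0,[(27,114576),(0,32736)])],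 .leaf 2 [(168,[(22,17284608),(27,179720640),(11,218611008),(10,2365306944),(8,113201088),(4,2160576),(2,2457246),(42,553107456)])], .leaf 3 [(0,[(33,85932),(11,98208),(7,49104),(4,12276)]),(0,[(25,49104),(31,229152),(7,49104),(5,6138),(41,196416)]),(60,[(19,59710464),(20,2127840),(11,1996896),(7,2062368),(1,1031184)]),(264,[(39,91137024),(11,316688064),(10,2741410848),(7,93641328),(4,7234656),(42,1110405120)]),(0,[(26,327360),(32,458304),(11,229152),(7,114576),(1,57288)])], .leaf 0 [(0,[(27,261888),(11,261888),(10,654720),(8,87296),(2,2728)])], .leaf 0 [(228,[(22,27847424),(24,1964160),(27,27629184),(29,2356992),(8,135483392),(4,261888),(2,1364),(0,567424),(42,953970688)])], .leaf 1 [(0,[(26,8184),(31,8184),(10,130944)])]]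
noncomputable def t0 : TT := (.split [-16,0,-16,512,496,-16,0,0,217,0] a0 (.split [-17,-19,-17,256,248,-8,0,9,229,9] a1 (.split [0,0,0,0,-32,-32,0,0,-1,24] a2 (.w 0 (.split [-2,-2,0,32,32,0,0,1,-1,0] a3 (.split [85200,572544,487344,26882304,26089092,-793212,0,-925272,-600584,107565] a4 a5)) a6 a7))))
theorem c0 : chkT (fsm (-1) ([-1,0,0,4,0,0,0,0,0,0] : Fm) :: fsm (-1) ([-1,4,4,0,0,0,0,0,0,0] : Fm) :: fsm (-1) ([0,0,0,0,-1,1,0,0,0,0] : Fm) :: ([0,0,0,0,0,0,0,0,-1,1] : Fm) :: fsm (-1) ([0,0,0,0,-2,0,0,0,1,0] : Fm) :: ([0,0,0,0,-1,-1,0,0,-1,1] : Fm) :: K1O12.C0) t0 = true := by decide +kernel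
end K1O12M010111

namespace K1O12M01010
theorem top : ∃ t, chkT (([-1,4,4,0,0,0,0,0,0,0] : Fm) :: fsm (-1) ([0,0,0,0,-1,1,0,0,0,0] : Fm) :: ([0,0,0,0,0,0,0,0,-1,1] : Fm) :: fsm (-1) ([0,0,0,0,-2,0,0,0,1,0] : Fm) :: ([0,0,0,0,-1,-1,0,0,-1,1] : Fm) :: K1O12.C0) t = true := ⟨_, c0⟩
end K1O12M01010
namespace K1O12M010110
theorem top : ∃ t, chkT (([-1,0,0,4,0,0,0,0,0,0] : Fm) :: fsm (-1) ([-1,4,4,0,0,0,0,0,0,0] : Fm) :: fsm (-1) ([0,0,0,0,-1,1,0,0,0,0] : Fm) :: ([0,0,0,0,0,0,0,0,-1,1] : Fm) :: fsm (-1) ([0,0,0,0,-2,0,0,0,1,0] : Fm) :: ([0,0,0,0,-1,-1,0,0,-1,1] : Fm) :: K1O12.C0) t = true := ⟨_, c0⟩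
end K1O12M010110
namespace K1O12M010111
theorem top : ∃ t, chkT (fsm (-1) ([-1,0,0,4,0,0,0,0,0,0] : Fm) :: fsm (-1) ([-1,4,4,0,0,0,0,0,0,0] : Fm) :: fsm (-1) ([0,0,0,0,-1,1,0,0,0,0] : Fm) :: ([0,0,0,0,0,0,0,0,-1,1] : Fm) :: fsm (-1) ([0,0,0,0,-2,0,0,0,1,0] : Fm) :: ([0,0,0,0,-1,-1,0,0,-1,1] : Fm) :: K1O12.C0) t = true := ⟨_, c0⟩
end K1O12M010111
def K1O12P0101 := (splE K1O12M01010.top (splE K1O12M010110.top K1O12M010111.top))

end Vale.Agent.P235
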