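import Vale.Agent.P235.T.K1O12C

namespace Vale.Agent.P235

set_option maxRecDepth 100000

namespace K1O12M10000
noncomputable def a0 : TT := .leaf ⟨true,0,33,31,64,1,16367,[[],[0,0,0,0,5115],[0,0,0,0,5115],[0,0,0,0,-11253,0,0,0,8184],[0,0,0,0,10230],[],[],[],[0,0,0,0,155],[0,0,0,0,165],[0,0,0,0,496]]⟩ [.leaf 0 [(0,[])], .leaf 0 [(0,[])], .leaf 0 [(0,[])], .leaf 0 [(0,[])], .leaf 0 [(0,[])], .leaf 0 [(0,[])], .leaf 0 [(0,[(3,15376)])], .leaf 0 [(0,[]),(0,[]),(0,[]),(0,[]),(0,[]),(0,[])], .leaf 0 [(0,[(5,720192)])], .leaf 0 [(0,[])], .leaf 0 [(0,[])], .leaf 0 [(0,[])], .leaf 0 [(0,[])], .leaf 0 [(0,[])], .leaf 0 [(0,[])], .leaf 0 [(0,[])], .leaf 0 [(0,[])], .leaf 0 [(0,[])], .leaf 0 [(4,[(20,43648),(21,87296),(24,87296),(34,10082688),(35,87296),(5,4670336),(36,174592)])], .leaf 0 [(0,[(5,327360)])], .leaf 0 [(0,[(33,2095104),(5,327360)])], .leaf 0 [(0,[(1,65472)])], .leaf 0 [(0,[])], .leaf 0 [(0,[(6,65472),(5,752928)])],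 .leaf 1 [(0,[])], .leaf 3 [(0,[(15,523776),(33,523776),(5,425568)]),(0,[(5,425568),(4,425568)]),(0,[(15,883872),(24,360096),(33,163680),(5,785664)]),(0,[(15,523776),(33,523776)]),(0,[(15,523776),(17,65472),(33,523776),(5,163680),(37,2095104)])], .leaf 1 [(0,[(5,752928)])], .split 0 0 (.leaf 0 [(0,[(0,1)])]) (.leaf 1 [(30,[(25,2029632),(7,2029632),(0,2)])]), .leaf 0 [(0,[(24,65472),(6,65472),(5,763158)])], .leaf 0 [(0,[])], .leaf 0 [(2,[(16,1549504),(20,21824),(21,21824),(24,21824),(33,1549504),(34,1440384),(5,589248),(36,87296)]),(6,[(16,3273600),(20,196416),(21,392832),(34,2684352),(4,3208128),(3,2749824),(36,785664)]),(0,[(16,523776),(33,523776),(34,261888)]),(0,[(16,501952),(20,21824),(21,21824),(24,21824),(33,501952),(34,392832),(36,87296)]),(0,[(0,65472)])], .leaf 0 [(6,[(20,65472),(22,229152),(24,2717088),(29,229152),(6,2946240),(5,1440384),(3,10017216),(2,589248),(36,261888)])], .leaf 1 [(6,[(20,65472),(24,2946240),(6,2946240),(5,1211232),(3,10446876),(2,589248),(36,261888)])],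 .split 1 0 (.leaf 1 [(0,[(0,1)])]) (.leaf 0 [(24,[(23,458304),(25,10017216),(7,10017216),(6,4648512),(4,2553408),(3,2095104),(0,7)])]), .leaf 2 [(0,[])], .leaf 4 [(6,[(14,3600960),(20,32736),(27,65472),(34,3437280),(35,65472),(5,3437280),(36,130944)]),(6,[(14,2618880),(20,523776),(24,1047552),(35,1047552),(5,4468464),(36,2095104)]),(0,[(14,360096)]),(2,[(20,349184),(27,698368),(35,698368),(36,1396736)]),(0,[(20,83328),(24,232128),(34,232128),(35,232128),(36,333312)])], .leaf 0 [(0,[(5,98208)])], .leaf 2 [(0,[(5,327360)])], .split 0 0 (.leaf 0 [(0,[(0,1)])]) (.leaf 1 [(30,[(18,196416),(0,3),(38,6285312)])])]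
noncomputable def a1 : TT := .leaf ⟨true,0,33,31,64,3,65471,[[],[0,0,0,0,21483,1023,0,0,1023,-1023],[0,0,0,0,21483,-1023,0,0,-1023,1023],[-2046,-2046,0,0,-54219,0,0,2046,38874],[0,0,0,0,74679],[],[],[],[0,0,0,0,651,31,0,0,31,-31],[0,0,0,0,693,-33,0,0,-33,33],[0,0,0,0,1984]]⟩ [.leaf 0 [(0,[])], .leaf 0 [(0,[(6,31)])], .leaf 0 [(0,[(33,33)])], .leaf 0 [(0,[(6,2)])], .leaf 0 [(0,[])], .leaf 0 [(0,[])], .leaf 0 [(0,[(3,61504)])], .leaf 0 [(0,[]),(0,[]),(0,[]),(0,[]),(0,[]),(0,[])], .leaf 0 [(0,[(21,261888),(5,3470016)])], .leaf 0 [(0,[])], .leaf 0 [(0,[(6,916608)])], .leaf 0 [(0,[(33,916608)])], .leaf 0 [(0,[])], .leaf 0 [(0,[])], .leaf 0 [(0,[(33,916608)])], .leaf 0 [(0,[])], .leaf 0 [(0,[])], .leaf 0 [(0,[(6,916608)])], .leaf 0 [(70,[(14,16760832),(20,523776),(23,785664),(33,1047552),(34,576677376),(5,221557248),(0,130944),(36,2095104)])], .leaf 0 [(0,[(22,261888),(6,261888),(5,851136)])], .leaf 0 [(0,[(15,1571328),(22,261888),(24,1571328),(33,7070976)])],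 .leaf 0 [(0,[(16,261888),(21,261888),(33,261888),(0,32736)])], .leaf 0 [(0,[(21,261888),(33,261888)])], .leaf 0 [(0,[(21,261888),(6,523776),(5,3731904)])], .leaf 1 [(0,[(21,261888)])], .leaf 1 [(0,[(15,2095104),(22,196416),(33,2095104)]),(0,[(15,2095104),(22,196416),(33,2356992)]),(0,[(25,1374912),(29,196416)]),(0,[(15,2095104),(22,196416),(33,2095104)]),(0,[(15,2095104),(17,261888),(22,458304),(33,2095104),(37,8380416)])], .leaf 1 [(0,[(21,261888),(6,261888),(5,3731904)])], .split 1 0 (.leaf 1 [(0,[(0,1)])]) (.leaf 0 [(246,[(22,4321152),(25,6547200),(34,2226048),(0,25)])]), .leaf 0 [(0,[(21,253704),(24,261888),(6,531960),(5,3758502)])], .leaf 0 [(0,[(21,261888),(33,916608)])], .leaf 0 [(496,[(16,998317056),(20,27891072),(23,41836608),(33,1102908576),(34,914643840),(5,110909568),(0,1604064),(36,111564288)]),(0,[(16,1604064),(20,98208),(34,1898688),(4,1800480),(3,1309440),(36,392832)]),(0,[(16,654720),(23,196416),(28,1440384),(33,3764640)]),(4,[(16,10082688),(20,196416),(33,16204320),(34,9493440),(36,785664)]),(4,[(16,10082688),(20,196416),(33,7038240),(34,9493440),(36,785664)])],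 .leaf 0 [(4,[(20,523776),(21,1178496),(24,1178496),(6,1309440),(5,9305208),(0,147312),(36,2095104)])], .leaf 1 [(4,[(20,523776),(21,2447016),(24,1178496),(6,1309440),(5,9192678),(0,147312),(36,2095104)])], .split 0 0 (.leaf 0 [(0,[(0,1)])]) (.leaf 1 [(266,[(25,7201920),(30,22915200),(34,12177792),(1,4975872),(0,37)])]), .leaf 2 [(0,[(21,261888),(6,916608)])], .leaf 4 [(580,[(14,1019922816),(20,136705536),(27,185416704),(34,479156832),(35,154481184),(0,10999296),(36,546822144)]),(0,[(14,1211232),(20,752928),(24,752928),(27,752928),(35,1473120),(5,2487936),(36,3011712)]),(0,[(14,752928),(23,163680),(35,229152)]),(0,[(20,338272),(24,676544),(35,1822304),(36,1353088)]),(0,[(20,345216),(24,690432),(34,1770720),(35,2976),(36,1380864)])], .leaf 0 [(0,[(21,261888),(5,851136)])], .leaf 1 [(0,[(16,261888),(21,515592),(33,253704),(0,32736)])], .leaf 0 [(4,[(16,1309440),(20,523776),(21,3101736),(24,523776),(33,2618880),(0,229152),(36,2095104)])]]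
noncomputable def a2 : TT := .leaf ⟨true,0,33,31,64,3,65471,[[],[0,0,0,0,21483,1023,0,0,1023,-1023],[0,0,0,0,21483,-1023,0,0,-1023,1023],[-2046,-2046,0,0,-54219,0,0,2046,38874],[0,0,0,0,74679],[],[],[],[0,0,0,0,651,31,0,0,31,-31],[0,0,0,0,693,-33,0,0,-33,33],[0,0,0,0,1984]]⟩ [.leaf 0 [(0,[])], .leaf 0 [(0,[(5,31)])], .leaf 0 [(0,[(32,33)])], .leaf 0 [(0,[(5,2)])], .leaf 0 [(0,[])], .leaf 0 [(0,[])], .leaf 0 [(0,[(2,61504)])], .leaf 0 [(0,[]),(0,[]),(0,[]),(0,[]),(0,[]),(0,[])], .leaf 0 [(0,[(20,261888),(4,3470016)])], .leaf 0 [(0,[])], .leaf 0 [(0,[(5,916608)])], .leaf 0 [(0,[(32,916608)])], .leaf 0 [(0,[])], .leaf 0 [(0,[])], .leaf 0 [(0,[(32,916608)])], .leaf 0 [(0,[])], .leaf 0 [(0,[])], .leaf 0 [(0,[(5,916608)])], .leaf 0 [(6,[(22,1833216),(33,6809088),(0,1636800)])], .leaf 0 [(0,[(21,261888),(5,261888),(4,851136)])], .leaf 0 [(0,[(14,1571328),(21,261888),(23,1571328),(32,7070976)])], .leaf 0 [(0,[(16,261888),(4,4910400),(36,8380416)])],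 .leaf 0 [(0,[(20,261888),(32,261888)])], .leaf 0 [(0,[(20,261888),(5,523776),(4,3731904)])], .leaf 1 [(0,[(20,261888)])], .leaf 1 [(0,[(14,2095104),(21,196416),(32,2095104)]),(0,[(14,2095104),(21,196416),(32,2356992)]),(0,[(24,1374912),(28,196416)]),(0,[(14,2095104),(21,196416),(32,2095104)]),(0,[(14,2095104),(16,261888),(21,458304),(32,2095104),(36,8380416)])], .leaf 1 [(0,[(20,261888),(5,261888),(4,3731904)])], .leaf 0 [(4,[(18,141856),(21,40920),(28,141856),(5,100936),(0,141856),(36,4539392)])], .leaf 0 [(0,[(20,253704),(23,261888),(5,531960),(4,3758502)])], .leaf 0 [(0,[(20,261888),(32,916608)])], .leaf 4 [(210,[(15,267780480),(19,87143232),(20,146657280),(32,448974240),(33,261953472),(4,125640768),(0,5827008),(35,348572928)]),(0,[(14,1014816),(15,1396736),(19,698368),(20,829312),(23,1713184),(32,283712),(4,327360),(35,2793472)]),(0,[(19,65472),(4,787710),(3,263934),(0,182094),(35,261888)]),(78,[(15,15276800),(19,93494016),(20,139891840),(23,36751616),(32,214104352),(0,15276800),(36,288076800)]),(198,[(15,202963200),(19,213962496),(20,187904640),(23,213962496),(32,1014816),(33,170227200),(0,32736000),(35,855849984)])],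 .leaf 0 [(0,[(23,1342176),(28,8184),(5,1612248),(4,2414280),(2,3740088),(1,270072),(0,8184)])], .leaf 0 [(4,[(18,141856),(21,40920),(28,141856),(5,1451296),(2,1509948),(0,141856),(36,4539392)])], .leaf 1 [(1,[(18,53196),(21,675521),(23,5932377),(28,712349),(5,6628358),(2,7890058),(1,1318306),(0,847726),(36,1702272)])], .leaf 2 [(0,[(20,261888),(5,916608)])], .leaf 3 [(16,[(13,32846484),(19,4996332),(23,4996332),(26,4996332),(34,10549176),(4,3122196),(0,890010),(35,19985328)]),(262,[(19,146035296),(23,53130528),(26,238940064),(34,266241888),(0,11392128),(35,584141184)]),(0,[(19,982080),(23,1964160),(34,1865952),(4,2504304),(35,3928320)]),(228,[(19,239234688),(23,478469376),(34,409985664),(5,315869664),(0,39806976),(36,962176512)]),(262,[(19,285490656),(23,407072160),(26,163909152),(34,304084704),(0,48580224),(35,1141962624)])], .leaf 0 [(0,[(20,261888),(4,851136)])], .leaf 2 [(0,[(21,261888),(5,261888),(4,851136)])],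 .leaf 1 [(4,[(16,141856),(21,182776),(0,141856),(36,4539392)])]]
noncomputable def t0 : TT := (.split [0,0,0,32,-2,0,0,-1,16,0] (.split [8,0,8,-16,111,-16,0,8,-28,8] a0 a1) a2)
theorem c0 : chkT (([-1,4,4,0,0,0,0,0,0,0] : Fm) :: ([0,0,0,0,-1,1,0,0,0,0] : Fm) :: ([0,0,0,0,0,0,0,0,-1,1] : Fm) :: ([0,0,0,0,-2,0,0,0,1,0] : Fm) :: fsm (-1) ([0,0,0,0,-1,-1,0,0,-1,1] : Fm) :: K1O12.C0) t0 = true := by decide +kernel
end K1O12M10000

namespace K1O12M10001
noncomputable def a0 : TT := .leaf ⟨true,0,33,31,64,3,8183,[[],[0,0,0,0,3069],[0,0,0,0,3069],[0,0,0,0,0,0,0,0,2046],[0,0,0,0,7161],[],[],[],[0,0,0,0,93],[0,0,0,0,99],[0,0,0,0,248]]⟩ [.leaf 0 [(0,[])], .leaf 0 [(0,[])], .leaf 0 [(0,[])], .leaf 0 [(0,[])], .leaf 0 [(0,[])], .leaf 0 [(0,[])], .leaf 0 [(0,[(2,7688)])], .leaf 0 [(0,[]),(0,[]),(0,[]),(0,[]),(0,[]),(0,[])], .leaf 0 [(0,[])], .leaf 0 [(0,[])], .leaf 0 [(0,[])], .leaf 0 [(0,[])], .leaf 0 [(0,[])], .leaf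 0 [(0,[])], .leaf 0 [(0,[])], .leaf 0 [(0,[])], .leaf 0 [(0,[])], .leaf 0 [(0,[])], .leaf 0 [(46,[(14,32997888),(19,1833216),(26,12832512),(33,12308736),(34,24093696),(2,12570624),(1,9166080),(35,7332864)])], .leaf 0 [(0,[(4,523776)])], .leaf 0 [(0,[(14,261888),(23,261888),(32,785664),(4,261888)])], .leaf 0 [(6,[(16,163680),(21,163680),(0,65472),(36,5237760)])], .leaf 0 [(0,[])], .leaf 0 [(0,[(5,32736),(4,16368)])], .leaf 1 [(0,[])], .leaf 1 [(0,[(14,327360),(23,65472),(32,196416),(4,196416)]),(0,[(14,261888),(32,261888)]),(0,[(14,261888),(4,130944),(3,65472)]),(0,[(14,261888),(32,261888)]),(0,[(14,261888),(16,32736),(21,32736),(32,261888),(36,1047552)])], .leaf 1 [(0,[(4,16368)])], .split 1 0 (.leaf 1 [(0,[(0,1)])]) (.leaf 0 [(22,[(24,163680),(6,163680),(0,5)])]), .leaf 0 [(0,[(23,32736),(5,32736),(4,32736)])], .leaf 0 [(0,[])], .leaf 0 [(6,[(14,1816848),(19,523776),(32,802032),(3,572880),(1,716100),(35,2095104)]),(6,[(19,523776),(3,1374912),(2,3764640),(1,261888),(35,2095104)]),(0,[(14,261888),(32,261888),(1,65472)]),(0,[(15,180048),(19,49104),(20,32736),(32,261888),(1,16368),(35,196416)]),(12,[(14,1113024),(15,1080288),(19,818400),(32,2978976),(1,687456),(35,3273600)])],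 .leaf 1 [(0,[(14,32736),(16,16368),(25,32736),(1,16368),(36,523776)])], .split 2 0 (.leaf 2 [(0,[(0,1)])]) (.leaf 0 [(63,[(35,3928320),(4,1833216),(3,5499648),(0,5)])]), .split 0 0 (.leaf 0 [(0,[(0,1)])]) (.leaf 1 [(2078,[(17,26467056),(19,63933408),(22,26467056),(29,24813888),(6,24813888),(1,16777200),(0,1195),(37,2892814848)])]), .leaf 2 [(0,[])], .leaf 4 [(28,[(14,1047552),(19,1571328),(22,3404544),(34,4190208),(4,10721040),(3,3519120),(1,1047552),(35,6285312)]),(6,[(19,523776),(4,1194864),(1,261888),(35,2095104)]),(0,[(14,114576),(4,130944),(2,114576),(1,28644)]),(6,[(19,523776),(1,261888),(35,2095104)]),(6,[(19,523776),(1,261888),(35,2095104)])], .leaf 0 [(0,[])], .leaf 1 [(6,[(16,155496),(20,73656),(0,73656),(36,4975872)])], .split 2 0 (.leaf 2 [(0,[(0,1)])]) (.leaf 0 [(871,[(20,16498944),(21,46877952),(27,18332160),(6,18332160),(2,3666432),(0,83),(36,65995776)])])]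
noncomputable def a1 : TT := .leaf ⟨true,0,33,31,64,3,8183,[[],[0,0,0,0,3069],[0,0,0,0,3069],[0,0,0,0,0,0,0,0,2046],[0,0,0,0,7161],[],[],[],[0,0,0,0,93],[0,0,0,0,99],[0,0,0,0,248]]⟩ [.leaf 0 [(0,[])], .leaf 0 [(0,[])], .leaf 0 [(0,[])], .leaf 0 [(0,[])], .leaf 0 [(0,[])], .leaf 0 [(0,[])], .leaf 0 [(0,[(2,7688)])], .leaf 0 [(0,[]),(0,[]),(0,[]),(0,[]),(0,[]),(0,[])], .leaf 0 [(0,[])], .leaf 0 [(0,[])], .leaf 0 [(0,[])], .leaf 0 [(0,[])], .leaf 0 [(0,[])], .leaf 0 [(0,[])], .leaf 0 [(0,[])], .leaf 0 [(0,[])], .leaf 0 [(0,[])], .leaf 0 [(0,[])], .leaf 0 [(2,[(14,1522224),(20,169136),(26,169136),(34,960256),(2,561968),(1,338272),(0,68200)])], .leaf 0 [(0,[(4,523776)])], .leaf 0 [(0,[(32,1047552),(4,523776)])], .leaf 0 [(0,[(16,32736),(21,32736),(4,130944),(36,1047552)])], .leaf 0 [(0,[])], .leaf 0 [(0,[(5,32736),(4,16368)])], .leaf 1 [(0,[])], .leaf 1 [(0,[(14,327360),(23,65472),(32,196416),(4,196416)]),(0,[(14,261888),(32,261888)]),(0,[(24,196416),(4,261888)]),(0,[(14,261888),(32,261888)]),(0,[(14,261888),(16,32736),(21,32736),(32,261888),(36,1047552)])],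 .leaf 1 [(0,[(4,16368)])], .leaf 0 [(12,[(18,40920),(28,40920),(5,40920),(0,40920),(36,1309440)])], .leaf 0 [(0,[(23,32736),(5,32736),(4,32736)])], .leaf 0 [(0,[])], .leaf 4 [(6,[(14,1293072),(19,785664),(26,454212),(32,802032),(3,114576),(1,716100),(35,3142656)]),(6,[(14,261888),(19,785664),(20,1604064),(32,1833216),(1,57288),(35,3142656)]),(6,[(19,785664),(26,360096),(3,916608),(2,3240864),(1,392832),(35,3142656)]),(34,[(19,7769344),(20,8860544),(32,9166080),(1,1669536),(0,305536),(36,5586944)]),(34,[(19,7769344),(20,8860544),(32,9166080),(1,1669536),(0,305536),(35,31077376)])], .leaf 1 [(0,[(14,32736),(16,16368),(25,32736),(1,16368),(36,523776)])], .leaf 0 [(12,[(18,40920),(28,40920),(5,466488),(2,621984),(0,40920),(36,1309440)])], .w 0 (.split 1 0 (.leaf 1 [(0,[(0,1)])]) (.leaf 0 [(30,[(18,1080288),(23,65472),(25,1014816),(7,1014816),(6,5614224),(0,2),(38,34569216)])])) (.leaf 0 [(0,[(6,114576),(0,8184)])])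 (.split 1 0 (.leaf 1 [(0,[(0,1)])]) (.leaf 0 [(30,[(20,1080288),(25,65472),(27,1014816),(9,1014816),(8,5614224),(0,2),(40,34569216)])])), .leaf 2 [(0,[])], .leaf 3 [(9,[(13,1473120),(19,458304),(4,2698674),(1,229152),(0,99231),(35,1833216)]),(6,[(19,654720),(26,916608),(34,916608),(1,98208),(35,2618880)]),(6,[(19,671088),(26,802032),(34,802032),(4,818400),(1,135036),(35,2684352)]),(34,[(19,7769344),(26,8860544),(5,8860544),(1,1669536),(0,305536),(36,5586944)]),(34,[(19,7769344),(26,8860544),(5,8860544),(1,1669536),(0,305536),(35,31077376)])], .leaf 0 [(0,[])], .leaf 1 [(0,[(16,32736),(4,147312),(36,1047552)])], .leaf 1 [(12,[(16,40920),(21,40920),(0,40920),(36,1309440)])]]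
noncomputable def t0 : TT := (.split [0,0,0,32,4,0,0,-1,14,0] a0 a1)
theorem c0 : chkT (fsm (-1) ([-1,4,4,0,0,0,0,0,0,0] : Fm) :: ([0,0,0,0,-1,1,0,0,0,0] : Fm) :: ([0,0,0,0,0,0,0,0,-1,1] : Fm) :: ([0,0,0,0,-2,0,0,0,1,0] : Fm) :: fsm (-1) ([0,0,0,0,-1,-1,0,0,-1,1] : Fm) :: K1O12.C0) t0 = true := by decide +kernel
end K1O12M10001

namespace K1O12M10010
noncomputable def a0 : TT := .leaf ⟨false,0,1,1,2,1,31,[[],[0,0,0,0,8],[0,0,0,0,0,8],[0,3,3,0,-6,-6,0,0,3,3],[0,0,0,0,0,28],[],[],[],[],[],[]]⟩ [.leaf 0 [(0,[])], .leaf 0 [(0,[])], .leaf 0 [(0,[])], .leaf 0 [(0,[])], .leaf 0 [(0,[])], .leaf 0 [(0,[])], .leaf 0 [(0,[(14,384),(32,384),(4,384)])], .leaf 0 [(0,[])], .leaf 0 [(0,[(2,3584)])], .leaf 0 [(0,[])], .leaf 0 [(0,[])], .leaf 0 [(0,[])], .leaf 0 [(0,[])], .leaf 0 [(0,[])], .leaf 0 [(0,[])], .leaf 0 [(0,[])], .leaf 0 [(10,[(19,512),(20,512),(23,4736),(26,512),(33,32000),(34,9472),(4,22528),(2,11264),(35,2048)])],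 .leaf 0 [(0,[(23,384),(5,768),(4,2048),(2,1024)])], .leaf 0 [(0,[(23,384),(32,2304),(4,1280)])], .leaf 0 [(0,[(21,128),(23,256),(1,128)])], .leaf 0 [(0,[])], .leaf 0 [(0,[])], .leaf 1 [(0,[])], .leaf 1 [(0,[(14,736),(4,736),(2,736)]),(0,[(14,448)]),(0,[(4,224)]),(0,[]),(0,[(14,352),(32,352),(4,352)])], .leaf 0 [(0,[])], .leaf 1 [(0,[])], .leaf 0 [(0,[])], .leaf 1 [(0,[])], .leaf 3 [(0,[(15,1024),(23,192),(32,640),(33,1024),(4,1280),(2,768)]),(0,[(15,704),(20,192),(32,704),(4,416),(3,96)]),(0,[(15,832),(19,192),(20,192),(32,1088),(4,736),(2,896),(35,768)]),(6,[(19,1024),(23,3392),(33,7168),(4,3008),(3,576),(35,4096)]),(8,[(15,7936),(19,1280),(20,1280),(23,3008),(32,4480),(33,1536),(2,34560),(35,5120)])], .leaf 0 [(138,[(21,18944),(23,32640),(1,17152),(0,64)])], .leaf 1 [(138,[(21,1152),(23,34884),(1,17152),(0,64)])], .leaf 0 [(0,[(23,268),(1,128)])], .leaf 2 [(0,[])], .leaf 4 [(0,[(13,1024),(23,192),(33,640),(34,384),(4,1280),(2,512)]),(4,[(13,4416),(19,832),(26,960),(4,4960),(35,3328)]),(0,[(22,128),(26,192),(34,384),(4,960),(2,512)]),(8,[(19,1664),(23,5056),(34,6784),(2,4608),(35,6656)]),(6,[(13,6144),(19,512),(23,3264),(34,4608),(4,1344),(35,2048)])],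 .leaf 0 [(0,[])], .leaf 1 [(0,[(23,268),(1,128)])], .leaf 0 [(138,[(23,33156),(28,1152),(1,17152),(0,64)])]]
noncomputable def a1 : TT := .leaf ⟨false,0,1,1,2,1,31,[[],[0,0,0,0,8],[0,0,0,0,0,8],[0,3,3,0,-6,-6,0,0,3,3],[0,0,0,0,0,28],[],[],[],[],[],[]]⟩ [.leaf 0 [(0,[])], .leaf 0 [(0,[])], .leaf 0 [(0,[])], .leaf 0 [(0,[])], .leaf 0 [(0,[])], .leaf 0 [(0,[])], .leaf 0 [(0,[(14,768),(23,384)])], .leaf 0 [(0,[])], .leaf 0 [(0,[(2,3584)])], .leaf 0 [(0,[])], .leaf 0 [(0,[])], .leaf 0 [(0,[])], .leaf 0 [(0,[])], .leaf 0 [(0,[])], .leaf 0 [(0,[])], .leaf 0 [(0,[])], .leaf 0 [(10,[(19,512),(20,512),(23,4736),(26,512),(33,32000),(34,9472),(4,22528),(2,11264),(35,2048)])], .leaf 0 [(0,[(23,384),(5,768),(4,2048),(2,1024)])], .leaf 0 [(0,[(14,256),(23,640),(32,2048),(4,1024)])], .leaf 0 [(0,[(21,128),(23,256),(1,128)])], .leaf 0 [(0,[])], .leaf 0 [(0,[])], .leaf 1 [(0,[])], .leaf 1 [(0,[(14,736),(32,736),(4,736)]),(0,[(2,448)]),(0,[(4,224)]),(0,[]),(0,[(14,704),(23,352)])],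 .leaf 0 [(0,[])], .leaf 1 [(0,[])], .leaf 0 [(0,[])], .leaf 1 [(0,[])], .leaf 3 [(0,[(15,1024),(23,192),(32,640),(33,1024),(4,1280),(2,768)]),(0,[(15,704),(20,192),(32,704),(4,416),(3,96)]),(6,[(14,3776),(15,896),(19,1920),(20,6272),(32,7616),(4,2688),(2,6272),(35,7680)]),(8,[(19,2176),(20,6016),(23,64),(33,3200),(3,4608),(35,8704)]),(0,[(19,320),(20,832),(32,832),(33,192),(2,4032),(35,1280)])], .leaf 1 [(0,[])], .leaf 0 [(90,[(18,1800),(20,3240),(23,2172),(4,364),(3,6868),(0,180),(36,57600)])], .leaf 0 [(0,[(23,268),(1,128)])], .leaf 2 [(0,[])], .leaf 4 [(0,[(13,1024),(23,192),(33,640),(34,384),(4,1280),(2,512)]),(4,[(13,4416),(19,832),(26,960),(4,4960),(35,3328)]),(30,[(23,880),(26,4784),(4,24912),(2,6176),(0,96)]),(8,[(19,1664),(23,5056),(34,6784),(2,4608),(35,6656)]),(0,[(13,960),(19,64),(23,384),(26,64),(34,640),(4,160),(35,256)])], .leaf 0 [(0,[])], .leaf 1 [(0,[(23,268),(1,128)])], .leaf 1 [(3580,[(16,63968),(18,14288),(20,99360),(23,12124),(32,612824),(0,5520),(36,2504192)])]]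
noncomputable def t0 : TT := (.split [-28,-24,3,-278,0,-23,0,18,0,121] a0 a1)
theorem c0 : chkT (([-1,4,4,0,0,0,0,0,0,0] : Fm) :: fsm (-1) ([0,0,0,0,-1,1,0,0,0,0] : Fm) :: ([0,0,0,0,0,0,0,0,-1,1] : Fm) :: ([0,0,0,0,-2,0,0,0,1,0] : Fm) :: fsm (-1) ([0,0,0,0,-1,-1,0,0,-1,1] : Fm) :: K1O12.C0) t0 = true := by decide +kernel
end K1O12M10010

namespace K1O12M10011
noncomputable def a0 : TT := .leaf ⟨true,0,31,33,64,2,8183,[[],[0,0,0,0,0,3069],[0,0,0,0,0,3069],[0,0,0,0,-4092,0,0,0,4092],[0,0,0,0,0,9207],[],[],[],[0,0,0,0,0,99],[0,0,0,0,0,93],[0,0,0,0,0,248]]⟩ [.leaf 0 [(0,[])], .leaf 0 [(0,[])], .leaf 0 [(0,[])], .leaf 0 [(0,[])], .leaf 0 [(0,[])], .leaf 0 [(0,[(2,7688)])], .leaf 0 [(0,[])], .leaf 0 [(0,[]),(0,[]),(0,[]),(0,[]),(0,[]),(0,[])], .leaf 0 [(0,[(4,261888)])], .leaf 0 [(0,[])], .leaf 0 [(0,[])], .leaf 0 [(0,[])], .leaf 0 [(0,[])], .leaf 0 [(0,[])], .leaf 0 [(0,[])], .leaf 0 [(0,[])], .leaf 0 [(0,[])],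 .leaf 0 [(0,[])], .leaf 0 [(270,[(19,12832512),(20,52115712),(33,194059008),(2,80399616),(1,26450688),(0,834768),(35,51330048)])], .leaf 0 [(0,[(4,261888)])], .leaf 0 [(0,[(23,196416),(32,785664),(0,2046)])], .leaf 0 [(0,[(16,13728),(18,19008),(21,13728),(28,19008),(5,19008),(4,491040),(36,1047552)])], .leaf 0 [(0,[])], .leaf 0 [(0,[(5,32736),(4,278256)])], .leaf 2 [(0,[(5,32736),(4,278256)])], .leaf 4 [(0,[(32,261888),(4,261888),(2,261888),(0,2046)]),(0,[(4,523776),(2,523776),(0,2046)]),(0,[(2,785664)]),(0,[(0,2046)]),(0,[(14,261888),(18,32736),(36,1047552)])], .leaf 0 [(0,[(5,32736),(2,65472)])], .leaf 1 [(0,[(23,32736),(5,32736),(2,65472)])], .leaf 0 [(0,[(23,32736),(5,32736),(4,286440)])], .leaf 1 [(0,[(5,32736),(4,278256)])], .leaf 3 [(33,[(19,3257232),(32,8904192),(2,10573728),(1,2389728),(0,31713),(35,13028928)]),(0,[(15,229152),(32,261888)]),(6,[(14,1587696),(19,523776),(2,802032),(1,658812),(35,2095104)]),(6,[(19,261888),(33,1833216),(1,130944),(35,1047552)]),(6,[(19,261888),(33,1833216),(1,188232),(35,1047552)])],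 .leaf 1 [(0,[(5,32736),(4,278256)])], .split 2 0 (.leaf 2 [(0,[(0,1)])]) (.leaf 0 [(15,[(34,1833216),(35,523776),(0,3)])]), .leaf 0 [(0,[(16,9504),(18,23232),(23,9504),(5,9504),(4,410520),(36,1047552)])], .leaf 0 [(0,[(5,32736),(4,278256)])], .leaf 4 [(246,[(13,33914496),(19,10246368),(34,23733600),(4,23733600),(3,23733600),(1,10279104),(0,214830),(35,40985472)]),(6,[(19,523776),(4,3142656),(1,261888),(35,2095104)]),(12,[(13,2095104),(1,883872),(0,36828)]),(16,[(19,1047552),(26,2226048),(34,2226048),(1,4583040),(0,192324),(35,4190208)]),(16,[(19,1047552),(26,2226048),(34,2226048),(1,4583040),(0,192324),(35,4190208)])], .leaf 0 [(0,[(4,278256)])], .leaf 1 [(8,[(16,103664),(18,190960),(23,190960),(5,190960),(4,4184752),(36,9427968)])], .split 2 0 (.leaf 2 [(0,[(0,1)])]) (.leaf 0 [(871,[(20,16498944),(21,46877952),(27,18332160),(6,18332160),(3,71953728),(2,3666432),(0,83),(36,65995776)])])]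
noncomputable def a1 : TT := .leaf ⟨true,0,31,33,64,2,523775,[[],[0,0,0,0,0,170841],[0,0,0,0,0,170841],[0,0,0,0,-261888,0,0,0,261888,-6138],[0,0,0,0,0,589248],[],[],[],[0,0,0,0,0,5511],[0,0,0,0,0,5177],[0,0,0,0,0,15872]]⟩ [.leaf 0 [(0,[])], .leaf 0 [(0,[])], .leaf 0 [(0,[])], .leaf 0 [(0,[])], .leaf 0 [(0,[])], .leaf 0 [(0,[(3,492032)])], .leaf 0 [(0,[])], .leaf 0 [(0,[]),(0,[]),(0,[]),(0,[]),(0,[]),(0,[])], .leaf 0 [(0,[(6,785664),(5,17546496),(3,785664)])], .leaf 0 [(0,[])], .leaf 0 [(0,[])], .leaf 0 [(0,[])], .leaf 0 [(0,[])], .leaf 0 [(0,[])], .leaf 0 [(0,[])], .leaf 0 [(0,[])], .leaf 0 [(0,[])], .leaf 0 [(0,[])], .leaf 0 [(64,[(15,1417599744),(20,198772992),(21,787497216),(27,51068160),(34,2966405376),(3,1027648512),(2,441019392),(36,795091968)])], .leaf 0 [(0,[(5,16760832)])], .leaf 0 [(0,[(15,16760832),(24,16760832),(33,50282496)])], .leaf 0 [(0,[(19,1301504),(29,2095104),(6,2880768),(5,30502016),(0,198400),(37,41648128)])],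 .leaf 0 [(0,[(6,785664),(3,785664)])], .leaf 0 [(0,[(6,2880768),(5,18201216)])], .leaf 2 [(0,[(6,2880768),(5,18201216)])], .leaf 4 [(0,[(15,16760832),(33,17153664),(5,16760832),(3,16368000)]),(0,[(15,16760832),(33,14272896),(5,33521664),(3,19248768)]),(0,[(3,50282496)]),(0,[(15,16760832)]),(0,[(19,2095104),(5,8380416),(4,8380416),(37,67043328)])], .leaf 0 [(0,[(6,2880768),(3,4975872)])], .leaf 1 [(0,[(24,2095104),(6,2856216),(3,4951320)])], .leaf 0 [(0,[(6,761112),(5,19061900),(1,21824)])], .leaf 1 [(0,[(6,2880768),(5,18201216)])], .leaf 3 [(6,[(15,69416688),(20,33521664),(33,120075648),(3,133710192),(2,34115004),(36,134086656)]),(6,[(15,9820800),(16,100204896),(33,117325824),(3,9820800),(2,2455200)]),(0,[(15,15433536),(16,1447328),(20,4582048),(3,7836800),(2,6149408),(36,18328192)]),(6,[(20,16760832),(34,117325824),(2,8380416),(36,67043328)]),(6,[(20,16760832),(34,117325824),(2,12046848),(36,67043328)])],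 .leaf 1 [(0,[(6,2880768),(5,18201216)])], .split 2 0 (.leaf 2 [(0,[(0,1)])]) (.leaf 0 [(2143,[(35,15017705472),(36,4139925504),(0,381)])]), .leaf 0 [(0,[(19,1302248),(6,761112),(5,28906880),(0,198214),(37,41671936)])], .leaf 0 [(0,[(6,2880768),(5,18201216)])], .split 3 3 (.split 3 4 (.leaf 3 [(6,[(17,60512496),(22,42098496),(29,60037824),(37,57288000),(5,27383664),(4,21167916),(38,168393984)]),(0,[(22,4844928),(29,392832),(36,16368000),(5,28578528),(4,2324256),(38,19379712)]),(6,[(22,35616768),(37,102660096),(7,140371968),(4,17808384),(38,142467072)]),(0,[(0,1),(39,67043328)]),(0,[(0,1)])]) (.split 4 3 (.leaf 4 [(18,[(23,67043328),(26,150847488),(37,149014272),(38,18594048),(8,325919616),(7,26057856),(5,33521664),(39,268173312)]),(6,[(23,16760832),(38,117325824),(8,217890816),(5,8380416),(39,67043328)]),(0,[(26,14665728),(38,1702272),(8,16760832),(7,2095104)]),(0,[(0,1)]),(0,[(0,1)])]) (.leaf 0 [(6,[(18,57320736),(23,26679840),(26,6645408),(36,4124736),(37,47892768),(5,27670104),(39,106719360)]),(0,[(18,8380416),(26,8380416),(5,2095104)]),(6,[(23,16760832),(36,4124736),(37,117325824),(6,230232288),(5,8380416),(39,67043328)]),(0,[(23,4190208),(26,6285312),(38,4190208),(7,2095104),(5,2095104),(39,16760832)]),(261,[(18,26817331200),(23,1508474880),(38,10475520000),(7,10978344960),(5,7458570240),(1,1),(0,362),(39,6033899520)])])))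 (.split 4 3 (.leaf 4 [(6,[(17,183976320),(22,25337664),(29,60037824),(37,57288000),(4,43653456),(38,101350656)]),(6,[(22,16760832),(37,117325824),(7,217890816),(4,8380416),(38,67043328)]),(0,[(25,14665728),(37,1702272),(7,16760832),(6,2095104)]),(0,[(0,1)]),(0,[(0,1)])]) (.leaf 0 [(6,[(17,63802464),(22,25501344),(25,2520672),(36,56142240),(4,28701288),(38,102005376)]),(0,[(25,12570624),(7,4190208)]),(27992,[(22,212527349760),(35,17951047488),(36,275290183872),(4,106263674880),(0,3707),(38,850109399040)]),(2,[(22,8882368),(25,11894080),(36,33870848),(37,4517568),(7,20623680),(4,4441184),(38,35529472)]),(261,[(17,26817331200),(22,1508474880),(37,10475520000),(6,10978344960),(4,7458570240),(1,1),(0,362),(38,5966856192)])])), .leaf 0 [(0,[(6,785664),(5,18201216)])], .leaf 1 [(223,[(17,180124384),(19,289178912),(24,39239552),(6,209728640),(5,7025232896),(1,2603535),(37,15017705472)])], .split 0 0 (.leaf 0 [(0,[(0,1)])])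 (.leaf 1 [(3874,[(7,194844672),(4,6277717248),(2,8314944),(1,199558656),(0,381)])])]
noncomputable def a2 : TT := .leaf ⟨true,0,31,33,64,2,523775,[[],[0,0,0,0,0,170841],[0,0,0,0,0,170841],[0,0,0,0,-261888,0,0,0,261888,-6138],[0,0,0,0,0,589248],[],[],[],[0,0,0,0,0,5511],[0,0,0,0,0,5177],[0,0,0,0,0,15872]]⟩ [.leaf 0 [(0,[])], .leaf 0 [(0,[])], .leaf 0 [(0,[])], .leaf 0 [(0,[])], .leaf 0 [(0,[])], .leaf 0 [(0,[(4,492032)])], .leaf 0 [(0,[])], .leaf 0 [(0,[]),(0,[]),(0,[]),(0,[]),(0,[]),(0,[])], .leaf 0 [(0,[(7,785664),(6,17546496),(4,785664)])], .leaf 0 [(0,[])], .leaf 0 [(0,[])], .leaf 0 [(0,[])], .leaf 0 [(0,[])], .leaf 0 [(0,[])], .leaf 0 [(0,[])], .leaf 0 [(0,[])], .leaf 0 [(0,[])], .leaf 0 [(0,[])], .leaf 0 [(64,[(16,1417599744),(21,198772992),(22,787497216),(28,51068160),(35,2966405376),(4,1027648512),(3,441019392),(37,795091968)])], .leaf 0 [(0,[(6,16760832)])], .leaf 0 [(0,[(16,16760832),(25,16760832),(34,50282496)])],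 .leaf 0 [(0,[(18,880896),(23,2095104),(7,785664),(6,30640896),(0,303552),(38,28188672)])], .leaf 0 [(0,[(7,785664),(4,785664)])], .leaf 0 [(0,[(7,2880768),(6,18201216)])], .leaf 1 [(0,[(20,1292544),(7,785664),(6,30640896),(1,323136),(38,41361408)])], .leaf 4 [(0,[(16,17153664),(25,392832),(34,16760832),(6,16368000),(4,16368000)]),(0,[(16,16760832),(6,33521664),(4,33521664)]),(0,[(16,14665728),(34,17153664),(4,18463104)]),(0,[(26,8380416),(6,8380416)]),(0,[(20,2095104),(6,8380416),(5,8380416),(38,67043328)])], .leaf 0 [(0,[(7,2880768),(4,4975872)])], .leaf 1 [(0,[(7,761112),(4,5649688),(2,21824)])], .leaf 0 [(0,[(7,761112),(6,19061900),(2,21824)])], .leaf 0 [(22,[(7,18070272),(6,704740608),(2,313038),(1,7512912),(0,7512912)])], .leaf 4 [(6,[(16,60512496),(21,42098496),(22,60037824),(34,120075648),(35,57288000),(4,84671664),(3,21167916),(37,168393984)]),(6,[(16,56289552),(21,50282496),(22,102660096),(4,39528720),(3,13548612),(37,201129984)]),(6,[(21,33521664),(35,117325824),(3,16760832),(37,134086656)]),(72,[(21,435781632),(35,1223540736),(3,217890816),(1,33521664),(38,3151036416)]),(72,[(21,435781632),(35,1223540736),(3,217890816),(1,33521664),(37,1743126528)])],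 .leaf 1 [(0,[(7,2880768),(6,18201216)])], .leaf 2 [(16,[(16,147246528),(22,57353472),(34,13356288),(35,613865472),(4,599330688),(3,40920000),(1,4108368)])], .leaf 0 [(2,[(18,2681128),(7,2283336),(6,95139000),(2,65472),(0,901046),(38,85796096)])], .leaf 2 [(22,[(7,18070272),(6,704740608),(2,313038),(1,7512912),(0,7512912)])], .leaf 3 [(162,[(16,257640504),(21,1090239744),(28,64031616),(4,252836496),(3,597931224),(1,4409130),(37,4360958976)]),(0,[(21,4844928),(28,392832),(35,16368000),(4,28578528),(3,2324256),(37,19379712)]),(70,[(21,329978880),(36,1041266688),(6,1349001456),(3,166699896),(1,1710456),(37,1319915520)]),(94,[(21,540536832),(28,37319040),(3,318455808),(1,57517152),(38,4206968832)]),(94,[(21,990656832),(28,814799040),(36,777480000),(3,318455808),(1,26827152),(37,3962627328)])], .leaf 0 [(0,[(7,785664),(6,18201216)])], .leaf 1 [(0,[(18,914872),(7,761112),(6,31713000),(0,295058),(38,29275904)])],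 .leaf 2 [(6,[(16,122605248),(22,29736192),(28,5499648),(35,316741632),(4,188309376),(3,30468288),(1,1191888)])]]
noncomputable def t0 : TT := (.w 0 a0 a1 a2)
theorem c0 : chkT (fsm (-1) ([-1,4,4,0,0,0,0,0,0,0] : Fm) :: fsm (-1) ([0,0,0,0,-1,1,0,0,0,0] : Fm) :: ([0,0,0,0,0,0,0,0,-1,1] : Fm) :: ([0,0,0,0,-2,0,0,0,1,0] : Fm) :: fsm (-1) ([0,0,0,0,-1,-1,0,0,-1,1] : Fm) :: K1O12.C0) t0 = true := by decide +kernel
end K1O12M10011

namespace K1O12M10100
noncomputable def a0 : TT := .leaf ⟨true,0,33,31,64,3,8183,[[],[0,0,0,0,3069],[0,0,0,0,3069],[0,0,0,0,-4092,0,0,0,3069],[0,0,0,0,9207],[],[],[],[0,0,0,0,93],[0,0,0,0,99],[0,0,0,0,248]]⟩ [.leaf 0 [(0,[])], .leaf 0 [(0,[])], .leaf 0 [(0,[])], .leaf 0 [(0,[])], .leaf 0 [(0,[])], .leaf 0 [(0,[])], .leaf 0 [(0,[(2,7688)])], .leaf 0 [(0,[]),(0,[]),(0,[]),(0,[]),(0,[]),(0,[])], .leaf 0 [(0,[(4,261888)])], .leaf 0 [(0,[])], .leaf 0 [(0,[])], .leaf 0 [(0,[])], .leaf 0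 [(0,[])], .leaf 0 [(0,[])], .leaf 0 [(0,[])], .leaf 0 [(0,[])], .leaf 0 [(0,[])], .leaf 0 [(0,[])], .leaf 0 [(0,[(33,1047552),(4,654720)])], .leaf 0 [(0,[(4,261888)])], .leaf 0 [(0,[(32,1047552),(4,261888)])], .leaf 0 [(0,[(21,32736),(23,163680),(3,163680),(1,32736)])], .leaf 0 [(0,[])], .leaf 0 [(0,[(4,261888),(3,32736)])], .leaf 1 [(0,[])], .leaf 1 [(0,[(14,261888),(32,261888),(4,65472)]),(0,[(14,261888),(32,261888)]),(0,[(24,98208),(4,65472)]),(0,[(14,261888),(32,261888)]),(0,[(14,98208),(21,32736),(32,425568),(3,163680),(1,32736)])], .leaf 0 [(0,[(32,32736),(3,65472)])], .leaf 1 [(0,[(23,32736),(32,32736),(3,65472)])], .leaf 0 [(0,[(23,32736),(4,270072),(3,32736)])], .leaf 0 [(0,[])], .leaf 0 [(6,[(15,1767744),(19,32736),(20,65472),(32,1833216),(33,1669536),(4,1374912),(35,130944)]),(0,[(15,261888),(32,32736),(33,261888),(2,589248)]),(0,[(32,261888),(33,32736),(0,2046)]),(6,[(19,196416),(20,392832),(32,1833216),(33,851136),(0,11253),(35,785664)]),(0,[(15,240064),(19,21824),(20,21824),(23,21824),(32,240064),(33,130944),(35,87296)])],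 .leaf 1 [(0,[(32,32736),(3,65472)])], .w 2 (.split 1 0 (.leaf 1 [(0,[(0,1)])]) (.leaf 0 [(92,[(20,360096),(5,3044448),(4,6612672),(0,11),(38,11523072)])])) (.leaf 1 [(12,[(21,229152),(25,883872),(6,3179484),(5,883872),(4,1276704),(1,9207),(37,916608)])]) (.leaf 1 [(0,[(26,35200),(7,289036),(6,35200),(2,341),(1,616)])]), .leaf 0 [(0,[(23,163680),(32,32736),(3,196416),(1,32736)])], .leaf 2 [(0,[])], .leaf 4 [(0,[(13,261888),(33,261888),(4,310992)]),(6,[(13,1309440),(19,261888),(23,523776),(34,523776),(4,1718640),(35,1047552)]),(0,[(22,49104),(4,114576)]),(2,[(19,174592),(26,349184),(34,349184),(35,698368)]),(0,[(13,229152),(19,32736),(23,32736),(26,32736),(34,65472),(35,130944)])], .leaf 0 [(0,[])], .leaf 1 [(0,[(23,163680),(3,163680),(1,32736)])], .split 0 0 (.leaf 0 [(0,[(0,1)])]) (.leaf 1 [(92,[(17,360096),(0,11),(37,11523072)])])]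
noncomputable def a1 : TT := .leaf ⟨true,0,33,31,64,3,8183,[[],[0,0,0,0,3069],[0,0,0,0,3069],[0,0,0,0,-4092,0,0,0,3069],[0,0,0,0,9207],[],[],[],[0,0,0,0,93],[0,0,0,0,99],[0,0,0,0,248]]⟩ [.leaf 0 [(0,[])], .leaf 0 [(0,[])], .leaf 0 [(0,[])], .leaf 0 [(0,[])], .leaf 0 [(0,[])], .leaf 0 [(0,[])], .leaf 0 [(0,[(3,7688)])], .leaf 0 [(0,[]),(0,[]),(0,[]),(0,[]),(0,[]),(0,[])], .leaf 0 [(0,[(5,261888)])], .leaf 0 [(0,[])], .leaf 0 [(0,[])], .leaf 0 [(0,[])], .leaf 0 [(0,[])], .leaf 0 [(0,[])], .leaf 0 [(0,[])], .leaf 0 [(0,[])], .leaf 0 [(0,[])], .leaf 0 [(0,[])], .leaf 0 [(0,[(34,1047552),(5,654720)])], .leaf 0 [(0,[(5,261888)])], .leaf 0 [(0,[(33,1047552),(5,261888)])], .leaf 0 [(0,[(29,32736),(33,43648),(4,76384),(1,341)])], .leaf 0 [(0,[])], .leaf 0 [(0,[(5,261888),(4,32736)])], .leaf 1 [(0,[])], .leaf 0 [(0,[(15,376464),(24,114576),(33,147312)]),(0,[(15,261888),(33,261888)]),(0,[(15,130944),(25,32736)]),(2,[(20,643808),(24,294624),(29,98208),(33,8282208),(4,7889376),(1,12276),(0,51832),(37,567424)]),(0,[(15,261888),(29,32736),(33,305536),(4,76384),(1,341)])],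 .leaf 0 [(0,[(33,32736),(4,65472)])], .leaf 1 [(0,[(24,32736),(33,32736),(4,65472)])], .leaf 0 [(0,[(24,32736),(5,270072),(4,32736)])], .leaf 0 [(0,[])], .leaf 0 [(2,[(16,774752),(20,10912),(21,10912),(24,10912),(33,774752),(34,720192),(5,589248),(36,43648)]),(0,[(20,41664),(24,83328),(33,145824),(34,232128),(3,589248),(36,166656)]),(0,[(16,261888),(33,261888),(34,32736)]),(0,[(16,240064),(20,21824),(21,21824),(24,21824),(33,240064),(34,130944),(36,87296)]),(6,[(16,1440384),(20,196416),(21,392832),(33,1833216),(34,851136),(36,785664)])], .leaf 0 [(12,[(20,229152),(24,458304),(29,425568),(5,3175392),(4,883872),(1,9207),(36,916608)])], .leaf 1 [(12,[(20,229152),(24,458304),(5,3228588),(4,458304),(1,9207),(36,916608)])], .leaf 0 [(0,[(33,76384),(4,76384),(1,341)])], .leaf 2 [(0,[])], .leaf 4 [(0,[(14,253704),(20,8184),(24,8184),(27,8184),(34,237336),(35,16368),(5,294624),(36,32736)]),(0,[(14,174592),(20,87296),(24,87296),(27,87296),(35,174592),(5,201872),(36,349184)]),(0,[(23,49104),(5,114576)]),(2,[(20,174592),(27,349184),(35,349184),(36,698368)]),(2,[(20,174592),(27,349184),(35,349184),(36,698368)])],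 .leaf 0 [(0,[])], .leaf 1 [(0,[(24,32736),(33,43648),(4,76384),(1,341)])], .leaf 0 [(12,[(20,229152),(24,883872),(33,720192),(4,1604064),(1,9207),(36,916608)])]]
noncomputable def a2 : TT := .leaf ⟨true,0,33,31,64,3,8183,[[],[0,0,0,0,3069],[0,0,0,0,3069],[0,0,0,0,-4092,0,0,0,3069],[0,0,0,0,9207],[],[],[],[0,0,0,0,93],[0,0,0,0,99],[0,0,0,0,248]]⟩ [.leaf 0 [(0,[])], .leaf 0 [(0,[])], .leaf 0 [(0,[])], .leaf 0 [(0,[])], .leaf 0 [(0,[])], .leaf 0 [(0,[])], .leaf 0 [(0,[(4,7688)])], .leaf 0 [(0,[]),(0,[]),(0,[]),(0,[]),(0,[]),(0,[])], .leaf 0 [(0,[(6,261888)])], .leaf 0 [(0,[])], .leaf 0 [(0,[])], .leaf 0 [(0,[])], .leaf 0 [(0,[])], .leaf 0 [(0,[])], .leaf 0 [(0,[])], .leaf 0 [(0,[])], .leaf 0 [(0,[])], .leaf 0 [(0,[])], .leaf 0 [(12,[(21,654720),(22,1626240),(25,1309440),(35,8042496),(36,1309440),(1,79200),(37,2618880)])], .leaf 0 [(0,[(6,261888)])], .leaf 0 [(18,[(21,1407648),(25,2946240),(34,16957248),(2,30690),(1,32736),(37,5630592)])],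 .leaf 0 [(88,[(25,130944),(30,2913504),(5,3044448),(2,31713),(1,32736)])], .leaf 0 [(0,[])], .leaf 0 [(0,[(6,261888),(5,32736)])], .leaf 1 [(0,[])], .leaf 1 [(354,[(16,87077760),(21,130944),(34,70185984),(3,1178496),(1,229152),(37,523776)]),(0,[(16,261888),(34,261888)]),(4,[(21,107712),(26,163680),(3,229152),(1,3432),(37,430848)]),(0,[(16,261888),(34,261888)]),(85,[(16,19477920),(23,2815296),(34,22522368),(2,31713),(1,57288)])], .leaf 0 [(126,[(21,76384),(25,294624),(5,4452096),(2,3069),(1,35464),(37,305536)])], .leaf 1 [(126,[(21,76384),(25,4452096),(5,4452096),(2,3069),(1,35464),(37,305536)])], .leaf 0 [(0,[(25,32736),(6,270072),(5,32736)])], .leaf 0 [(0,[])], .leaf 0 [(0,[(21,50592),(22,85920),(25,21600),(34,226176),(35,175968),(1,1584),(37,202368)]),(0,[(17,199232),(21,21824),(25,62656),(34,166496),(35,190784),(1,4752),(37,87296)]),(4,[(22,5456),(29,1140304),(34,2449744),(1,1364)]),(6,[(17,1440384),(21,196416),(22,392832),(34,1833216),(35,851136),(37,785664)]),(6,[(17,1440384),(21,196416),(22,392832),(34,1833216),(35,851136),(37,785664)])],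 .leaf 0 [(12,[(21,229152),(25,458304),(30,425568),(6,3175392),(5,883872),(2,9207),(37,916608)])], .leaf 1 [(12,[(21,229152),(25,458304),(6,3228588),(5,458304),(2,9207),(37,916608)])], .leaf 0 [(88,[(25,229152),(5,229152),(2,32736),(1,57288)])], .leaf 2 [(0,[])], .leaf 4 [(0,[(15,253704),(21,8184),(25,8184),(28,8184),(35,237336),(36,16368),(6,294624),(37,32736)]),(0,[(21,65472),(28,130944),(36,130944),(6,310992),(37,261888)]),(0,[(15,229152)]),(2,[(21,174592),(28,349184),(36,349184),(37,698368)]),(2,[(21,174592),(28,349184),(36,349184),(37,698368)])], .leaf 0 [(0,[])], .leaf 1 [(88,[(25,3044448),(5,3044448),(2,31713),(1,32736)])], .leaf 0 [(126,[(21,2367904),(25,9133344),(5,9133344),(2,95139),(1,60016),(37,9471616)])]]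
noncomputable def t0 : TT := (.w 1 a0 a1 a2)
theorem c0 : chkT (([-1,4,4,0,0,0,0,0,0,0] : Fm) :: ([0,0,0,0,-1,1,0,0,0,0] : Fm) :: fsm (-1) ([0,0,0,0,0,0,0,0,-1,1] : Fm) :: ([0,0,0,0,-2,0,0,0,1,0] : Fm) :: fsm (-1) ([0,0,0,0,-1,-1,0,0,-1,1] : Fm) :: K1O12.C0) t0 = true := by decide +kernel
end K1O12M10100

namespace K1O12M10101
noncomputable def a0 : TT := .leaf ⟨true,0,31,33,64,3,8183,[[],[0,0,0,0,0,3069],[0,0,0,0,0,3069],[0,1023,1023,0,-2046,-2046,0,0,1023,1023],[0,0,0,0,0,9207],[],[],[],[0,0,0,0,0,99],[0,0,0,0,0,93],[0,0,0,0,0,248]]⟩ [.leaf 0 [(0,[])], .leaf 0 [(0,[])], .leaf 0 [(0,[])], .leaf 0 [(0,[])], .leaf 0 [(0,[])], .leaf 0 [(0,[(31,7688),(2,7688)])], .leaf 0 [(0,[])], .leaf 0 [(0,[]),(0,[]),(0,[]),(0,[]),(0,[]),(0,[])], .leaf 0 [(0,[(13,261888),(22,130944)])], .leaf 0 [(0,[])], .leaf 0 [(0,[])], .leaf 0 [(0,[])], .leaf 0 [(0,[])], .leaf 0 [(0,[])], .leaf 0 [(0,[])], .leaf 0 [(0,[])], .leaf 0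 [(0,[])], .leaf 0 [(0,[])], .leaf 0 [(6,[(13,3142656),(18,261888),(19,1669536),(32,5499648),(2,916608),(0,1145760),(34,1047552)])], .leaf 0 [(0,[(22,130944),(3,392832),(2,261888)])], .leaf 0 [(0,[(22,130944),(31,785664),(3,261888)])], .w 0 (.leaf 0 [(3,[(16,32736),(18,98208),(28,130944),(32,392832),(4,916608),(0,5115),(36,4190208)])]) (.leaf 0 [(0,[(15,130944),(29,32736),(33,98208),(5,229152),(3,785664),(0,8184)])]) (.leaf 0 [(0,[(16,130944),(23,32736),(34,360096),(6,229152),(5,229152),(0,8184)])]), .leaf 0 [(0,[(13,130944),(31,130944)])], .leaf 0 [(0,[(3,130944)])], .leaf 1 [(0,[(3,98208),(1,1113024)])], .leaf 1 [(0,[(13,327360),(22,163680)]),(0,[(13,163680),(31,163680)]),(0,[(3,163680)]),(0,[(3,130944),(1,1113024)]),(0,[(17,32736),(27,32736),(3,163680),(35,1047552)])], .leaf 0 [(0,[(13,130944),(31,163680),(2,65472)])], .leaf 1 [(0,[(13,94116),(31,192324),(2,65472)])], .leaf 0 [(0,[(3,126852),(1,32736)])],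 .leaf 0 [(0,[(3,98208),(1,1113024)])], .leaf 0 [(6,[(13,2160576),(18,523776),(19,458304),(31,1145760),(0,859320),(34,2095104)]),(6,[(18,261888),(32,1833216),(0,302808),(34,1047552)]),(0,[(18,32736),(31,163680),(0,40920),(34,130944)]),(6,[(18,261888),(23,916608),(33,1833216),(1,5434176),(0,531960),(34,1047552)]),(6,[(18,261888),(32,1833216),(0,302808),(34,1047552)])], .leaf 1 [(0,[(3,130944)])], .leaf 2 [(0,[(13,234608),(18,76384),(19,125488),(25,125488),(31,136400),(32,512864),(2,392832),(0,98208),(34,305536)])], .leaf 2 [(0,[(22,130944),(31,785664),(3,261888),(2,261888)])], .leaf 2 [(0,[(23,130944),(3,229152),(1,851136)])], .leaf 4 [(0,[(12,136400),(18,43648),(33,81840),(3,196416),(1,38192),(0,38192),(34,174592)]),(0,[(12,141856),(18,54560),(3,294624),(1,76384),(0,10912),(34,218240)]),(0,[(12,212784),(33,65472),(3,196416),(1,49104),(0,16368)]),(2,[(12,709280),(18,10912),(33,785664),(3,589248),(1,3197216),(0,54560),(34,43648)]),(6,[(18,261888),(33,1833216),(3,1374912),(1,8642304),(0,245520),(34,1047552)])],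 .leaf 0 [(0,[(23,49104),(3,147312)])], .leaf 2 [(0,[(22,130944),(3,261888),(2,261888),(1,261888)])], .leaf 2 [(0,[(13,234608),(18,76384),(19,125488),(25,125488),(31,136400),(32,512864),(2,392832),(0,98208),(34,305536)])]]
noncomputable def t0 : TT := a0
theorem c0 : chkT (fsm (-1) ([-1,4,4,0,0,0,0,0,0,0] : Fm) :: ([0,0,0,0,-1,1,0,0,0,0] : Fm) :: fsm (-1) ([0,0,0,0,0,0,0,0,-1,1] : Fm) :: ([0,0,0,0,-2,0,0,0,1,0] : Fm) :: fsm (-1) ([0,0,0,0,-1,-1,0,0,-1,1] : Fm) :: K1O12.C0) t0 = true := by decide +kernel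
end K1O12M10101

namespace K1O12M10110
noncomputable def a0 : TT := .leaf ⟨true,0,31,33,64,3,16367,[[],[0,0,0,0,0,5115],[0,0,0,0,0,5115],[0,0,0,0,0,-11253,0,0,0,6138],[0,0,0,0,0,5115],[],[],[],[0,0,0,0,0,165],[0,0,0,0,0,155],[0,0,0,0,0,496]]⟩ [.leaf 0 [(0,[])], .leaf 0 [(0,[])], .leaf 0 [(0,[])], .leaf 0 [(0,[])], .leaf 0 [(0,[])], .leaf 0 [(0,[(2,15376)])], .leaf 0 [(0,[])], .leaf 0 [(0,[]),(0,[]),(0,[]),(0,[]),(0,[]),(0,[])], .leaf 0 [(0,[(32,785664),(4,720192),(2,654720)])], .leaf 0 [(0,[])], .leaf 0 [(0,[])], .leaf 0 [(0,[])], .leaf 0 [(0,[])], .leaf 0 [(0,[])], .leaf 0 [(0,[])], .leaf 0 [(0,[])], .leaf 0 [(0,[])], .leaf 0 [(0,[])], .leaf 0 [(0,[(19,59520),(20,59520),(23,59520),(26,59520),(33,773760),(34,904704),(4,654720),(2,654720),(35,238080)])], .leaf 0 [(0,[(4,1047552),(3,785664)])], .leaf 0 [(0,[(14,327360),(23,327360),(32,327360)])], .leaf 0 [(0,[(0,65472)])], .leaf 0 [(0,[(32,785664),(2,654720)])],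 .leaf 0 [(0,[])], .leaf 2 [(0,[])], .leaf 2 [(0,[(14,458304),(25,65472),(4,294624)]),(0,[(25,65472)]),(0,[(14,392832),(25,130944),(4,327360)]),(0,[(14,523776),(4,261888),(3,130944)]),(0,[(14,458304),(18,65472),(21,65472),(4,294624),(3,65472),(36,2095104)])], .leaf 0 [(0,[(2,1505856)])], .leaf 1 [(0,[(23,65472),(32,695640),(2,765204)])], .leaf 0 [(0,[(23,65472),(32,196416),(4,130944)])], .leaf 1 [(0,[])], .leaf 1 [(0,[(15,392832),(19,65472),(20,130944),(33,130944),(34,65472),(35,261888)]),(6,[(15,2880768),(19,392832),(20,785664),(33,785664),(34,916608),(35,1571328)]),(0,[(27,65472)]),(0,[(19,83328),(23,166656),(33,166656),(34,297600),(35,333312)]),(0,[(15,523776),(33,458304),(34,65472)])], .leaf 1 [(0,[(14,98208),(23,98208),(32,98208)])], .split 2 0 (.leaf 2 [(0,[(0,1)])]) (.leaf 0 [(95,[(35,17284608),(0,11)])]), .leaf 2 [(0,[(32,654720),(4,327360)])], .leaf 0 [(0,[])], .leaf 0 [(0,[(13,523776),(34,523776),(4,261888),(3,65472)]),(0,[(13,523776),(34,458304),(4,261888),(3,130944)]),(0,[(19,98208),(23,32736),(26,163680),(33,229152),(34,130944),(3,654720),(35,392832)]),(0,[(13,523776),(34,523776),(5,130944),(4,327360)]),(0,[(13,523776),(34,523776),(4,261888),(3,130944)])],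 .leaf 0 [(0,[(32,196416),(4,130944)])], .split 1 0 (.leaf 1 [(0,[(0,1)])]) (.leaf 0 [(1010,[(17,54115584),(19,7886400),(22,31691424),(24,239529312),(29,34500768),(33,271220736),(2,53228736),(0,749),(37,1984063488)])]), .split 0 0 (.leaf 0 [(0,[(0,1)])]) (.leaf 1 [(92,[(17,720192),(33,6088896),(3,9329760),(0,11),(37,23046144)])])]
noncomputable def a1 : TT := .leaf ⟨true,0,31,33,64,3,8183,[[],[0,0,0,0,0,3069],[0,0,0,0,0,3069],[0,0,0,0,0,-6138,0,0,0,3069],[0,0,0,0,0,3069],[],[],[],[0,0,0,0,0,99],[0,0,0,0,0,93],[0,0,0,0,0,248]]⟩ [.leaf 0 [(0,[])], .leaf 0 [(0,[])], .leaf 0 [(0,[])], .leaf 0 [(0,[])], .leaf 0 [(0,[])], .leaf 0 [(0,[(2,7688)])], .leaf 0 [(0,[])], .leaf 0 [(0,[]),(0,[]),(0,[]),(0,[]),(0,[]),(0,[])], .leaf 0 [(0,[(32,392832),(4,392832),(2,392832)])], .leaf 0 [(0,[])], .leaf 0 [(0,[])], .leaf 0 [(0,[])], .leaf 0 [(0,[])], .leaf 0 [(0,[])], .leaf 0 [(0,[])], .leaf 0 [(0,[])], .leaf 0 [(0,[])],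 .leaf 0 [(0,[])], .leaf 0 [(0,[(33,65472),(4,65472),(2,65472),(0,32736)])], .leaf 0 [(0,[(4,523776),(3,392832)])], .leaf 0 [(0,[(32,261888),(4,130944)])], .leaf 0 [(0,[(18,8184),(21,16368),(23,114576),(28,16368),(32,261888),(4,130944),(1,24552),(36,261888)])], .leaf 0 [(0,[(32,392832),(2,392832)])], .leaf 0 [(0,[])], .leaf 0 [(0,[(18,17856),(21,32736),(23,294624),(28,50592),(32,654720),(4,327360),(1,65472),(0,50592),(36,1618944)])], .leaf 0 [(0,[(14,261888),(4,130944),(3,32736)]),(0,[(25,32736)]),(0,[(14,196416),(25,65472),(4,163680)]),(0,[(21,32736),(23,32736),(28,32736),(32,130944),(4,327360),(1,65472),(0,32736),(36,1047552)]),(16,[(14,1505856),(21,589248),(4,3699168),(3,163680),(1,589248),(0,32736)])], .leaf 0 [(0,[(32,360096),(2,458304)])], .leaf 0 [(0,[(18,4092),(28,4092),(32,32736),(0,4092),(36,130944)])], .leaf 0 [(0,[(23,32736),(32,98208),(4,65472)])], .leaf 2 [(0,[(18,17856),(21,32736),(23,294624),(28,50592),(32,654720),(4,327360),(1,65472),(0,50592),(36,1618944)])],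 .leaf 4 [(4,[(15,1134848),(19,174592),(20,174592),(23,174592),(32,742016),(4,392832),(0,49104),(35,698368)]),(0,[(14,49104),(15,174592),(19,87296),(20,87296),(23,136400),(32,321904),(4,98208),(2,98208),(35,349184)]),(0,[(19,77376),(23,154752),(33,154752),(34,89280),(35,309504)]),(4,[(19,654720),(23,1309440),(32,392832),(33,916608),(0,114576),(36,2618880)]),(18,[(15,436480),(19,2269696),(23,4539392),(33,4539392),(0,436480),(35,9078784)])], .leaf 0 [(1,[(18,18414),(21,33759),(23,303831),(28,52173),(32,675180),(4,337590),(1,67518),(0,20460),(36,589248)])], .leaf 0 [(0,[(18,4092),(28,4092),(0,4092),(36,130944)])], .leaf 0 [(2,[(18,23188),(23,375100),(32,766568),(4,383284),(1,75020),(36,742016)])], .leaf 1 [(0,[(18,17856),(21,32736),(23,294624),(28,50592),(32,654720),(4,327360),(1,65472),(0,50592),(36,1618944)])], .leaf 3 [(0,[(13,261888),(4,130944),(0,16368)]),(178,[(19,15909696),(26,31819392),(33,14600256),(3,61478208),(2,21834912),(0,458304),(35,63638784)]),(6,[(19,785664),(26,1571328),(4,1293072),(3,196416),(2,491040),(35,3142656)]),(36,[(13,5581488),(19,4108368),(23,4108368),(26,4108368),(34,4681248),(4,2790744),(0,900240),(36,22325952)]),(36,[(13,5581488),(19,4108368),(23,4108368),(26,4108368),(34,4681248),(4,2790744),(0,900240),(35,16433472)])],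 .leaf 0 [(0,[(32,98208),(4,65472)])], .leaf 0 [(22,[(16,584536),(18,115196),(21,989644),(23,3645972),(28,520304),(32,4635616),(1,810216),(0,757020),(36,22391424)])], .leaf 0 [(0,[(23,167772),(28,1023),(32,224037),(2,563673),(1,33759),(0,1023)])]]
noncomputable def t0 : TT := (.split [0,0,0,32,0,-2,0,-1,0,12] a0 a1)
theorem c0 : chkT (([-1,4,4,0,0,0,0,0,0,0] : Fm) :: fsm (-1) ([0,0,0,0,-1,1,0,0,0,0] : Fm) :: fsm (-1) ([0,0,0,0,0,0,0,0,-1,1] : Fm) :: ([0,0,0,0,-2,0,0,0,1,0] : Fm) :: fsm (-1) ([0,0,0,0,-1,-1,0,0,-1,1] : Fm) :: K1O12.C0) t0 = true := by decide +kernel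
end K1O12M10110

namespace K1O12M10111
noncomputable def a0 : TT := .leaf ⟨true,0,31,33,64,3,16367,[[],[0,0,0,0,0,5115],[0,0,0,0,0,5115],[0,0,0,0,-8184,3069,0,0,6138],[0,0,0,0,0,5115],[],[],[],[0,0,0,0,0,165],[0,0,0,0,0,155],[0,0,0,0,0,496]]⟩ [.leaf 0 [(0,[])], .leaf 0 [(0,[])], .leaf 0 [(0,[])], .leaf 0 [(0,[])], .leaf 0 [(0,[])], .leaf 0 [(0,[(1,15376)])], .leaf 0 [(0,[])], .leaf 0 [(0,[]),(0,[]),(0,[]),(0,[]),(0,[]),(0,[])], .leaf 0 [(0,[(3,523776)])], .leaf 0 [(0,[])], .leaf 0 [(0,[])], .leaf 0 [(0,[])], .leaf 0 [(0,[])], .leaf 0 [(0,[])], .leaf 0 [(0,[])], .leaf 0 [(0,[])], .leaf 0 [(0,[])], .leaf 0 [(0,[])], .leaf 0 [(64,[(13,46877952),(18,7725696),(19,31033728),(32,82101888),(1,48318336),(0,15582336),(34,30902784)])], .leaf 0 [(0,[(3,720192),(1,392832)])], .leaf 0 [(0,[(31,2095104),(3,720192),(1,392832)])], .leaf 0 [(0,[(15,12276),(17,53196),(20,12276),(27,53196),(3,720192),(2,53196),(35,2095104)])],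 .leaf 0 [(0,[])], .leaf 0 [(0,[(3,523776),(2,65472)])], .leaf 2 [(0,[(3,523776),(2,65472)])], .leaf 2 [(0,[(13,523776),(31,523776),(3,278256),(1,294624)]),(0,[(13,523776),(31,523776),(1,294624)]),(0,[(23,196416),(3,130944)]),(0,[(13,261888),(23,65472)]),(1,[(13,1013793),(15,33759),(17,97185),(27,130944),(31,852159),(3,721215),(35,4190208)])], .leaf 0 [(0,[(4,65472)])], .leaf 1 [(0,[(22,65472),(2,65472)])], .leaf 0 [(0,[(22,65472),(3,540144),(2,65472)])], .leaf 1 [(0,[(3,523776),(2,65472)])], .leaf 0 [(6,[(13,1931424),(18,982080),(31,3666432),(32,458304),(1,5270496),(0,973896),(34,3928320)]),(2,[(18,283712),(31,611072),(32,1156672),(0,141856),(34,1134848)]),(0,[(13,654720),(21,65472),(31,523776),(0,180048)]),(0,[(13,698368),(18,87296),(23,872960),(25,87296),(33,436480),(3,218240),(0,436480),(34,349184)]),(6,[(18,523776),(31,916608),(32,3666432),(0,261888),(34,2095104)])], .leaf 1 [(0,[(3,523776),(2,65472)])],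 .split 2 0 (.leaf 2 [(0,[(0,1)])]) (.leaf 0 [(95,[(33,10999296),(34,6285312),(0,11)])]), .leaf 0 [(0,[(15,9207),(17,56265),(22,9207),(3,742698),(2,9207),(1,175956),(35,2095104)])], .leaf 0 [(0,[(3,523776),(2,65472)])], .leaf 0 [(6,[(13,1931424),(18,982080),(32,458304),(1,1604064),(0,973896),(34,3928320)]),(0,[(13,130944),(21,130944),(3,65472),(0,32736)]),(6,[(18,1047552),(21,916608),(1,7987584),(0,523776),(34,4190208)]),(0,[(18,130944),(21,65472),(33,130944),(0,65472),(34,523776)]),(0,[(18,130944),(21,65472),(33,130944),(0,65472),(34,523776)])], .leaf 0 [(0,[(3,556512)])], .leaf 2 [(0,[(3,720192),(1,392832)])], .split 2 0 (.leaf 2 [(0,[(0,1)])]) (.leaf 0 [(871,[(19,32997888),(20,93755904),(26,36664320),(3,36664320),(1,7332864),(0,83),(35,131991552)])])]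
noncomputable def t0 : TT := a0
theorem c0 : chkT (fsm (-1) ([-1,4,4,0,0,0,0,0,0,0] : Fm) :: fsm (-1) ([0,0,0,0,-1,1,0,0,0,0] : Fm) :: fsm (-1) ([0,0,0,0,0,0,0,0,-1,1] : Fm) :: ([0,0,0,0,-2,0,0,0,1,0] : Fm) :: fsm (-1) ([0,0,0,0,-1,-1,0,0,-1,1] : Fm) :: K1O12.C0) t0 = true := by decide +kernel
end K1O12M10111

namespace K1O12M10000
theorem top : ∃ t, chkT (([-1,4,4,0,0,0,0,0,0,0] : Fm) :: ([0,0,0,0,-1,1,0,0,0,0] : Fm) :: ([0,0,0,0,0,0,0,0,-1,1] : Fm) :: ([0,0,0,0,-2,0,0,0,1,0] : Fm) :: fsm (-1) ([0,0,0,0,-1,-1,0,0,-1,1] : Fm) :: K1O12.C0) t = true := ⟨_, c0⟩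
end K1O12M10000
namespace K1O12M10001
theorem top : ∃ t, chkT (fsm (-1) ([-1,4,4,0,0,0,0,0,0,0] : Fm) :: ([0,0,0,0,-1,1,0,0,0,0] : Fm) :: ([0,0,0,0,0,0,0,0,-1,1] : Fm) :: ([0,0,0,0,-2,0,0,0,1,0] : Fm) :: fsm (-1) ([0,0,0,0,-1,-1,0,0,-1,1] : Fm) :: K1O12.C0) t = true := ⟨_, c0⟩
end K1O12M10001
namespace K1O12M10010
theorem top : ∃ t, chkT (([-1,4,4,0,0,0,0,0,0,0] : Fm) :: fsm (-1) ([0,0,0,0,-1,1,0,0,0,0] : Fm) :: ([0,0,0,0,0,0,0,0,-1,1] : Fm) :: ([0,0,0,0,-2,0,0,0,1,0] : Fm) :: fsm (-1) ([0,0,0,0,-1,-1,0,0,-1,1] : Fm) :: K1O12.C0) t = true := ⟨_, c0⟩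
end K1O12M10010
namespace K1O12M10011
theorem top : ∃ t, chkT (fsm (-1) ([-1,4,4,0,0,0,0,0,0,0] : Fm) :: fsm (-1) ([0,0,0,0,-1,1,0,0,0,0] : Fm) :: ([0,0,0,0,0,0,0,0,-1,1] : Fm) :: ([0,0,0,0,-2,0,0,0,1,0] : Fm) :: fsm (-1) ([0,0,0,0,-1,-1,0,0,-1,1] : Fm) :: K1O12.C0) t = true := ⟨_, c0⟩
end K1O12M10011
namespace K1O12M10100
theorem top : ∃ t, chkT (([-1,4,4,0,0,0,0,0,0,0] : Fm) :: ([0,0,0,0,-1,1,0,0,0,0] : Fm) :: fsm (-1) ([0,0,0,0,0,0,0,0,-1,1] : Fm) :: ([0,0,0,0,-2,0,0,0,1,0] : Fm) :: fsm (-1) ([0,0,0,0,-1,-1,0,0,-1,1] : Fm) :: K1O12.C0) t = true := ⟨_, c0⟩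
end K1O12M10100
namespace K1O12M10101
theorem top : ∃ t, chkT (fsm (-1) ([-1,4,4,0,0,0,0,0,0,0] : Fm) :: ([0,0,0,0,-1,1,0,0,0,0] : Fm) :: fsm (-1) ([0,0,0,0,0,0,0,0,-1,1] : Fm) :: ([0,0,0,0,-2,0,0,0,1,0] : Fm) :: fsm (-1) ([0,0,0,0,-1,-1,0,0,-1,1] : Fm) :: K1O12.C0) t = true := ⟨_, c0⟩
end K1O12M10101
namespace K1O12M10110
theorem top : ∃ t, chkT (([-1,4,4,0,0,0,0,0,0,0] : Fm) :: fsm (-1) ([0,0,0,0,-1,1,0,0,0,0] : Fm) :: fsm (-1) ([0,0,0,0,0,0,0,0,-1,1] : Fm) :: ([0,0,0,0,-2,0,0,0,1,0] : Fm) :: fsm (-1) ([0,0,0,0,-1,-1,0,0,-1,1] : Fm) :: K1O12.C0) t = true := ⟨_, c0⟩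
end K1O12M10110
namespace K1O12M10111
theorem top : ∃ t, chkT (fsm (-1) ([-1,4,4,0,0,0,0,0,0,0] : Fm) :: fsm (-1) ([0,0,0,0,-1,1,0,0,0,0] : Fm) :: fsm (-1) ([0,0,0,0,0,0,0,0,-1,1] : Fm) :: ([0,0,0,0,-2,0,0,0,1,0] : Fm) :: fsm (-1) ([0,0,0,0,-1,-1,0,0,-1,1] : Fm) :: K1O12.C0) t = true := ⟨_, c0⟩
end K1O12M10111
def K1O12P10 := (splE (splE (splE K1O12M10000.top K1O12M10001.top) (splE K1O12M10010.top K1O12M10011.top)) (splE (splE K1O12M10100.top K1O12M10101.top) (splE K1O12M10110.top K1O12M10111.top)))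

end Vale.Agent.P235
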