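import Vale.Agent.P235.CT

namespace Vale.Agent.P235.K2O10

set_option maxRecDepth 100000

def C0 : List Fm := [[1,0,0,0,0,0,0,0,0,0],[0,1,0,0,0,0,0,0,0,0],[0,0,1,0,0,0,0,0,0,0],[0,0,0,0,0,0,1,0,0,0],[0,0,0,1,0,0,-1,0,0,0],[0,0,0,0,1,0,0,0,0,0],[0,0,0,0,0,1,0,0,0,0],[1,1,0,-1,-1,0,0,0,0,0],[0,1,1,0,-1,-1,0,0,0,0],[1,0,1,-1,0,-1,0,0,0,0],[-1,-1,0,0,32,0,32,0,0,0],[0,-1,-1,0,32,32,0,0,0,0],[-1,0,-1,0,0,32,32,0,0,0],[2,2,2,-3,-2,-2,-4,0,0,0],[-1,-1,0,0,0,0,0,1,1,0],[1,1,0,0,0,0,0,-1,1,0],[1,1,0,0,0,0,0,1,-1,0],[0,-1,-1,0,0,0,0,0,1,1],[0,1,1,0,0,0,0,0,-1,1],[0,1,1,0,0,0,0,0,1,-1],[-1,0,-1,0,0,0,0,1,0,1],[1,0,1,0,0,0,0,1,0,-1],[1,0,1,0,0,0,0,-1,0,1],[0,0,0,0,0,0,0,1,0,0],[0,0,0,0,0,0,0,0,1,0],[0,0,0,0,0,0,0,0,0,1],[0,0,0,0,1,-1,0,0,-1,1],[0,0,0,1,-1,0,0,-1,1,0],[-2,-2,-2,3,2,2,4,0,0,0],[2,2,2,-3,-2,-2,-4,0,0,0]]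

end Vale.Agent.P235.K2O10
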