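import Vale.Agent.P235.T.K2O10C

namespace Vale.Agent.P235

set_option maxRecDepth 100000

namespace K2O10M00000
noncomputable def a0 : TT := .leaf ⟨true,33,31,0,64,3,8183,[[0,0,0,3069],[0,0,0,3069],[],[0,0,0,-4092,0,0,0,4092],[],[],[0,0,0,9207],[0,0,0,93],[0,0,0,99],[],[0,0,0,248]]⟩ [.leaf 0 [(0,[])], .leaf 0 [(0,[])], .leaf 0 [(0,[])], .leaf 0 [(0,[])], .leaf 0 [(0,[])], .leaf 0 [(0,[(1,7688)])], .leaf 0 [(0,[])], .leaf 0 [(0,[]),(0,[]),(0,[]),(0,[]),(0,[]),(0,[])], .leaf 0 [(0,[(3,261888)])], .leaf 0 [(0,[])], .leaf 0 [(0,[])], .leaf 0 [(0,[])], .leaf 0 [(0,[])], .leaf 0 [(0,[])], .leaf 0 [(0,[])], .leaf 0 [(0,[])], .leaf 0 [(0,[])], .leaf 0 [(0,[])], .leaf 0 [(0,[(3,261888)])], .leaf 0 [(0,[(32,785664),(4,261888)])], .leaf 0 [(0,[(13,261888),(22,261888),(31,785664),(4,523776)])], .leaf 0 [(0,[])], .leaf 0 [(0,[(9,65472),(26,32736),(31,32736),(3,319176),(33,16368)])],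 .leaf 0 [(0,[(9,130944),(12,32736),(13,32736),(26,32736),(33,32736)])], .leaf 0 [(0,[(9,1047552)])], .leaf 0 [(0,[(13,327360),(22,65472),(31,196416),(32,245520),(4,147312)]),(0,[(13,261888),(31,261888),(4,392832)]),(0,[(13,130944),(23,130944),(4,392832)]),(0,[(9,949344),(13,237336),(19,24552),(25,24552),(31,237336),(32,474672),(34,24552)]),(0,[(13,310992),(22,49104),(31,212784),(32,425568)])], .split 1 0 (.leaf 1 [(0,[(0,1)])]) (.leaf 0 [(30,[(10,2160576),(14,65472),(22,65472),(27,1014816),(4,9747144),(0,2),(34,540144)])]), .split 1 0 (.leaf 1 [(0,[(0,1)])]) (.leaf 0 [(30,[(10,2226048),(22,1014816),(2,5745168),(0,3),(34,556512)])]), .split 1 0 (.leaf 1 [(0,[(0,1)])]) (.leaf 0 [(150,[(10,10410048),(27,327360),(1,65472),(0,10),(34,2602512)])]), .leaf 2 [(0,[(9,1047552)])], .leaf 4 [(0,[(14,368280),(25,106392),(31,155496),(4,155496),(3,49104)]),(0,[(13,130944),(14,261888),(22,130944),(31,130944),(3,245520)]),(0,[(31,229152),(4,229152)]),(0,[(9,785664),(14,196416),(19,65472),(22,65472),(31,196416),(32,65472),(34,65472)]),(0,[(13,130944),(14,261888),(22,130944),(31,130944)])],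 .leaf 0 [(0,[])], .leaf 1 [(0,[(9,130944),(12,32736),(13,32736),(33,32736)])], .split 1 0 (.leaf 1 [(0,[(0,1)])]) (.leaf 0 [(30,[(10,4059264),(13,1014816),(14,1014816),(0,2),(34,1014816)])]), .leaf 1 [(0,[(9,1047552)])], .leaf 1 [(0,[(12,261888),(32,196416),(4,65472)]),(0,[(12,261888),(32,261888)]),(0,[(4,130944)]),(0,[(9,1047552),(12,261888),(32,261888)]),(0,[(9,130944),(12,294624),(13,32736),(26,32736),(32,261888),(33,32736)])], .leaf 1 [(0,[(3,278256)])], .split 0 0 (.leaf 0 [(0,[(0,1)])]) (.leaf 1 [(30,[(10,2029632),(14,507408),(20,507408),(27,507408),(32,507408),(0,2),(34,507408)])]), .leaf 0 [(0,[(9,65472),(13,16368),(19,16368),(26,16368),(31,16368),(3,327360),(33,16368)])]]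
noncomputable def t0 : TT := a0
theorem c0 : chkT (([4,4,-1,0,0,0,0,0,0,0] : Fm) :: ([0,0,0,-1,1,0,0,0,0,0] : Fm) :: ([0,0,0,0,0,0,0,-1,1,0] : Fm) :: ([0,0,0,-2,0,0,0,1,0,0] : Fm) :: ([0,0,0,-1,-1,0,0,-1,1,0] : Fm) :: K2O10.C0) t0 = true := by decide +kernel
end K2O10M00000

namespace K2O10M00001
noncomputable def a0 : TT := .leaf ⟨true,8,0,1,9,3,255,[[0,0,0,24],[],[0,0,0,24],[40,40,0,-96,-72,0,0,40,40],[],[0,0,0,88],[],[0,0,0,3],[],[0,0,0,24],[0,0,0,32]]⟩ [.leaf 0 [(0,[])], .leaf 0 [(0,[])], .leaf 0 [(0,[])], .leaf 0 [(0,[])], .leaf 0 [(0,[])], .leaf 0 [(0,[])], .leaf 0 [(10,[(10,128),(13,320),(2,256),(1,64),(34,32)])], .leaf 0 [(0,[]),(0,[]),(0,[]),(0,[]),(0,[]),(0,[])], .leaf 0 [(0,[(13,5120),(5,5120),(4,1024)])], .leaf 0 [(0,[])], .leaf 0 [(0,[])], .leaf 0 [(0,[])], .leaf 0 [(0,[])], .leaf 0 [(0,[])], .leaf 0 [(0,[])], .leaf 0 [(0,[])], .leaf 0 [(0,[])], .leaf 0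 [(0,[])], .leaf 0 [(92,[(10,1167360),(22,476160),(27,163840),(4,1728000),(1,184320),(0,10240),(34,291840)])], .leaf 0 [(8,[(10,23808),(14,4608),(20,29568),(27,2048),(33,119520),(5,99744),(1,2304),(0,128),(34,5952)])], .leaf 0 [(32,[(14,254976),(23,276480),(26,62464),(32,709632),(33,264192),(1,36864),(0,2048)])], .leaf 0 [(0,[(13,5120),(33,4096)])], .leaf 0 [(0,[(4,3072)])], .leaf 0 [(0,[(10,2048),(13,5120),(27,1024),(5,5120),(4,2816),(34,512)])], .leaf 0 [(0,[(10,32768),(13,5120),(5,4096),(4,4096)])], .leaf 0 [(12,[(14,108352),(23,41216),(32,49920),(5,65280),(1,17280),(0,960)]),(12,[(14,67136),(32,91136),(33,65280),(1,17280),(0,960)]),(0,[(13,5120),(5,4352),(1,2240)]),(442,[(10,13093888),(14,2401792),(26,774912),(32,2350336),(33,3433472),(1,566784),(0,31488),(35,355584)]),(12,[(14,101696),(23,34560),(32,56576),(5,78592),(1,17280),(0,960)])], .leaf 0 [(8,[(10,98304),(27,25600),(5,46080),(4,50176),(2,31744),(0,1024),(34,24576)])],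 .leaf 1 [(8,[(10,98304),(27,16384),(5,44640),(4,56512),(2,17056),(0,1024),(34,24576)])], .leaf 0 [(0,[(10,2576),(13,6280),(5,4960),(4,2682),(1,264),(34,644)])], .leaf 2 [(0,[(10,32768),(13,5120),(5,4096)])], .leaf 2 [(40,[(32,204800),(1,39360),(0,8192)]),(0,[(32,3840),(4,3584),(1,960)]),(40,[(32,204800),(1,39360),(0,8192)]),(112,[(10,2538752),(23,149632),(32,583552),(1,216576),(0,12032),(35,291008)]),(2,[(15,18016),(32,22016),(1,2880),(0,160)])], .leaf 0 [(0,[(13,5120),(5,5120),(4,1536)])], .leaf 1 [(0,[(10,2064),(13,5000),(5,4960),(4,3290),(1,8),(34,516)])], .leaf 0 [(8,[(10,190464),(13,93792),(14,46080),(27,16384),(33,16560),(5,19152),(0,1024),(34,47616)])], .leaf 1 [(0,[(10,32768),(13,5120),(5,4096),(4,4096)])], .leaf 3 [(8,[(10,11904),(13,58944),(14,2304),(27,1024),(5,50688),(4,40464),(1,1152),(0,64),(34,2976)]),(0,[(5,5632),(4,5248)]),(0,[(13,10752),(5,10752),(4,3456)]),(8,[(10,306816),(13,58944),(14,2304),(27,1024),(5,50688),(4,77328),(1,1152),(0,64),(34,2976)]),(8,[(10,11904),(13,58944),(14,2304),(27,1024),(5,50688),(4,77328),(1,1152),(0,64),(34,2976)])],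 .leaf 0 [(8,[(10,23808),(13,62592),(14,4608),(27,2048),(33,36864),(1,2304),(0,128),(34,5952)])], .leaf 1 [(2,[(10,8184),(13,17484),(14,1584),(27,704),(5,14880),(1,792),(0,44),(34,2046)])], .leaf 0 [(0,[(4,3392)])]]
noncomputable def a1 : TT := .leaf ⟨true,31,0,33,64,1,130943,[[-8184,-10230,-16368,90024,10230,16368],[],[4092,3069,8184,24552,-3069,-8184],[16368,0,16368,-32736,0,-23529,0,0,0,7161],[],[0,0,0,49104],[],[-264,-330,-528,2904,330,528],[],[124,93,248,744,-93,-248],[0,0,0,4224]]⟩ [.leaf 0 [(0,[(10,1056),(13,198),(34,264)])], .leaf 0 [(0,[])], .leaf 0 [(1,[(10,124),(14,248),(15,310),(34,31)])], .leaf 0 [(0,[(14,237),(15,43)])], .leaf 0 [(0,[])], .leaf 0 [(0,[])], .leaf 0 [(2,[(13,178112),(32,30976),(5,30976),(4,61952),(2,178112),(1,44528),(0,1936)])], .leaf 0 [(0,[]),(0,[]),(0,[]),(0,[]),(0,[]),(0,[])], .leaf 0 [(0,[(15,2258784),(26,163680),(32,752928),(5,752928),(4,589248)])],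 .leaf 0 [(0,[])], .leaf 0 [(0,[])], .leaf 0 [(0,[(10,1833216),(14,3666432),(15,4583040),(34,458304)])], .leaf 0 [(0,[])], .leaf 0 [(0,[(10,29331456),(13,5499648),(34,7332864)])], .leaf 0 [(0,[(10,1833216),(14,3666432),(15,4583040),(34,458304)])], .leaf 0 [(0,[])], .leaf 0 [(0,[(10,29331456),(13,5499648),(34,7332864)])], .leaf 0 [(0,[])], .leaf 0 [(0,[(10,18070272),(13,4452096),(14,2880768),(27,916608),(4,15680544),(34,4517568)])], .leaf 0 [(0,[(10,10737408),(13,2880768),(14,3404544),(27,916608),(5,16760832),(4,4812192),(34,2684352)])], .leaf 0 [(0,[(13,65472),(14,7201920),(23,5565120),(26,589248),(32,9689856),(5,4124736)])], .leaf 0 [(0,[(14,1898688),(15,3535488),(23,196416),(32,720192),(5,523776)])], .leaf 0 [(0,[(10,1440384),(15,1964160),(23,196416),(32,720192),(34,360096)])], .leaf 0 [(6,[(10,16760832),(1,883872),(34,4190208)])], .leaf 0 [(0,[(10,18594048),(14,2946240),(15,6350784),(20,196416),(32,916608),(5,720192),(34,458304)])],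 .leaf 0 [(0,[(9,392832),(14,5728800),(15,1767744),(23,752928),(26,2749824),(5,3437280),(35,98208)]),(0,[(14,5237760),(20,261888),(32,3502752),(5,2356992)]),(0,[(13,2618880),(14,2160576),(5,4190208),(4,916608),(1,982080)]),(0,[(10,4124736),(14,5581488),(15,671088),(20,3584592),(32,3502752),(33,4108368),(35,3159024)]),(0,[(10,30902784),(13,6776352),(14,3371808),(26,2586144),(5,4190208),(34,7725696)])], .leaf 1 [(0,[(10,1309440),(32,523776),(1,261888),(0,39556),(34,327360)])], .leaf 0 [(7,[(13,6245756),(15,1430836),(22,2209680),(32,1980528),(1,2007467),(0,138105)])], .leaf 0 [(90,[(10,155037696),(23,27117684),(26,26734400),(32,27117684),(1,23831808),(0,1670900),(34,38759424)])], .leaf 2 [(0,[(10,31033728),(15,1047552),(23,196416),(32,720192),(33,523776),(34,3568224)])], .leaf 2 [(0,[(14,441936),(15,5237760),(23,441936),(26,2618880),(32,441936)]),(0,[(26,949344),(1,425568)]),(0,[(14,3453648),(15,4059264),(23,1751376),(32,1751376)]),(0,[(10,26352480),(20,1571328),(23,965712),(32,2537040),(34,2397912)]),(0,[(9,1047552),(14,900240),(15,261888),(20,261888),(23,1162128),(32,1424016),(35,261888)])],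 .leaf 0 [(6,[(10,16760832),(32,3666432),(5,3666432),(1,883872),(34,4190208)])], .leaf 0 [(39,[(10,3592776),(27,11048400),(1,82863),(0,690525),(34,898194)])], .leaf 1 [(7,[(14,425568),(28,1980528),(0,138105)])], .leaf 1 [(0,[(10,43604352),(13,3339072),(26,196416),(32,720192),(33,720192),(34,6710880)])], .leaf 3 [(0,[(10,8118528),(13,6219840),(14,1505856),(27,458304),(5,4190208),(4,6481728),(34,2029632)]),(0,[(10,9297024),(25,458304),(5,3731904),(4,5090448),(34,2324256)]),(0,[(9,2095104),(13,3011712),(32,458304),(5,4648512),(4,491040),(35,523776)]),(0,[(10,55389312),(13,12505152),(27,458304),(33,4190208),(34,9657120)]),(0,[(13,2422464),(14,2684352),(27,458304),(5,4190208)])], .leaf 1 [(0,[(10,1440384),(15,1964160),(23,196416),(32,720192),(33,523776),(34,360096)])], .split 0 0 (.leaf 0 [(0,[(0,1)])]) (.leaf 1 [(30,[(11,3175392),(15,52277346),(16,110600622),(21,13211022),(33,27469596),(34,14258574),(0,2),(35,793848)])]),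 .leaf 0 [(0,[(10,2099196),(15,2180013),(20,197439),(23,246543),(32,641421),(33,197439),(34,524799)])]]
noncomputable def t0 : TT := (.split [20,0,23,-48,0,-57,0,16,0,16] a0 a1)
theorem c0 : chkT (fsm (-1) ([4,4,-1,0,0,0,0,0,0,0] : Fm) :: ([0,0,0,-1,1,0,0,0,0,0] : Fm) :: ([0,0,0,0,0,0,0,-1,1,0] : Fm) :: ([0,0,0,-2,0,0,0,1,0,0] : Fm) :: ([0,0,0,-1,-1,0,0,-1,1,0] : Fm) :: K2O10.C0) t0 = true := by decide +kernel
end K2O10M00001

namespace K2O10M00010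
noncomputable def a0 : TT := .leaf ⟨true,31,33,0,64,3,8183,[[0,0,0,0,3069],[0,0,0,0,3069],[],[0,0,0,-4092,0,0,0,4092],[],[],[0,0,0,0,9207],[0,0,0,0,99],[0,0,0,0,93],[],[0,0,0,0,248]]⟩ [.leaf 0 [(0,[])], .leaf 0 [(0,[])], .leaf 0 [(0,[])], .leaf 0 [(0,[])], .leaf 0 [(0,[(1,7688)])], .leaf 0 [(0,[])], .leaf 0 [(0,[])], .leaf 0 [(0,[]),(0,[]),(0,[]),(0,[]),(0,[]),(0,[])], .leaf 0 [(0,[(3,261888)])], .leaf 0 [(0,[])], .leaf 0 [(0,[])], .leaf 0 [(0,[])], .leaf 0 [(0,[])], .leaf 0 [(0,[])], .leaf 0 [(0,[])], .leaf 0 [(0,[])], .leaf 0 [(0,[])], .leaf 0 [(0,[])], .leaf 0 [(0,[(3,261888)])], .leaf 0 [(0,[(32,785664),(4,261888)])], .leaf 0 [(0,[(13,261888),(22,261888),(31,785664),(4,523776),(1,785664)])], .leaf 0 [(0,[])], .leaf 0 [(0,[(9,65472),(26,32736),(31,32736),(3,319176),(33,16368)])], .leaf 0 [(0,[(9,65472),(26,32736),(3,319176),(33,16368)])], .leaf 1 [(0,[(9,65472),(13,16368),(21,16368),(26,16368),(31,16368),(3,319176),(33,16368)])],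 .leaf 0 [(0,[(13,327360),(22,65472),(31,196416),(32,245520),(4,147312),(1,294624)]),(0,[(13,261888),(31,261888),(32,392832)]),(0,[(23,163680),(4,425568)]),(0,[(9,1047552),(13,261888),(31,261888),(4,501952),(3,76384)]),(0,[(13,261888),(31,261888),(32,425568)])], .leaf 1 [(0,[(9,65472),(21,32736),(3,319176),(33,16368)])], .split 1 0 (.leaf 1 [(0,[(0,1)])]) (.leaf 0 [(30,[(10,2029632),(22,621984),(27,392832),(32,392832),(4,4566672),(0,12),(34,507408)])]), .leaf 0 [(0,[(9,65472),(3,310992),(33,16368)])], .leaf 0 [(0,[(9,65472),(13,16368),(21,16368),(26,16368),(31,16368),(3,319176),(33,16368)])], .leaf 0 [(0,[(13,49104),(14,278256),(22,49104),(25,16368),(31,196416),(4,147312),(1,294624)]),(0,[(14,130944),(27,130944)]),(0,[(14,261888),(31,261888),(4,261888),(1,687456)]),(0,[(14,261888),(31,261888),(4,130944)]),(0,[(14,261888),(31,261888),(32,130944)])], .leaf 0 [(0,[(3,278256)])],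 .leaf 1 [(0,[(9,65472),(3,327360),(33,16368)])], .split 0 0 (.leaf 0 [(0,[(0,1)])]) (.leaf 1 [(30,[(10,196416),(2,932976),(0,3),(34,49104)])]), .leaf 2 [(0,[(9,65472),(13,16368),(21,16368),(26,16368),(31,16368),(3,319176),(33,16368)])], .leaf 2 [(0,[(12,261888),(4,261888)]),(0,[(12,261888),(4,261888)]),(0,[(4,130944)]),(0,[(4,130944)]),(0,[(24,32736),(4,130944),(0,32736)])], .leaf 0 [(0,[(9,65472),(13,16368),(21,16368),(26,16368),(31,16368),(1,65472),(33,16368)])], .leaf 1 [(0,[(9,65472),(13,16368),(19,16368),(26,16368),(31,16368),(1,65472),(33,16368)])], .leaf 0 [(0,[(9,65472),(13,16368),(19,16368),(26,16368),(31,16368),(3,327360),(33,16368)])]]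
noncomputable def t0 : TT := a0
theorem c0 : chkT (([4,4,-1,0,0,0,0,0,0,0] : Fm) :: fsm (-1) ([0,0,0,-1,1,0,0,0,0,0] : Fm) :: ([0,0,0,0,0,0,0,-1,1,0] : Fm) :: ([0,0,0,-2,0,0,0,1,0,0] : Fm) :: ([0,0,0,-1,-1,0,0,-1,1,0] : Fm) :: K2O10.C0) t0 = true := by decide +kernel
end K2O10M00010

namespace K2O10M00011
noncomputable def a0 : TT := .leaf ⟨true,1,8,0,9,3,255,[[0,0,0,0,24],[0,0,0,0,24],[],[0,0,0,-128,16,0,0,128,8],[],[],[0,0,0,0,88],[0,0,0,0,24],[0,0,0,0,3],[],[0,0,0,0,32]]⟩ [.leaf 0 [(0,[])], .leaf 0 [(0,[])], .leaf 0 [(0,[])], .leaf 0 [(0,[])], .leaf 0 [(0,[(1,32)])], .leaf 0 [(0,[])], .leaf 0 [(0,[])], .leaf 0 [(0,[]),(0,[]),(0,[]),(0,[]),(0,[]),(0,[])], .leaf 0 [(0,[(3,8192)])], .leaf 0 [(0,[])], .leaf 0 [(0,[])], .leaf 0 [(0,[])], .leaf 0 [(0,[])], .leaf 0 [(0,[])], .leaf 0 [(0,[])], .leaf 0 [(0,[])], .leaf 0 [(0,[])], .leaf 0 [(0,[])], .leaf 0 [(0,[(9,2048),(13,512),(21,512),(26,512),(31,512),(3,11520),(1,3072),(33,512)])],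 .leaf 0 [(0,[(4,31744),(1,3072)])], .leaf 0 [(0,[(13,7680),(22,7680),(31,25088),(4,16384),(1,9216)])], .leaf 0 [(0,[])], .leaf 0 [(0,[(3,8192)])], .leaf 0 [(0,[(9,2048),(26,1024),(3,9984),(33,512)])], .leaf 1 [(0,[(3,9728),(1,3072)])], .leaf 1 [(0,[(13,9856),(22,1664),(31,6528),(4,12288),(1,4608)]),(0,[(13,8192),(31,8192),(32,12288)]),(0,[(13,3328),(23,4864),(4,12288),(1,1536)]),(0,[(13,9344),(22,1152),(31,7040),(32,5376),(4,6912),(1,13824)]),(0,[(13,8192),(31,8192),(32,13312)])], .leaf 1 [(0,[(3,8192)])], .split 0 0 (.leaf 0 [(0,[(0,1)])]) (.leaf 1 [(30,[(10,63488),(4,301056),(0,2),(34,15872)])]), .leaf 0 [(0,[(9,2048),(3,9728),(33,512)])], .leaf 0 [(0,[(3,9728),(1,3072)])], .leaf 0 [(0,[(13,1664),(14,8192),(22,1664),(31,6528),(32,1792),(4,2304),(1,4608)]),(0,[(12,1536),(14,2560),(27,4096),(31,768),(0,384)]),(0,[(13,1152),(14,8192),(22,1152),(31,7040),(4,5120),(1,7680)]),(2,[(13,640),(14,24576),(22,640),(31,23936),(4,17920),(3,5632),(1,41472)]),(0,[(14,8192),(31,8192),(2,4096)])],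 .leaf 0 [(0,[(3,8704)])], .leaf 1 [(0,[(9,2048),(3,10240),(33,512)])], .split 0 0 (.leaf 0 [(0,[(0,1)])]) (.leaf 1 [(526,[(10,100352),(33,31744),(2,65536),(0,49),(34,25088)])]), .leaf 2 [(0,[(3,8192)])], .leaf 2 [(0,[(12,8192),(32,4608),(4,2816),(1,2304)]),(0,[(12,8192),(32,5120),(1,4608)]),(0,[(4,4096)]),(0,[(4,4096)]),(0,[(9,2048),(24,1024),(4,6400),(3,640),(33,512)])], .leaf 0 [(0,[])], .leaf 1 [(0,[(9,64),(13,16),(19,1008),(26,16),(31,16),(33,16)])], .leaf 0 [(0,[(9,64),(13,16),(19,1008),(26,16),(31,16),(3,8504),(33,16)])]]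
noncomputable def t0 : TT := a0
theorem c0 : chkT (fsm (-1) ([4,4,-1,0,0,0,0,0,0,0] : Fm) :: fsm (-1) ([0,0,0,-1,1,0,0,0,0,0] : Fm) :: ([0,0,0,0,0,0,0,-1,1,0] : Fm) :: ([0,0,0,-2,0,0,0,1,0,0] : Fm) :: ([0,0,0,-1,-1,0,0,-1,1,0] : Fm) :: K2O10.C0) t0 = true := by decide +kernel
end K2O10M00011

namespace K2O10M00100
noncomputable def a0 : TT := .leaf ⟨true,8,1,0,9,1,63,[[0,0,0,8],[0,0,0,8],[],[8,8,0,-24,-72,0,0,8,16],[],[],[0,0,0,24],[0,0,0,1],[0,0,0,8],[],[0,0,0,8]]⟩ [.leaf 0 [(0,[])], .leaf 0 [(0,[])], .leaf 0 [(0,[])], .leaf 0 [(0,[(4,1),(2,1)])], .leaf 0 [(0,[])], .leaf 0 [(0,[(1,8)])], .leaf 0 [(0,[])], .leaf 0 [(0,[]),(0,[]),(0,[]),(0,[]),(0,[]),(0,[])], .leaf 0 [(0,[(12,1024),(32,3072),(4,5120),(2,6144)])], .leaf 0 [(0,[])], .leaf 0 [(0,[])], .leaf 0 [(0,[])], .leaf 0 [(0,[])], .leaf 0 [(0,[])], .leaf 0 [(0,[])], .leaf 0 [(0,[])], .leaf 0 [(0,[])], .leaf 0 [(0,[])],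 .leaf 0 [(0,[(19,1024),(3,2560),(2,3072)])], .leaf 0 [(0,[(19,1024),(32,2048)])], .leaf 0 [(0,[(19,1024),(31,8192),(4,2048)])], .leaf 0 [(0,[(12,1024),(32,7168),(4,1024),(2,6144)])], .leaf 0 [(0,[(12,1024),(3,1024)])], .leaf 0 [(0,[(9,512),(12,1024),(26,256),(32,3776),(4,4672),(2,6400),(33,128)])], .leaf 0 [(0,[(9,8192),(12,1024),(32,3584),(4,4608),(2,6144)])], .leaf 3 [(0,[(13,2816),(19,512),(22,768),(31,1280),(32,1024)]),(0,[(13,512),(25,512),(4,1024)]),(0,[(12,512),(13,4096),(22,2048),(32,2944),(4,3200),(2,5376)]),(0,[(13,2816),(19,512),(22,768),(31,1280),(32,8192),(2,7168)]),(0,[(13,2560),(19,768),(22,512),(31,1536),(32,1280)])], .leaf 0 [(0,[(13,256),(19,1280),(26,256),(4,2560),(3,256),(2,1792),(0,512)])], .leaf 1 [(0,[(14,256),(19,1312),(4,2080),(3,352),(2,1408),(0,512)])], .leaf 0 [(0,[(9,512),(12,992),(4,8448),(2,6464),(33,128)])], .leaf 2 [(0,[(9,8192),(12,1024),(32,3584),(4,4608),(2,6144)])],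 .leaf 4 [(0,[(14,2048),(19,512),(31,2048),(4,512),(3,1152)]),(0,[(12,512),(13,896),(14,3200),(22,896),(25,1152),(4,3200),(2,3072)]),(0,[(22,512),(31,1536),(3,1536),(1,768)]),(0,[(9,7168),(14,1536),(19,1024),(31,2048),(1,1536),(34,256)]),(0,[(14,2048),(19,512),(31,2048),(4,512),(3,1152)])], .leaf 0 [(0,[(12,1024),(4,8192),(2,6144)])], .leaf 1 [(0,[(9,512),(12,992),(32,3552),(4,4640),(2,6208),(33,128)])], .leaf 0 [(0,[(13,256),(19,1312),(32,6912),(4,1760),(2,8000),(0,512)])], .leaf 1 [(0,[(9,8192),(12,1024),(32,7168),(4,1024),(2,6144)])], .leaf 3 [(0,[(4,1024),(3,1792)]),(0,[(4,1024),(3,1792)]),(0,[(12,2560),(32,512),(4,5632),(2,3072)]),(0,[(9,8192)]),(0,[(12,1536),(4,6144),(3,2560),(2,5120)])], .leaf 0 [(0,[(12,1024),(32,7168),(4,1280),(2,6656)])], .leaf 1 [(0,[(12,736),(4,8448),(2,6464)])], .leaf 0 [(0,[(12,736),(4,1984),(3,256)])]]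
noncomputable def t0 : TT := a0
theorem c0 : chkT (([4,4,-1,0,0,0,0,0,0,0] : Fm) :: ([0,0,0,-1,1,0,0,0,0,0] : Fm) :: fsm (-1) ([0,0,0,0,0,0,0,-1,1,0] : Fm) :: ([0,0,0,-2,0,0,0,1,0,0] : Fm) :: ([0,0,0,-1,-1,0,0,-1,1,0] : Fm) :: K2O10.C0) t0 = true := by decide +kernel
end K2O10M00100

namespace K2O10M00101
noncomputable def a0 : TT := .leaf ⟨false,0,1,0,1,2,7,[[],[0,0,0,0,2],[],[1,0,2,-9,4,-3,0,1,0,1],[],[],[],[],[],[],[]]⟩ [.leaf 0 [(0,[])], .leaf 0 [(0,[])], .leaf 0 [(0,[])], .leaf 0 [(0,[])], .leaf 0 [(0,[])], .leaf 0 [(0,[])], .leaf 0 [(0,[(13,64),(14,192),(19,64),(31,128),(4,704),(3,128),(2,640)])], .leaf 0 [(0,[])], .leaf 0 [(0,[])], .leaf 0 [(0,[])], .leaf 0 [(0,[])], .leaf 0 [(0,[])], .leaf 0 [(0,[])], .leaf 0 [(0,[])], .leaf 0 [(0,[])], .leaf 0 [(0,[])], .leaf 0 [(0,[(9,768),(12,256),(24,128),(4,896),(3,32),(2,1024),(33,192)])], .leaf 0 [(0,[(9,768),(12,128),(26,128),(4,1536),(2,512),(33,192)])],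 .leaf 0 [(0,[(13,128),(22,128),(25,256),(31,512),(32,1152),(2,768)])], .leaf 0 [(0,[(13,64),(14,192),(19,64),(31,128)])], .leaf 0 [(0,[(13,64),(14,192),(19,64),(31,128),(4,32),(3,96),(1,736)])], .leaf 0 [(0,[(14,128),(3,128),(1,768)])], .leaf 0 [(0,[(9,832),(13,16),(14,144),(19,112),(31,128),(4,16),(1,1680),(34,48)])], .leaf 0 [(0,[(12,48),(13,224),(22,16),(25,144),(32,624),(2,384)]),(0,[(13,160),(25,96),(31,64),(4,192)]),(0,[(12,416),(25,128),(32,224),(0,96)]),(0,[(9,928),(13,16),(19,144),(31,160),(32,140),(4,132),(34,24)]),(0,[(9,384),(13,32),(25,32),(4,1568),(2,1312),(33,96)])], .leaf 1 [(0,[(12,96),(31,32),(3,128),(1,800),(0,24)])], .split 0 0 (.leaf 0 [(0,[(0,1)])]) (.leaf 1 [(1240,[(15,244480),(32,153472),(5,150176),(4,303648),(2,379296),(1,22752),(0,103)])]), .leaf 0 [(0,[(14,156),(3,124),(1,712),(0,8)])], .leaf 2 [(0,[(9,832),(13,16),(14,144),(19,112),(31,128),(4,1696),(2,1680),(34,48)])],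 .leaf 4 [(0,[(13,192),(14,128),(22,192),(4,192),(2,384)]),(0,[(14,384),(19,64),(31,320),(4,256),(3,352)]),(0,[(12,384),(0,96)]),(0,[(9,640),(14,64),(19,64),(22,128),(31,64),(4,368),(2,496),(1,112),(34,96)]),(0,[(14,128),(31,192),(4,192),(3,384),(1,128)])], .leaf 0 [(0,[(14,128),(31,128),(4,128),(3,224),(1,480)])], .leaf 1 [(0,[(31,124),(4,124),(3,248),(1,528)])], .split 0 0 (.leaf 0 [(0,[(0,1)])]) (.leaf 1 [(30,[(28,496),(1,336),(0,5)])]), .leaf 1 [(0,[(9,832),(13,16),(14,144),(19,112),(31,128),(4,16),(1,1680),(34,48)])], .leaf 3 [(0,[(9,384),(12,320),(26,64),(32,80),(4,624),(2,448),(33,96)]),(0,[(9,384),(26,64),(4,256),(3,304),(33,96)]),(0,[(12,192),(14,192),(25,64),(4,256),(3,352)]),(0,[(9,1408),(24,64),(4,192),(3,384),(1,928),(33,96)]),(0,[(9,384),(12,384),(24,64),(4,896),(3,304),(2,704),(33,96)])], .leaf 0 [(0,[(13,64),(14,192),(19,64),(31,128)])], .leaf 1 [(0,[(13,92),(14,156),(19,124),(31,124)])],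 .leaf 0 [(0,[(13,62),(14,186),(19,94),(31,124),(4,30),(3,60),(1,812)])]]
noncomputable def t0 : TT := a0
theorem c0 : chkT (fsm (-1) ([4,4,-1,0,0,0,0,0,0,0] : Fm) :: ([0,0,0,-1,1,0,0,0,0,0] : Fm) :: fsm (-1) ([0,0,0,0,0,0,0,-1,1,0] : Fm) :: ([0,0,0,-2,0,0,0,1,0,0] : Fm) :: ([0,0,0,-1,-1,0,0,-1,1,0] : Fm) :: K2O10.C0) t0 = true := by decide +kernel
end K2O10M00101

namespace K2O10M00110
noncomputable def a0 : TT := .leaf ⟨true,8,1,0,9,1,63,[[0,0,0,8],[0,0,0,8],[],[8,8,0,-24,-72,0,0,8,16],[],[],[0,0,0,24],[0,0,0,1],[0,0,0,8],[],[0,0,0,8]]⟩ [.leaf 0 [(0,[])], .leaf 0 [(0,[])], .leaf 0 [(0,[])], .leaf 0 [(0,[(4,1),(2,1)])], .leaf 0 [(0,[])], .leaf 0 [(0,[(4,8),(2,8)])], .leaf 0 [(0,[])], .leaf 0 [(0,[]),(0,[]),(0,[]),(0,[]),(0,[]),(0,[])], .leaf 0 [(0,[(12,1024),(4,8192),(2,6144)])], .leaf 0 [(0,[])], .leaf 0 [(0,[])], .leaf 0 [(0,[])], .leaf 0 [(0,[])], .leaf 0 [(0,[])],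 .leaf 0 [(0,[])], .leaf 0 [(0,[])], .leaf 0 [(0,[])], .leaf 0 [(0,[])], .leaf 0 [(0,[(19,1024),(3,2560),(2,3072)])], .leaf 0 [(0,[(19,1024),(32,2048)])], .leaf 0 [(0,[(19,1024),(31,8192),(4,2048)])], .leaf 0 [(0,[(4,2048),(1,7168)])], .leaf 0 [(0,[(12,1024),(3,1024)])], .leaf 0 [(0,[(9,512),(12,1024),(26,256),(4,8448),(2,6400),(33,128)])], .leaf 0 [(0,[(9,8192),(4,9216),(2,7168)])], .leaf 3 [(0,[(13,2816),(19,512),(22,768),(31,1280),(32,1024)]),(0,[(13,512),(25,512),(4,1024)]),(0,[(12,512),(13,2048),(14,2048),(25,2048),(4,2816),(3,384),(1,5376)]),(0,[(13,2816),(19,512),(22,768),(31,1280),(32,1024),(1,7168)]),(0,[(13,2560),(19,768),(22,512),(31,1536),(32,1280)])], .leaf 0 [(0,[(14,256),(19,1280),(24,256),(4,2304),(3,256),(2,1792),(0,512)])], .leaf 1 [(0,[(14,256),(19,1312),(4,2080),(3,352),(2,1408),(0,512)])], .leaf 0 [(0,[(9,512),(12,992),(4,8448),(2,6464),(33,128)])],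 .leaf 2 [(0,[(9,8192),(4,9216),(2,7168)])], .leaf 4 [(0,[(14,2048),(19,512),(31,2048),(4,512),(3,1152)]),(0,[(12,512),(14,3648),(25,1600),(31,448),(4,1472),(3,2176),(1,3072)]),(0,[(14,1280),(22,512),(31,1536),(3,1280)]),(0,[(9,6656),(14,1664),(19,896),(22,384),(31,1664),(4,512),(2,1152),(34,384)]),(0,[(14,2048),(19,512),(31,2048),(4,512),(3,1152)])], .leaf 0 [(0,[(12,1024),(4,2048),(3,2176),(1,6144)])], .leaf 1 [(0,[(9,512),(12,992),(4,8192),(2,6208),(33,128)])], .leaf 0 [(0,[(13,256),(19,1312),(4,8672),(2,8000),(0,512)])], .leaf 1 [(0,[(9,8192),(4,2048),(1,7168)])], .leaf 3 [(0,[(4,1024),(3,1792)]),(0,[(4,1024),(3,1792)]),(0,[(12,2560),(4,3072),(3,2560),(1,3072)]),(0,[(9,8192)]),(0,[(12,1536),(4,6144),(3,2560),(2,5120)])], .leaf 0 [(0,[(12,1024),(32,512),(4,1280),(1,6656)])], .leaf 1 [(0,[(4,1984),(1,7200)])], .leaf 0 [(0,[(12,736),(4,1984),(3,256)])]]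
noncomputable def t0 : TT := a0
theorem c0 : chkT (([4,4,-1,0,0,0,0,0,0,0] : Fm) :: fsm (-1) ([0,0,0,-1,1,0,0,0,0,0] : Fm) :: fsm (-1) ([0,0,0,0,0,0,0,-1,1,0] : Fm) :: ([0,0,0,-2,0,0,0,1,0,0] : Fm) :: ([0,0,0,-1,-1,0,0,-1,1,0] : Fm) :: K2O10.C0) t0 = true := by decide +kernel
end K2O10M00110

namespace K2O10M00111
noncomputable def a0 : TT := .leaf ⟨false,0,1,0,1,2,7,[[],[0,0,0,0,2],[],[1,0,2,-9,4,-3,0,1,0,1],[],[],[],[],[],[],[]]⟩ [.leaf 0 [(0,[])], .leaf 0 [(0,[])], .leaf 0 [(0,[])], .leaf 0 [(0,[])], .leaf 0 [(0,[])], .leaf 0 [(0,[])], .leaf 0 [(0,[(13,64),(14,192),(19,64),(31,128),(4,704),(3,128),(2,640)])], .leaf 0 [(0,[])], .leaf 0 [(0,[])], .leaf 0 [(0,[])], .leaf 0 [(0,[])], .leaf 0 [(0,[])], .leaf 0 [(0,[])], .leaf 0 [(0,[])], .leaf 0 [(0,[])], .leaf 0 [(0,[])], .leaf 0 [(0,[(9,768),(12,256),(24,128),(4,896),(3,32),(2,1024),(33,192)])], .leaf 0 [(0,[(9,768),(12,128),(26,128),(4,1024),(1,512),(33,192)])],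 .leaf 0 [(0,[(13,128),(22,128),(25,256),(31,512),(32,384),(1,768)])], .leaf 0 [(0,[(13,64),(14,192),(19,64),(31,128)])], .leaf 0 [(0,[(13,64),(14,192),(19,64),(31,128),(4,768),(3,96),(2,736)])], .leaf 0 [(0,[(12,476),(14,132),(23,4),(31,92),(4,96),(3,224),(0,120)])], .leaf 0 [(0,[(9,832),(13,16),(14,144),(19,112),(31,128),(4,1696),(2,1680),(34,48)])], .leaf 0 [(0,[(12,48),(13,224),(22,16),(25,144),(32,240),(1,384)]),(0,[(13,160),(25,96),(31,64),(4,192)]),(0,[(12,416),(25,128),(32,224),(0,96)]),(0,[(9,928),(13,16),(19,144),(31,160),(32,140),(4,132),(34,24)]),(0,[(9,384),(13,32),(25,32),(4,256),(1,1312),(33,96)])], .leaf 1 [(0,[(12,896),(31,32),(3,128),(0,224)])], .split 0 0 (.leaf 0 [(0,[(0,1)])]) (.leaf 1 [(360,[(13,146016),(15,38080),(32,44512),(5,42496),(4,87008),(1,39392),(0,63)])]), .leaf 0 [(0,[(12,384),(14,112),(31,124),(4,124),(3,248),(0,104)])], .leaf 2 [(0,[(9,832),(13,16),(14,144),(19,112),(31,128),(4,1696),(2,1680),(34,48)])],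 .leaf 4 [(0,[(14,128),(31,192),(4,576),(2,384)]),(0,[(14,384),(19,64),(31,320),(4,256),(3,352)]),(0,[(12,384),(0,96)]),(4,[(9,4096),(14,544),(19,96),(22,416),(31,544),(4,1952),(3,896),(2,1920),(34,256)]),(0,[(14,128),(31,192),(4,320),(3,384),(2,128)])], .leaf 0 [(54,[(12,25600),(14,7072),(17,32),(31,7040),(4,7040),(3,12320),(0,6528),(34,256)])], .leaf 1 [(0,[(8,192),(12,384),(31,124),(4,124),(3,248),(0,120),(34,48)])], .split 0 0 (.leaf 0 [(0,[(0,1)])]) (.leaf 1 [(30,[(28,496),(1,336),(0,5)])]), .leaf 1 [(0,[(9,832),(13,16),(14,144),(19,112),(31,128),(4,1696),(2,1680),(34,48)])], .leaf 3 [(0,[(9,384),(12,320),(26,64),(4,256),(3,368),(1,448),(33,96)]),(0,[(9,384),(26,64),(4,256),(3,304),(33,96)]),(0,[(12,192),(14,192),(25,64),(4,256),(3,352)]),(0,[(9,1408),(12,384),(24,64),(4,736),(3,384),(2,544),(33,96)]),(0,[(9,384),(12,384),(24,64),(4,896),(3,304),(2,704),(33,96)])],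 .leaf 0 [(0,[(13,64),(14,192),(19,64),(31,128)])], .leaf 1 [(0,[(13,92),(14,156),(19,124),(31,124)])], .leaf 0 [(0,[(13,62),(14,186),(19,94),(31,124),(4,842),(3,60),(2,812)])]]
noncomputable def t0 : TT := a0
theorem c0 : chkT (fsm (-1) ([4,4,-1,0,0,0,0,0,0,0] : Fm) :: fsm (-1) ([0,0,0,-1,1,0,0,0,0,0] : Fm) :: fsm (-1) ([0,0,0,0,0,0,0,-1,1,0] : Fm) :: ([0,0,0,-2,0,0,0,1,0,0] : Fm) :: ([0,0,0,-1,-1,0,0,-1,1,0] : Fm) :: K2O10.C0) t0 = true := by decide +kernel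
end K2O10M00111

namespace K2O10M00000
theorem top : ∃ t, chkT (([4,4,-1,0,0,0,0,0,0,0] : Fm) :: ([0,0,0,-1,1,0,0,0,0,0] : Fm) :: ([0,0,0,0,0,0,0,-1,1,0] : Fm) :: ([0,0,0,-2,0,0,0,1,0,0] : Fm) :: ([0,0,0,-1,-1,0,0,-1,1,0] : Fm) :: K2O10.C0) t = true := ⟨_, c0⟩
end K2O10M00000
namespace K2O10M00001
theorem top : ∃ t, chkT (fsm (-1) ([4,4,-1,0,0,0,0,0,0,0] : Fm) :: ([0,0,0,-1,1,0,0,0,0,0] : Fm) :: ([0,0,0,0,0,0,0,-1,1,0] : Fm) :: ([0,0,0,-2,0,0,0,1,0,0] : Fm) :: ([0,0,0,-1,-1,0,0,-1,1,0] : Fm) :: K2O10.C0) t = true := ⟨_, c0⟩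
end K2O10M00001
namespace K2O10M00010
theorem top : ∃ t, chkT (([4,4,-1,0,0,0,0,0,0,0] : Fm) :: fsm (-1) ([0,0,0,-1,1,0,0,0,0,0] : Fm) :: ([0,0,0,0,0,0,0,-1,1,0] : Fm) :: ([0,0,0,-2,0,0,0,1,0,0] : Fm) :: ([0,0,0,-1,-1,0,0,-1,1,0] : Fm) :: K2O10.C0) t = true := ⟨_, c0⟩
end K2O10M00010
namespace K2O10M00011
theorem top : ∃ t, chkT (fsm (-1) ([4,4,-1,0,0,0,0,0,0,0] : Fm) :: fsm (-1) ([0,0,0,-1,1,0,0,0,0,0] : Fm) :: ([0,0,0,0,0,0,0,-1,1,0] : Fm) :: ([0,0,0,-2,0,0,0,1,0,0] : Fm) :: ([0,0,0,-1,-1,0,0,-1,1,0] : Fm) :: K2O10.C0) t = true := ⟨_, c0⟩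
end K2O10M00011
namespace K2O10M00100
theorem top : ∃ t, chkT (([4,4,-1,0,0,0,0,0,0,0] : Fm) :: ([0,0,0,-1,1,0,0,0,0,0] : Fm) :: fsm (-1) ([0,0,0,0,0,0,0,-1,1,0] : Fm) :: ([0,0,0,-2,0,0,0,1,0,0] : Fm) :: ([0,0,0,-1,-1,0,0,-1,1,0] : Fm) :: K2O10.C0) t = true := ⟨_, c0⟩
end K2O10M00100
namespace K2O10M00101
theorem top : ∃ t, chkT (fsm (-1) ([4,4,-1,0,0,0,0,0,0,0] : Fm) :: ([0,0,0,-1,1,0,0,0,0,0] : Fm) :: fsm (-1) ([0,0,0,0,0,0,0,-1,1,0] : Fm) :: ([0,0,0,-2,0,0,0,1,0,0] : Fm) :: ([0,0,0,-1,-1,0,0,-1,1,0] : Fm) :: K2O10.C0) t = true := ⟨_, c0⟩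
end K2O10M00101
namespace K2O10M00110
theorem top : ∃ t, chkT (([4,4,-1,0,0,0,0,0,0,0] : Fm) :: fsm (-1) ([0,0,0,-1,1,0,0,0,0,0] : Fm) :: fsm (-1) ([0,0,0,0,0,0,0,-1,1,0] : Fm) :: ([0,0,0,-2,0,0,0,1,0,0] : Fm) :: ([0,0,0,-1,-1,0,0,-1,1,0] : Fm) :: K2O10.C0) t = true := ⟨_, c0⟩
end K2O10M00110
namespace K2O10M00111
theorem top : ∃ t, chkT (fsm (-1) ([4,4,-1,0,0,0,0,0,0,0] : Fm) :: fsm (-1) ([0,0,0,-1,1,0,0,0,0,0] : Fm) :: fsm (-1) ([0,0,0,0,0,0,0,-1,1,0] : Fm) :: ([0,0,0,-2,0,0,0,1,0,0] : Fm) :: ([0,0,0,-1,-1,0,0,-1,1,0] : Fm) :: K2O10.C0) t = true := ⟨_, c0⟩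
end K2O10M00111
def K2O10P00 := (splE (splE (splE K2O10M00000.top K2O10M00001.top) (splE K2O10M00010.top K2O10M00011.top)) (splE (splE K2O10M00100.top K2O10M00101.top) (splE K2O10M00110.top K2O10M00111.top)))

end Vale.Agent.P235
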