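import Vale.Agent.P235.T.K2O10C

namespace Vale.Agent.P235

set_option maxRecDepth 100000

namespace K2O10M01010
noncomputable def a0 : TT := .leaf ⟨false,1,1,0,2,0,7,[[0,0,0,2],[0,0,0,0,2],[],[0,0,0,-3,-1,0,0,4],[],[],[0,0,0,0,7],[],[],[],[]]⟩ [.leaf 0 [(0,[])], .leaf 0 [(0,[])], .leaf 0 [(0,[])], .leaf 0 [(0,[])], .leaf 0 [(0,[])], .leaf 0 [(0,[])], .leaf 0 [(0,[(2,128),(0,512)])], .leaf 0 [(0,[])], .leaf 0 [(0,[])], .leaf 0 [(0,[])], .leaf 0 [(0,[])], .leaf 0 [(0,[])], .leaf 0 [(0,[])], .leaf 0 [(0,[])], .leaf 0 [(0,[(2,896)])], .leaf 0 [(0,[])], .leaf 0 [(0,[(2,128),(0,512)])], .leaf 0 [(0,[(5,640)])], .leaf 0 [(0,[(14,256),(23,256),(32,768),(5,512),(2,128)])], .leaf 0 [(0,[])], .leaf 0 [(0,[(10,64),(27,32),(32,32),(0,240),(34,16)])], .leaf 0 [(0,[(10,64),(27,32),(0,240),(34,16)])], .leaf 1 [(0,[(10,64),(27,32),(32,32),(0,240),(34,16)])], .leaf 1 [(0,[(14,320),(23,64),(32,192),(5,384)]),(0,[(14,256),(32,256),(5,384)]),(0,[(5,256),(4,128)]),(0,[(14,256),(32,256),(5,384)]),(0,[(14,256),(32,256),(33,512),(4,384)])],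 .leaf 1 [(0,[(10,64),(22,32),(0,240),(34,16)])], .split 1 0 (.leaf 1 [(0,[(0,1)])]) (.leaf 0 [(30,[(11,1984),(23,576),(28,416),(33,416),(1,4960),(0,13),(35,496)])]), .leaf 0 [(0,[(10,64),(0,236),(34,16)])], .leaf 2 [(0,[(10,1024)])], .leaf 4 [(0,[(15,256),(32,256),(5,256),(2,64),(0,64)]),(0,[(15,432),(26,176),(32,80),(5,80),(0,384)]),(0,[(15,224),(32,96),(5,96),(2,64)]),(2,[(10,2048),(15,512),(20,256),(23,256),(32,512),(4,256),(2,192),(35,256)]),(0,[(15,256),(20,32),(32,256),(3,32)])], .leaf 0 [(0,[(0,160)])], .leaf 0 [(0,[(10,64),(27,32),(4,48),(2,36),(34,16)])], .leaf 1 [(0,[(4,48),(2,4)])], .leaf 1 [(0,[(10,1024)])], .leaf 3 [(0,[(13,256),(5,256)]),(0,[(5,256)]),(0,[(13,256),(5,256),(2,128),(0,512)]),(0,[(10,1024)]),(0,[(13,96),(5,160),(1,32)])], .leaf 0 [(0,[(10,64),(27,32),(32,32),(34,16)])], .leaf 0 [(0,[(4,48)])], .leaf 0 [(0,[(10,64),(14,16),(20,16),(27,16),(32,16),(0,252),(34,16)])]]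
noncomputable def a1 : TT := .leaf ⟨false,1,0,0,1,2,127,[[-2,16,7,73,-17,-27,0,-44,-1,16],[],[],[2,3,1,-26,-9,-5,0,38,3,3],[],[],[],[],[],[],[]]⟩ [.leaf 0 [(22,[(19,69),(29,214),(31,90),(10,239),(9,751),(2,8)])], .leaf 0 [(0,[])], .leaf 0 [(0,[])], .leaf 0 [(7,[(15,368),(18,29),(27,27),(32,128),(3,35),(39,92)])], .leaf 0 [(0,[])], .leaf 0 [(0,[])], .leaf 0 [(10794,[(18,2776896),(19,583104),(20,125760),(31,139136),(37,3263104),(3,6581760),(1,10560),(0,12992)])], .leaf 0 [(0,[])], .leaf 0 [(0,[])], .leaf 0 [(0,[])], .leaf 0 [(0,[])], .leaf 0 [(22,[(19,61824),(29,191744),(31,80640),(10,214144),(9,672896),(2,7168)])], .leaf 0 [(0,[])], .leaf 0 [(0,[])], .leaf 0 [(22,[(19,61824),(29,191744),(31,80640),(10,214144),(9,672896),(2,7168)])], .leaf 0 [(0,[])], .leaf 0 [(684,[(19,964992),(27,41088),(31,454272),(37,656768),(4,916480),(3,343296),(1,1920)])], .leaf 0 [(0,[(15,6592),(18,224),(32,2432),(10,15828),(6,160),(3,300),(39,1648)])],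 .leaf 0 [(132,[(20,171520),(25,165632),(28,295936),(37,1259648),(10,781696),(2,2944)])], .leaf 0 [(6,[(15,34048),(18,5376),(32,11648),(7,3456),(4,26560),(3,1024),(39,8512)])], .leaf 0 [(68,[(2,4096)])], .leaf 0 [(0,[(38,256),(7,3072),(5,512)])], .leaf 2 [(0,[(1,128)])], .leaf 3 [(17264,[(19,39763968),(20,196608),(37,39763968),(10,96223232),(2,98304),(0,203840)]),(44,[(38,15360),(10,111616),(0,832)]),(292,[(18,45056),(19,1310720),(31,45056),(10,1066496),(7,1391104),(1,10560)]),(0,[(0,64)]),(3706,[(19,52848768),(31,20237056),(7,44783872),(5,155918336),(2,697088),(0,119872)])], .leaf 0 [(4,[(38,992),(5,1984),(1,144)])], .leaf 1 [(70,[(20,8960),(2,4480)])], .leaf 0 [(0,[(10,248),(9,496),(7,3488)])], .leaf 2 [(3314,[(19,23371136),(31,33096960),(37,17917440),(9,106987008),(5,60679680),(1,121696),(0,61024),(40,13578240)])], .leaf 2 [(0,[(20,5600),(25,336),(28,240),(31,1360),(37,2112),(10,1248)]),(0,[(18,1312),(29,416),(33,2336),(5,2848)]),(92,[(25,228800),(32,143968),(37,298528),(1,608)]),(80,[(29,369216),(31,467264),(37,615264),(10,1016064),(9,2784256),(2,22976),(40,331776)]),(0,[(20,3648),(25,672),(37,3424),(10,2080),(5,3008)])],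 .leaf 0 [(0,[(10,256),(7,3072),(5,1024)])], .leaf 0 [(0,[(15,984),(19,56),(27,16),(32,460),(9,804),(7,468),(39,246)])], .leaf 0 [(25,[(15,160688),(18,8939),(27,24181),(32,47224),(7,328),(3,38773),(2,248),(39,40172)])], .leaf 1 [(54,[(19,433792),(31,539648),(37,344704),(38,337920),(9,1559424),(7,86400),(5,814720),(2,4736),(40,225280)])], .leaf 1 [(0,[(15,768),(18,4048),(30,144),(32,144),(10,3664),(39,192)]),(0,[(15,6384),(18,4408),(32,2336),(10,3565),(6,136),(3,371),(39,1596)]),(4,[(33,3256),(10,15654),(9,6452),(1,93)]),(60,[(19,676192),(31,716608),(10,211680),(7,37600),(5,3159584),(2,6976),(40,249856)]),(4,[(15,8576),(18,19344),(30,1296),(32,2064),(10,15824),(6,192),(5,8320),(39,2144)])], .leaf 1 [(68,[(5,30976),(2,4096)])], .leaf 0 [(0,[(15,216),(27,32),(32,76),(9,596),(39,54)])], .leaf 0 [(68,[(31,28064),(10,41664),(5,3448),(2,4184)])]]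
noncomputable def a2 : TT := .leaf ⟨true,31,33,0,64,3,130943,[[0,0,0,50127,75702,0,0,-50127],[0,0,0,-26598,25575,0,0,26598],[],[0,0,0,-26598,25575,0,0,26598],[],[],[0,0,0,-94116,87978,0,0,94116],[0,0,0,1617,2442,0,0,-1617],[0,0,0,-806,775,0,0,806],[],[0,0,0,0,3968]]⟩ [.leaf 0 [(0,[(5,1617)])], .leaf 0 [(383,[(19,40703),(20,4433),(25,4433),(37,36270),(10,16523),(3,65286),(0,806)])], .leaf 0 [(0,[])], .leaf 0 [(8311,[(19,750986),(37,754230),(10,365761),(3,1442769),(1,811),(0,17031)])], .leaf 0 [(0,[(7,123008)])], .leaf 0 [(0,[])], .leaf 0 [(0,[])], .leaf 0 [(0,[]),(0,[]),(0,[]),(0,[]),(0,[]),(0,[])], .leaf 0 [(0,[(19,447733),(20,48763),(25,48763),(37,398970),(10,181753),(3,718146),(0,8866)])], .leaf 0 [(0,[])], .leaf 0 [(0,[(19,3134131),(20,341341),(25,341341),(37,2792790),(10,1272271),(3,5027022),(0,62062)])], .leaf 0 [(0,[])], .leaf 0 [(0,[])], .leaf 0 [(0,[(5,44913792)])], .leaf 0 [(0,[])], .leaf 0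 [(1038,[(19,1394422656),(37,1400446080),(10,679141056),(3,2678917824),(1,1505856),(0,31622976)])], .leaf 0 [(0,[(5,56960640)])], .leaf 0 [(0,[(19,1549845),(20,168795),(25,168795),(37,1381050),(10,629145),(3,2485890),(0,30690)])], .leaf 0 [(1,[(19,929907),(20,101277),(25,101277),(37,828630),(10,377487),(3,1491534),(0,18414)])], .leaf 0 [(0,[(10,16760832),(7,9689856)])], .leaf 0 [(0,[(20,8184000),(31,8184000),(37,8576832),(10,8576832),(7,16237056)])], .leaf 0 [(0,[(7,3142656)])], .leaf 0 [(592,[(19,161672192),(37,162370560),(10,78740992),(5,3703052672),(1,174592),(0,3666432)])], .leaf 0 [(202,[(30,38563008),(10,30870048),(3,23930016),(0,1505856)])], .leaf 0 [(104,[(19,219091136),(25,511750976),(31,368192704),(37,219091136),(10,186344224),(3,330142560),(0,13050752),(40,439971840)])], .leaf 0 [(0,[(19,4190208),(20,2618880),(31,2618880),(37,1571328),(10,4861296),(7,9722592),(3,900240)]),(0,[(19,4190208),(20,1735008),(31,1735008),(37,2455200),(10,2880768)]),(0,[(19,523776),(29,3666432),(10,6792720),(7,6448992),(3,1063920)]),(60,[(19,106835982),(25,267238290),(31,243967086),(37,106835982),(3,226365348),(0,2115564),(40,255602688)]),(144,[(37,544727040),(38,1143926784),(5,4598196768),(1,4190208)])],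 .leaf 0 [(1778,[(19,116103680),(30,376594944),(10,680035840),(5,10535448704),(1,15625984),(0,17546496)])], .leaf 0 [(0,[(29,383625),(10,388399),(0,8525)])], .leaf 0 [(888,[(20,32071050),(25,32071050),(28,171166314),(37,91233186),(10,119537550),(3,129986472),(0,5831100)])], .leaf 2 [(148,[(15,169703424),(25,645292032),(31,518538240),(10,69138432),(5,7737219072),(0,11523072),(40,581915136)])], .leaf 2 [(0,[(20,5827008),(31,1636800),(37,2553408),(10,2553408),(7,4910400)]),(0,[(20,523776),(33,3666432),(5,3666432)]),(0,[(20,4402992),(25,212784),(28,212784),(37,3977424),(10,3551856),(7,15025824)]),(876,[(15,1558757376),(20,482397696),(25,3377831424),(28,1801789440),(37,3263648256),(5,49472083584),(0,30902784),(40,3285123072)]),(0,[(20,4648512),(31,458304),(37,3731904),(3,3208128)])], .leaf 0 [(202,[(29,67763520),(10,137196576),(3,23930016),(0,1505856)])], .leaf 0 [(0,[(15,1047552),(32,523776),(9,937068),(7,425568),(39,261888)])],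 .leaf 0 [(64,[(15,76471296),(30,2095104),(32,6285312),(7,262919184),(4,220611996),(2,1047552),(39,19117824)])], .leaf 1 [(148,[(15,169703424),(25,645292032),(31,518538240),(10,69138432),(5,4186279680),(0,11523072),(40,581915136)])], .leaf 1 [(0,[(18,4190208),(38,49104),(10,4141104),(7,2455200)]),(0,[(18,4190208),(10,4190208),(7,8871456)]),(0,[(10,3666432),(5,4517568)]),(16,[(15,209510400),(37,23569920),(10,127277568),(6,8380416),(5,260251200),(0,523776),(40,18855936)]),(0,[(18,1833216),(30,261888),(32,261888),(10,1653168),(6,523776),(3,2275152)])], .leaf 0 [(0,[(15,1047552),(19,261888),(27,261888),(32,261888),(37,261888),(7,4190208),(4,3011712),(39,261888)])], .leaf 0 [(0,[(9,323268)])], .leaf 0 [(592,[(19,323344384),(25,310599168),(37,324741120),(10,468081152),(5,3846347692),(1,349184),(0,7332864)])]]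
noncomputable def a3 : TT := .leaf ⟨true,8,0,1,9,1,31,[[0,0,0,32,0,0,0,-24],[],[0,0,0,0,0,0,0,3],[0,0,0,0,0,0,0,3],[],[0,0,0,0,0,0,0,9],[],[0,0,0,4,0,0,0,-3],[],[0,0,0,0,0,0,0,3],[0,0,0,4]]⟩ [.leaf 0 [(0,[(8,1),(4,2)])], .leaf 0 [(0,[])], .leaf 0 [(0,[])], .leaf 0 [(0,[])], .leaf 0 [(0,[])], .leaf 0 [(0,[])], .leaf 0 [(58,[(17,22),(18,16),(28,38),(30,22),(9,46),(6,20),(0,4)])], .leaf 0 [(0,[]),(0,[]),(0,[]),(0,[]),(0,[]),(0,[])], .leaf 0 [(0,[])], .leaf 0 [(0,[])], .leaf 0 [(0,[])], .leaf 0 [(0,[])], .leaf 0 [(0,[])], .leaf 0 [(0,[(4,22656)])], .leaf 0 [(0,[])], .leaf 0 [(0,[])], .leaf 0 [(0,[(8,7168),(4,14336)])], .leaf 0 [(0,[])], .leaf 0 [(0,[])], .leaf 0 [(0,[(9,4096)])], .leaf 0 [(0,[(36,4096),(9,4096)])], .leaf 0 [(0,[])], .leaf 0 [(0,[(14,256),(31,128),(36,128),(4,2432),(38,64)])], .leaf 0 [(0,[(14,256),(31,128),(6,128),(4,3200),(38,64)])], .leaf 0 [(0,[(14,4096)])], .leaf 0 [(0,[(18,1024),(36,1024),(9,1792),(2,256)]),(0,[(18,1024),(36,1024),(9,1632),(2,288)]),(0,[(17,896),(18,128),(30,896),(9,736),(2,288)]),(0,[(24,1024),(30,1024),(39,1024)]),(0,[(18,1024),(36,1024),(9,2048),(8,10848),(4,10048)])],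 .leaf 0 [(328,[(14,92416),(29,7680),(31,44672),(5,1024),(4,784768),(1,1280),(38,23104)])], .leaf 0 [(6,[(14,2496),(36,672),(0,112),(38,624)])], .leaf 0 [(0,[(14,256),(6,256),(4,3000),(38,64)])], .leaf 2 [(0,[(14,4096),(4,21248)])], .leaf 2 [(0,[(19,1904),(30,880),(36,144),(9,144)]),(0,[(32,896),(4,1824)]),(0,[(19,2048),(30,1024)]),(2,[(14,8192),(19,2048),(24,1024),(27,1024),(36,2048),(8,25376),(4,38336),(39,1024)]),(0,[(19,1712),(30,688),(36,336),(9,336)])], .leaf 0 [(0,[(4,3200)])], .leaf 0 [(0,[(14,256),(31,128),(8,248),(6,128),(38,64)])], .leaf 0 [(64,[(14,18688),(29,512),(31,1536),(6,6272),(3,60608),(1,256),(38,4672)])], .leaf 1 [(0,[(14,4096),(4,23936)])], .leaf 3 [(0,[(17,1024),(9,1024)]),(0,[(9,1024),(4,2176)]),(0,[(17,1024),(9,1024)]),(0,[(14,4096),(37,1024),(6,1024),(4,23680)]),(0,[(17,1024),(9,1024)])], .leaf 0 [(0,[(14,256),(18,64),(26,64),(31,64),(36,64),(6,256),(3,832),(38,64)])], .leaf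 0 [(0,[(8,56)])], .leaf 0 [(0,[(14,256),(24,128),(31,128),(36,128),(8,968),(4,1712),(38,64)])]]
noncomputable def a4 : TT := .leaf ⟨true,8,0,1,9,1,31,[[0,0,0,32,0,0,0,-24],[],[0,0,0,0,0,0,0,3],[0,0,0,0,0,0,0,3],[],[0,0,0,0,0,0,0,9],[],[0,0,0,4,0,0,0,-3],[],[0,0,0,0,0,0,0,3],[0,0,0,4]]⟩ [.leaf 0 [(0,[(3,3)])], .leaf 0 [(0,[])], .leaf 0 [(0,[])], .leaf 0 [(0,[])], .leaf 0 [(0,[])], .leaf 0 [(0,[])], .leaf 0 [(2,[(25,6),(29,8),(5,12),(3,28),(0,1)])], .leaf 0 [(0,[]),(0,[]),(0,[]),(0,[]),(0,[]),(0,[])], .leaf 0 [(0,[])], .leaf 0 [(0,[])], .leaf 0 [(0,[])], .leaf 0 [(0,[])], .leaf 0 [(0,[])], .leaf 0 [(0,[(7,6016),(3,16640)])], .leaf 0 [(0,[])], .leaf 0 [(0,[])], .leaf 0 [(0,[(3,21504)])], .leaf 0 [(0,[])], .leaf 0 [(0,[])], .leaf 0 [(0,[(8,4096)])], .leaf 0 [(0,[(18,3584),(29,3584),(35,512),(8,512)])], .leaf 0 [(0,[])], .leaf 0 [(0,[(13,256),(17,64),(25,64),(30,64),(35,64),(3,2432),(37,64)])], .leaf 0 [(0,[(13,256),(30,128),(5,128),(3,3200),(37,64)])],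 .leaf 0 [(0,[(13,4096)])], .leaf 0 [(0,[(17,1024),(35,1024),(8,1792),(1,256)]),(0,[(17,1024),(35,1024),(8,1632),(1,288)]),(0,[(17,128),(27,896),(8,1632),(1,288)]),(0,[(23,1024),(29,1024),(38,1024)]),(0,[(17,1024),(35,1024),(8,2048),(7,10848),(3,10048)])], .leaf 1 [(0,[(13,256),(25,128),(7,192),(5,256),(3,3008),(37,64)])], .leaf 0 [(4,[(13,1280),(25,488),(27,336),(35,272),(3,1072),(0,76),(37,320)])], .leaf 0 [(0,[(13,256),(7,264),(5,256),(3,2736),(37,64)])], .leaf 2 [(0,[(13,4096),(7,7424),(3,13824)])], .leaf 2 [(0,[(18,1024),(35,1024),(8,1024)]),(0,[(31,896),(7,224),(3,1600)]),(0,[(18,2048),(29,1024)]),(2,[(13,8192),(18,2048),(23,1024),(26,1024),(35,2048),(7,25376),(3,38336),(38,1024)]),(0,[(18,1024),(35,1024),(8,1024)])], .leaf 0 [(0,[(3,3200)])], .leaf 0 [(0,[(13,256),(30,128),(7,248),(5,128),(37,64)])], .leaf 1 [(0,[(7,32)])], .leaf 1 [(0,[(13,4096),(3,23936)])], .leaf 3 [(0,[(16,1024),(8,1024)]),(0,[(36,448),(8,576),(3,2176)]),(0,[(16,1024),(8,1024)]),(0,[(13,4096),(8,1024),(5,1024),(3,23680)]),(0,[(16,1024),(8,1024)])],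 .leaf 0 [(0,[(13,256),(17,64),(25,64),(30,64),(35,64),(5,256),(2,832),(37,64)])], .leaf 0 [(0,[(7,56)])], .leaf 0 [(0,[(13,256),(17,64),(23,64),(30,64),(35,64),(3,2552),(37,64)])]]
noncomputable def a5 : TT := .leaf ⟨false,1,0,0,1,1,255,[[16,24,8,240,-16,-14,0,-192,15,1],[],[],[16,12,1,-32,-16,0,0,32,11,-2],[],[],[],[],[],[],[]]⟩ [.leaf 0 [(1343,[(19,14574),(37,840),(38,49537),(9,64836),(6,4344),(3,28951),(0,18)])], .leaf 0 [(0,[])], .leaf 0 [(0,[])], .leaf 0 [(0,[(15,4),(25,1),(32,1),(4,15),(3,2),(2,2),(1,7),(39,1)])], .leaf 0 [(0,[])], .leaf 0 [(0,[])], .leaf 0 [(0,[(18,1024),(32,256),(10,1408),(6,128),(4,1664)])], .leaf 0 [(0,[])], .leaf 0 [(0,[])], .leaf 0 [(0,[])], .leaf 0 [(0,[])], .leaf 0 [(2,[(19,29148),(37,1680),(38,99074),(9,129672),(6,8688),(3,57902),(0,36)])], .leaf 0 [(0,[])], .leaf 0 [(0,[])], .leaf 0 [(2,[(19,29148),(37,1680),(38,99074),(9,129672),(6,8688),(3,57902),(0,36)])], .leaf 0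 [(0,[])], .leaf 0 [(26,[(0,256)])], .leaf 0 [(0,[(15,2048),(25,3456),(28,128),(10,25856),(4,4352),(2,3840),(39,512)])], .leaf 0 [(0,[(25,3776),(28,832),(31,320),(37,30976),(10,23040),(4,3584),(2,3840)])], .leaf 0 [(0,[(15,3456),(27,384),(32,384),(4,8224),(2,1856),(1,64),(39,864)])], .leaf 0 [(242,[(20,387072),(30,38272),(10,710736),(9,3306144),(6,152832),(3,195024),(0,256)])], .leaf 0 [(0,[(18,768),(32,1152),(10,3328),(5,18304)])], .leaf 1 [(10,[(14,1280),(18,41984),(19,6976),(32,3200),(10,110112),(7,19712),(3,86240),(2,308992),(0,64),(40,320)])], .leaf 4 [(128,[(14,188288),(19,438560),(31,198208),(10,535200),(2,87552),(0,13344),(40,47072)]),(4,[(19,28702),(38,37274),(5,45246),(0,522)]),(188,[(25,20224),(31,82688),(10,668928),(0,23680)]),(5042,[(15,11515392),(32,1390912),(10,4973152),(7,570880),(6,1788288),(3,7395168),(0,1536640),(39,2878848)]),(10,[(19,54320),(26,62976),(30,3712),(38,67216),(6,29232),(5,1873200),(0,3728)])],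 .leaf 0 [(188,[(30,180992),(32,115584),(8,383232),(6,160512),(5,3772032),(0,2816)])], .leaf 1 [(32,[(15,81684),(32,23636),(10,90338),(9,223073),(5,406825),(0,698),(39,20421)])], .leaf 0 [(0,[(18,1892),(30,124),(38,5890),(6,32),(3,2790)])], .leaf 2 [(728,[(15,9372672),(28,86784),(38,33473984),(6,1595520),(3,21725504),(0,16896),(40,3628800)])], .leaf 2 [(0,[(20,12352),(25,1440),(31,4256),(37,4032),(10,1536),(2,960)]),(2,[(33,22464),(38,8144),(3,5552)]),(0,[(20,7392),(25,3904),(28,320),(37,7200),(4,3872),(2,3616)]),(22,[(37,196672),(10,690116),(9,2876680),(6,22624),(3,180644),(0,704),(40,188416)]),(0,[(20,7840),(25,3232),(37,8544),(10,2848),(7,1472),(2,640)])], .leaf 0 [(0,[(19,896),(30,128),(10,3200),(5,18304)])], .leaf 0 [(0,[(15,1968),(30,28),(32,984),(9,1820),(7,996),(3,12),(39,492)])], .leaf 0 [(676,[(15,3958256),(27,589992),(32,467820),(6,30984),(4,8290148),(2,1501432),(0,7520),(39,989564)])], .leaf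 1 [(2102,[(15,26903040),(31,260352),(38,96820160),(6,4649856),(3,62669888),(0,48384),(40,10502016)])], .leaf 1 [(0,[(18,6656),(28,96),(10,7040),(2,1152)]),(0,[(15,2240),(10,5216),(4,9968),(2,8704),(39,560)]),(32,[(20,26680),(37,6752),(10,268680),(9,381528),(0,136)]),(700,[(15,6717824),(31,567488),(38,15535648),(9,33082400),(6,2178592),(5,87510912),(0,10176),(40,4063136)]),(0,[(18,5056),(31,448),(10,5728),(7,1568),(2,448)])], .leaf 0 [(0,[(15,1984),(27,704),(32,384),(4,7376),(2,2848),(1,416),(39,496)])], .leaf 0 [(4,[(15,1536),(19,254),(25,206),(32,334),(37,234),(3,492),(39,384)])], .leaf 0 [(32,[(19,23940),(30,9316),(38,96528),(5,620640),(0,196)])]]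
noncomputable def a6 : TT := .leaf ⟨false,1,0,0,1,1,31,[[2,3,1,30,-2,-1,0,-24,2],[],[],[2,2,0,-4,-2,0,0,4,1],[],[],[],[],[],[],[]]⟩ [.leaf 0 [(2,[(20,3),(39,17),(4,11)])], .leaf 0 [(0,[])], .leaf 0 [(0,[])], .leaf 0 [(0,[(2,1)])], .leaf 0 [(0,[])], .leaf 0 [(0,[])], .leaf 0 [(0,[(19,256),(11,128),(5,128)])], .leaf 0 [(0,[])], .leaf 0 [(0,[])], .leaf 0 [(0,[])], .leaf 0 [(0,[])], .leaf 0 [(2,[(20,2688),(39,15232),(4,9856)])], .leaf 0 [(0,[])], .leaf 0 [(0,[])], .leaf 0 [(2,[(20,2688),(39,15232),(4,9856)])], .leaf 0 [(0,[])], .leaf 0 [(0,[(20,128)])], .leaf 0 [(0,[(16,256),(26,512),(11,3200),(5,576),(3,512),(40,64)])], .leaf 0 [(0,[(21,1856),(26,512),(29,128),(32,1856),(38,2112),(11,1088),(5,384),(3,512)])], .leaf 0 [(0,[(16,192),(28,64),(5,656),(3,160),(2,32),(40,48)])], .leaf 0 [(0,[(21,128),(6,2560)])], .leaf 0 [(0,[(19,128),(33,128),(11,768),(4,384)])], .leaf 1 [(0,[(19,512),(20,128),(11,1216),(8,256),(4,960),(3,3456)])],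 .leaf 4 [(98,[(15,90112),(32,61440),(38,4096),(11,57344),(3,16384),(0,2240),(41,22528)]),(2,[(20,2304),(11,2816),(6,2304),(0,64)]),(736,[(22,16192),(32,365504),(38,124992),(11,408448),(0,16512),(41,129536)]),(0,[(0,64)]),(0,[(21,896),(39,1792),(6,19712),(0,64)])], .leaf 0 [(144,[(21,8704),(31,22656),(39,29696),(7,16640),(6,346624),(0,256)])], .leaf 1 [(110,[(31,4032),(11,75040),(7,8256),(4,41056),(0,252)])], .leaf 0 [(0,[(19,252),(11,372),(7,4),(6,2108)])], .leaf 2 [(2,[(16,6144),(39,17536),(4,11008),(41,1536)])], .leaf 2 [(0,[(21,1072),(26,240),(29,48),(38,976),(11,592),(3,192)]),(0,[(11,160),(6,2272)]),(0,[(21,992),(26,480),(29,96),(38,928),(5,416),(3,480)]),(2,[(38,3072),(11,19472),(4,10544),(41,3072)]),(0,[(21,1028),(26,452),(29,4),(38,1020),(11,340),(8,216),(3,16)])], .leaf 0 [(0,[(20,128),(11,768),(4,384)])], .leaf 0 [(2,[(16,336),(20,195),(31,104),(33,84),(8,337),(1,7),(40,84)])], .leaf 0 [(3666,[(16,2649088),(20,5376),(28,658688),(33,192896),(5,5657472),(3,938368),(2,3968),(0,11788),(40,662272)])],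 .leaf 1 [(0,[(16,2048),(39,2176),(6,22016),(41,512)])], .leaf 1 [(0,[(19,832),(11,928),(3,96)]),(0,[(16,256),(19,576),(11,672),(5,608),(3,480),(40,64)]),(2,[(21,384),(9,3856),(4,688)]),(0,[(16,2048),(39,2976),(6,21088),(41,512)]),(0,[(19,576),(11,800),(8,224)])], .leaf 0 [(0,[(16,128),(28,128),(5,736),(3,320),(2,64),(40,32)])], .leaf 0 [(98,[(16,4224),(21,128),(33,448),(38,256),(4,1088),(0,12),(40,1056)])], .leaf 0 [(0,[(21,132),(11,477),(10,1750),(4,89)])]]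
noncomputable def a7 : TT := .leaf ⟨true,8,0,1,9,1,31,[[0,0,0,32,0,0,0,-24],[],[0,0,0,0,0,0,0,3],[0,0,0,0,0,0,0,3],[],[0,0,0,0,0,0,0,9],[],[0,0,0,4,0,0,0,-3],[],[0,0,0,0,0,0,0,3],[0,0,0,4]]⟩ [.leaf 0 [(1,[(11,1),(4,1)])], .leaf 0 [(0,[])], .leaf 0 [(0,[])], .leaf 0 [(0,[])], .leaf 0 [(0,[])], .leaf 0 [(0,[])], .leaf 0 [(34,[(30,88),(32,32),(38,8),(11,200),(5,148),(3,32),(0,8)])], .leaf 0 [(0,[]),(0,[]),(0,[]),(0,[]),(0,[]),(0,[])], .leaf 0 [(0,[])], .leaf 0 [(0,[])], .leaf 0 [(0,[])], .leaf 0 [(0,[])], .leaf 0 [(0,[])], .leaf 0 [(0,[(11,3776),(4,3776)])], .leaf 0 [(0,[])], .leaf 0 [(0,[])], .leaf 0 [(0,[(11,3584),(4,3584)])], .leaf 0 [(0,[])], .leaf 0 [(0,[])], .leaf 0 [(0,[(11,4096)])], .leaf 0 [(0,[(21,3584),(32,3584),(38,512),(11,512)])], .leaf 0 [(0,[])], .leaf 0 [(0,[(6,1664),(4,128)])], .leaf 0 [(30,[(26,512),(31,1920),(11,7904),(10,41920),(8,4352),(4,8672),(0,128)])], .leaf 0 [(0,[(16,4096)])],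 .leaf 0 [(0,[(20,1024),(38,1024),(11,2048),(5,1024)]),(0,[(20,1024),(21,1008),(32,1008),(38,16),(11,912),(5,1152)]),(14,[(20,1024),(24,896),(32,13440),(11,15360),(5,9216),(41,7168)]),(0,[(26,1024),(32,1024),(41,1024)]),(2,[(20,3072),(38,3072),(39,13216),(10,20256),(4,7072)])], .leaf 1 [(0,[(10,768),(8,256),(6,1664),(4,128)])], .leaf 0 [(38,[(32,2176),(38,6528),(11,8608),(5,10528),(0,544)])], .leaf 0 [(0,[(16,256),(8,256),(6,3000),(40,64)])], .leaf 2 [(0,[(16,4096),(6,21248)])], .leaf 2 [(0,[(21,1904),(32,880),(38,144),(11,144)]),(2,[(39,352),(11,1008),(4,1360)]),(0,[(21,2048),(32,1024)]),(0,[(16,2048),(26,1024),(38,1024),(10,8288),(6,13632),(41,512)]),(0,[(21,1712),(32,688),(38,336),(11,336)])], .leaf 0 [(2,[(11,1600),(4,1600)])], .leaf 0 [(84,[(16,6384),(31,4712),(33,2200),(8,11624),(4,1488),(0,248),(40,1596)])], .leaf 1 [(0,[(6,32)])], .leaf 1 [(0,[(16,4096),(6,23936)])], .leaf 3 [(0,[(19,1024),(11,1024)]),(6,[(27,6272),(10,1408),(9,3200),(4,2304)]),(0,[(19,1024),(11,1024)]),(2,[(16,12288),(39,14912),(8,3072),(4,11840)]),(0,[(19,1024),(11,1024)])],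 .leaf 0 [(0,[(16,256),(20,64),(28,64),(33,64),(38,64),(5,576),(3,256),(40,64)])], .leaf 0 [(0,[(6,56)])], .leaf 0 [(0,[(26,128),(11,46),(10,1636),(4,174)])]]
noncomputable def a8 : TT := .leaf ⟨false,1,0,0,1,1,63,[[-2,0,-1,64,0,0,0,-16,-2,1],[],[],[0,0,0,-4,0,-1,0,7,1,1],[],[],[],[],[],[],[]]⟩ [.leaf 0 [(1,[(14,4),(18,2),(30,2),(8,14),(6,4),(2,4),(38,1)])], .leaf 0 [(0,[])], .leaf 0 [(0,[])], .leaf 0 [(0,[(31,1)])], .leaf 0 [(0,[])], .leaf 0 [(0,[])], .leaf 0 [(0,[(19,128),(30,128),(9,128),(3,256)])], .leaf 0 [(0,[])], .leaf 0 [(0,[])], .leaf 0 [(0,[])], .leaf 0 [(0,[])], .leaf 0 [(0,[(14,1792),(18,896),(30,896),(8,6272),(6,1792),(2,1792),(38,448)])], .leaf 0 [(0,[])], .leaf 0 [(0,[])], .leaf 0 [(0,[(14,1792),(18,896),(30,896),(8,6272),(6,1792),(2,1792),(38,448)])], .leaf 0 [(0,[])], .leaf 0 [(0,[(14,1280),(18,384),(26,256),(31,128),(36,128),(3,1728),(1,384),(38,320)])], .leaf 0 [(0,[(14,256),(31,256),(37,96),(9,8224),(38,64)])],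 .leaf 0 [(0,[(17,64),(18,256),(19,192),(27,320),(36,7616),(9,7424)])], .leaf 0 [(0,[(19,128),(9,384)])], .leaf 0 [(0,[(14,256),(18,128),(30,128),(36,128),(2,256),(38,64)])], .leaf 0 [(0,[(14,512),(18,128),(6,256),(4,512),(2,128),(38,128)])], .leaf 1 [(0,[(18,64),(24,64),(30,192),(36,64),(9,1152),(6,1152),(2,1536),(1,7424)])], .leaf 1 [(0,[(13,4224),(18,944),(24,1008),(30,912),(36,944),(9,2080),(3,512),(39,1056)]),(0,[(18,1472),(19,672),(24,480),(36,1856),(9,3264),(3,1824)]),(0,[(18,144),(22,112),(28,112),(30,1488),(9,2256),(3,816),(39,896)]),(10,[(13,6336),(18,13120),(24,15648),(36,20416),(9,10944),(3,33072),(1,113760),(0,7296),(39,1584)]),(0,[(18,2512),(24,464),(30,1392),(36,1360),(9,864),(8,17408),(6,2080)])], .leaf 0 [(0,[(18,256),(24,2496),(31,64),(36,64),(5,512),(3,5632),(2,2688),(0,64)])], .leaf 0 [(0,[(14,10272),(31,1720),(36,1712),(3,24612),(2,1964),(0,1712),(38,2568)])], .leaf 0 [(4,[(14,3800),(6,4296),(2,1116),(38,950)])],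 .leaf 2 [(0,[(14,12288),(18,1024),(36,1152),(8,11904),(6,2944),(2,768),(38,1024)])], .leaf 4 [(0,[(18,16),(19,2000),(24,16),(36,2016),(9,1872),(6,32),(1,96)]),(0,[(18,16),(19,3696),(24,16),(30,1696),(36,448),(9,432),(3,224)]),(4,[(36,576),(2,1344),(1,1920)]),(0,[(14,6080),(24,1056),(30,64),(36,2976),(8,15136),(6,2176),(2,256),(39,528)]),(10,[(18,432),(19,19888),(24,1776),(36,23584),(9,16688),(3,4768),(1,5568),(0,448)])], .leaf 0 [(0,[(14,256),(28,128),(30,128),(8,1536),(6,128),(38,64)])], .leaf 0 [(0,[(14,520),(29,4),(31,252),(6,276),(4,264),(2,16),(38,130)])], .leaf 1 [(2,[(14,20),(29,2),(31,22),(37,10),(8,672),(5,2),(38,5)])], .leaf 1 [(2,[(14,23808),(24,3072),(30,3456),(9,1600),(6,8448),(2,10432),(39,192)])], .leaf 3 [(0,[(14,128),(17,2048),(29,32),(9,1888),(3,128),(1,224),(38,32)]),(0,[(27,96),(9,960),(5,64)]),(0,[(17,2032),(18,16),(30,48),(36,48),(9,2096),(3,224)]),(0,[(14,8576),(30,864),(36,128),(8,16160),(6,4416),(38,96)]),(0,[(14,576),(17,1664),(30,96),(9,1216),(3,2240),(1,1056),(0,224),(38,144)])],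 .leaf 0 [(0,[(19,128),(9,128),(3,512),(1,128)])], .leaf 0 [(0,[(14,8),(29,4),(31,4),(8,224),(38,2)])], .leaf 0 [(0,[(14,808),(18,268),(24,120),(31,4),(36,260),(8,1368),(38,202)])]]
noncomputable def a9 : TT := .leaf ⟨true,8,1,0,9,2,511,[[0,0,0,512,0,0,0,-344],[0,0,0,0,0,0,0,40],[],[0,0,0,0,0,0,0,84],[],[],[0,0,0,0,0,0,0,236],[0,0,0,64,0,0,0,-43],[0,0,0,0,0,0,0,40],[],[0,0,0,64]]⟩ [.leaf 0 [(5,[(36,43),(1,43)])], .leaf 0 [(0,[])], .leaf 0 [(0,[])], .leaf 0 [(0,[])], .leaf 0 [(0,[])], .leaf 0 [(0,[(2,64),(0,128)])], .leaf 0 [(0,[])], .leaf 0 [(0,[]),(0,[]),(0,[]),(0,[]),(0,[]),(0,[])], .leaf 0 [(0,[])], .leaf 0 [(0,[])], .leaf 0 [(0,[])], .leaf 0 [(0,[])], .leaf 0 [(0,[])], .leaf 0 [(2,[(36,154112),(1,154112)])], .leaf 0 [(0,[])], .leaf 0 [(0,[])], .leaf 0 [(2,[(36,169216),(1,169216)])], .leaf 0 [(0,[])], .leaf 0 [(0,[])], .leaf 0 [(0,[(8,65536)])], .leaf 0 [(0,[(18,46848),(29,46848),(35,18688),(8,18688)])],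 .leaf 0 [(0,[])], .leaf 0 [(0,[(3,28160),(1,2048)])], .leaf 0 [(2,[(13,12288),(28,6144),(8,8960),(5,12288),(1,15104),(37,3072)])], .leaf 0 [(0,[(13,65536)])], .leaf 0 [(0,[(17,16384),(35,16384),(8,32768),(2,16384)]),(2,[(17,21760),(19,3424),(23,23968),(29,27392),(35,21760),(8,40800),(2,24480),(38,27392)]),(0,[(17,2048),(27,14336),(8,30720),(2,18432)]),(0,[(23,16384),(29,16384),(38,16384)]),(0,[(17,16384),(35,16384),(36,32768),(3,305280)])], .leaf 0 [(0,[(17,2048),(23,18432),(30,2048),(4,4096),(2,26624),(1,18432),(0,19968)])], .leaf 0 [(0,[(13,4096),(25,2048),(2,9216),(0,19600),(37,1024)])], .leaf 0 [(2,[(13,12288),(8,13480),(5,12288),(1,13480),(37,3072)])], .leaf 2 [(2,[(13,196608),(36,169216),(1,169216)])], .leaf 4 [(0,[(18,23296),(29,6912),(35,9472),(8,9472)]),(0,[(18,16384),(35,16384),(8,16384)]),(2,[(8,23296),(1,23296)]),(0,[(23,16384),(26,16384),(3,207360),(1,32768),(38,16384)]),(0,[(18,19200),(29,2816),(35,13568),(8,13568)])],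 .leaf 0 [(2,[(36,15104),(1,15104)])], .leaf 0 [(0,[(13,4096),(30,2048),(7,3920),(5,2048),(37,1024)])], .leaf 1 [(2,[(8,584),(1,584)])], .leaf 1 [(0,[(13,65536),(3,302592)])], .leaf 1 [(0,[(16,16384),(8,16384)]),(0,[(16,16384),(8,16384)]),(0,[(3,32768),(0,8064)]),(4,[(13,294912),(8,167264),(7,931136),(5,65536),(4,16384),(1,85344),(38,8192)]),(0,[(16,16384),(8,16384)])], .leaf 0 [(0,[(13,4096),(17,1024),(25,1024),(30,1024),(35,1024),(5,4096),(2,13312),(37,1024)])], .leaf 0 [(0,[(7,848)])], .leaf 0 [(4,[(23,10240),(7,116080),(1,19104)])]]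
noncomputable def a10 : TT := .leaf ⟨false,1,0,0,1,3,63,[[-20,-12,-8,64,0,0,0,-35,12,8],[],[],[-10,-11,1,0,0,0,0,19,11,-1],[],[],[],[],[],[],[]]⟩ [.leaf 0 [(68,[(31,300),(38,72),(9,671),(4,698),(1,36)])], .leaf 0 [(0,[])], .leaf 0 [(0,[])], .leaf 0 [(0,[(27,12),(32,8)])], .leaf 0 [(0,[])], .leaf 0 [(0,[])], .leaf 0 [(0,[(25,1408),(32,128)])], .leaf 0 [(0,[])], .leaf 0 [(0,[])], .leaf 0 [(0,[])], .leaf 0 [(0,[])], .leaf 0 [(68,[(31,268800),(38,64512),(9,601216),(4,625408),(1,32256)])], .leaf 0 [(0,[])], .leaf 0 [(0,[])], .leaf 0 [(68,[(31,268800),(38,64512),(9,601216),(4,625408),(1,32256)])], .leaf 0 [(0,[])], .leaf 0 [(0,[(25,128),(31,1152)])], .leaf 0 [(0,[(18,2944),(32,896),(10,5248)])], .leaf 0 [(0,[(18,2944),(20,896),(37,7296),(10,4352)])], .leaf 0 [(0,[(27,128),(32,1152)])], .leaf 0 [(0,[(1,128)])], .leaf 0 [(32,[(15,196608),(25,4352),(31,20224),(10,90112),(1,128),(39,49152)])], .leaf 1 [(0,[(1,128)])],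 .leaf 4 [(10,[(14,32768),(18,3584),(19,8192),(31,4608),(10,4608),(0,192),(40,8192)]),(16,[(19,31744),(37,31744),(2,1280),(1,1088)]),(166,[(21,16384),(37,204800),(10,131072),(0,2496),(40,131072)]),(0,[(0,64)]),(172148,[(31,715061760),(37,7225344),(9,1594112128),(4,1627811584),(2,7225344),(1,77930496),(0,9953088)])], .leaf 0 [(648,[(15,520704),(25,784576),(31,39872),(5,1403008),(3,96768),(1,48384),(0,1472),(39,130176)])], .leaf 1 [(2,[(15,10168),(25,6076),(37,2604),(4,6014),(3,3248),(39,2542)])], .leaf 0 [(54,[(15,109120),(25,12400),(10,48112),(1,4588),(39,27280)])], .leaf 2 [(22,[(15,188416),(31,89600),(10,27392),(5,322176),(4,147584),(1,13696)])], .leaf 2 [(0,[(18,1056),(20,1952),(37,2144),(10,1088)]),(0,[(28,480),(5,3936),(4,160)]),(0,[(18,1120),(20,2976),(27,1472),(37,1120)]),(68,[(15,866720),(31,43952),(37,433360),(4,989992),(1,33696),(39,75368)]),(0,[(28,480),(37,2688),(4,2128),(3,1408)])], .leaf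 0 [(510,[(15,1388032),(25,1080064),(38,292608),(4,932224),(1,6272),(39,347008)])], .leaf 0 [(0,[(15,520),(32,220),(9,436),(7,260),(39,130)])], .leaf 1 [(0,[(27,92),(32,28),(4,156)])], .leaf 1 [(68,[(15,565248),(31,268800),(9,267392),(8,82176),(4,792320),(1,41088)])], .leaf 1 [(0,[(18,3104),(31,96),(10,992)]),(0,[(18,4096),(27,544),(32,928)]),(0,[(28,1008),(10,1264),(9,2368),(6,112),(5,624)]),(22,[(15,188416),(31,126336),(10,112576),(5,691872),(1,9184)]),(32,[(18,24224),(31,24032),(10,69984),(9,84256),(6,8448),(1,640)])], .leaf 1 [(0,[(10,256),(1,128)])], .leaf 0 [(0,[(27,92),(32,28),(4,156)])], .leaf 0 [(0,[(15,512),(19,128),(25,3076),(31,804),(37,128),(9,2816),(4,1664),(39,128)])]]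
noncomputable def a11 : TT := .leaf ⟨true,8,0,1,9,1,511,[[0,0,0,512,0,0,0,-392],[],[0,0,0,0,0,0,0,45],[0,0,0,0,0,0,0,50],[],[0,0,0,0,0,0,0,212],[],[0,0,0,64,0,0,0,-49],[],[0,0,0,0,0,0,0,45],[0,0,0,64]]⟩ [.leaf 0 [(0,[(5,49)])], .leaf 0 [(0,[])], .leaf 0 [(0,[])], .leaf 0 [(0,[])], .leaf 0 [(0,[])], .leaf 0 [(0,[])], .leaf 0 [(552,[(14,86272),(19,13248),(23,1536),(31,22016),(37,14784),(10,28032),(0,1472),(40,33856)])], .leaf 0 [(0,[]),(0,[]),(0,[]),(0,[]),(0,[]),(0,[])], .leaf 0 [(0,[])], .leaf 0 [(0,[])], .leaf 0 [(0,[])], .leaf 0 [(0,[])], .leaf 0 [(0,[])], .leaf 0 [(0,[(9,179712),(4,99328)])], .leaf 0 [(0,[])], .leaf 0 [(0,[])], .leaf 0 [(0,[(5,351232)])], .leaf 0 [(0,[])], .leaf 0 [(0,[])], .leaf 0 [(0,[(10,65536)])], .leaf 0 [(0,[(37,65536),(10,65536)])], .leaf 0 [(0,[])], .leaf 0 [(0,[(15,4096),(32,2048),(37,2048),(4,20032),(39,1024)])], .leaf 0 [(6,[(18,192),(32,9408),(7,8000),(5,351040),(1,96),(0,224)])],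 .leaf 0 [(0,[(15,65536)])], .leaf 0 [(0,[(14,65536),(25,16384),(31,16384),(40,16384)]),(0,[(21,2048),(25,14336),(31,16384),(40,16384)]),(48,[(14,1751040),(19,116736),(23,60224),(25,751744),(31,808256),(10,116736),(0,7296),(40,919552)]),(0,[(25,16384),(31,16384),(40,16384)]),(2,[(19,49152),(37,49152),(10,98304),(9,673600),(4,176512)])], .leaf 0 [(98,[(15,1167360),(32,583680),(37,393216),(9,1514368),(4,1416448),(2,12288),(39,291840)])], .leaf 0 [(58,[(21,26880),(29,47104),(31,157696),(0,8192),(40,215040)])], .leaf 0 [(0,[(15,4096),(7,4096),(4,24174),(39,1024)])], .leaf 2 [(0,[(15,65536),(5,350976)])], .leaf 2 [(0,[(20,30368),(31,13984),(37,2400),(10,2400)]),(0,[(4,22176)]),(0,[(20,32768),(31,16384)]),(0,[(15,32768),(25,16384),(37,16384),(5,362176),(40,8192)]),(0,[(20,27168),(31,10784),(37,5600),(10,5600)])], .leaf 0 [(2,[(9,75392),(4,39680)])], .leaf 0 [(0,[(30,288),(32,960),(7,2048),(5,2396),(0,32)])],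 .leaf 1 [(0,[(9,500)])], .leaf 1 [(2,[(15,196608),(9,526208),(4,323840)])], .leaf 3 [(0,[(18,16384),(10,16384)]),(0,[(10,16384),(5,36032)]),(0,[(18,16384),(10,16384)]),(0,[(15,65536),(10,16384),(7,16384),(4,193632)]),(0,[(18,16384),(10,16384)])], .leaf 1 [(2,[(9,86912),(4,16640)])], .leaf 0 [(0,[(5,860)])], .leaf 0 [(0,[(15,4096),(19,1024),(25,1024),(32,1024),(37,1024),(4,21006),(39,1024)])]]
noncomputable def a12 : TT := .leaf ⟨true,8,1,0,9,0,63,[[0,0,0,64,0,0,0,-48],[0,0,0,0,0,0,0,6],[],[0,0,0,0,0,0,0,5],[],[],[0,0,0,0,0,0,0,19],[0,0,0,8,0,0,0,-6],[0,0,0,0,0,0,0,6],[],[0,0,0,8]]⟩ [.leaf 0 [(0,[(4,6)])], .leaf 0 [(0,[])], .leaf 0 [(0,[])], .leaf 0 [(0,[])], .leaf 0 [(0,[])], .leaf 0 [(34,[(14,32),(18,8),(24,176),(30,48),(36,8),(3,176),(0,8),(38,8)])], .leaf 0 [(0,[])], .leaf 0 [(0,[]),(0,[]),(0,[]),(0,[]),(0,[]),(0,[])], .leaf 0 [(0,[])], .leaf 0 [(0,[])], .leaf 0 [(0,[])], .leaf 0 [(0,[])], .leaf 0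 [(0,[])], .leaf 0 [(0,[(4,43008)])], .leaf 0 [(0,[])], .leaf 0 [(0,[])], .leaf 0 [(0,[(4,45440)])], .leaf 0 [(0,[])], .leaf 0 [(0,[])], .leaf 0 [(0,[(9,8192)])], .leaf 0 [(0,[(36,8192),(9,8192)])], .leaf 0 [(0,[])], .leaf 0 [(0,[(14,512),(31,256),(36,256),(4,6528),(38,128)])], .leaf 0 [(2,[(14,1536),(31,768),(8,9088),(6,768),(3,2944),(38,384)])], .leaf 0 [(0,[(14,8192)])], .leaf 0 [(0,[(13,8192),(24,2048),(30,2048),(39,2048)]),(30,[(18,55424),(24,34560),(36,71552),(9,116736),(0,1152)]),(0,[(22,256),(24,2048),(30,1792),(39,2048)]),(0,[(24,2048),(30,2048),(39,2048)]),(2,[(18,6144),(36,6144),(9,12288),(8,85408),(3,19648)])], .leaf 0 [(32,[(14,48640),(18,12160),(26,12160),(31,12160),(36,4224),(3,115648),(1,512),(38,12160)])], .leaf 0 [(6,[(14,4344),(24,2198),(30,1330),(3,2766),(0,190),(38,1086)])], .leaf 0 [(0,[(14,512),(8,1988),(6,512),(4,2552),(38,128)])], .leaf 2 [(0,[(14,8192),(3,24000)])], .leaf 4 [(0,[(19,2048),(36,2048),(9,2048)]),(0,[(19,3552),(30,1504),(36,544),(9,544)]),(0,[(32,1792),(36,256),(9,256),(4,4288)]),(0,[(14,4096),(24,2048),(36,2048),(3,25696),(39,1024)]),(0,[(19,2048),(24,256),(36,2048),(4,1216)])],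 .leaf 0 [(0,[(4,4992)])], .leaf 0 [(0,[(14,512),(31,256),(6,256),(3,246),(38,128)])], .leaf 1 [(0,[(4,108)])], .leaf 1 [(2,[(14,24576),(8,72064),(3,27904)])], .leaf 3 [(0,[(17,2048),(9,2048)]),(0,[(7,2048),(4,3328),(3,768)]),(0,[(17,2048),(9,2048)]),(0,[(14,8192),(9,2048),(6,2048),(3,20480)]),(0,[(9,2048),(8,896),(6,2048),(5,256)])], .leaf 1 [(0,[(4,6528)])], .leaf 0 [(0,[(4,60)])], .leaf 0 [(0,[(14,512),(18,128),(24,128),(31,128),(36,128),(3,3382),(38,128)])]]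
noncomputable def a13 : TT := .leaf ⟨true,8,0,1,9,1,511,[[0,0,0,512,0,0,0,-392],[],[0,0,0,0,0,0,0,45],[0,0,0,0,0,0,0,50],[],[0,0,0,0,0,0,0,212],[],[0,0,0,64,0,0,0,-49],[],[0,0,0,0,0,0,0,45],[0,0,0,64]]⟩ [.leaf 0 [(2,[(7,79),(2,34)])], .leaf 0 [(0,[])], .leaf 0 [(0,[])], .leaf 0 [(0,[])], .leaf 0 [(0,[])], .leaf 0 [(0,[])], .leaf 0 [(54,[(13,256),(28,128),(8,3968),(0,128),(37,64)])], .leaf 0 [(0,[]),(0,[]),(0,[]),(0,[]),(0,[]),(0,[])], .leaf 0 [(0,[])], .leaf 0 [(0,[])], .leaf 0 [(0,[])], .leaf 0 [(0,[])], .leaf 0 [(0,[])], .leaf 0 [(0,[(3,378368)])], .leaf 0 [(0,[])], .leaf 0 [(0,[])], .leaf 0 [(2,[(7,566272),(2,243712)])], .leaf 0 [(0,[])], .leaf 0 [(0,[])], .leaf 0 [(0,[(8,65536)])], .leaf 0 [(0,[(18,57536),(29,57536),(35,8000),(8,8000)])], .leaf 0 [(0,[])], .leaf 0 [(2,[(13,12288),(30,6144),(35,6144),(7,76672),(2,21760),(37,3072)])], .leaf 0 [(30,[(13,131072),(30,65536),(8,65536),(7,332160),(3,1203456),(0,2048),(37,32768)])],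 .leaf 0 [(0,[(13,65536)])], .leaf 0 [(0,[(12,65536),(23,16384),(29,16384),(38,16384)]),(0,[(19,2048),(23,14336),(29,16384),(38,16384)]),(30,[(16,425984),(29,425984),(8,1097728),(0,18432)]),(0,[(23,16384),(29,16384),(38,16384)]),(0,[(17,16384),(35,16384),(8,32768),(3,342208)])], .leaf 0 [(0,[(13,12288),(17,3072),(25,3072),(30,3072),(35,1024),(3,43904),(2,128),(1,4096),(37,3072)])], .leaf 0 [(54,[(13,16384),(28,8192),(8,141312),(0,8192),(37,4096)])], .leaf 0 [(116,[(13,503808),(30,15360),(36,491520),(7,2309756),(4,3072),(2,1435400),(0,15360),(37,125952)])], .leaf 2 [(0,[(13,65536),(2,175488)])], .leaf 2 [(0,[(18,16384),(35,16384),(8,16384)]),(0,[(2,22176)]),(0,[(18,32768),(29,16384)]),(2,[(13,131072),(18,32768),(23,16384),(26,16384),(35,32768),(7,371648),(3,682112),(38,16384)]),(0,[(18,16384),(35,16384),(8,16384)])], .leaf 0 [(0,[(3,51584)])], .leaf 0 [(0,[(13,4096),(30,2048),(5,2048),(2,1998),(37,1024)])],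 .leaf 1 [(0,[(7,500)])], .leaf 1 [(0,[(13,65536),(3,391296)])], .leaf 3 [(0,[(16,16384),(8,16384)]),(0,[(8,16384),(2,18016)]),(0,[(16,16384),(8,16384)]),(0,[(13,65536),(8,16384),(5,16384),(2,193632)]),(0,[(16,16384),(8,16384)])], .leaf 1 [(0,[(7,23424),(3,16640)])], .leaf 0 [(0,[(7,860)])], .leaf 0 [(0,[(13,4096),(17,1024),(23,1024),(30,1024),(35,1024),(2,21006),(37,1024)])]]
noncomputable def a14 : TT := .leaf ⟨true,8,0,1,9,1,511,[[0,0,0,512,0,0,0,-392],[],[0,0,0,0,0,0,0,45],[0,0,0,0,0,0,0,50],[],[0,0,0,0,0,0,0,212],[],[0,0,0,64,0,0,0,-49],[],[0,0,0,0,0,0,0,45],[0,0,0,64]]⟩ [.leaf 0 [(1,[(1,49)])], .leaf 0 [(0,[])], .leaf 0 [(0,[])], .leaf 0 [(0,[])], .leaf 0 [(0,[])], .leaf 0 [(0,[])], .leaf 0 [(0,[(7,64),(0,64)])], .leaf 0 [(0,[]),(0,[]),(0,[]),(0,[]),(0,[]),(0,[])], .leaf 0 [(0,[])], .leaf 0 [(0,[])], .leaf 0 [(0,[])], .leaf 0 [(0,[])], .leaf 0 [(0,[])], .leaf 0 [(0,[(1,189184)])], .leaf 0 [(0,[])],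 .leaf 0 [(0,[])], .leaf 0 [(0,[(1,175616)])], .leaf 0 [(0,[])], .leaf 0 [(0,[])], .leaf 0 [(0,[(7,65536)])], .leaf 0 [(0,[(34,65536),(7,65536)])], .leaf 0 [(0,[])], .leaf 0 [(0,[(12,4096),(29,2048),(34,2048),(1,20032),(36,1024)])], .leaf 0 [(0,[(12,4096),(29,2048),(4,2048),(1,25792),(36,1024)])], .leaf 0 [(0,[(12,65536)])], .leaf 0 [(0,[(11,65536),(22,16384),(28,16384),(37,16384)]),(0,[(18,2048),(22,14336),(28,16384),(37,16384)]),(0,[(11,28672),(28,14336),(7,27648),(0,11264),(37,7168)]),(0,[(22,16384),(28,16384),(37,16384)]),(0,[(16,16384),(34,16384),(35,32768),(1,171104)])], .leaf 1 [(2,[(7,6144),(6,87680),(1,27392),(0,12288)])], .leaf 0 [(0,[(7,2048),(0,4096)])], .leaf 0 [(2,[(12,12288),(7,12288),(6,76580),(1,28088),(0,12288),(36,3072)])], .leaf 2 [(0,[(12,65536),(6,107776),(2,243200)])], .leaf 2 [(0,[(17,30368),(28,13984),(34,2400),(7,2400)]),(2,[(6,21184),(1,55936)]),(0,[(17,32768),(28,16384)]),(0,[(12,32768),(22,16384),(34,16384),(1,181088),(37,8192)]),(0,[(17,27168),(28,10784),(34,5600),(7,5600)])],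 .leaf 0 [(0,[(2,51584)])], .leaf 0 [(0,[(12,4096),(29,2048),(7,2048),(1,974),(0,2048),(36,1024)])], .leaf 1 [(0,[(2,500)])], .leaf 1 [(2,[(12,196608),(6,526208),(1,323840)])], .leaf 3 [(0,[(15,16384),(7,16384)]),(2,[(6,29504),(5,49152),(1,39296)]),(0,[(15,16384),(7,16384)]),(0,[(12,65536),(35,16384),(4,16384),(2,387264)]),(0,[(15,16384),(7,16384)])], .leaf 1 [(2,[(6,86912),(1,16640)])], .leaf 0 [(0,[(2,860)])], .leaf 0 [(0,[(12,4096),(16,1024),(22,1024),(29,1024),(34,1024),(1,21006),(36,1024)])]]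
noncomputable def t0 : TT := (.split [0,0,0,-1,0,0,0,1,0,0] a0 (.split [0,0,0,-1,0,0,0,2,0,0] (.split [0,0,0,-5,-1,0,0,5,1,0] (.split [-2,8,-4,52,-12,-69,0,-14,-6,8] (.split [0,19,8,47,-26,-160,0,-6,2,15] (.split [0,45,56,-47,-422,-96,0,6,62,45] a1 a2) a3) a4) (.split [0,0,0,0,-1,0,0,1,0,0] (.split [-2,-3,-1,2,2,1,0,24,-2,0] (.split [-12,17,29,-78,-52,-189,0,60,23,28] a5 (.split [-4,11,15,-26,-28,-111,0,20,13,16] a6 a7)) a8) a9)) (.split [0,0,0,0,0,-1,0,0,1,0] (.split [0,0,0,0,0,-32,0,0,32,-1] (.split [-30,-23,-7,64,-64,0,0,-16,21,7] (.split [30,55,39,-64,-64,-224,0,16,9,25] a10 a11) a12) a13) a14)))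
theorem c0 : chkT (([4,4,-1,0,0,0,0,0,0,0] : Fm) :: fsm (-1) ([0,0,0,-1,1,0,0,0,0,0] : Fm) :: ([0,0,0,0,0,0,0,-1,1,0] : Fm) :: fsm (-1) ([0,0,0,-2,0,0,0,1,0,0] : Fm) :: ([0,0,0,-1,-1,0,0,-1,1,0] : Fm) :: K2O10.C0) t0 = true := by decide +kernel
end K2O10M01010

namespace K2O10M01011
noncomputable def a0 : TT := .leaf ⟨true,31,0,33,64,0,8183,[[-2046,-1023,-1023,8184,0,0,0,-3069,1023,1023],[],[0,0,0,0,0,0,0,1023],[-1023,-1023,0,0,0,0,0,1023,1023],[],[0,0,0,0,0,0,0,3069],[],[-66,-33,-33,264,0,0,0,-99,33,33],[],[0,0,0,0,0,0,0,31],[0,0,0,264]]⟩ [.leaf 0 [(4,[(10,128),(26,134),(5,133),(4,496),(1,33),(0,1),(34,32)])], .leaf 0 [(0,[])], .leaf 0 [(0,[])], .leaf 0 [(0,[(22,33),(27,33)])], .leaf 0 [(0,[])], .leaf 0 [(0,[])], .leaf 0 [(0,[(10,11616),(13,29040),(1,5808),(34,2904)])], .leaf 0 [(0,[]),(0,[]),(0,[]),(0,[]),(0,[]),(0,[])], .leaf 0 [(0,[(20,130944)])], .leaf 0 [(0,[])], .leaf 0 [(0,[])], .leaf 0 [(0,[])],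 .leaf 0 [(0,[])], .leaf 0 [(4,[(10,3555328),(26,3721984),(5,3694208),(4,15741056),(1,916608),(0,27776),(34,888832)])], .leaf 0 [(0,[])], .leaf 0 [(0,[])], .leaf 0 [(4,[(10,3555328),(26,3721984),(5,3694208),(4,13776896),(1,916608),(0,27776),(34,888832)])], .leaf 0 [(0,[])], .leaf 0 [(0,[(26,130944)])], .leaf 0 [(0,[(13,261888),(27,130944),(5,785664)])], .leaf 0 [(0,[(13,261888),(15,130944),(32,916608),(5,654720)])], .leaf 0 [(0,[(27,130944)])], .leaf 0 [(48,[(10,12570624),(23,3371808),(4,6416256),(1,3240864),(0,98208),(34,3142656)])], .leaf 0 [(0,[(10,261888),(23,65472),(33,196416),(4,196416),(1,65472),(34,65472)])], .leaf 0 [(0,[(10,1047552),(20,261888),(26,130944)])], .leaf 0 [(688,[(13,336198720),(14,84851712),(16,6579936),(32,58313728),(5,47205312),(1,57975456),(0,1756832),(35,52639488)]),(160,[(16,5139552),(26,25337664),(5,3142656),(1,1080288),(0,32736),(35,41116416)]),(4,[(13,2815296),(16,32736),(5,327360),(1,458304),(35,261888)]),(0,[(20,65472),(26,163680),(35,261888)]),(0,[(10,916608),(26,425568),(32,601152),(5,1392768),(4,2109984),(1,196416),(0,5952),(34,229152)])],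 .leaf 0 [(6,[(10,2684352),(25,73656),(33,916608),(1,351912),(0,24552),(34,671088)])], .leaf 0 [(0,[(10,174592),(13,403744),(22,40920),(27,4092),(4,32736),(1,87296),(34,43648)])], .leaf 0 [(0,[(10,441936),(5,253704),(4,135036),(1,39897),(34,110484)])], .leaf 2 [(4,[(10,9808896),(26,4130688),(5,4749696),(4,9365472),(1,1178496),(0,35712),(34,1142784)])], .leaf 4 [(0,[(13,32736),(15,392832),(26,163680),(32,130944),(5,98208)]),(0,[(15,204600),(32,271560),(5,319176),(1,24552),(0,744)]),(0,[(28,40920),(32,319176),(5,417384),(1,24552)]),(360,[(10,326836224),(23,54963744),(26,350406144),(33,229675776),(4,853427520),(1,84262464),(0,2553408),(35,12832512)]),(0,[(15,65472),(32,394816),(1,32736),(0,992)])], .leaf 0 [(0,[(10,523776),(5,261888),(4,163680),(1,32736),(34,130944)])], .leaf 0 [(0,[(10,65472),(27,28644),(4,49104),(2,32736),(34,16368)])], .leaf 1 [(0,[(22,8184),(27,4092),(4,32736)])], .leaf 1 [(4,[(10,9808896),(26,4130688),(33,2758752),(5,1990944),(4,13948512),(1,1178496),(0,35712),(34,1142784)])],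 .leaf 3 [(0,[(13,294624),(26,32736),(5,229152)]),(0,[(23,130944),(26,32736),(33,212784),(5,16368),(4,163680)]),(0,[(13,163680),(26,32736),(5,360096)]),(4,[(10,8158208),(26,4694144),(33,2703696),(5,2949712),(4,14590336),(1,752928),(0,22816),(34,730112)]),(0,[(10,65472),(26,163680),(5,360096),(2,196416),(34,16368)])], .leaf 1 [(4,[(10,1015808),(26,408704),(4,1227104),(1,261888),(0,7936),(34,253952)])], .leaf 0 [(0,[(22,8184),(27,4092),(4,40920)])], .leaf 0 [(6,[(10,1964160),(23,469557),(33,872619),(4,187209),(1,506385),(0,15345),(34,491040)])]]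
noncomputable def a1 : TT := .leaf ⟨true,31,0,33,64,0,8183,[[-2046,-1023,-1023,8184,0,0,0,-3069,1023,1023],[],[0,0,0,0,0,0,0,1023],[-1023,-1023,0,0,0,0,0,1023,1023],[],[0,0,0,0,0,0,0,3069],[],[-66,-33,-33,264,0,0,0,-99,33,33],[],[0,0,0,0,0,0,0,31],[0,0,0,264]]⟩ [.leaf 0 [(61,[(11,4092),(33,2046),(6,1980),(5,6270),(0,66),(35,1023)])], .leaf 0 [(0,[])], .leaf 0 [(0,[])], .leaf 0 [(0,[(23,33),(28,33)])], .leaf 0 [(0,[])], .leaf 0 [(0,[])], .leaf 0 [(599,[(14,2772000),(27,450208),(6,1452704),(2,450208),(1,76725),(0,31328)])], .leaf 0 [(0,[]),(0,[]),(0,[]),(0,[]),(0,[]),(0,[])], .leaf 0 [(0,[(21,130944)])], .leaf 0 [(0,[])], .leaf 0 [(0,[])], .leaf 0 [(0,[])], .leaf 0 [(0,[])], .leaf 0 [(0,[(11,3666432),(15,916608),(33,916608),(6,1833216),(5,1309440),(35,916608)])], .leaf 0 [(0,[])], .leaf 0 [(0,[])], .leaf 0 [(0,[(11,1833216),(33,916608),(6,887040),(5,2808960),(0,29568),(35,458304)])], .leaf 0 [(0,[])],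 .leaf 0 [(0,[(27,130944)])], .leaf 0 [(0,[(14,392832),(26,130944),(6,384384),(0,8448)])], .leaf 0 [(20,[(14,12265088),(16,2749824),(33,19248768),(0,218240)])], .leaf 0 [(0,[(28,130944)])], .leaf 0 [(0,[(11,523776),(15,130944),(21,130944),(33,130944),(34,147312),(6,81840),(5,32736),(35,130944)])], .leaf 0 [(0,[(11,523776),(6,261888),(5,130944),(2,32736),(35,130944)])], .leaf 0 [(0,[(11,1047552),(21,261888),(27,130944)])], .leaf 0 [(108,[(10,105802752),(15,1047552),(27,14698464),(33,3142656),(0,196416),(36,26450688)]),(20,[(10,15124032),(14,1838672),(33,3437280),(0,103664),(36,3781008)]),(6,[(10,3797376),(14,2651616),(2,621984),(36,949344)]),(6,[(11,270336),(27,1010592),(33,135168),(0,14784),(36,1765632)]),(0,[(27,687456),(33,523776),(6,492096),(5,4286304),(0,31680)])], .leaf 1 [(0,[(11,130944),(27,130944),(34,229152),(5,294624),(2,49104),(35,32736)])], .leaf 0 [(20,[(14,687456),(27,42966),(33,357368),(2,128898),(1,15686)])],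 .leaf 0 [(0,[(11,196416),(24,106392),(27,20460),(34,147312),(5,261888),(2,65472),(35,49104)])], .leaf 2 [(0,[(11,3142656),(33,1047552),(6,1009536),(5,2203872),(0,38016),(35,523776)])], .leaf 4 [(0,[(14,32736),(16,229152),(33,294624),(6,261888)]),(0,[(16,229152),(33,294624),(6,193248),(0,3168)]),(0,[(29,40920),(33,319176),(6,417384),(2,24552)]),(0,[(11,1047552),(21,1014816),(27,818400),(33,523776),(6,523776),(5,3339072)]),(0,[(16,98208),(21,130944),(33,425568)])], .leaf 0 [(0,[(11,174592),(24,120032),(34,141856),(5,283712),(2,76384),(35,43648)])], .leaf 0 [(18,[(11,155496),(14,81840),(34,473220),(1,17556),(0,2640),(35,38874)])], .leaf 1 [(0,[(14,4224),(23,3960),(5,24420),(1,132)])], .leaf 1 [(0,[(11,5237760),(15,1047552),(33,1047552),(6,2090880),(5,957792),(0,4224),(35,1047552)])], .leaf 3 [(0,[(14,294624),(27,32736),(6,229152)]),(0,[(24,130944),(27,32736),(34,212784),(6,16368),(5,163680)]),(20,[(14,7158272),(27,687456),(0,120032)]),(0,[(11,4059264),(15,752928),(27,327360),(33,752928),(6,2029632),(5,1407648),(35,752928)]),(6,[(11,458304),(14,2498848),(27,1145760),(0,43648),(35,114576)])],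 .leaf 0 [(18,[(11,1440384),(23,3044448),(28,3208128),(33,720192),(0,98208),(35,360096)])], .leaf 0 [(0,[(23,8184),(28,4092),(5,40920)])], .leaf 0 [(18,[(11,1462208),(15,365552),(21,1849584),(27,2200132),(33,365552),(5,10418232),(0,109120),(35,365552)])]]
noncomputable def a2 : TT := .leaf ⟨true,31,0,33,64,0,130943,[[-45012,-24552,-20460,130944,0,0,0,-49104,24552,20460],[],[12276,12276,0,0,0,0,0,14322,-12276],[-28644,-14322,-14322,0,0,0,0,33759,14322,14322],[],[0,0,0,0,0,0,0,12276],[],[-1452,-792,-660,4224,0,0,0,-1584,792,660],[],[372,372,0,0,0,0,0,434,-372],[0,0,0,4224]]⟩ [.leaf 0 [(0,[(13,2640),(17,660),(23,132),(35,660),(8,1320),(7,396),(37,660)])], .leaf 0 [(0,[])], .leaf 0 [(0,[(25,372)])], .leaf 0 [(0,[(25,420),(30,660)])], .leaf 0 [(0,[])], .leaf 0 [(0,[])], .leaf 0 [(0,[(8,54912),(3,1716),(1,2640)])], .leaf 0 [(0,[]),(0,[]),(0,[]),(0,[]),(0,[]),(0,[])], .leaf 0 [(0,[(23,1833216),(29,1833216)])],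 .leaf 0 [(0,[])], .leaf 0 [(0,[])], .leaf 0 [(0,[(25,10999296)])], .leaf 0 [(0,[])], .leaf 0 [(0,[(13,73328640),(17,18332160),(23,3666432),(35,18332160),(8,36664320),(7,12570624),(37,18332160)])], .leaf 0 [(0,[(25,10999296)])], .leaf 0 [(0,[])], .leaf 0 [(0,[(13,73328640),(17,18332160),(23,3666432),(35,18332160),(8,36664320),(7,10999296),(37,18332160)])], .leaf 0 [(0,[])], .leaf 0 [(0,[(23,2880768),(29,785664)])], .leaf 0 [(0,[(16,3404544),(30,4452096),(8,13356288)])], .leaf 0 [(0,[(16,6547200),(18,9231552),(29,4779456),(35,7529280),(8,982080)])], .leaf 0 [(0,[(25,2880768),(30,785664)])], .leaf 0 [(0,[(13,10999296),(17,2749824),(23,654720),(29,1702272),(35,2749824),(8,2487936),(37,2749824)])], .leaf 0 [(0,[(13,13094400),(8,6547200),(7,196416),(4,1113024),(37,3273600)])], .leaf 0 [(0,[(13,16760832),(25,7594752),(29,4452096)])], .leaf 0 [(0,[(12,16760832),(23,458304),(29,851136),(38,4190208)]),(0,[(19,523776),(25,1636800),(29,851136),(38,4190208)]),(0,[(18,4190208),(8,2029632),(1,198462)]),(0,[(25,12112320),(29,851136),(38,4190208)]),(0,[(13,63115008),(17,19968960),(23,3797376),(35,19968960),(8,39937920),(7,16989984),(37,15778752)])],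 .leaf 1 [(0,[(13,10999296),(29,2226048),(36,1767744),(8,4255680),(4,818400),(37,2749824)])], .leaf 0 [(6,[(16,3666432),(25,830676),(35,1605428),(4,766227),(3,83204)])], .leaf 0 [(610,[(13,4110943232),(26,1559834936),(29,408994036),(36,2551094656),(4,1069050004),(2,5487372),(37,1027735808)])], .leaf 2 [(0,[(13,74376192),(17,14403840),(29,8380416),(35,14403840),(8,28807680),(7,11392128),(37,14403840)])], .leaf 4 [(0,[(18,6285312),(23,261888),(29,1833216),(35,2095104),(8,2095104)]),(0,[(18,6350784),(23,2095104),(29,3731904),(35,2029632),(8,2029632)]),(0,[(26,1309440),(36,5761536),(7,261888),(4,1424016),(2,65472)]),(0,[(13,16760832),(23,12832512),(29,16498944),(35,8380416),(8,8380416),(7,56567808)]),(0,[(18,1833216),(23,2356992),(35,6547200),(36,5237760)])], .leaf 0 [(4,[(13,64948224),(29,10868352),(8,32474112),(4,2913504),(37,16237056)])], .leaf 0 [(19,[(13,5696064),(4,2356992),(1,89001),(0,9984480),(37,1424016)])],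 .leaf 1 [(15,[(7,982080),(5,3273600),(4,530937),(2,102300),(0,2226048)])], .leaf 1 [(0,[(13,107897856),(17,22784256),(23,2618880),(35,22784256),(8,45568512),(7,1702272),(37,22784256)])], .leaf 3 [(0,[(16,3535488),(30,261888),(8,4844928)]),(0,[(23,130944),(29,2356992),(36,5630592),(7,1374912),(6,2226048)]),(0,[(16,3273600),(29,1571328),(8,5106816)]),(0,[(13,99517440),(17,20689152),(23,916608),(35,20689152),(8,49758720),(7,1898688),(37,20689152)]),(0,[(25,3011712),(29,2880768),(5,8118528),(1,8184),(0,523776)])], .leaf 1 [(0,[(13,10999296),(17,2749824),(23,654720),(29,1702272),(35,2749824),(8,3011712),(37,2749824)])], .leaf 0 [(3,[(30,556512),(7,2209680),(2,13299)])], .leaf 0 [(0,[(13,8953296),(23,4018344),(35,4476648),(8,2661164),(7,1876864),(37,2238324)])]]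
noncomputable def a3 : TT := .leaf ⟨true,31,0,33,64,0,130943,[[-45012,-24552,-20460,130944,0,0,0,-49104,24552,20460],[],[12276,12276,0,0,0,0,0,14322,-12276],[-28644,-14322,-14322,0,0,0,0,33759,14322,14322],[],[0,0,0,0,0,0,0,12276],[],[-1452,-792,-660,4224,0,0,0,-1584,792,660],[],[372,372,0,0,0,0,0,434,-372],[0,0,0,4224]]⟩ [.leaf 0 [(0,[(13,1584),(17,132),(8,792),(7,1452),(0,660),(37,396)])], .leaf 0 [(0,[])], .leaf 0 [(0,[(25,372)])], .leaf 0 [(0,[(25,420),(30,660)])], .leaf 0 [(0,[])], .leaf 0 [(0,[])], .leaf 0 [(6,[(35,480128),(8,975744),(3,15488)])], .leaf 0 [(0,[]),(0,[]),(0,[]),(0,[]),(0,[]),(0,[])], .leaf 0 [(0,[(23,1833216),(29,1833216)])], .leaf 0 [(0,[])], .leaf 0 [(0,[])], .leaf 0 [(0,[(25,10999296)])], .leaf 0 [(0,[])], .leaf 0 [(0,[(13,73328640),(17,18332160),(35,14665728),(8,36664320),(7,12570624),(0,3666432),(37,18332160)])], .leaf 0 [(0,[(25,10999296)])], .leaf 0 [(0,[])], .leaf 0 [(0,[(13,43997184),(17,3666432),(8,21998592),(7,40330752),(0,18332160),(37,10999296)])],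 .leaf 0 [(0,[])], .leaf 0 [(0,[(23,2880768),(29,785664)])], .leaf 0 [(0,[(16,3404544),(30,4452096),(8,13356288)])], .leaf 0 [(0,[(16,6547200),(18,4452096),(35,12308736),(8,5761536)])], .leaf 0 [(0,[(25,2880768),(30,785664)])], .leaf 0 [(0,[(13,6809088),(29,1047552),(36,2880768),(7,1702272),(0,3404544),(37,1702272)])], .leaf 0 [(0,[(13,7332864),(26,2618880),(36,3666432),(7,130944),(4,1833216),(37,1833216)])], .leaf 0 [(0,[(13,16760832),(25,7594752),(29,4452096)])], .leaf 0 [(0,[(12,13356288),(16,1243968),(17,851136),(8,458304),(0,851136),(38,3339072)]),(0,[(16,797940),(19,470580),(25,1264428),(35,372372),(0,478764),(38,3764640)]),(0,[(8,2029632),(1,329406)]),(0,[(25,12112320),(29,851136),(38,4190208)]),(0,[(13,17546496),(23,6612672),(29,2815296),(8,17153664),(7,62558496),(0,17153664),(37,4386624)])], .leaf 1 [(0,[(13,10999296),(29,2226048),(8,6023424),(4,818400),(37,2749824)])], .leaf 0 [(23,[(18,3339072),(25,3734973),(35,4470851),(3,251933),(2,37917),(1,326403)])],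 .leaf 0 [(4,[(13,22031328),(26,12398760),(29,9166080),(36,13634544),(7,14497956),(4,8396784),(37,5507832)])], .leaf 2 [(4,[(13,166560768),(23,30640896),(29,72542976),(8,41378304),(7,262280832),(0,41378304),(37,20689152)])], .leaf 4 [(0,[(18,4452096),(35,3666432),(8,3666432),(0,261888)]),(0,[(18,2618880),(35,3666432),(8,3666432),(0,2095104)]),(0,[(31,65472),(7,4190208),(6,3862848),(4,1243968)]),(0,[(13,12189696),(23,7880448),(26,1142784),(29,17641728),(8,3809280),(7,63424512),(0,6094848),(38,1142784)]),(0,[(18,1833216),(35,4190208),(7,5237760),(0,2356992)])], .leaf 0 [(0,[(13,3841024),(26,3055360),(29,1396736),(36,1920512),(7,3797376),(4,1920512),(37,960256)])], .leaf 0 [(0,[(13,229152),(8,388740),(5,241164),(3,16104),(37,57288)])], .leaf 1 [(3,[(30,556512),(7,1358544),(5,818400),(2,25575)])], .leaf 1 [(0,[(13,107897856),(17,22784256),(35,20165376),(8,44695552),(7,2575232),(0,2618880),(37,22784256)])],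 .leaf 3 [(0,[(16,3535488),(30,261888),(8,4844928)]),(0,[(13,261888),(29,2226048),(7,4026528),(6,5074080),(0,130944),(37,65472)]),(0,[(16,3273600),(29,1571328),(8,5106816)]),(0,[(13,59055744),(28,458304),(36,441936),(8,29085936),(7,42360384),(0,21147456),(37,10573728)]),(0,[(25,2471040),(29,2880768),(3,16896),(1,278784)])], .leaf 1 [(0,[(13,1047552),(23,2880768),(29,3928320),(7,7463808),(6,523776),(0,523776),(37,261888)])], .leaf 0 [(3,[(30,556512),(7,2209680),(2,13299)])], .leaf 0 [(0,[(13,8904192),(29,24552),(35,433752),(36,3928320),(7,634260),(0,4018344),(37,2226048)])]]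
noncomputable def a4 : TT := .leaf ⟨true,31,0,33,64,0,130943,[[-45012,-24552,-20460,130944,0,0,0,-49104,24552,20460],[],[12276,12276,0,0,0,0,0,14322,-12276],[-28644,-14322,-14322,0,0,0,0,33759,14322,14322],[],[0,0,0,0,0,0,0,12276],[],[-1452,-792,-660,4224,0,0,0,-1584,792,660],[],[372,372,0,0,0,0,0,434,-372],[0,0,0,4224]]⟩ [.leaf 0 [(4,[(12,1584),(28,3300),(7,3960),(6,7161),(3,792),(0,99),(36,396)])], .leaf 0 [(0,[])], .leaf 0 [(0,[(24,372)])], .leaf 0 [(0,[(24,420),(29,660)])], .leaf 0 [(0,[])], .leaf 0 [(0,[])], .leaf 0 [(12,[(15,1620432),(25,180048),(28,180048),(7,191664),(3,360096),(2,11616)])], .leaf 0 [(0,[]),(0,[]),(0,[]),(0,[]),(0,[]),(0,[])], .leaf 0 [(0,[(22,1833216),(28,1833216)])], .leaf 0 [(0,[])], .leaf 0 [(0,[])], .leaf 0 [(0,[(24,10999296)])], .leaf 0 [(0,[])], .leaf 0 [(4,[(12,43997184),(28,91660800),(7,109992960),(6,206760576),(3,21998592),(0,2749824),(36,10999296)])], .leaf 0 [(0,[(24,10999296)])],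 .leaf 0 [(0,[])], .leaf 0 [(4,[(12,43997184),(28,91660800),(7,109992960),(6,198903936),(3,21998592),(0,2749824),(36,10999296)])], .leaf 0 [(0,[])], .leaf 0 [(0,[(22,2880768),(28,785664)])], .leaf 0 [(0,[(15,3404544),(29,4452096),(7,13356288)])], .leaf 0 [(0,[(15,6547200),(17,4452096),(34,12308736),(7,5761536)])], .leaf 0 [(0,[(24,2880768),(29,785664)])], .leaf 0 [(4,[(12,6809088),(28,22260480),(7,14403840),(6,8085792),(3,3404544),(0,425568),(36,1702272)])], .leaf 0 [(0,[(12,13094400),(7,6547200),(6,196416),(3,1113024),(36,3273600)])], .leaf 0 [(0,[(12,16760832),(24,7594752),(28,4452096)])], .leaf 0 [(0,[(11,16760832),(22,458304),(28,851136),(37,4190208)]),(0,[(18,523776),(24,1636800),(28,851136),(37,4190208)]),(0,[(15,10540992),(7,2029632),(3,1260336)]),(0,[(24,12112320),(28,851136),(37,4190208)]),(2,[(16,6045248),(28,53861632),(34,6045248),(35,60567056),(7,16777200),(6,134277616),(3,13050752),(0,1631344)])],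 .leaf 0 [(4,[(12,12046848),(28,19641600),(7,17022720),(6,2193312),(3,3404544),(0,1080288),(36,3011712)])], .leaf 0 [(6,[(15,3666432),(24,830676),(34,1605428),(3,766227),(2,83204)])], .leaf 0 [(4,[(12,22031328),(25,12398760),(28,9166080),(35,13634544),(6,14497956),(3,8396784),(36,5507832)])], .leaf 2 [(0,[(12,22522368),(28,22784256),(35,14403840),(6,39839712),(3,2880768),(0,360096),(36,1440384)])], .leaf 4 [(0,[(17,6285312),(22,261888),(28,1833216),(34,2095104),(7,2095104)]),(0,[(17,2618880),(22,2095104),(34,5761536),(7,5761536)]),(0,[(7,4975872),(6,3142656),(3,1243968)]),(4,[(12,109469184),(28,82494720),(34,41902080),(35,106064640),(6,152909856),(3,12832512),(0,1604064),(36,6416256)]),(0,[(17,1571328),(25,261888),(34,6285312),(6,2815296),(3,523776),(0,65472)])], .leaf 0 [(0,[(12,3841024),(25,3055360),(28,1396736),(35,1920512),(6,3797376),(3,1920512),(36,960256)])], .leaf 0 [(4,[(12,638352),(27,130944),(35,2760648),(3,65472),(2,76296),(36,159588)])],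 .leaf 1 [(3,[(6,1620432),(4,818400),(2,25575)])], .leaf 1 [(4,[(12,134610432),(28,113921280),(35,54570912),(7,72444768),(6,206989728),(3,25403136),(0,3175392),(36,12701568)])], .leaf 3 [(0,[(15,3535488),(29,261888),(7,4844928)]),(4,[(12,261888),(28,11784960),(7,39937920),(6,5548752),(3,130944),(0,16368),(36,65472)]),(0,[(15,3273600),(28,1571328),(7,5106816)]),(0,[(12,25403136),(28,20689152),(35,12357840),(7,17628336),(6,40903632),(3,4321152),(0,540144),(36,2160576)]),(0,[(15,8921088),(24,2471040),(28,2880768),(2,16896)])], .leaf 1 [(4,[(12,6809088),(28,22260480),(7,17022720),(6,8085792),(3,3404544),(0,425568),(36,1702272)])], .leaf 0 [(3,[(29,556512),(6,2209680),(1,13299)])], .leaf 0 [(4,[(12,8036688),(28,22383240),(6,24479367),(3,4018344),(0,502293),(36,2009172)])]]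
noncomputable def t0 : TT := (.split [0,0,0,0,-32,-64,0,0,32,31] a0 (.split [-31,-31,0,-32,-32,0,0,32,32,0] a1 (.split [0,0,0,-32,-32,8,0,1,0,0] (.split [1,1,0,1,0,1,0,-1,0,-1] a2 a3) a4)))
theorem c0 : chkT (fsm (-1) ([4,4,-1,0,0,0,0,0,0,0] : Fm) :: fsm (-1) ([0,0,0,-1,1,0,0,0,0,0] : Fm) :: ([0,0,0,0,0,0,0,-1,1,0] : Fm) :: fsm (-1) ([0,0,0,-2,0,0,0,1,0,0] : Fm) :: ([0,0,0,-1,-1,0,0,-1,1,0] : Fm) :: K2O10.C0) t0 = true := by decide +kernel
end K2O10M01011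

namespace K2O10M01010
theorem top : ∃ t, chkT (([4,4,-1,0,0,0,0,0,0,0] : Fm) :: fsm (-1) ([0,0,0,-1,1,0,0,0,0,0] : Fm) :: ([0,0,0,0,0,0,0,-1,1,0] : Fm) :: fsm (-1) ([0,0,0,-2,0,0,0,1,0,0] : Fm) :: ([0,0,0,-1,-1,0,0,-1,1,0] : Fm) :: K2O10.C0) t = true := ⟨_, c0⟩
end K2O10M01010
namespace K2O10M01011
theorem top : ∃ t, chkT (fsm (-1) ([4,4,-1,0,0,0,0,0,0,0] : Fm) :: fsm (-1) ([0,0,0,-1,1,0,0,0,0,0] : Fm) :: ([0,0,0,0,0,0,0,-1,1,0] : Fm) :: fsm (-1) ([0,0,0,-2,0,0,0,1,0,0] : Fm) :: ([0,0,0,-1,-1,0,0,-1,1,0] : Fm) :: K2O10.C0) t = true := ⟨_, c0⟩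
end K2O10M01011
def K2O10P0101 := (splE K2O10M01010.top K2O10M01011.top)

end Vale.Agent.P235
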