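import Vale.Agent.P235.T.K2O10C

namespace Vale.Agent.P235

set_option maxRecDepth 100000

namespace K2O10M10000
noncomputable def a0 : TT := .leaf ⟨true,33,31,0,64,3,261887,[[-16368,0,0,142197],[3069,0,0,73656],[],[9207,4092,6138,-8184,-4092,-15345,0,13299,0,9207],[],[],[7161,0,0,60357],[-496,0,0,4309],[99,0,0,2376],[],[0,0,0,7936]]⟩ [.leaf 0 [(0,[(9,992),(13,496),(33,248)])], .leaf 0 [(0,[])], .leaf 0 [(0,[])], .leaf 0 [(0,[])], .leaf 0 [(0,[])], .leaf 0 [(0,[(1,246016)])], .leaf 0 [(0,[])], .leaf 0 [(0,[]),(0,[]),(0,[]),(0,[]),(0,[]),(0,[])], .leaf 0 [(0,[(8,1833216),(13,196416),(14,261888),(22,589248),(31,589248),(34,458304)])], .leaf 0 [(0,[])], .leaf 0 [(0,[])], .leaf 0 [(0,[])], .leaf 0 [(0,[])], .leaf 0 [(0,[(9,29331456),(13,14665728),(33,7332864)])], .leaf 0 [(0,[])], .leaf 0 [(0,[])], .leaf 0 [(0,[(9,31164672),(13,15582336),(33,7791168)])], .leaf 0 [(0,[])], .leaf 0 [(0,[(9,12570624),(12,1440384),(13,4321152),(26,1178496),(3,22129536),(33,3142656)])],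 .leaf 0 [(0,[(9,3928320),(12,1440384),(26,1178496),(32,33521664),(3,23340768),(33,982080)])], .leaf 0 [(0,[(8,1571328),(13,65472),(22,1374912),(25,261888),(31,30706368),(32,29331456),(3,27367296),(34,392832)])], .leaf 0 [(0,[(13,1113024),(14,261888),(22,589248),(31,589248)])], .leaf 0 [(0,[(9,2095104),(13,1833216),(19,261888),(31,1178496),(4,130944),(33,523776)])], .leaf 0 [(0,[(13,916608),(19,392832),(25,130944),(4,392832)])], .leaf 0 [(0,[(9,31033728),(19,261888),(22,458304),(31,720192),(34,621984)])], .leaf 0 [(0,[(8,1767744),(13,7701144),(22,597432),(25,196416),(31,6702696),(32,14485680),(3,13012560),(34,441936)]),(0,[(13,7496544),(14,1996896),(25,1702272),(31,5794272),(3,10148160),(2,13127136)]),(0,[(12,2815296),(13,6907296),(19,1735008),(32,6645408),(3,3633696)]),(0,[(9,12308736),(13,671088),(19,3289968),(25,3486384),(31,4010160),(32,9100608),(34,5303232)]),(0,[(9,13618176),(13,18086640),(19,3289968),(25,3486384),(31,4010160),(32,9100608),(33,3404544)])],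 .split 1 0 (.leaf 1 [(0,[(0,1)])]) (.leaf 0 [(238,[(10,509634048),(14,455947008),(20,67043328),(5,84851712),(0,17),(34,127408512)])]), .split 0 0 (.leaf 0 [(0,[(0,1)])]) (.leaf 1 [(30,[(20,31123752),(26,8928744),(32,26389308),(5,6829548),(0,2)])]), .split 0 0 (.leaf 0 [(0,[(0,1)])]) (.leaf 1 [(2386,[(10,13471518720),(25,1477572096),(5,1477572096),(0,973),(34,3367879680)])]), .leaf 2 [(0,[(9,62067456),(13,15385920),(19,589248),(25,327360),(31,851136),(32,261888),(33,7136448)])], .leaf 4 [(0,[(13,2307888),(14,7660224),(19,589248),(22,1980528),(31,5810640),(32,3240864),(3,10180896)]),(0,[(13,802032),(14,16400736),(22,540144),(25,7889376),(31,540144)]),(0,[(19,261888),(31,261888),(3,3289968)]),(0,[(9,38759424),(13,10017216),(14,589248),(19,7660224),(31,7791168),(32,130944),(33,1309440)]),(0,[(13,3764640),(14,7987584),(19,261888),(22,3764640),(31,4026528)])], .leaf 0 [(0,[(13,523776),(25,523776)])],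 .leaf 1 [(0,[(9,1784112),(13,1399464),(25,793848),(33,446028)])], .split 0 0 (.leaf 0 [(0,[(0,1)])]) (.leaf 1 [(340,[(10,96374784),(13,113135616),(32,146133504),(33,146133504),(0,139),(34,24093696)])]), .leaf 1 [(0,[(9,56567808),(13,12636096),(19,589248),(25,327360),(31,851136),(32,261888),(33,5761536)])], .leaf 1 [(0,[(9,5696064),(12,9460704),(13,1374912),(26,883872),(32,8380416),(3,12431496),(33,1424016)]),(0,[(9,2946240),(12,9460704),(26,883872),(32,8380416),(33,736560)]),(0,[(9,2946240),(24,883872),(3,6178920),(33,736560)]),(0,[(9,66454080),(12,9460704),(13,14993088),(26,883872),(32,8380416),(33,8233104)]),(0,[(9,11457600),(12,10508256),(13,3208128),(26,1931424),(32,8380416),(33,2864400)])], .leaf 1 [(0,[(9,2095104),(13,1833216),(19,261888),(31,1178496),(33,523776)])], .split 0 0 (.leaf 0 [(0,[(0,1)])]) (.leaf 1 [(30,[(14,881826),(15,40322568),(23,17659026),(32,17659026),(0,2)])]),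 .leaf 0 [(0,[(9,2340624),(13,1931424),(19,1301256),(31,1141668),(4,159588),(33,585156)])]]
noncomputable def t0 : TT := a0
theorem c0 : chkT (([4,4,-1,0,0,0,0,0,0,0] : Fm) :: ([0,0,0,-1,1,0,0,0,0,0] : Fm) :: ([0,0,0,0,0,0,0,-1,1,0] : Fm) :: ([0,0,0,-2,0,0,0,1,0,0] : Fm) :: fsm (-1) ([0,0,0,-1,-1,0,0,-1,1,0] : Fm) :: K2O10.C0) t0 = true := by decide +kernel
end K2O10M10000

namespace K2O10M10001
noncomputable def a0 : TT := .leaf ⟨true,33,31,0,64,2,32735,[[0,0,0,10230],[0,0,0,10230],[],[3069,3069,0,-6138,-6138,0,0,3069,3069],[],[],[0,0,0,37851],[0,0,0,310],[0,0,0,330],[],[0,0,0,992]]⟩ [.leaf 0 [(0,[])], .leaf 0 [(0,[])], .leaf 0 [(0,[])], .leaf 0 [(0,[])], .leaf 0 [(0,[])], .leaf 0 [(0,[(2,30752)])], .leaf 0 [(0,[])], .leaf 0 [(0,[]),(0,[]),(0,[]),(0,[]),(0,[]),(0,[])], .leaf 0 [(0,[(13,785664),(20,392832)])], .leaf 0 [(0,[])], .leaf 0 [(0,[])], .leaf 0 [(0,[])], .leaf 0 [(0,[])], .leaf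 0 [(0,[])], .leaf 0 [(0,[])], .leaf 0 [(0,[])], .leaf 0 [(0,[])], .leaf 0 [(0,[])], .leaf 0 [(6888,[(10,2375062272),(25,379082880),(27,13749120),(5,3034627200),(4,15662833824),(1,452542464),(0,392832),(34,593765568)])], .leaf 0 [(0,[(20,392832),(33,3404544),(4,1309440)])], .leaf 0 [(5536,[(13,8621876736),(14,2433114112),(23,3530381184),(26,2964528512),(32,14698464000),(4,2504085760),(3,9251979264),(1,2312994816),(0,2007808)])], .leaf 0 [(0,[(13,392832),(33,392832)])], .leaf 0 [(0,[(4,392832)])], .leaf 0 [(0,[(10,327360),(13,556512),(27,130944),(33,392832),(1,32736),(34,81840)])], .leaf 0 [(0,[(10,4190208),(13,392832),(33,392832)])], .leaf 0 [(5536,[(13,2945650752),(14,7359740256),(23,2024590656),(26,1256702304),(32,1667866464),(4,352239360),(3,3922034688),(1,980508672),(0,851136)]),(1480,[(15,872619000),(32,1215880512),(4,1114971792),(3,1820080680),(1,386546688),(0,335544)]),(0,[(14,973896),(33,531960),(1,73656)]),(1480,[(10,3265454192),(26,597502928),(32,618377584),(33,1496539880),(1,386546688),(0,335544),(35,735060964)]),(2752,[(14,1621888752),(32,1869831216),(33,2495661696),(1,606221616),(0,752928)])],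 .leaf 0 [(2,[(10,3337708),(13,1924604),(25,1074832),(4,632214),(2,6190855),(0,682),(34,834427)])], .leaf 1 [(2,[(10,3337708),(25,682000),(4,595386),(2,8360979),(0,682),(34,834427)])], .leaf 0 [(0,[(10,392832),(13,707916),(33,380556),(1,65472),(34,98208)])], .leaf 2 [(0,[(10,4190208),(13,392832),(33,392832)])], .leaf 4 [(17326,[(9,13144551552),(15,13028076864),(23,3965966400),(32,12940999104),(4,16293836592),(3,5732204544),(1,1433051136),(0,1243968),(35,3286137888)]),(0,[(13,196416),(14,196416),(15,1898688),(23,196416),(26,851136),(4,229152)]),(0,[(28,32736),(32,196416),(4,883872),(1,49104)]),(3426,[(10,7321373664),(23,1187547504),(32,1780429200),(1,716525568),(0,621984),(35,1759617288)]),(7422,[(15,5116309440),(32,1925007744),(1,207546240),(0,2815296)])], .leaf 0 [(0,[(13,392832),(33,392832)])], .leaf 1 [(0,[(10,327360),(13,544236),(33,380556),(1,32736),(34,81840)])], .leaf 0 [(5,[(10,13511784),(13,6981293),(14,3418184),(20,1056077),(27,1364000),(33,1403215),(4,173910),(0,1364),(34,3377946)])],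 .leaf 1 [(0,[(10,4190208),(13,392832),(33,392832)])], .leaf 1 [(0,[(13,1505856),(20,752928)]),(0,[(13,752928),(33,752928)]),(0,[(4,752928)]),(0,[(10,4190208),(13,752928),(33,752928)]),(0,[(13,720192),(20,360096)])], .leaf 0 [(11,[(10,6755892),(13,10070412),(14,1316260),(27,682000),(33,3230634),(1,785664),(0,682),(34,1688973)])], .leaf 1 [(11,[(10,6755892),(13,8351772),(14,1316260),(27,682000),(33,4654650),(1,785664),(0,682),(34,1688973)])], .leaf 0 [(0,[(13,249612),(4,321222)])]]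
noncomputable def a1 : TT := .leaf ⟨true,33,31,0,64,2,16367,[[0,0,0,5115],[0,0,0,5115],[],[1023,1023,0,-3069,-3069,0,0,1023,2046],[],[],[0,0,0,19437],[0,0,0,155],[0,0,0,165],[],[0,0,0,496]]⟩ [.leaf 0 [(0,[])], .leaf 0 [(0,[])], .leaf 0 [(0,[])], .leaf 0 [(0,[])], .leaf 0 [(0,[])], .leaf 0 [(0,[(2,15376)])], .leaf 0 [(0,[])], .leaf 0 [(0,[]),(0,[]),(0,[]),(0,[]),(0,[]),(0,[])], .leaf 0 [(0,[(13,261888),(20,130944),(33,130944),(4,130944)])], .leaf 0 [(0,[])], .leaf 0 [(0,[])], .leaf 0 [(0,[])], .leaf 0 [(0,[])], .leaf 0 [(0,[])], .leaf 0 [(0,[])], .leaf 0 [(0,[])], .leaf 0 [(0,[])], .leaf 0 [(0,[])], .leaf 0 [(0,[(20,130944),(5,392832),(4,1047552)])], .leaf 0 [(0,[(13,720192),(20,851136),(33,982080)])], .leaf 0 [(0,[(14,130944),(20,130944),(23,130944),(32,1964160),(33,1440384),(4,1178496)])], .leaf 0 [(0,[(13,130944),(33,261888)])], .leaf 0 [(0,[(13,130944),(4,130944)])], .leaf 0 [(1870,[(13,230395968),(27,57026112),(33,481546560),(0,65472)])],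 .leaf 0 [(0,[(10,2095104),(13,130944),(33,261888)])], .leaf 0 [(0,[(14,605616),(20,98208),(23,81840),(32,441936),(33,589248),(4,392832)]),(0,[(14,523776),(20,98208),(32,523776),(4,425568),(3,621984)]),(0,[(13,425568),(33,327360),(1,130944)]),(0,[(10,1604064),(14,401016),(20,220968),(26,122760),(32,401016),(33,507408),(35,122760)]),(0,[(10,196416),(14,572880),(15,49104),(20,180048),(32,523776),(33,409200),(34,49104)])], .leaf 1 [(1870,[(13,482692320),(26,32736000),(33,363271392),(1,61249056),(0,32736)])], .leaf 0 [(7,[(32,372000),(5,265236),(1,28923),(0,372)])], .leaf 0 [(1870,[(13,337937820),(26,98208000),(33,462011352),(1,61249056),(0,98208)])], .leaf 2 [(0,[(10,2095104),(13,130944),(33,261888)])], .leaf 4 [(0,[(14,49104),(15,523776),(20,65472),(23,49104),(32,474672),(33,229152),(4,621984)]),(0,[(14,392832),(15,458304),(23,327360),(32,196416),(4,409200)]),(0,[(32,130944),(4,441936),(1,16368)]),(0,[(10,1440384),(15,196416),(20,392832),(32,523776),(35,163680)]),(0,[(14,163680),(15,523776),(20,65472),(23,163680),(32,360096)])],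 .leaf 0 [(0,[(13,130944),(33,261888)])], .leaf 0 [(7,[(27,151776),(5,113460),(1,28923),(0,372)])], .leaf 1 [(1,[(28,64635),(32,28365),(1,16368),(0,93)])], .leaf 1 [(0,[(10,2095104),(13,130944),(33,261888)])], .leaf 1 [(0,[(13,425568),(33,327360),(4,327360)]),(0,[(13,425568),(33,327360)]),(0,[(4,376464)]),(0,[(10,2095104),(13,425568),(33,327360)]),(0,[(13,294624),(33,65472),(4,65472)])], .leaf 1 [(0,[(13,130944),(4,163680),(3,98208)])], .split 0 0 (.leaf 0 [(0,[(0,1)])]) (.leaf 1 [(248,[(14,15091296),(0,47)])]), .leaf 0 [(0,[(13,61380),(4,192324),(3,65472)])]]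
noncomputable def t0 : TT := (.split [707,-223,871,1733,352,-3023,0,801,-129,1000] a0 a1)
theorem c0 : chkT (fsm (-1) ([4,4,-1,0,0,0,0,0,0,0] : Fm) :: ([0,0,0,-1,1,0,0,0,0,0] : Fm) :: ([0,0,0,0,0,0,0,-1,1,0] : Fm) :: ([0,0,0,-2,0,0,0,1,0,0] : Fm) :: fsm (-1) ([0,0,0,-1,-1,0,0,-1,1,0] : Fm) :: K2O10.C0) t0 = true := by decide +kernel
end K2O10M10001

namespace K2O10M10010
noncomputable def a0 : TT := .leaf ⟨false,1,1,0,2,0,31,[[0,0,0,8],[0,0,0,0,8],[],[3,3,0,-6,-6,0,0,3,3],[],[],[0,0,0,0,28],[],[],[],[]]⟩ [.leaf 0 [(0,[])], .leaf 0 [(0,[])], .leaf 0 [(0,[])], .leaf 0 [(0,[])], .leaf 0 [(0,[])], .leaf 0 [(0,[])], .leaf 0 [(0,[(12,384),(3,384),(1,384)])], .leaf 0 [(0,[])], .leaf 0 [(0,[])], .leaf 0 [(0,[])], .leaf 0 [(0,[])], .leaf 0 [(0,[])], .leaf 0 [(0,[])], .leaf 0 [(0,[])], .leaf 0 [(0,[(1,3584)])], .leaf 0 [(0,[])], .leaf 0 [(0,[(19,384),(4,768),(3,2048),(1,1024)])], .leaf 0 [(0,[(19,384),(32,2304),(3,1280)])],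 .leaf 0 [(4,[(8,2048),(19,2432),(22,512),(25,512),(31,19456),(32,14592),(3,9728),(1,5120),(34,512)])], .leaf 0 [(0,[])], .leaf 0 [(0,[])], .leaf 0 [(6,[(9,1024),(24,896),(0,384),(33,256)])], .leaf 1 [(0,[])], .leaf 1 [(0,[(13,1088),(19,288),(22,64),(31,960),(32,1344),(3,768)]),(0,[(13,1024),(19,288),(31,1024),(3,96),(2,672)]),(0,[(13,320),(25,288),(32,128),(3,160),(2,608)]),(0,[(13,1024),(19,288),(31,1024),(3,96),(2,672)]),(0,[(9,1280),(13,1344),(14,320),(19,352),(31,1024),(32,1024),(33,320)])], .leaf 1 [(0,[])], .split 0 0 (.leaf 0 [(0,[(0,1)])]) (.leaf 1 [(4956,[(10,532480),(1,368256),(0,227),(34,133120)])]), .leaf 0 [(6,[(9,992),(0,400),(33,248)])], .leaf 2 [(0,[(9,4096)])], .leaf 4 [(0,[(14,1024),(19,192),(31,1024),(32,640),(3,1280),(1,512)]),(0,[(13,416),(14,1216),(22,608),(31,416),(3,992)]),(0,[(22,192),(27,128),(31,384),(3,960),(1,512)]),(0,[(9,4096),(14,1024),(19,192),(31,1024),(1,1152)]),(0,[(14,1024),(19,320),(31,1024),(3,192)])],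 .leaf 0 [(0,[])], .leaf 1 [(0,[(9,256),(3,132),(33,64)])], .split 0 0 (.leaf 0 [(0,[(0,1)])]) (.leaf 1 [(92,[(10,4864),(33,5952),(0,19),(34,1216)])]), .leaf 1 [(0,[(9,4096)])], .leaf 3 [(0,[(12,1152),(19,320),(32,512),(3,1024),(1,256)]),(0,[(3,704)]),(0,[(12,1792),(19,576),(32,640),(3,1152),(1,256)]),(0,[(9,4096)]),(0,[(3,704),(0,128)])], .leaf 0 [(0,[])], .leaf 1 [(0,[])], .leaf 0 [(0,[])]]
noncomputable def t0 : TT := a0
theorem c0 : chkT (([4,4,-1,0,0,0,0,0,0,0] : Fm) :: fsm (-1) ([0,0,0,-1,1,0,0,0,0,0] : Fm) :: ([0,0,0,0,0,0,0,-1,1,0] : Fm) :: ([0,0,0,-2,0,0,0,1,0,0] : Fm) :: fsm (-1) ([0,0,0,-1,-1,0,0,-1,1,0] : Fm) :: K2O10.C0) t0 = true := by decide +kernel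
end K2O10M10010

namespace K2O10M10011
noncomputable def a0 : TT := .leaf ⟨false,1,1,0,2,1,15,[[0,0,0,5],[0,0,0,0,4],[],[1,1,0,-2,-2,0,0,1,1],[],[],[0,0,0,0,22],[],[],[],[]]⟩ [.leaf 0 [(0,[])], .leaf 0 [(0,[])], .leaf 0 [(0,[])], .leaf 0 [(0,[])], .leaf 0 [(0,[])], .leaf 0 [(0,[])], .leaf 0 [(0,[(12,256),(19,128)])], .leaf 0 [(0,[])], .leaf 0 [(0,[])], .leaf 0 [(0,[])], .leaf 0 [(0,[])], .leaf 0 [(0,[])], .leaf 0 [(0,[])], .leaf 0 [(0,[])], .leaf 0 [(0,[(1,2816)])], .leaf 0 [(0,[])], .leaf 0 [(0,[(19,128),(4,256),(3,960),(1,512)])], .leaf 0 [(0,[(12,192),(19,320),(32,1088),(3,640)])], .leaf 0 [(0,[(13,192),(19,128),(22,192),(31,1856),(32,1408),(3,1152),(1,512)])], .leaf 0 [(0,[])], .leaf 0 [(0,[])], .leaf 0 [(0,[(9,128),(26,64),(33,32)])], .leaf 1 [(0,[])], .leaf 1 [(0,[(13,592),(19,96),(22,80),(31,432),(32,672),(3,480)]),(0,[(13,512),(19,96),(31,512),(3,144),(2,336)]),(0,[(12,304),(32,16),(2,80),(0,100)]),(0,[(13,512),(19,96),(31,512),(3,144),(2,336)]),(0,[(13,576),(19,224),(22,64),(31,448),(32,448)])],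 .leaf 1 [(0,[])], .split 0 0 (.leaf 0 [(0,[(0,1)])]) (.leaf 1 [(30,[(10,3968),(0,2),(34,992)])]), .leaf 0 [(0,[(9,128),(33,32)])], .leaf 2 [(0,[(9,2048)])], .leaf 2 [(0,[(13,128),(14,512),(19,96),(22,128),(31,384),(32,64),(3,384),(1,384)]),(0,[(12,192),(23,96),(0,96)]),(0,[(14,512),(19,96),(31,512),(32,320),(1,384)]),(2,[(9,4864),(14,1216),(19,608),(22,320),(31,1216),(1,1152),(34,320)]),(0,[(14,512),(19,256),(31,512),(3,32)])], .leaf 0 [(0,[])], .leaf 1 [(0,[(9,128),(33,32)])], .split 1 0 (.leaf 1 [(0,[(0,1)])]) (.leaf 0 [(30,[(10,3968),(0,2),(34,992)])]), .leaf 1 [(0,[(9,2048)])], .leaf 4 [(0,[(12,624),(19,176),(32,272),(3,544),(1,384)]),(0,[(12,576),(32,512),(3,848),(1,448)]),(0,[(12,384),(32,384)]),(0,[]),(0,[(9,128),(3,320),(33,32)])], .leaf 0 [(0,[])], .leaf 1 [(0,[])], .leaf 0 [(0,[])]]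
noncomputable def t0 : TT := a0
theorem c0 : chkT (fsm (-1) ([4,4,-1,0,0,0,0,0,0,0] : Fm) :: fsm (-1) ([0,0,0,-1,1,0,0,0,0,0] : Fm) :: ([0,0,0,0,0,0,0,-1,1,0] : Fm) :: ([0,0,0,-2,0,0,0,1,0,0] : Fm) :: fsm (-1) ([0,0,0,-1,-1,0,0,-1,1,0] : Fm) :: K2O10.C0) t0 = true := by decide +kernel
end K2O10M10011

namespace K2O10M10100
noncomputable def a0 : TT := .leaf ⟨false,1,1,0,2,3,15,[[0,0,0,5],[0,0,0,0,3],[],[0,0,0,-1,0,-1,0,0,0,1],[],[],[0,0,0,0,2],[],[],[],[]]⟩ [.leaf 0 [(0,[])], .leaf 0 [(0,[])], .leaf 0 [(0,[])], .leaf 0 [(0,[])], .leaf 0 [(0,[])], .leaf 0 [(0,[])], .leaf 0 [(0,[(31,128),(32,128),(3,128)])], .leaf 0 [(0,[])], .leaf 0 [(0,[])], .leaf 0 [(0,[])], .leaf 0 [(0,[])], .leaf 0 [(0,[])], .leaf 0 [(0,[])], .leaf 0 [(0,[])], .leaf 0 [(0,[(32,256),(2,256)])], .leaf 0 [(0,[])], .leaf 0 [(0,[(9,256),(12,512),(19,448),(24,64),(26,64),(3,608),(2,512),(33,64)])], .leaf 0 [(0,[(9,256),(12,416),(19,352),(24,64),(26,64),(32,1376),(3,960),(33,64)])],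 .leaf 0 [(0,[(13,512),(22,512),(31,1408),(32,1280),(3,896),(2,384)])], .leaf 0 [(0,[(31,128),(32,64)])], .leaf 0 [(0,[(31,128)])], .leaf 0 [(0,[])], .leaf 0 [(2,[(9,6016),(19,32),(22,32),(25,32),(31,320),(32,256),(1,4640),(34,32)])], .leaf 0 [(0,[(13,784),(22,272),(31,144),(32,384),(3,384)]),(0,[(13,512),(31,416),(1,384)]),(0,[(13,256),(32,384),(3,384)]),(0,[(9,1184),(13,80),(19,432),(31,416),(32,496),(1,1416),(34,216)]),(0,[(13,928),(22,416),(32,64)])], .leaf 1 [(0,[(31,64)])], .split 0 0 (.leaf 0 [(0,[(0,1)])]) (.leaf 1 [(30,[(10,3968),(32,3836),(0,2),(34,992)])]), .leaf 0 [(0,[(9,128),(33,32)])], .leaf 2 [(0,[(9,2048),(31,128),(32,64)])], .leaf 4 [(0,[(13,240),(14,512),(22,240),(31,208),(32,160),(3,480),(2,192)]),(0,[(13,272),(14,512),(22,272),(31,304),(32,32),(3,480)]),(0,[(32,192),(3,432),(2,192)]),(2,[(9,3584),(14,896),(19,640),(22,640),(31,704),(2,576),(34,640)]),(0,[(14,512),(31,448),(3,512),(1,1184)])],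 .leaf 0 [(0,[(31,64),(32,64)])], .leaf 1 [(0,[(9,128),(33,32)])], .split 1 0 (.leaf 1 [(0,[(0,1)])]) (.leaf 0 [(30,[(10,3968),(32,3836),(33,128),(0,2),(34,992)])]), .leaf 1 [(0,[(9,2048),(31,128),(32,64)])], .leaf 1 [(0,[(9,192),(12,560),(24,48),(26,48),(32,560),(3,632),(2,96),(33,48)]),(0,[(9,192),(12,560),(24,48),(26,48),(32,176),(33,48)]),(0,[(24,96),(3,144),(0,96)]),(0,[(9,2240),(24,96),(33,48)]),(0,[(9,320),(12,544),(24,128),(26,32),(3,152),(33,80)])], .leaf 0 [(0,[(31,128)])], .leaf 1 [(0,[(9,256),(13,64),(14,64),(31,124),(33,64)])], .leaf 0 [(0,[(9,256),(13,64),(14,64),(31,124),(33,64)])]]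
noncomputable def t0 : TT := a0
theorem c0 : chkT (([4,4,-1,0,0,0,0,0,0,0] : Fm) :: ([0,0,0,-1,1,0,0,0,0,0] : Fm) :: fsm (-1) ([0,0,0,0,0,0,0,-1,1,0] : Fm) :: ([0,0,0,-2,0,0,0,1,0,0] : Fm) :: fsm (-1) ([0,0,0,-1,-1,0,0,-1,1,0] : Fm) :: K2O10.C0) t0 = true := by decide +kernel
end K2O10M10100

namespace K2O10M10101
noncomputable def a0 : TT := .leaf ⟨true,0,33,31,64,1,8183,[[],[0,0,0,0,2046],[0,1023,0,0,1023],[0,0,0,-1023,-1023,0,0,0,1023],[0,0,0,0,2046],[],[],[],[0,0,0,0,62],[0,33,0,0,33],[0,0,0,0,248]]⟩ [.leaf 0 [(0,[])], .leaf 0 [(0,[])], .leaf 0 [(0,[])], .leaf 0 [(1,[(9,132),(14,66),(1,165),(33,33)])], .leaf 0 [(0,[])], .leaf 0 [(0,[])], .leaf 0 [(0,[(9,3844),(12,9610),(0,1922),(33,961)])], .leaf 0 [(0,[]),(0,[]),(0,[]),(0,[]),(0,[]),(0,[])], .leaf 0 [(0,[(32,130944),(3,130944)])], .leaf 0 [(0,[])], .leaf 0 [(0,[])], .leaf 0 [(0,[])], .leaf 0 [(0,[])], .leaf 0 [(0,[])], .leaf 0 [(0,[])],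 .leaf 0 [(0,[])], .leaf 0 [(0,[])], .leaf 0 [(0,[])], .leaf 0 [(0,[(19,130944),(32,261888),(3,589248),(2,523776)])], .leaf 0 [(0,[(12,327360),(19,458304),(32,458304)])], .leaf 0 [(0,[(13,458304),(22,327360),(25,130944),(31,589248),(32,130944)])], .leaf 0 [(0,[(32,32736)])], .leaf 0 [(0,[(1,130944)])], .leaf 0 [(0,[(9,190464),(12,181536),(24,32736),(32,98208),(3,98208),(1,184512),(0,62496),(33,47616)])], .leaf 0 [(0,[(9,1047552),(32,32736),(1,1211232)])], .leaf 0 [(0,[(13,474672),(22,212784),(31,49104)]),(0,[(13,261888),(31,261888)]),(0,[(12,163680),(13,130944),(0,40920)]),(0,[(9,654720),(13,261888),(25,196416),(31,65472),(32,229152),(1,491040),(34,98208)]),(0,[(13,409200),(22,147312),(31,114576)])], .leaf 1 [(0,[(9,83328),(12,77376),(32,98208),(3,98208),(1,101184),(0,41664),(33,20832)])], .split 0 0 (.leaf 0 [(0,[(0,1)])]) (.leaf 1 [(30,[(10,2029632),(13,1014816),(2,6461268),(0,2),(34,507408)])]),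 .leaf 0 [(0,[(9,180048),(12,151404),(32,126852),(3,126852),(1,163680),(0,57288),(33,45012)])], .leaf 2 [(0,[(9,1047552),(32,32736),(1,1211232)])], .leaf 4 [(0,[(14,278256),(19,16368),(22,16368),(31,245520),(32,343728),(3,392832),(2,196416)]),(0,[(14,310992),(19,49104),(22,49104),(31,212784),(32,180048),(3,360096)]),(0,[(12,229152),(23,65472),(3,245520),(0,114576)]),(0,[(9,65472),(25,229152),(31,32736),(2,32736),(1,49104),(34,245520)]),(0,[(14,343728),(19,81840),(22,81840),(31,180048),(3,130944),(2,49104),(1,1162128)])], .leaf 0 [(0,[(9,83328),(12,77376),(32,130944),(3,98208),(1,166656),(0,41664),(33,20832)])], .leaf 1 [(0,[(9,162192),(12,139500),(32,126852),(3,126852),(1,177072),(0,48360),(33,40548)])], .split 0 0 (.leaf 0 [(0,[(0,1)])]) (.leaf 1 [(30,[(10,589248),(33,1014816),(0,9),(34,147312)])]), .leaf 1 [(0,[(9,1047552),(32,32736),(1,1211232)])], .leaf 4 [(0,[(12,261888),(19,65472),(32,458304),(3,327360),(2,327360)]),(0,[(12,425568),(19,163680),(32,294624),(3,229152),(2,163680)]),(0,[(12,163680),(32,294624),(2,98208)]),(0,[(3,229152)]),(0,[(9,65472),(20,24552),(3,286440),(33,16368)])],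 .leaf 0 [(0,[])], .leaf 1 [(0,[(19,32736),(32,32736)])], .leaf 0 [(0,[(19,32736),(32,32736),(1,192324)])]]
noncomputable def t0 : TT := a0
theorem c0 : chkT (fsm (-1) ([4,4,-1,0,0,0,0,0,0,0] : Fm) :: ([0,0,0,-1,1,0,0,0,0,0] : Fm) :: fsm (-1) ([0,0,0,0,0,0,0,-1,1,0] : Fm) :: ([0,0,0,-2,0,0,0,1,0,0] : Fm) :: fsm (-1) ([0,0,0,-1,-1,0,0,-1,1,0] : Fm) :: K2O10.C0) t0 = true := by decide +kernel
end K2O10M10101

namespace K2O10M10110
noncomputable def a0 : TT := .leaf ⟨true,31,33,0,64,3,16367,[[0,0,0,0,5115],[0,0,0,0,5115],[],[1023,1023,0,-3069,-3069,0,0,1023,1023],[],[],[0,0,0,0,5115],[0,0,0,0,165],[0,0,0,0,155],[],[0,0,0,0,496]]⟩ [.leaf 0 [(0,[])], .leaf 0 [(0,[])], .leaf 0 [(0,[])], .leaf 0 [(0,[])], .leaf 0 [(0,[(2,15376)])], .leaf 0 [(0,[])], .leaf 0 [(0,[])], .leaf 0 [(0,[]),(0,[]),(0,[]),(0,[]),(0,[]),(0,[])], .leaf 0 [(0,[(13,130944),(33,130944),(4,261888),(2,130944)])], .leaf 0 [(0,[])],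 .leaf 0 [(0,[])], .leaf 0 [(0,[])], .leaf 0 [(0,[])], .leaf 0 [(0,[])], .leaf 0 [(0,[])], .leaf 0 [(0,[])], .leaf 0 [(0,[])], .leaf 0 [(0,[])], .leaf 0 [(0,[(20,130944),(4,851136),(3,261888)])], .leaf 0 [(0,[(20,130944),(33,1702272),(4,654720)])], .leaf 0 [(0,[(14,261888),(20,130944),(23,261888),(32,1833216),(33,1309440),(4,1047552),(2,1178496)])], .leaf 0 [(0,[(13,130944),(33,130944),(2,130944)])], .leaf 0 [(0,[(21,65472),(4,196416)])], .leaf 0 [(0,[(0,65472)])], .leaf 1 [(0,[(13,130944),(4,130944)])], .leaf 1 [(0,[(14,703824),(20,98208),(23,180048),(32,343728),(33,491040),(4,294624),(2,392832)]),(0,[(14,523776),(20,98208),(32,523776),(33,196416)]),(0,[(14,392832),(26,98208),(33,196416)]),(0,[(14,523776),(20,98208),(32,523776),(33,196416)]),(0,[(14,523776),(20,98208),(32,523776),(33,261888)])], .leaf 1 [(0,[(13,130944),(4,130944)])], .split 0 0 (.leaf 0 [(0,[(0,1)])]) (.leaf 1 [(30,[(14,3797376),(18,2029632),(5,3797376),(0,33)])]),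 .leaf 0 [(6,[(10,507408),(13,378510),(17,204600),(21,509454),(33,378510),(4,1775928),(34,126852)])], .leaf 0 [(0,[(21,65472),(4,196416)])], .leaf 0 [(0,[(14,163680),(15,523776),(20,98208),(23,163680),(32,360096),(4,310992),(2,392832)]),(0,[(23,98208),(32,196416),(4,376464)]),(0,[(14,163680),(15,523776),(20,98208),(23,163680),(32,360096),(2,1047552)]),(0,[(15,523776),(20,98208),(32,523776),(4,114576)]),(0,[(15,523776),(20,98208),(32,523776),(4,114576)])], .split 0 0 (.leaf 0 [(0,[(0,1)])]) (.leaf 1 [(30,[(11,4059264),(26,2029632),(3,12374208),(0,2),(35,1014816)])]), .leaf 2 [(0,[(20,130944),(4,851136),(3,261888)])], .split 0 0 (.leaf 0 [(0,[(0,1)])]) (.leaf 1 [(30,[(11,1178496),(34,1014816),(3,4255680),(0,9),(35,294624)])]), .leaf 2 [(0,[(21,65472),(4,196416)])], .leaf 2 [(0,[(13,425568),(4,327360),(2,327360)]),(0,[(13,425568),(33,327360)]),(0,[(4,376464)]),(0,[(4,376464)]),(0,[(25,65472),(4,376464),(1,65472)])],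 .leaf 0 [(0,[(13,130944),(33,65472),(2,261888)])], .leaf 1 [(0,[(13,61380),(33,126852),(2,257796)])], .leaf 2 [(0,[(20,130944),(4,851136),(3,261888)])]]
noncomputable def a1 : TT := .leaf ⟨true,31,33,0,64,3,8183,[[0,0,0,0,3069],[0,0,0,0,3069],[],[1023,1023,0,-2046,-2046,0,0,1023,1023],[],[],[0,0,0,0,3069],[0,0,0,0,99],[0,0,0,0,93],[],[0,0,0,0,248]]⟩ [.leaf 0 [(0,[])], .leaf 0 [(0,[])], .leaf 0 [(0,[])], .leaf 0 [(0,[])], .leaf 0 [(0,[(2,7688)])], .leaf 0 [(0,[])], .leaf 0 [(0,[])], .leaf 0 [(0,[]),(0,[]),(0,[]),(0,[]),(0,[]),(0,[])], .leaf 0 [(0,[(13,261888),(20,130944)])], .leaf 0 [(0,[])], .leaf 0 [(0,[])], .leaf 0 [(0,[])], .leaf 0 [(0,[])], .leaf 0 [(0,[])], .leaf 0 [(0,[])], .leaf 0 [(0,[])], .leaf 0 [(0,[])], .leaf 0 [(0,[])], .leaf 0 [(0,[(20,130944),(4,392832),(3,261888)])], .leaf 0 [(0,[(20,130944),(33,785664),(4,261888)])], .leaf 0 [(0,[(20,43648),(32,261888),(33,174592),(4,87296),(0,43648)])],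 .leaf 0 [(0,[(2,261888)])], .leaf 0 [(0,[(4,130944)])], .leaf 0 [(0,[(10,65472),(21,57288),(25,32736),(4,188232),(34,16368)])], .leaf 1 [(0,[(4,130944)])], .leaf 0 [(0,[(14,196416),(26,65472),(33,196416),(4,65472),(0,16368)]),(0,[(20,81312),(32,253440),(33,179520),(4,16896),(0,8448)]),(0,[(14,32736),(24,32736),(26,98208),(33,196416)]),(2,[(10,960256),(20,120032),(26,305536),(33,1331264),(4,1473120),(0,480128),(35,545600)]),(0,[(26,65472),(33,163680),(0,16368)])], .leaf 0 [(0,[(10,69696),(21,63096),(25,34848),(4,198264),(0,2112),(34,17424)])], .leaf 0 [(2,[(13,188232),(17,130944),(18,1364),(25,110484),(4,208692),(0,110484),(35,10912)])], .leaf 0 [(0,[(10,65472),(21,57288),(4,184140),(34,16368)])], .leaf 0 [(0,[(4,130944)])], .leaf 2 [(60,[(15,4812192),(23,4550304),(28,6612672),(32,4092000),(4,9738960),(3,5008608),(0,720192)]),(0,[(15,261888),(20,98208),(32,196416),(4,32736)]),(0,[(23,65472),(3,130944),(2,261888),(0,16368)]),(382,[(10,92184576),(15,23046144),(17,45372096),(20,22686048),(23,31884864),(4,119650080),(0,46092288),(35,77256960)]),(0,[(15,261888),(20,130944),(32,261888),(4,32736)])],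 .leaf 0 [(0,[(21,49104),(4,147312)])], .leaf 0 [(4,[(10,371008),(25,115940),(27,115940),(1,46376),(0,68200),(34,92752)])], .leaf 0 [(78,[(10,1243968),(25,100254),(33,10121562),(2,11079090),(1,2064414),(0,100254),(34,310992)])], .leaf 2 [(0,[(4,130944)])], .leaf 4 [(0,[(13,261888),(20,65472),(33,130944),(4,261888),(2,261888)]),(0,[(13,327360),(33,294624),(4,458304),(2,294624)]),(0,[(13,163680),(2,491040)]),(0,[(4,196416)]),(28,[(10,3666432),(13,10279104),(25,916608),(27,916608),(33,8445888),(4,16891776),(2,6809088),(0,1833216),(34,916608)])], .leaf 0 [(0,[(13,130944),(33,98208),(2,65472)])], .leaf 0 [(0,[(10,27280),(25,13640),(33,9548),(0,13640),(34,6820)])], .leaf 0 [(0,[(21,16368),(4,143220)])]]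
noncomputable def t0 : TT := (.split [2,2,0,-6,14,32,0,2,2,-1] a0 a1)
theorem c0 : chkT (([4,4,-1,0,0,0,0,0,0,0] : Fm) :: fsm (-1) ([0,0,0,-1,1,0,0,0,0,0] : Fm) :: fsm (-1) ([0,0,0,0,0,0,0,-1,1,0] : Fm) :: ([0,0,0,-2,0,0,0,1,0,0] : Fm) :: fsm (-1) ([0,0,0,-1,-1,0,0,-1,1,0] : Fm) :: K2O10.C0) t0 = true := by decide +kernel
end K2O10M10110

namespace K2O10M10111
noncomputable def a0 : TT := .leaf ⟨true,0,31,33,64,3,16367,[[],[0,0,0,0,5115],[0,0,0,0,5115],[0,0,0,-8184,-4092,0,0,8184],[0,0,0,0,9207],[],[],[],[0,0,0,0,165],[0,0,0,0,155],[0,0,0,0,528]]⟩ [.leaf 0 [(0,[])], .leaf 0 [(0,[])], .leaf 0 [(0,[])], .leaf 0 [(0,[])], .leaf 0 [(0,[])], .leaf 0 [(0,[])], .leaf 0 [(0,[(9,6336),(12,15840),(1,4752),(0,3168),(33,1584)])], .leaf 0 [(0,[]),(0,[]),(0,[]),(0,[]),(0,[]),(0,[])], .leaf 0 [(0,[(3,785664),(1,523776)])], .leaf 0 [(0,[])], .leaf 0 [(0,[])], .leaf 0 [(0,[])], .leaf 0 [(0,[])], .leaf 0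 [(0,[])], .leaf 0 [(0,[])], .leaf 0 [(0,[])], .leaf 0 [(0,[])], .leaf 0 [(0,[])], .leaf 0 [(0,[(3,916608),(1,785664)])], .leaf 0 [(0,[(32,1571328),(3,261888)])], .leaf 0 [(0,[(13,523776),(22,523776),(31,1571328),(32,1047552)])], .leaf 0 [(0,[])], .leaf 0 [(0,[(3,523776),(2,65472)])], .leaf 0 [(0,[(9,130944),(12,32736),(24,32736),(26,32736),(3,900240),(2,32736),(1,556512),(33,32736)])], .leaf 1 [(0,[(3,523776),(2,65472)])], .leaf 1 [(0,[(13,523776),(31,523776),(32,785664)]),(0,[(13,523776),(31,523776),(32,785664)]),(0,[(27,261888),(32,523776),(1,130944),(0,65472)]),(0,[(13,523776),(31,523776),(32,785664)]),(0,[(13,523776),(31,523776),(32,851136)])], .leaf 1 [(0,[(3,818400),(2,65472),(1,589248)])], .split 0 0 (.leaf 0 [(0,[(0,1)])]) (.leaf 1 [(30,[(10,4059264),(4,19248768),(3,130944),(0,2),(34,1014816)])]), .leaf 0 [(0,[(9,130944),(3,941160),(1,638352),(33,32736)])], .leaf 0 [(0,[(4,65472),(3,556512)])],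 .leaf 0 [(0,[(13,81840),(14,523776),(22,81840),(31,441936),(32,360096),(3,98208),(1,98208)]),(0,[(12,507408),(27,261888),(1,245520),(0,126852)]),(0,[(14,523776),(31,523776),(32,327360)]),(0,[(14,523776),(31,523776),(32,261888)]),(0,[(14,523776),(31,523776),(32,261888)])], .leaf 0 [(0,[(3,818400),(1,523776)])], .leaf 1 [(0,[(9,130944),(3,961620),(1,613800),(33,32736)])], .split 0 0 (.leaf 0 [(0,[(0,1)])]) (.leaf 1 [(30,[(10,392832),(0,3),(34,98208)])]), .leaf 2 [(0,[(3,523776),(2,65472)])], .leaf 4 [(0,[(12,572880),(19,49104),(32,474672),(3,425568),(1,425568)]),(0,[(12,523776),(32,458304),(3,932976),(1,360096)]),(0,[(12,458304),(32,360096)]),(0,[(12,523776)]),(0,[(20,261888),(3,261888)])], .leaf 0 [(0,[(4,65472)])], .leaf 1 [(0,[(19,65472),(2,65472)])], .leaf 0 [(0,[(19,65472),(3,540144),(2,65472)])]]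
noncomputable def t0 : TT := a0
theorem c0 : chkT (fsm (-1) ([4,4,-1,0,0,0,0,0,0,0] : Fm) :: fsm (-1) ([0,0,0,-1,1,0,0,0,0,0] : Fm) :: fsm (-1) ([0,0,0,0,0,0,0,-1,1,0] : Fm) :: ([0,0,0,-2,0,0,0,1,0,0] : Fm) :: fsm (-1) ([0,0,0,-1,-1,0,0,-1,1,0] : Fm) :: K2O10.C0) t0 = true := by decide +kernel
end K2O10M10111

namespace K2O10M10000
theorem top : ∃ t, chkT (([4,4,-1,0,0,0,0,0,0,0] : Fm) :: ([0,0,0,-1,1,0,0,0,0,0] : Fm) :: ([0,0,0,0,0,0,0,-1,1,0] : Fm) :: ([0,0,0,-2,0,0,0,1,0,0] : Fm) :: fsm (-1) ([0,0,0,-1,-1,0,0,-1,1,0] : Fm) :: K2O10.C0) t = true := ⟨_, c0⟩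
end K2O10M10000
namespace K2O10M10001
theorem top : ∃ t, chkT (fsm (-1) ([4,4,-1,0,0,0,0,0,0,0] : Fm) :: ([0,0,0,-1,1,0,0,0,0,0] : Fm) :: ([0,0,0,0,0,0,0,-1,1,0] : Fm) :: ([0,0,0,-2,0,0,0,1,0,0] : Fm) :: fsm (-1) ([0,0,0,-1,-1,0,0,-1,1,0] : Fm) :: K2O10.C0) t = true := ⟨_, c0⟩
end K2O10M10001
namespace K2O10M10010
theorem top : ∃ t, chkT (([4,4,-1,0,0,0,0,0,0,0] : Fm) :: fsm (-1) ([0,0,0,-1,1,0,0,0,0,0] : Fm) :: ([0,0,0,0,0,0,0,-1,1,0] : Fm) :: ([0,0,0,-2,0,0,0,1,0,0] : Fm) :: fsm (-1) ([0,0,0,-1,-1,0,0,-1,1,0] : Fm) :: K2O10.C0) t = true := ⟨_, c0⟩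
end K2O10M10010
namespace K2O10M10011
theorem top : ∃ t, chkT (fsm (-1) ([4,4,-1,0,0,0,0,0,0,0] : Fm) :: fsm (-1) ([0,0,0,-1,1,0,0,0,0,0] : Fm) :: ([0,0,0,0,0,0,0,-1,1,0] : Fm) :: ([0,0,0,-2,0,0,0,1,0,0] : Fm) :: fsm (-1) ([0,0,0,-1,-1,0,0,-1,1,0] : Fm) :: K2O10.C0) t = true := ⟨_, c0⟩
end K2O10M10011
namespace K2O10M10100
theorem top : ∃ t, chkT (([4,4,-1,0,0,0,0,0,0,0] : Fm) :: ([0,0,0,-1,1,0,0,0,0,0] : Fm) :: fsm (-1) ([0,0,0,0,0,0,0,-1,1,0] : Fm) :: ([0,0,0,-2,0,0,0,1,0,0] : Fm) :: fsm (-1) ([0,0,0,-1,-1,0,0,-1,1,0] : Fm) :: K2O10.C0) t = true := ⟨_, c0⟩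
end K2O10M10100
namespace K2O10M10101
theorem top : ∃ t, chkT (fsm (-1) ([4,4,-1,0,0,0,0,0,0,0] : Fm) :: ([0,0,0,-1,1,0,0,0,0,0] : Fm) :: fsm (-1) ([0,0,0,0,0,0,0,-1,1,0] : Fm) :: ([0,0,0,-2,0,0,0,1,0,0] : Fm) :: fsm (-1) ([0,0,0,-1,-1,0,0,-1,1,0] : Fm) :: K2O10.C0) t = true := ⟨_, c0⟩
end K2O10M10101
namespace K2O10M10110
theorem top : ∃ t, chkT (([4,4,-1,0,0,0,0,0,0,0] : Fm) :: fsm (-1) ([0,0,0,-1,1,0,0,0,0,0] : Fm) :: fsm (-1) ([0,0,0,0,0,0,0,-1,1,0] : Fm) :: ([0,0,0,-2,0,0,0,1,0,0] : Fm) :: fsm (-1) ([0,0,0,-1,-1,0,0,-1,1,0] : Fm) :: K2O10.C0) t = true := ⟨_, c0⟩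
end K2O10M10110
namespace K2O10M10111
theorem top : ∃ t, chkT (fsm (-1) ([4,4,-1,0,0,0,0,0,0,0] : Fm) :: fsm (-1) ([0,0,0,-1,1,0,0,0,0,0] : Fm) :: fsm (-1) ([0,0,0,0,0,0,0,-1,1,0] : Fm) :: ([0,0,0,-2,0,0,0,1,0,0] : Fm) :: fsm (-1) ([0,0,0,-1,-1,0,0,-1,1,0] : Fm) :: K2O10.C0) t = true := ⟨_, c0⟩
end K2O10M10111
def K2O10P10 := (splE (splE (splE K2O10M10000.top K2O10M10001.top) (splE K2O10M10010.top K2O10M10011.top)) (splE (splE K2O10M10100.top K2O10M10101.top) (splE K2O10M10110.top K2O10M10111.top)))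

end Vale.Agent.P235
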