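import Vale.Agent.P235.T.K2O10C
import Vale.Agent.P235.T.K2O10P1101F0
import Vale.Agent.P235.T.K2O10P1101F1

namespace Vale.Agent.P235

set_option maxRecDepth 100000

namespace K2O10M1101101110
noncomputable def a0 : TT := .leaf ⟨true,8,0,1,9,2,255,[[0,0,0,256,0,0,0,-200],[],[0,0,0,0,0,0,0,24],[0,0,0,0,0,0,0,16],[],[0,0,0,0,0,0,0,16],[],[0,0,0,32,0,0,0,-25],[],[0,0,0,0,0,0,0,24],[0,0,0,32]]⟩ [.leaf 0 [(0,[(8,7),(3,18)])], .leaf 0 [(0,[])], .leaf 0 [(0,[])], .leaf 0 [(0,[])], .leaf 0 [(0,[])], .leaf 0 [(0,[])], .leaf 0 [(0,[(17,32),(5,8),(4,8)])], .leaf 0 [(0,[]),(0,[]),(0,[]),(0,[]),(0,[]),(0,[])], .leaf 0 [(0,[])], .leaf 0 [(0,[])], .leaf 0 [(0,[])], .leaf 0 [(0,[])], .leaf 0 [(0,[])], .leaf 0 [(0,[(8,48128),(3,133120)])], .leaf 0 [(0,[])], .leaf 0 [(0,[])], .leaf 0 [(0,[(8,50176),(3,129024)])], .leaf 0 [(0,[])], .leaf 0 [(0,[])], .leaf 0 [(0,[(0,16384)])],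 .leaf 0 [(0,[(36,32768),(0,16384)])], .leaf 0 [(0,[])], .leaf 0 [(0,[(9,1024),(3,21504)])], .leaf 0 [(32,[(14,67584),(31,33792),(3,912384),(1,1024),(38,16896)])], .leaf 0 [(0,[(14,32768)])], .leaf 0 [(0,[(13,32768),(24,8192),(30,8192),(39,8192)]),(0,[(20,1024),(24,7168),(30,8192),(39,8192)]),(4,[(17,82944),(20,1024),(5,24576),(0,7680),(39,8192)]),(0,[(24,8192),(30,8192),(39,8192)]),(32,[(18,270336),(36,270336),(8,1629440),(7,540672),(3,4072960),(1,16384)])], .leaf 1 [(32,[(9,33792),(3,912384),(1,2048)])], .leaf 0 [(0,[(17,1216),(26,1024),(5,560),(4,560),(3,192)])], .leaf 0 [(32,[(8,158336),(5,8448),(4,42240),(3,699136),(1,1024)])], .leaf 2 [(0,[(14,32768),(3,179200)])], .leaf 2 [(0,[(19,8192),(36,8192),(0,4096)]),(0,[(32,7168),(3,14848)]),(0,[(19,16384),(30,8192)]),(98,[(14,811008),(27,405504),(36,405504),(3,17284608),(2,270336),(1,8192),(39,608256)]),(0,[(19,8192),(36,8192),(0,4096)])],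 .leaf 0 [(0,[(3,27648)])], .leaf 0 [(98,[(31,101376),(8,196416),(4,101376),(2,33792),(1,4096)])], .leaf 1 [(0,[(8,192)])], .leaf 1 [(0,[(14,32768),(8,28672),(3,172032)])], .leaf 1 [(0,[(17,8192),(0,4096)]),(0,[(17,8192),(0,4096)]),(0,[(8,2304),(7,7168),(3,11776)]),(32,[(14,1081344),(25,270336),(8,142592),(3,6235648),(1,16384)]),(0,[(17,8192),(0,4096)])], .leaf 1 [(0,[(8,10240),(3,11264)])], .leaf 0 [(0,[(8,384)])], .leaf 0 [(2,[(3,64320),(2,1024)])]]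
noncomputable def t0 : TT := a0
theorem c0 : chkT (([0,0,0,-2,-2,0,0,1,2,0] : Fm) :: fsm (-1) ([0,0,0,-31,33,0,0,0,0,0] : Fm) :: fsm (-1) ([3,3,0,-4,-4,0,0,0,0,0] : Fm) :: fsm (-1) ([0,0,0,-1,0,0,0,1,0,0] : Fm) :: ([0,0,-1,0,0,4,0,0,0,0] : Fm) :: fsm (-1) ([4,4,-1,0,0,0,0,0,0,0] : Fm) :: fsm (-1) ([0,0,0,-1,1,0,0,0,0,0] : Fm) :: ([0,0,0,0,0,0,0,-1,1,0] : Fm) :: fsm (-1) ([0,0,0,-2,0,0,0,1,0,0] : Fm) :: fsm (-1) ([0,0,0,-1,-1,0,0,-1,1,0] : Fm) :: K2O10.C0) t0 = true := by decide +kernel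
end K2O10M1101101110

namespace K2O10M11011011110
noncomputable def a0 : TT := .leaf ⟨true,8,1,0,9,1,65535,[[1496,1496,0,48600,-16936,0,0,-42976,15440],[-184,-184,0,1776,1776,0,0,5528,-1592],[],[1680,1680,0,-9776,-9776,0,0,8096,8096],[],[],[-1312,-1312,0,2616,2616,0,0,43552,-1304],[187,187,0,6075,-2117,0,0,-5372,1930],[-184,-184,0,1776,1776,0,0,5528,-1592],[],[0,0,0,8192]]⟩ [.leaf 0 [(0,[(22,187),(42,1930),(8,3442)])], .leaf 0 [(0,[(29,184),(5,888)])], .leaf 0 [(0,[])], .leaf 0 [(1,[(29,6),(5,341)])], .leaf 0 [(0,[])], .leaf 0 [(0,[(4,8192)])], .leaf 0 [(0,[])], .leaf 0 [(0,[]),(0,[]),(0,[]),(0,[]),(0,[]),(0,[])], .leaf 0 [(0,[(22,1251328),(29,1036288)])], .leaf 0 [(0,[])], .leaf 0 [(0,[(29,164864),(5,795648)])], .leaf 0 [(0,[])], .leaf 0 [(0,[])], .leaf 0 [(0,[(22,1340416),(42,13834240),(8,24672256)])], .leaf 0 [(0,[])], .leaf 0 [(0,[(29,167936),(5,167424)])],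 .leaf 0 [(2,[(22,4525056),(12,42003456),(8,90240000),(6,1272832)])], .leaf 0 [(0,[(31,3072),(5,628224)])], .leaf 0 [(0,[(22,1143808),(29,1143808)])], .leaf 0 [(0,[(22,4742144),(29,5172224)])], .leaf 0 [(2,[(22,246016),(41,2846720),(3,1394944)])], .leaf 0 [(0,[(5,571904)])], .leaf 0 [(0,[(30,430080),(8,4742144)])], .leaf 0 [(98,[(12,349307904),(9,12976128),(6,11734016),(5,22640640),(0,12976128)])], .leaf 1 [(0,[(22,1338368),(29,1120256),(6,262144)])], .leaf 0 [(0,[(18,8388608),(29,2402048),(35,2097152),(5,1282176),(44,2097152)]),(28,[(18,174768128),(23,17125376),(29,50780672),(35,43692032),(5,26449408),(4,24727552),(3,1070336),(44,43692032)]),(0,[(22,2493056),(10,682496),(3,91520)]),(0,[(29,2590464),(35,2097152),(5,2191488),(44,2097152)]),(0,[(22,1011968),(23,2097152),(41,2097152),(42,16709120),(8,24986112)])], .leaf 1 [(6,[(13,3833856),(12,20919296),(6,826368),(5,1546240)])],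 .leaf 0 [(0,[(35,116640),(41,116640),(10,2992),(9,2992),(4,162400),(0,116640)])], .leaf 0 [(32,[(42,108890848),(9,8650752),(6,631680),(5,9758144)])], .leaf 2 [(10,[(19,87490560),(22,18957312),(42,173505536),(8,298762240),(2,149504),(44,1196032)])], .leaf 2 [(2,[(22,226240),(24,1669120),(41,400384),(3,79296),(1,577792)]),(988,[(22,113438464),(37,1976647680),(12,2288432384),(10,16523264),(6,67343616),(5,394771456),(0,80912384)]),(0,[(29,72960),(5,1074688),(1,262144)]),(32,[(32,69206016),(42,431937792),(8,1002912768),(7,7797504),(6,236288),(44,69206016)]),(0,[(29,284928),(5,1525760),(1,262144)])], .leaf 0 [(34,[(13,18382848),(12,114295808),(6,3869696),(5,7993344)])], .leaf 0 [(10,[(13,2490400),(10,360448),(9,1802240),(6,99296),(0,1441792)])], .leaf 1 [(8,[(13,907632),(7,35904),(6,1088),(5,394992)])], .leaf 1 [(0,[(19,8388608),(22,1558528),(42,15216640),(8,22355968)])],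 .leaf 1 [(0,[(22,3255808),(29,1319936)]),(0,[(22,860672),(31,860160)]),(2,[(42,4911616),(12,8103424),(5,1650688)]),(32,[(19,276824064),(12,511509504),(8,719026176),(6,18779648)]),(0,[(22,2004480),(29,283648)])], .leaf 1 [(0,[(12,4695040),(5,739328)])], .leaf 0 [(0,[(13,50256),(7,4480),(5,50256)])], .leaf 0 [(0,[(13,2353200),(12,3045424)])]]
noncomputable def a1 : TT := .leaf ⟨true,8,1,0,9,1,65535,[[1496,1496,0,48600,-16936,0,0,-42976,15440],[-184,-184,0,1776,1776,0,0,5528,-1592],[],[1680,1680,0,-9776,-9776,0,0,8096,8096],[],[],[-1312,-1312,0,2616,2616,0,0,43552,-1304],[187,187,0,6075,-2117,0,0,-5372,1930],[-184,-184,0,1776,1776,0,0,5528,-1592],[],[0,0,0,8192]]⟩ [.leaf 0 [(0,[(22,187),(42,1930),(8,3442)])], .leaf 0 [(0,[(29,184),(5,888)])], .leaf 0 [(0,[])], .leaf 0 [(1,[(29,6),(5,341)])], .leaf 0 [(0,[])], .leaf 0 [(0,[(4,8192)])], .leaf 0 [(0,[])], .leaf 0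 [(0,[]),(0,[]),(0,[]),(0,[]),(0,[]),(0,[])], .leaf 0 [(0,[(22,1251328),(29,1036288)])], .leaf 0 [(0,[])], .leaf 0 [(0,[(29,164864),(5,795648)])], .leaf 0 [(0,[])], .leaf 0 [(0,[])], .leaf 0 [(0,[(22,1340416),(42,13834240),(8,24672256)])], .leaf 0 [(0,[])], .leaf 0 [(0,[(29,167936),(5,167424)])], .leaf 0 [(0,[(22,1508352),(42,14001152),(8,30080000)])], .leaf 0 [(0,[(22,3072),(5,629760)])], .leaf 0 [(0,[(22,1143808),(29,1143808)])], .leaf 0 [(0,[(22,4742144),(29,5172224)])], .leaf 0 [(1104,[(22,672486400),(32,79008768),(35,2997758976),(41,2799841280),(10,158017536),(4,70230016),(1,384595968),(0,158017536)])], .leaf 0 [(0,[(5,571904)])], .leaf 0 [(0,[(30,430080),(12,4002816),(5,739328)])], .leaf 0 [(10,[(30,1329152),(34,2883584),(12,26684416),(9,2883584),(8,13314048),(6,1063936)])], .leaf 1 [(0,[(22,1338368),(29,1120256),(6,262144)])], .leaf 0 [(4,[(18,32334848),(35,5681664),(10,2402048),(5,2807808),(0,2402048),(44,8083712)]),(24,[(18,87581184),(24,8638208),(41,28643840),(10,11892480),(5,328960),(4,25194624),(0,11892480),(44,21895296)]),(16,[(22,23013120),(27,1520128),(41,6223360),(10,12849664),(44,12161024)]),(0,[(29,2590464),(35,2097152),(5,2191488),(44,2097152)]),(98,[(23,207618048),(24,69206016),(30,100184832),(12,1207987968),(8,2819655168),(6,42677504),(0,69206016)])],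 .leaf 0 [(2,[(19,4718592),(22,2469888),(34,1179648),(36,2752512),(12,13954048),(5,4315136),(4,191488),(0,1572864),(43,1179648)])], .leaf 0 [(0,[(10,2992),(9,2992),(5,174960),(4,512320)])], .leaf 0 [(32,[(12,89374560),(9,8650752),(8,29274432),(6,3340000)])], .leaf 2 [(32,[(19,276824064),(22,56871936),(12,549221376),(8,854126592),(6,16643072)])], .leaf 4 [(2,[(22,5863536),(24,2784384),(12,618752),(10,1392192),(5,1146448),(4,618752),(1,438384),(0,1392192)]),(636,[(22,1240804096),(24,441114624),(29,478076928),(32,92491776),(10,128065536),(4,56918016),(1,123407872),(0,128065536)]),(0,[(22,850432),(37,2097152),(42,1347328),(12,706816),(10,242240),(9,504384),(8,1499648)]),(10,[(19,6744320),(32,19696512),(12,151703552),(10,1686080),(8,334028288),(6,4392704),(0,1686080),(44,21382592)]),(2,[(22,9414528),(24,4635648),(12,1030144),(10,2317824),(5,1684352),(4,1030144),(1,206976),(0,2317824)])],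 .leaf 0 [(2,[(30,1148928),(42,9171968),(13,789504),(6,69632),(5,947200)])], .leaf 0 [(98,[(34,12976128),(36,12976128),(13,30670992),(9,25952256),(7,4325376),(6,917504),(5,4718736)])], .leaf 1 [(8,[(13,907632),(7,35904),(6,1088),(5,394992)])], .leaf 1 [(98,[(19,830472192),(22,154294272),(12,2981941248),(6,90361856),(5,737746944)])], .leaf 1 [(0,[(22,3255808),(29,1319936)]),(0,[(22,860672),(31,860160)]),(0,[(30,2150912),(8,2737664)]),(32,[(19,276824064),(12,511509504),(8,719026176),(6,18779648)]),(0,[(22,2004480),(29,283648)])], .leaf 1 [(0,[(12,4695040),(5,739328)])], .leaf 0 [(0,[(12,33504),(7,4480),(5,67008)])], .leaf 0 [(0,[(30,167936),(12,3084192),(8,2146496)])]]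
noncomputable def a2 : TT := .leaf ⟨true,31,0,33,64,3,523775,[[-112530,-112530,0,281325,-242451,0,0,-168795,354981],[],[5115,5115,0,-84909,-84909,0,0,79794,79794],[72633,72633,0,-113553,-113553,0,0,40920,40920],[],[183117,183117,0,-366234,-366234,0,0,183117,183117],[],[-3630,-3630,0,9075,-7821,0,0,-5445,11451],[],[155,155,0,-2573,-2573,0,0,2418,2418],[0,0,0,16896]]⟩ [.leaf 0 [(0,[(28,3630),(41,7821),(7,1254)])], .leaf 0 [(0,[])], .leaf 0 [(0,[(21,2573),(28,2418)])], .leaf 0 [(0,[(30,3475),(4,5197)])], .leaf 0 [(0,[])], .leaf 0 [(0,[])], .leaf 0 [(0,[(21,523776),(9,130944),(8,130944),(3,33792)])], .leaf 0 [(0,[]),(0,[]),(0,[]),(0,[]),(0,[]),(0,[])], .leaf 0 [(0,[(21,14534784),(28,5237760)])], .leaf 0 [(0,[])], .leaf 0 [(0,[])], .leaf 0 [(0,[(21,76078464),(28,71495424)])], .leaf 0 [(0,[(21,46877952),(28,23438976)])], .leaf 0 [(0,[(28,124265856),(41,170358144),(7,128587008)])],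 .leaf 0 [(0,[(21,29200512),(28,48056448)])], .leaf 0 [(0,[])], .leaf 0 [(0,[(28,100826880),(41,217236096),(7,34831104)])], .leaf 0 [(0,[])], .leaf 0 [(0,[(21,5630592),(28,29986176)])], .leaf 0 [(0,[(21,10606464),(28,6154368)])], .leaf 0 [(0,[(21,7976672),(40,31601152),(2,2215136)])], .leaf 0 [(0,[(30,24355584),(4,2815296)])], .leaf 0 [(0,[(11,6154368),(6,1484032)])], .leaf 0 [(2106,[(21,4863914880),(33,11523072),(41,54356425728),(9,4391337984),(5,370964352),(0,550357632)])], .leaf 0 [(6,[(21,20427264),(28,25795968),(31,5586944),(1,13967360),(0,698368),(43,117325824)])], .leaf 0 [(6,[(17,469303296),(28,91169760),(34,112088064),(40,10475520),(4,115361664),(0,654720),(43,117325824)]),(0,[(17,67043328),(28,12276000),(34,16760832),(4,12701568),(3,2095104),(43,16760832)]),(0,[(21,15058560),(30,6972768),(40,14665728),(9,4713984),(4,4910400)]),(0,[(21,52770432),(28,60463392),(34,16760832),(43,16760832)]),(2,[(22,100564992),(28,239136480),(31,50282496),(11,631673856),(6,16629888),(5,19645568)])],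 .leaf 1 [(0,[(21,10213632),(41,26581632),(9,3993792),(8,3993792)])], .leaf 0 [(0,[(30,180048),(4,1589742),(3,4190208)])], .leaf 0 [(0,[(21,8642304),(41,26389308),(9,4089954),(8,6185058)])], .leaf 2 [(668,[(28,70702296192),(31,2965968896),(41,159384643968),(5,47838208),(1,1030878464),(0,370746112),(43,11212996608)])], .leaf 2 [(0,[(23,16760832),(28,5925216),(4,2831664),(2,1047552)]),(0,[(11,18986880),(9,5507832),(5,280736)]),(0,[(23,16760832),(30,8085792),(40,16760832),(4,7152816)]),(508,[(23,3785460096),(28,64044767688),(31,4745803392),(41,121056377640),(5,164482032),(2,236591256),(1,473182512),(43,8531263488)]),(0,[(21,10835616),(23,33521664),(28,8118528),(34,16760832)])], .leaf 0 [(0,[(21,34700160),(11,28676736),(9,10115424),(8,10115424)])], .leaf 0 [(0,[(41,372372),(9,255750),(0,261888)])], .leaf 1 [(0,[(11,421476),(5,18228),(4,842952)])], .leaf 1 [(2,[(28,307194624),(31,50282496),(11,766808064),(6,21736704),(5,23895296),(0,6285312),(43,50282496)])],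 .leaf 1 [(0,[(21,14469312),(28,5172288)]),(0,[(30,23700864),(4,8282208)]),(0,[(41,14731200),(11,1702272),(6,1702272)]),(2,[(28,276357312),(31,50282496),(11,766808064),(6,32670528),(5,24226624),(0,6285312),(43,50282496)]),(5814,[(21,452742022656),(35,12183029760),(9,109064828928),(8,89536364544),(5,4821816384),(1,1981968384)])], .leaf 1 [(0,[(11,8249472),(6,1484032)])], .leaf 0 [(0,[(41,634260),(4,1268520)])], .leaf 0 [(0,[(11,7312404),(6,2436104)])]]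
noncomputable def a3 : TT := .leaf ⟨true,8,1,0,9,1,65535,[[1496,1496,0,48600,-16936,0,0,-42976,15440],[-184,-184,0,1776,1776,0,0,5528,-1592],[],[1680,1680,0,-9776,-9776,0,0,8096,8096],[],[],[-1312,-1312,0,2616,2616,0,0,43552,-1304],[187,187,0,6075,-2117,0,0,-5372,1930],[-184,-184,0,1776,1776,0,0,5528,-1592],[],[0,0,0,8192]]⟩ [.leaf 0 [(32,[(28,6171),(10,57519),(6,113586),(4,2117)])], .leaf 0 [(0,[(27,184),(3,888)])], .leaf 0 [(0,[])], .leaf 0 [(1,[(27,6),(3,341)])], .leaf 0 [(0,[])], .leaf 0 [(0,[(2,8192)])], .leaf 0 [(0,[])], .leaf 0 [(0,[]),(0,[]),(0,[]),(0,[]),(0,[]),(0,[])], .leaf 0 [(0,[(20,1251328),(27,1036288)])], .leaf 0 [(0,[])], .leaf 0 [(0,[(27,164864),(3,795648)])], .leaf 0 [(0,[])], .leaf 0 [(0,[])], .leaf 0 [(32,[(28,44233728),(10,412296192),(6,814184448),(4,15174656)])], .leaf 0 [(0,[])], .leaf 0 [(0,[(27,167936),(3,167424)])], .leaf 0 [(0,[(20,1508352),(40,14001152),(6,30080000)])],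 .leaf 0 [(0,[(29,3072),(3,628224)])], .leaf 0 [(0,[(20,1143808),(27,1143808)])], .leaf 0 [(0,[(20,4742144),(27,5172224)])], .leaf 0 [(2,[(20,246016),(39,2846720),(1,1394944)])], .leaf 0 [(0,[(3,571904)])], .leaf 0 [(0,[(11,2371072),(10,2801152)])], .leaf 0 [(10,[(32,2883584),(40,28013568),(7,2883584),(6,13314048),(4,215040)])], .leaf 1 [(0,[(20,1338368),(27,1120256),(4,262144)])], .leaf 0 [(64,[(16,334982656),(21,42311808),(27,113821312),(33,94003072),(39,42311808),(0,1282176),(42,83745664)]),(258,[(21,261746688),(23,30502912),(27,307421696),(33,281415680),(2,144895488),(1,16359168),(0,4674048),(42,244023296)]),(0,[(20,2493056),(8,682496),(1,91520)]),(0,[(27,2590464),(33,2097152),(3,2191488),(42,2097152)]),(2,[(21,6291456),(28,3035904),(39,6291456),(10,47091456),(6,74958336),(4,1611008)])], .leaf 1 [(6,[(11,3833856),(10,20919296),(4,826368),(3,1546240)])], .leaf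 0 [(0,[(29,194912),(8,51720),(7,51720),(3,77504),(2,317408)])], .leaf 0 [(98,[(10,326672544),(7,25952256),(4,11794208),(3,29274432)])], .leaf 2 [(0,[(17,8388608),(20,1723392),(40,9242624),(10,7400448),(6,25882624),(4,224256)])], .leaf 2 [(88,[(16,101310464),(22,149258240),(27,40841472),(30,37388288),(1,9328640),(0,1507584),(42,25327616)]),(160,[(25,186496),(28,162354432),(35,295436288),(10,55307264),(8,39407744),(6,245482496),(4,6738944),(42,1491968)]),(0,[(22,1817600),(27,614656),(39,2097152),(0,17472)]),(2,[(30,6291456),(10,39267072),(6,91173888),(5,708864),(4,1211392),(42,6291456)]),(2,[(22,4550656),(27,3382016),(39,6291456),(0,108800)])], .leaf 0 [(2,[(28,1148928),(10,9698304),(4,363520),(3,1210368)])], .leaf 0 [(98,[(32,25952256),(40,7471200),(7,25952256),(5,8650752),(4,1835008),(3,14942400)])], .leaf 1 [(8,[(5,35904),(4,56096),(3,1302624)])], .leaf 1 [(32,[(17,276824064),(28,51431424),(11,126410752),(10,450717696),(6,611336192),(4,16775168)])],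 .leaf 1 [(0,[(20,3255808),(27,1319936)]),(0,[(20,860672),(29,860160)]),(0,[(28,2150912),(11,1227904),(10,1368832),(3,140928)]),(8,[(17,75497472),(20,29514240),(10,270234624),(4,8188928),(3,65366016)]),(0,[(20,2004480),(27,283648)])], .leaf 1 [(0,[(28,430080),(11,2240000),(10,2764288)])], .leaf 0 [(0,[(6,50256),(5,4480),(3,50256)])], .leaf 0 [(0,[(28,167936),(10,3084192),(6,2146496)])]]
noncomputable def a4 : TT := .leaf ⟨true,31,0,33,64,3,523775,[[-112530,-112530,0,281325,-242451,0,0,-168795,354981],[],[5115,5115,0,-84909,-84909,0,0,79794,79794],[72633,72633,0,-113553,-113553,0,0,40920,40920],[],[183117,183117,0,-366234,-366234,0,0,183117,183117],[],[-3630,-3630,0,9075,-7821,0,0,-5445,11451],[],[155,155,0,-2573,-2573,0,0,2418,2418],[0,0,0,16896]]⟩ [.leaf 0 [(0,[(26,3630),(39,7821),(5,1254)])], .leaf 0 [(0,[])], .leaf 0 [(0,[(19,2573),(26,2418)])], .leaf 0 [(0,[(28,3475),(2,5197)])],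 .leaf 0 [(0,[])], .leaf 0 [(0,[])], .leaf 0 [(0,[(19,523776),(7,130944),(6,130944),(1,33792)])], .leaf 0 [(0,[]),(0,[]),(0,[]),(0,[]),(0,[]),(0,[])], .leaf 0 [(0,[(19,14534784),(26,5237760)])], .leaf 0 [(0,[])], .leaf 0 [(0,[])], .leaf 0 [(0,[(19,76078464),(26,71495424)])], .leaf 0 [(0,[(19,46877952),(26,23438976)])], .leaf 0 [(0,[(26,124265856),(9,170358144),(5,128587008),(3,5162368)])], .leaf 0 [(0,[(19,29200512),(26,48056448)])], .leaf 0 [(0,[])], .leaf 0 [(0,[(26,100826880),(39,217236096),(5,34831104)])], .leaf 0 [(0,[])], .leaf 0 [(0,[(19,5630592),(26,29986176)])], .leaf 0 [(0,[(19,10606464),(26,6154368)])], .leaf 0 [(0,[(19,5761536),(21,26581632),(32,26581632),(38,40461696)])], .leaf 0 [(0,[(28,24355584),(2,2815296)])], .leaf 0 [(0,[(39,4670336),(9,1484032),(4,1484032)])], .leaf 0 [(0,[(19,34045440),(9,25534080),(7,9984480),(6,9984480),(0,130944)])], .leaf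 0 [(0,[(19,66519552),(26,85244544),(29,16760832),(32,16760832),(39,21998592),(0,2095104),(41,16760832)])], .leaf 0 [(0,[(15,67043328),(26,13148960),(32,16760832),(38,3491840),(2,15887872),(0,218240),(41,16760832)]),(0,[(22,2095104),(26,10180896),(32,16760832),(2,11654016),(41,16760832)]),(0,[(19,15058560),(28,6972768),(30,12046848),(38,2618880),(7,4713984),(2,4910400)]),(0,[(19,52770432),(26,60463392),(32,16760832),(41,16760832)]),(2,[(20,100564992),(26,239136480),(29,50282496),(9,631673856),(4,16629888),(3,19645568)])], .leaf 1 [(0,[(19,36795264),(9,26581632),(7,10639200),(6,10639200)])], .leaf 0 [(0,[(28,1673628),(7,373395),(6,373395),(2,842952),(1,2696628)])], .leaf 0 [(0,[(19,8642304),(39,26389308),(7,4089954),(6,6185058)])], .leaf 2 [(0,[(19,49104000),(26,168655872),(29,16760832),(32,16760832),(39,256650240),(0,2095104),(41,16760832)])], .leaf 2 [(0,[(21,22620576),(26,6972768),(32,5859744),(38,10901088)]),(0,[(27,18986880),(7,10254552),(3,280736)]),(0,[(21,16760832),(28,8085792),(38,16760832),(2,7152816)]),(0,[(19,38333856),(26,172060416),(29,16760832),(9,252460032),(3,7650304),(41,16760832)]),(0,[(19,10835616),(21,33521664),(26,8118528),(32,16760832)])],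 .leaf 0 [(0,[(19,34700160),(9,28676736),(7,10115424),(6,10115424)])], .leaf 0 [(2,[(39,1239876),(4,892056),(3,27032),(0,392832)])], .leaf 1 [(0,[(27,180048),(9,241428),(3,18228),(2,842952)])], .leaf 1 [(0,[(26,97160448),(29,16760832),(32,16760832),(39,72630272),(9,184019968),(4,8991488),(3,5848832),(0,2095104),(41,16760832)])], .leaf 1 [(0,[(19,14469312),(26,5172288)]),(0,[(28,23700864),(2,8282208)]),(0,[(10,7365600),(9,9067872),(4,1702272)]),(0,[(26,124789632),(29,16760832),(32,16760832),(9,218741952),(5,75816576),(3,6628544),(0,2095104),(41,16760832)]),(0,[(19,120403008),(26,56109504),(7,16237056),(6,16237056),(3,15872),(0,130944)])], .leaf 1 [(0,[(9,8249472),(4,1484032)])], .leaf 0 [(0,[(5,951390),(2,951390)])], .leaf 0 [(0,[(10,343046),(9,6969358),(4,2436104)])]]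
noncomputable def t0 : TT := (.split [-1,-1,0,-11,5,-16,0,8,-4,16] (.split [-16,-16,-16,-7,-48,16,0,30,64,0] (.split [7,-1,8,-13,3,-16,0,3,-2,8] (.split [1,0,1,0,2,2,0,0,-2,-2] a0 a1) a2) a3) a4)
theorem c0 : chkT (([0,0,0,-1,8,0,0,0,0,0] : Fm) :: fsm (-1) ([0,0,0,-2,-2,0,0,1,2,0] : Fm) :: fsm (-1) ([0,0,0,-31,33,0,0,0,0,0] : Fm) :: fsm (-1) ([3,3,0,-4,-4,0,0,0,0,0] : Fm) :: fsm (-1) ([0,0,0,-1,0,0,0,1,0,0] : Fm) :: ([0,0,-1,0,0,4,0,0,0,0] : Fm) :: fsm (-1) ([4,4,-1,0,0,0,0,0,0,0] : Fm) :: fsm (-1) ([0,0,0,-1,1,0,0,0,0,0] : Fm) :: ([0,0,0,0,0,0,0,-1,1,0] : Fm) :: fsm (-1) ([0,0,0,-2,0,0,0,1,0,0] : Fm) :: fsm (-1) ([0,0,0,-1,-1,0,0,-1,1,0] : Fm) :: K2O10.C0) t0 = true := by decide +kernel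
end K2O10M11011011110

namespace K2O10M11011011111
noncomputable def a0 : TT := .leaf ⟨false,1,0,0,1,0,7,[[0,0,0,6,-2,0,0,-6,2],[],[],[0,0,0,-1,-1,0,0,1,1],[],[],[],[],[],[],[]]⟩ [.leaf 0 [(3,[(8,8),(4,16),(0,1)])], .leaf 0 [(0,[])], .leaf 0 [(0,[])], .leaf 0 [(0,[(1,1)])], .leaf 0 [(0,[])], .leaf 0 [(0,[])], .leaf 0 [(0,[(18,128),(25,128)])], .leaf 0 [(0,[])], .leaf 0 [(0,[])], .leaf 0 [(0,[])], .leaf 0 [(0,[])], .leaf 0 [(0,[(8,1792),(4,3584),(0,224)])], .leaf 0 [(0,[])], .leaf 0 [(0,[])], .leaf 0 [(0,[(8,1792),(4,3584),(0,224)])], .leaf 0 [(0,[])], .leaf 0 [(0,[(18,128),(25,128)])], .leaf 0 [(0,[(18,640),(25,640)])], .leaf 0 [(0,[(20,640),(31,640),(37,384)])], .leaf 0 [(0,[(1,64)])], .leaf 0 [(0,[(8,544),(1,96)])], .leaf 0 [(214,[(30,6880),(9,61920),(8,75680),(6,1720),(5,8600),(2,128),(0,9792)])], .leaf 1 [(6,[(38,1408),(8,1056),(4,2016),(0,1056)])], .leaf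 0 [(0,[(14,1024),(25,256),(31,256),(1,144),(40,256)]),(0,[(21,32),(25,224),(31,256),(1,144),(40,256)]),(0,[(14,640),(31,192),(37,32),(6,32),(40,160)]),(0,[(25,256),(31,256),(1,144),(40,256)]),(6,[(19,1792),(37,1792),(38,22304),(8,9728),(1,8512),(0,1216)])], .leaf 1 [(0,[(8,352),(4,288),(0,52)])], .leaf 0 [(0,[(18,36),(27,28),(6,16),(5,16),(1,8)])], .leaf 0 [(6,[(38,2572),(8,32),(6,56),(5,280),(4,1736),(0,32)])], .leaf 2 [(4,[(15,5120),(9,7264),(8,18944),(1,4032),(0,2368)])], .leaf 2 [(0,[(20,416),(31,160),(37,96)]),(20,[(33,4704),(38,3936),(8,2560),(1,1568),(0,320)]),(0,[(20,256),(37,256),(1,48)]),(2,[(28,768),(38,5088),(4,12960),(3,256),(0,32),(40,768)]),(0,[(20,288),(31,32),(37,224)])], .leaf 0 [(4,[(8,2880),(2,64),(1,480),(0,96)])], .leaf 0 [(98,[(30,3168),(5,3168),(4,1386),(3,1056),(2,224),(1,1386)])], .leaf 1 [(0,[(9,6),(1,6)])], .leaf 1 [(644,[(15,660480),(8,3068480),(2,43584),(1,832480),(0,203776)])],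 .leaf 1 [(0,[(18,416),(25,160)]),(0,[(18,160),(27,96)]),(0,[(26,256),(4,352)]),(0,[(15,1024),(26,256),(38,672),(8,1280),(4,3808),(0,224)]),(0,[(18,288),(25,32)])], .leaf 1 [(0,[(38,416),(8,160),(1,96)])], .leaf 0 [(0,[(8,4),(1,8)])], .leaf 0 [(2,[(8,1724),(3,32),(1,280)])]]
noncomputable def t0 : TT := a0
theorem c0 : chkT (fsm (-1) ([0,0,0,-1,8,0,0,0,0,0] : Fm) :: fsm (-1) ([0,0,0,-2,-2,0,0,1,2,0] : Fm) :: fsm (-1) ([0,0,0,-31,33,0,0,0,0,0] : Fm) :: fsm (-1) ([3,3,0,-4,-4,0,0,0,0,0] : Fm) :: fsm (-1) ([0,0,0,-1,0,0,0,1,0,0] : Fm) :: ([0,0,-1,0,0,4,0,0,0,0] : Fm) :: fsm (-1) ([4,4,-1,0,0,0,0,0,0,0] : Fm) :: fsm (-1) ([0,0,0,-1,1,0,0,0,0,0] : Fm) :: ([0,0,0,0,0,0,0,-1,1,0] : Fm) :: fsm (-1) ([0,0,0,-2,0,0,0,1,0,0] : Fm) :: fsm (-1) ([0,0,0,-1,-1,0,0,-1,1,0] : Fm) :: K2O10.C0) t0 = true := by decide +kernel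
end K2O10M11011011111

namespace K2O10M110111
noncomputable def a0 : TT := .leaf ⟨false,0,0,0,1,0,0,[[],[],[],[],[],[],[],[],[],[],[]]⟩ [.leaf 0 [(0,[])], .leaf 0 [(0,[])], .leaf 0 [(0,[])], .leaf 0 [(0,[])], .leaf 0 [(0,[])], .leaf 0 [(0,[])], .leaf 0 [(0,[])], .leaf 0 [(0,[])], .leaf 0 [(0,[])], .leaf 0 [(0,[])], .leaf 0 [(0,[])], .leaf 0 [(0,[])], .leaf 0 [(0,[])], .leaf 0 [(0,[])], .leaf 0 [(0,[])], .leaf 0 [(0,[])], .leaf 0 [(0,[(10,512),(11,768),(13,1024),(1,192),(0,64),(34,128)])], .leaf 0 [(0,[(13,64),(20,64),(33,64)])], .leaf 0 [(0,[(14,64),(23,64),(32,64)])], .leaf 0 [(0,[(4,4)])], .leaf 0 [(0,[(10,48),(13,96),(5,4),(4,4),(1,18),(0,6),(34,12)])], .leaf 0 [(28,[(7,157),(10,864),(13,1744),(17,41),(27,116),(4,116),(1,357),(34,216)])], .leaf 0 [(0,[(10,672),(11,816),(13,1088),(4,4),(1,204),(0,68),(34,136)])], .leaf 0 [(0,[(14,64),(23,32)]),(0,[(14,62),(23,30),(32,2)]),(0,[(13,2),(14,60),(20,2),(23,28),(33,2)]),(22,[(10,160),(20,416),(26,736),(33,80),(4,924),(3,240),(1,60),(0,20),(35,696)]),(0,[(14,64),(23,32)])],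 .leaf 0 [(0,[(7,4),(10,128),(13,232),(27,4),(4,4),(1,43),(0,17),(34,32)])], .leaf 0 [(423,[(7,1657),(11,3520),(13,4416),(16,28),(17,1657),(5,1696),(4,1696),(1,1209),(35,224)])], .leaf 0 [(2,[(10,80),(11,88),(13,140),(1,28),(34,20)])], .leaf 0 [(6,[(10,576),(13,1124),(22,28),(4,28),(2,60),(1,216),(0,72),(34,144)])], .leaf 0 [(0,[(15,64),(26,32)]),(100,[(6,92),(13,512),(15,5952),(17,16),(26,2828),(1,124)]),(6,[(10,496),(14,262),(15,420),(22,124),(23,138),(26,72),(32,14),(34,124)]),(4,[(6,168),(13,404),(15,152),(22,10),(24,10),(26,150),(2,236),(1,106),(0,42)]),(0,[(15,64),(26,32)])], .leaf 0 [(28,[(7,24),(10,336),(13,936),(17,24),(4,116),(1,192),(34,84)])], .leaf 0 [(0,[(10,16),(13,4),(14,4),(27,4),(4,4),(34,4)])], .leaf 0 [(2,[(10,64),(13,20),(14,12),(0,8),(34,16)])], .leaf 0 [(0,[(6,4),(10,640),(13,1128),(22,4),(25,4),(4,4),(1,204),(0,112),(34,160)])], .leaf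 0 [(0,[(13,64),(20,32)]),(0,[(13,62),(20,30),(33,2)]),(0,[(10,16),(13,92),(20,28),(1,6),(0,2),(34,4)]),(0,[(6,4),(10,608),(11,760),(13,1128),(20,28),(25,4),(1,192),(0,108),(34,152)]),(0,[(13,64),(20,32)])], .leaf 0 [(0,[(10,16),(14,4),(15,4),(22,4),(4,4),(2,8),(34,4)])], .leaf 0 [(0,[(4,4)])], .leaf 0 [(0,[(10,32),(13,60),(1,12),(0,4),(34,8)])]]
noncomputable def t0 : TT := a0
theorem c0 : chkT (fsm (-1) ([0,0,-1,0,0,4,0,0,0,0] : Fm) :: fsm (-1) ([4,4,-1,0,0,0,0,0,0,0] : Fm) :: fsm (-1) ([0,0,0,-1,1,0,0,0,0,0] : Fm) :: ([0,0,0,0,0,0,0,-1,1,0] : Fm) :: fsm (-1) ([0,0,0,-2,0,0,0,1,0,0] : Fm) :: fsm (-1) ([0,0,0,-1,-1,0,0,-1,1,0] : Fm) :: K2O10.C0) t0 = true := by decide +kernel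
end K2O10M110111

namespace K2O10M1101000
theorem top : ∃ t, chkT (([0,0,0,-1,0,0,0,1,0,0] : Fm) :: ([0,0,-1,0,0,4,0,0,0,0] : Fm) :: ([4,4,-1,0,0,0,0,0,0,0] : Fm) :: fsm (-1) ([0,0,0,-1,1,0,0,0,0,0] : Fm) :: ([0,0,0,0,0,0,0,-1,1,0] : Fm) :: fsm (-1) ([0,0,0,-2,0,0,0,1,0,0] : Fm) :: fsm (-1) ([0,0,0,-1,-1,0,0,-1,1,0] : Fm) :: K2O10.C0) t = true := ⟨_, c0⟩
end K2O10M1101000
namespace K2O10M11010010
theorem top : ∃ t, chkT (([3,3,0,-4,-4,0,0,0,0,0] : Fm) :: fsm (-1) ([0,0,0,-1,0,0,0,1,0,0] : Fm) :: ([0,0,-1,0,0,4,0,0,0,0] : Fm) :: ([4,4,-1,0,0,0,0,0,0,0] : Fm) :: fsm (-1) ([0,0,0,-1,1,0,0,0,0,0] : Fm) :: ([0,0,0,0,0,0,0,-1,1,0] : Fm) :: fsm (-1) ([0,0,0,-2,0,0,0,1,0,0] : Fm) :: fsm (-1) ([0,0,0,-1,-1,0,0,-1,1,0] : Fm) :: K2O10.C0) t = true := ⟨_, (spl c0 c1)⟩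
end K2O10M11010010
namespace K2O10M110100110
theorem top : ∃ t, chkT (([0,0,0,-31,33,0,0,0,0,0] : Fm) :: fsm (-1) ([3,3,0,-4,-4,0,0,0,0,0] : Fm) :: fsm (-1) ([0,0,0,-1,0,0,0,1,0,0] : Fm) :: ([0,0,-1,0,0,4,0,0,0,0] : Fm) :: ([4,4,-1,0,0,0,0,0,0,0] : Fm) :: fsm (-1) ([0,0,0,-1,1,0,0,0,0,0] : Fm) :: ([0,0,0,0,0,0,0,-1,1,0] : Fm) :: fsm (-1) ([0,0,0,-2,0,0,0,1,0,0] : Fm) :: fsm (-1) ([0,0,0,-1,-1,0,0,-1,1,0] : Fm) :: K2O10.C0) t = true := ⟨_, c0⟩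
end K2O10M110100110
namespace K2O10M1101001110
theorem top : ∃ t, chkT (([0,0,0,-2,-2,0,0,1,2,0] : Fm) :: fsm (-1) ([0,0,0,-31,33,0,0,0,0,0] : Fm) :: fsm (-1) ([3,3,0,-4,-4,0,0,0,0,0] : Fm) :: fsm (-1) ([0,0,0,-1,0,0,0,1,0,0] : Fm) :: ([0,0,-1,0,0,4,0,0,0,0] : Fm) :: ([4,4,-1,0,0,0,0,0,0,0] : Fm) :: fsm (-1) ([0,0,0,-1,1,0,0,0,0,0] : Fm) :: ([0,0,0,0,0,0,0,-1,1,0] : Fm) :: fsm (-1) ([0,0,0,-2,0,0,0,1,0,0] : Fm) :: fsm (-1) ([0,0,0,-1,-1,0,0,-1,1,0] : Fm) :: K2O10.C0) t = true := ⟨_, c0⟩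
end K2O10M1101001110
namespace K2O10M110100111100
theorem top : ∃ t, chkT (([0,0,0,0,0,0,0,0,-2,1] : Fm) :: ([0,0,0,-1,8,0,0,0,0,0] : Fm) :: fsm (-1) ([0,0,0,-2,-2,0,0,1,2,0] : Fm) :: fsm (-1) ([0,0,0,-31,33,0,0,0,0,0] : Fm) :: fsm (-1) ([3,3,0,-4,-4,0,0,0,0,0] : Fm) :: fsm (-1) ([0,0,0,-1,0,0,0,1,0,0] : Fm) :: ([0,0,-1,0,0,4,0,0,0,0] : Fm) :: ([4,4,-1,0,0,0,0,0,0,0] : Fm) :: fsm (-1) ([0,0,0,-1,1,0,0,0,0,0] : Fm) :: ([0,0,0,0,0,0,0,-1,1,0] : Fm) :: fsm (-1) ([0,0,0,-2,0,0,0,1,0,0] : Fm) :: fsm (-1) ([0,0,0,-1,-1,0,0,-1,1,0] : Fm) :: K2O10.C0) t = true := ⟨_, c0⟩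
end K2O10M110100111100
namespace K2O10M110100111101
theorem top : ∃ t, chkT (fsm (-1) ([0,0,0,0,0,0,0,0,-2,1] : Fm) :: ([0,0,0,-1,8,0,0,0,0,0] : Fm) :: fsm (-1) ([0,0,0,-2,-2,0,0,1,2,0] : Fm) :: fsm (-1) ([0,0,0,-31,33,0,0,0,0,0] : Fm) :: fsm (-1) ([3,3,0,-4,-4,0,0,0,0,0] : Fm) :: fsm (-1) ([0,0,0,-1,0,0,0,1,0,0] : Fm) :: ([0,0,-1,0,0,4,0,0,0,0] : Fm) :: ([4,4,-1,0,0,0,0,0,0,0] : Fm) :: fsm (-1) ([0,0,0,-1,1,0,0,0,0,0] : Fm) :: ([0,0,0,0,0,0,0,-1,1,0] : Fm) :: fsm (-1) ([0,0,0,-2,0,0,0,1,0,0] : Fm) :: fsm (-1) ([0,0,0,-1,-1,0,0,-1,1,0] : Fm) :: K2O10.C0) t = true := ⟨_, c0⟩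
end K2O10M110100111101
namespace K2O10M11010011111
theorem top : ∃ t, chkT (fsm (-1) ([0,0,0,-1,8,0,0,0,0,0] : Fm) :: fsm (-1) ([0,0,0,-2,-2,0,0,1,2,0] : Fm) :: fsm (-1) ([0,0,0,-31,33,0,0,0,0,0] : Fm) :: fsm (-1) ([3,3,0,-4,-4,0,0,0,0,0] : Fm) :: fsm (-1) ([0,0,0,-1,0,0,0,1,0,0] : Fm) :: ([0,0,-1,0,0,4,0,0,0,0] : Fm) :: ([4,4,-1,0,0,0,0,0,0,0] : Fm) :: fsm (-1) ([0,0,0,-1,1,0,0,0,0,0] : Fm) :: ([0,0,0,0,0,0,0,-1,1,0] : Fm) :: fsm (-1) ([0,0,0,-2,0,0,0,1,0,0] : Fm) :: fsm (-1) ([0,0,0,-1,-1,0,0,-1,1,0] : Fm) :: K2O10.C0) t = true := ⟨_, c0⟩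
end K2O10M11010011111
namespace K2O10M1101010
theorem top : ∃ t, chkT (([0,0,0,-1,0,0,0,1,0,0] : Fm) :: fsm (-1) ([0,0,-1,0,0,4,0,0,0,0] : Fm) :: ([4,4,-1,0,0,0,0,0,0,0] : Fm) :: fsm (-1) ([0,0,0,-1,1,0,0,0,0,0] : Fm) :: ([0,0,0,0,0,0,0,-1,1,0] : Fm) :: fsm (-1) ([0,0,0,-2,0,0,0,1,0,0] : Fm) :: fsm (-1) ([0,0,0,-1,-1,0,0,-1,1,0] : Fm) :: K2O10.C0) t = true := ⟨_, c0⟩
end K2O10M1101010
namespace K2O10M11010110
theorem top : ∃ t, chkT (([3,3,0,-4,-4,0,0,0,0,0] : Fm) :: fsm (-1) ([0,0,0,-1,0,0,0,1,0,0] : Fm) :: fsm (-1) ([0,0,-1,0,0,4,0,0,0,0] : Fm) :: ([4,4,-1,0,0,0,0,0,0,0] : Fm) :: fsm (-1) ([0,0,0,-1,1,0,0,0,0,0] : Fm) :: ([0,0,0,0,0,0,0,-1,1,0] : Fm) :: fsm (-1) ([0,0,0,-2,0,0,0,1,0,0] : Fm) :: fsm (-1) ([0,0,0,-1,-1,0,0,-1,1,0] : Fm) :: K2O10.C0) t = true := ⟨_, c0⟩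
end K2O10M11010110
namespace K2O10M11010111
theorem top : ∃ t, chkT (fsm (-1) ([3,3,0,-4,-4,0,0,0,0,0] : Fm) :: fsm (-1) ([0,0,0,-1,0,0,0,1,0,0] : Fm) :: fsm (-1) ([0,0,-1,0,0,4,0,0,0,0] : Fm) :: ([4,4,-1,0,0,0,0,0,0,0] : Fm) :: fsm (-1) ([0,0,0,-1,1,0,0,0,0,0] : Fm) :: ([0,0,0,0,0,0,0,-1,1,0] : Fm) :: fsm (-1) ([0,0,0,-2,0,0,0,1,0,0] : Fm) :: fsm (-1) ([0,0,0,-1,-1,0,0,-1,1,0] : Fm) :: K2O10.C0) t = true := ⟨_, (spl (spl c0 c1) c2)⟩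
end K2O10M11010111
namespace K2O10M1101100
theorem top : ∃ t, chkT (([0,0,0,-1,0,0,0,1,0,0] : Fm) :: ([0,0,-1,0,0,4,0,0,0,0] : Fm) :: fsm (-1) ([4,4,-1,0,0,0,0,0,0,0] : Fm) :: fsm (-1) ([0,0,0,-1,1,0,0,0,0,0] : Fm) :: ([0,0,0,0,0,0,0,-1,1,0] : Fm) :: fsm (-1) ([0,0,0,-2,0,0,0,1,0,0] : Fm) :: fsm (-1) ([0,0,0,-1,-1,0,0,-1,1,0] : Fm) :: K2O10.C0) t = true := ⟨_, c0⟩
end K2O10M1101100
namespace K2O10M11011010
theorem top : ∃ t, chkT (([3,3,0,-4,-4,0,0,0,0,0] : Fm) :: fsm (-1) ([0,0,0,-1,0,0,0,1,0,0] : Fm) :: ([0,0,-1,0,0,4,0,0,0,0] : Fm) :: fsm (-1) ([4,4,-1,0,0,0,0,0,0,0] : Fm) :: fsm (-1) ([0,0,0,-1,1,0,0,0,0,0] : Fm) :: ([0,0,0,0,0,0,0,-1,1,0] : Fm) :: fsm (-1) ([0,0,0,-2,0,0,0,1,0,0] : Fm) :: fsm (-1) ([0,0,0,-1,-1,0,0,-1,1,0] : Fm) :: K2O10.C0) t = true := ⟨_, c0⟩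
end K2O10M11011010
namespace K2O10M110110110
theorem top : ∃ t, chkT (([0,0,0,-31,33,0,0,0,0,0] : Fm) :: fsm (-1) ([3,3,0,-4,-4,0,0,0,0,0] : Fm) :: fsm (-1) ([0,0,0,-1,0,0,0,1,0,0] : Fm) :: ([0,0,-1,0,0,4,0,0,0,0] : Fm) :: fsm (-1) ([4,4,-1,0,0,0,0,0,0,0] : Fm) :: fsm (-1) ([0,0,0,-1,1,0,0,0,0,0] : Fm) :: ([0,0,0,0,0,0,0,-1,1,0] : Fm) :: fsm (-1) ([0,0,0,-2,0,0,0,1,0,0] : Fm) :: fsm (-1) ([0,0,0,-1,-1,0,0,-1,1,0] : Fm) :: K2O10.C0) t = true := ⟨_, c0⟩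
end K2O10M110110110
namespace K2O10M1101101110
theorem top : ∃ t, chkT (([0,0,0,-2,-2,0,0,1,2,0] : Fm) :: fsm (-1) ([0,0,0,-31,33,0,0,0,0,0] : Fm) :: fsm (-1) ([3,3,0,-4,-4,0,0,0,0,0] : Fm) :: fsm (-1) ([0,0,0,-1,0,0,0,1,0,0] : Fm) :: ([0,0,-1,0,0,4,0,0,0,0] : Fm) :: fsm (-1) ([4,4,-1,0,0,0,0,0,0,0] : Fm) :: fsm (-1) ([0,0,0,-1,1,0,0,0,0,0] : Fm) :: ([0,0,0,0,0,0,0,-1,1,0] : Fm) :: fsm (-1) ([0,0,0,-2,0,0,0,1,0,0] : Fm) :: fsm (-1) ([0,0,0,-1,-1,0,0,-1,1,0] : Fm) :: K2O10.C0) t = true := ⟨_, c0⟩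
end K2O10M1101101110
namespace K2O10M11011011110
theorem top : ∃ t, chkT (([0,0,0,-1,8,0,0,0,0,0] : Fm) :: fsm (-1) ([0,0,0,-2,-2,0,0,1,2,0] : Fm) :: fsm (-1) ([0,0,0,-31,33,0,0,0,0,0] : Fm) :: fsm (-1) ([3,3,0,-4,-4,0,0,0,0,0] : Fm) :: fsm (-1) ([0,0,0,-1,0,0,0,1,0,0] : Fm) :: ([0,0,-1,0,0,4,0,0,0,0] : Fm) :: fsm (-1) ([4,4,-1,0,0,0,0,0,0,0] : Fm) :: fsm (-1) ([0,0,0,-1,1,0,0,0,0,0] : Fm) :: ([0,0,0,0,0,0,0,-1,1,0] : Fm) :: fsm (-1) ([0,0,0,-2,0,0,0,1,0,0] : Fm) :: fsm (-1) ([0,0,0,-1,-1,0,0,-1,1,0] : Fm) :: K2O10.C0) t = true := ⟨_, c0⟩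
end K2O10M11011011110
namespace K2O10M11011011111
theorem top : ∃ t, chkT (fsm (-1) ([0,0,0,-1,8,0,0,0,0,0] : Fm) :: fsm (-1) ([0,0,0,-2,-2,0,0,1,2,0] : Fm) :: fsm (-1) ([0,0,0,-31,33,0,0,0,0,0] : Fm) :: fsm (-1) ([3,3,0,-4,-4,0,0,0,0,0] : Fm) :: fsm (-1) ([0,0,0,-1,0,0,0,1,0,0] : Fm) :: ([0,0,-1,0,0,4,0,0,0,0] : Fm) :: fsm (-1) ([4,4,-1,0,0,0,0,0,0,0] : Fm) :: fsm (-1) ([0,0,0,-1,1,0,0,0,0,0] : Fm) :: ([0,0,0,0,0,0,0,-1,1,0] : Fm) :: fsm (-1) ([0,0,0,-2,0,0,0,1,0,0] : Fm) :: fsm (-1) ([0,0,0,-1,-1,0,0,-1,1,0] : Fm) :: K2O10.C0) t = true := ⟨_, c0⟩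
end K2O10M11011011111
namespace K2O10M110111
theorem top : ∃ t, chkT (fsm (-1) ([0,0,-1,0,0,4,0,0,0,0] : Fm) :: fsm (-1) ([4,4,-1,0,0,0,0,0,0,0] : Fm) :: fsm (-1) ([0,0,0,-1,1,0,0,0,0,0] : Fm) :: ([0,0,0,0,0,0,0,-1,1,0] : Fm) :: fsm (-1) ([0,0,0,-2,0,0,0,1,0,0] : Fm) :: fsm (-1) ([0,0,0,-1,-1,0,0,-1,1,0] : Fm) :: K2O10.C0) t = true := ⟨_, c0⟩
end K2O10M110111
def K2O10P1101 := (splE (splE (splE K2O10M1101000.top (splE K2O10M11010010.top (splE K2O10M110100110.top (splE K2O10M1101001110.top (splE (splE K2O10M110100111100.top K2O10M110100111101.top) K2O10M11010011111.top))))) (splE K2O10M1101010.top (splE K2O10M11010110.top K2O10M11010111.top))) (splE (splE K2O10M1101100.top (splE K2O10M11011010.top (splE K2O10M110110110.top (splE K2O10M1101101110.top (splE K2O10M11011011110.top K2O10M11011011111.top))))) K2O10M110111.top))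

end Vale.Agent.P235
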