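import Vale.Agent.P235.T.K2O11C

namespace Vale.Agent.P235

set_option maxRecDepth 100000

namespace K2O11M00000
noncomputable def a0 : TT := .leaf ⟨true,31,33,0,64,3,16367,[[0,0,0,0,5115],[0,0,0,0,5115],[],[0,0,0,0,-6138,0,0,0,10230],[],[],[0,0,0,0,13299],[0,0,0,0,165],[0,0,0,0,155],[],[0,0,0,0,496]]⟩ [.leaf 0 [(0,[])], .leaf 0 [(0,[])], .leaf 0 [(0,[])], .leaf 0 [(0,[])], .leaf 0 [(0,[(1,15376)])], .leaf 0 [(0,[])], .leaf 0 [(0,[])], .leaf 0 [(0,[]),(0,[]),(0,[]),(0,[]),(0,[]),(0,[])], .leaf 0 [(0,[(3,392832)])], .leaf 0 [(0,[])], .leaf 0 [(0,[])], .leaf 0 [(0,[])], .leaf 0 [(0,[])], .leaf 0 [(0,[])], .leaf 0 [(0,[])], .leaf 0 [(0,[])], .leaf 0 [(0,[])], .leaf 0 [(0,[])], .leaf 0 [(0,[(4,2095104)])], .leaf 0 [(0,[(3,654720)])], .leaf 0 [(0,[(14,392832),(25,392832),(31,392832),(33,1309440),(4,916608)])], .leaf 0 [(0,[(9,130944),(24,65472),(33,65472),(3,425568),(34,32736)])],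 .leaf 0 [(0,[])], .leaf 0 [(0,[(16,65472),(24,65472),(3,785664)])], .leaf 1 [(0,[])], .leaf 1 [(0,[(13,523776),(14,32736),(25,32736),(31,16368),(33,474672),(4,441936)]),(0,[(13,523776),(31,523776)]),(0,[(23,163680),(33,294624),(4,294624)]),(0,[(13,523776),(31,523776)]),(0,[(13,523776),(31,458304),(33,65472)])], .leaf 1 [(0,[])], .split 0 0 (.leaf 0 [(0,[(0,1)])]) (.leaf 1 [(30,[(17,2029632),(0,33)])]), .leaf 0 [(0,[(16,65472),(3,806124)])], .leaf 0 [(0,[])], .leaf 0 [(0,[(14,556512),(25,32736),(31,491040),(32,49104),(4,441936)]),(0,[(14,523776),(31,458304),(32,409200),(4,114576)]),(0,[(14,523776),(31,212784),(33,310992),(4,769296)]),(0,[(14,523776),(31,523776),(32,523776)]),(0,[(14,523776),(31,523776),(32,523776)])], .split 1 0 (.leaf 1 [(0,[(0,1)])]) (.leaf 0 [(18,[(10,2880768),(15,196416),(21,1243968),(25,196416),(0,3),(35,720192)])]), .split 0 0 (.leaf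 0 [(0,[(0,1)])]) (.leaf 1 [(93,[(10,13880064),(25,982080),(1,196416),(0,15),(35,3470016)])]), .leaf 0 [(0,[(9,1047552),(14,261888),(19,327360),(24,327360),(33,327360),(3,613800),(1,98208),(0,130944),(34,261888)])], .leaf 2 [(0,[])], .leaf 2 [(0,[(12,523776),(32,294624),(4,229152)]),(0,[(4,458304)]),(0,[(12,523776),(32,523776)]),(0,[(12,523776),(32,523776)]),(0,[(12,523776),(16,65472),(24,65472),(32,523776)])], .leaf 0 [(0,[(3,425568)])], .leaf 1 [(0,[(9,130944),(14,32736),(19,32736),(24,32736),(33,32736),(3,446028),(34,32736)])], .split 1 0 (.leaf 1 [(0,[(0,1)])]) (.leaf 0 [(61,[(10,8118528),(15,2029632),(20,2029632),(25,2029632),(34,2029632),(0,9),(35,2029632)])])]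
noncomputable def t0 : TT := a0
theorem c0 : chkT (([4,4,-1,0,0,0,0,0,0,0] : Fm) :: ([0,0,0,1,-1,0,0,0,0,0] : Fm) :: ([0,0,0,0,0,0,0,1,-1,0] : Fm) :: ([0,0,0,0,-2,0,0,0,1,0] : Fm) :: ([0,0,0,-1,-1,0,0,1,-1,0] : Fm) :: K2O11.C0) t0 = true := by decide +kernel
end K2O11M00000

namespace K2O11M00001
noncomputable def a0 : TT := .leaf ⟨true,0,31,33,64,3,2727,[[],[0,0,0,0,1023],[0,0,0,0,1023],[0,0,0,0,-2728,0,0,0,1364],[0,0,0,0,3410],[],[],[],[0,0,0,0,33],[0,0,0,0,31],[0,0,0,0,88]]⟩ [.leaf 0 [(0,[])], .leaf 0 [(0,[])], .leaf 0 [(0,[])], .leaf 0 [(0,[])], .leaf 0 [(0,[])], .leaf 0 [(0,[])], .leaf 0 [(0,[(9,1056),(12,2640),(1,792),(0,528),(34,264)])], .leaf 0 [(0,[]),(0,[]),(0,[]),(0,[]),(0,[]),(0,[])], .leaf 0 [(0,[(3,174592)])], .leaf 0 [(0,[])], .leaf 0 [(0,[])], .leaf 0 [(0,[])], .leaf 0 [(0,[])], .leaf 0 [(0,[])], .leaf 0 [(0,[])], .leaf 0 [(0,[])], .leaf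 0 [(0,[])], .leaf 0 [(0,[])], .leaf 0 [(0,[(32,218240),(4,130944)])], .leaf 0 [(0,[])], .leaf 0 [(0,[(31,349184)])], .leaf 0 [(0,[(9,21824),(14,5456),(20,5456),(24,5456),(33,5456),(3,49104),(34,5456)])], .leaf 0 [(0,[])], .leaf 0 [(2,[(9,218240),(12,381920),(24,32736),(3,387376),(0,76384),(34,54560)])], .leaf 1 [(0,[])], .leaf 1 [(0,[(13,87296),(31,87296)]),(0,[(13,87296),(31,87296)]),(0,[(31,43648)]),(0,[(13,87296),(31,87296)]),(0,[(13,87296),(31,76384),(33,10912)])], .leaf 1 [(0,[(9,11904),(12,29760),(3,163680),(1,8928),(0,5952),(34,2976)])], .split 0 0 (.leaf 0 [(0,[(0,1)])]) (.leaf 1 [(92,[(10,6765440),(13,11839520),(1,2367904),(0,13),(35,1691360)])]), .leaf 0 [(2,[(9,218240),(12,381920),(3,387376),(0,76384),(34,54560)])], .leaf 0 [(0,[])], .leaf 0 [(0,[(14,87296),(31,87296),(4,87296)]),(0,[(14,87296),(31,43648),(32,38192),(4,49104)]),(0,[(14,87296),(31,87296),(2,43648)]),(0,[(14,87296),(31,87296),(4,87296)]),(0,[(14,103664),(25,16368),(31,70928),(32,70928)])],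 .leaf 0 [(2,[(9,87296),(12,185504),(20,32736),(3,452848),(0,43648),(34,21824)])], .leaf 1 [(0,[(9,87296),(12,163680),(3,113212),(0,32736),(34,21824)])], .split 1 0 (.leaf 1 [(0,[(0,1)])]) (.leaf 0 [(76,[(10,1702272),(21,54560),(4,3339072),(1,10912),(0,5),(35,425568)])]), .leaf 2 [(0,[])], .leaf 4 [(0,[(12,87296),(4,87296)]),(0,[(12,87296),(4,87296),(3,81840)]),(0,[]),(0,[(12,87296),(32,87296)]),(0,[(12,87296),(4,87296)])], .leaf 0 [(0,[(3,49104)])], .leaf 1 [(0,[(9,21824),(14,5456),(19,5456),(24,5456),(33,5456),(3,49104),(34,5456)])], .split 1 0 (.leaf 1 [(0,[(0,1)])]) (.leaf 0 [(61,[(10,1353088),(15,338272),(20,338272),(25,338272),(34,338272),(0,9),(35,338272)])])]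
noncomputable def t0 : TT := a0
theorem c0 : chkT (fsm (-1) ([4,4,-1,0,0,0,0,0,0,0] : Fm) :: ([0,0,0,1,-1,0,0,0,0,0] : Fm) :: ([0,0,0,0,0,0,0,1,-1,0] : Fm) :: ([0,0,0,0,-2,0,0,0,1,0] : Fm) :: ([0,0,0,-1,-1,0,0,1,-1,0] : Fm) :: K2O11.C0) t0 = true := by decide +kernel
end K2O11M00001

namespace K2O11M00010
noncomputable def a0 : TT := .leaf ⟨true,8,1,0,9,0,255,[[0,0,0,24],[0,0,0,24],[],[24,24,0,-48,-48,0,0,24,24],[],[],[0,0,0,88],[0,0,0,3],[0,0,0,24],[],[0,0,0,32]]⟩ [.leaf 0 [(0,[])], .leaf 0 [(0,[])], .leaf 0 [(0,[])], .leaf 0 [(0,[])], .leaf 0 [(0,[])], .leaf 0 [(0,[(1,32)])], .leaf 0 [(0,[])], .leaf 0 [(0,[]),(0,[]),(0,[]),(0,[]),(0,[]),(0,[])], .leaf 0 [(0,[(12,3072),(4,3072)])], .leaf 0 [(0,[])], .leaf 0 [(0,[])], .leaf 0 [(0,[])], .leaf 0 [(0,[])], .leaf 0 [(0,[])], .leaf 0 [(0,[])], .leaf 0 [(0,[])], .leaf 0 [(0,[])], .leaf 0 [(0,[])], .leaf 0 [(0,[(19,3072),(4,26624)])],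 .leaf 0 [(0,[(9,12288),(14,3072),(24,3072),(33,3072),(3,24064),(1,15360),(34,3072)])], .leaf 0 [(0,[(14,10240),(19,3072),(25,10240),(31,3072),(33,19456),(4,3072),(1,6144)])], .leaf 0 [(0,[(3,3072)])], .leaf 0 [(0,[(12,3072),(32,3072)])], .leaf 0 [(6,[(9,12288),(24,7168),(4,21504),(3,13824),(0,1024),(34,3072)])], .leaf 0 [(0,[(9,32768),(12,3072),(4,2048),(3,3584),(1,6144)])], .split 0 3 (.leaf 0 [(0,[(14,8192),(20,2304),(34,8192),(5,3584),(4,1152),(2,2304)]),(0,[(14,8192),(20,2304),(32,3584),(34,4608),(2,5376)]),(0,[(26,2304),(34,4608),(4,5888)]),(0,[(0,1)]),(0,[(10,10240),(14,10752),(15,2560),(20,2816),(34,8192),(35,2560)])]) (.leaf 1 [(0,[(14,8192),(15,1792),(20,2304),(26,1792),(34,6400),(4,2944),(2,2304)]),(0,[(14,8192),(20,2304),(32,3584),(34,4608),(2,5376)]),(0,[(26,2304),(34,4608),(4,5888)]),(9,[(10,484352),(14,203008),(15,14592),(20,38400),(34,188416),(5,83712),(4,170496),(0,13),(35,14592)]),(0,[(10,10240),(14,10752),(15,2560),(20,2816),(34,8192),(35,2560)])]),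 .leaf 1 [(0,[(4,3072),(3,2048)])], .split 1 0 (.leaf 1 [(0,[(0,1)])]) (.leaf 0 [(92,[(10,38912),(33,47616),(2,137216),(0,19),(35,9728)])]), .leaf 0 [(6,[(9,12672),(4,20832),(3,17168),(0,832),(34,3168)])], .leaf 2 [(0,[(9,32768),(12,3072),(4,2048),(3,3584),(1,6144)])], .leaf 4 [(0,[(13,4480),(14,8512),(19,1856),(22,4800),(31,3392),(4,4800),(1,8960)]),(0,[(8,6144),(13,1664),(14,11648),(22,3200),(25,4992),(4,3712),(1,5376),(35,1536)]),(0,[(14,7168),(19,1536),(32,640),(4,4480),(1,6912)]),(0,[(9,22528),(14,5632),(19,4096),(22,2560),(31,5632),(32,384),(4,2176),(1,4352),(35,2560)]),(0,[(14,8192),(19,2560),(31,8192)])], .leaf 0 [(0,[(12,3072),(3,1536)])], .leaf 1 [(6,[(9,8576),(4,20832),(3,12560),(0,2880),(34,2144)])], .split 0 0 (.leaf 0 [(0,[(0,1)])]) (.leaf 1 [(84,[(10,55296),(13,57344),(21,14848),(4,57344),(0,27),(35,13824)])]), .leaf 1 [(0,[(9,32768),(3,3072)])],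 .leaf 3 [(0,[(12,6656),(4,6656),(3,4096),(1,8192)]),(0,[(12,5632),(32,6656),(1,9216)]),(0,[(12,9728),(4,8704),(3,5120),(1,9216)]),(0,[(9,32768),(4,6656),(3,3328)]),(0,[(4,6656),(3,3328),(0,1024)])], .leaf 0 [(0,[(4,3072),(3,2048)])], .leaf 1 [(0,[(4,2976),(3,2000)])], .leaf 0 [(0,[(12,1952),(4,2976),(1,2048)])]]
noncomputable def t0 : TT := a0
theorem c0 : chkT (([4,4,-1,0,0,0,0,0,0,0] : Fm) :: fsm (-1) ([0,0,0,1,-1,0,0,0,0,0] : Fm) :: ([0,0,0,0,0,0,0,1,-1,0] : Fm) :: ([0,0,0,0,-2,0,0,0,1,0] : Fm) :: ([0,0,0,-1,-1,0,0,1,-1,0] : Fm) :: K2O11.C0) t0 = true := by decide +kernel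
end K2O11M00010

namespace K2O11M00011
noncomputable def a0 : TT := .leaf ⟨true,31,0,33,64,2,523775,[[0,0,4092,169818,0,0,0,4092,0,-4092],[],[18414,0,4092,132990,0,0,0,4092,0,-4092],[0,27621,27621,-9207,-55242,-55242,0,-18414,27621,27621],[],[0,0,0,366234],[],[0,0,132,5478,0,0,0,132,0,-132],[],[558,0,124,4030,0,0,0,124,0,-124],[0,0,0,16896]]⟩ [.leaf 0 [(0,[(9,264),(13,132),(26,132),(34,66)])], .leaf 0 [(0,[])], .leaf 0 [(0,[(26,124)])], .leaf 0 [(0,[(9,1628),(12,256),(13,558),(33,256),(34,407)])], .leaf 0 [(0,[])], .leaf 0 [(0,[])], .leaf 0 [(0,[(9,202752),(12,506880),(1,405504),(0,101376),(34,50688)])], .leaf 0 [(0,[]),(0,[]),(0,[]),(0,[]),(0,[]),(0,[])], .leaf 0 [(0,[(13,3535488),(14,589248),(25,589248),(33,2946240),(3,3535488),(1,3535488)])], .leaf 0 [(0,[])], .leaf 0 [(0,[])], .leaf 0 [(0,[(26,3666432)])], .leaf 0 [(0,[])], .leaf 0 [(0,[(9,7332864),(13,3666432),(26,3666432),(34,1833216)])],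 .leaf 0 [(0,[(26,3666432)])], .leaf 0 [(0,[])], .leaf 0 [(0,[(9,7332864),(13,3666432),(26,3666432),(34,1833216)])], .leaf 0 [(0,[])], .leaf 0 [(0,[(9,14141952),(26,3535488),(4,65864832),(1,20034432),(34,3535488)])], .leaf 0 [(0,[(9,14141952),(12,2356992),(24,1178496),(26,1309440),(3,62329344),(1,59972352),(34,3535488)])], .leaf 0 [(0,[(12,1178496),(14,27629184),(22,4713984),(25,26450688),(31,8249472),(33,24093696)])], .leaf 0 [(0,[(13,2618880),(14,916608),(20,916608),(33,3535488),(3,2226048)])], .leaf 0 [(0,[(13,3535488),(14,1047552),(33,2487936)])], .leaf 0 [(0,[(13,2717088),(20,916608),(33,1440384),(3,2176944),(0,818400)])], .leaf 0 [(0,[(9,62329344),(14,4713984),(24,1178496),(3,2356992),(35,1178496)])], .leaf 0 [(0,[(8,2749824),(13,13225344),(19,491040),(25,883872),(31,13618176),(3,20296320),(1,13356288),(35,687456)]),(0,[(13,14109216),(14,130944),(31,13978272)]),(4,[(8,55825792),(12,112502720),(4,4255680),(1,3579136),(0,38050144),(35,13956448)]),(0,[(9,16498944),(19,5106816),(22,6056160),(25,1309440),(33,2946240),(3,1473120),(35,12636096)]),(0,[(13,14371104),(19,3797376),(33,6776352),(3,3388176)])],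 .leaf 1 [(0,[(12,6285312),(33,2356992),(3,1440384),(0,2160576)])], .split 0 0 (.leaf 0 [(0,[(0,1)])]) (.leaf 1 [(30,[(14,41005932),(15,32474112),(32,35318052),(34,38161992),(0,2)])]), .leaf 0 [(0,[(33,3457740),(4,1141668),(3,3901722),(0,607662)])], .leaf 2 [(0,[(9,61805568),(14,4452096),(24,916608),(26,3928320),(3,2226048),(35,1309440)])], .leaf 4 [(0,[(14,26614368),(19,3961056),(22,5139552),(25,6481728),(33,3371808),(4,10868352),(1,14403840)]),(0,[(13,2062368),(14,16466208),(19,294624),(31,18528576),(4,13192608),(3,13421760),(1,20034432)]),(0,[(12,17873856),(14,7987584),(32,17939328),(0,4910400)]),(0,[(9,60888960),(14,20296320),(19,4844928),(31,6612672),(35,1538592)]),(4,[(14,81872736),(19,12799776),(22,6907296),(33,68058144),(4,144955008),(3,116409216),(1,395450880)])], .leaf 0 [(0,[(12,2095104),(20,916608),(33,3535488),(3,2487936),(0,1342176)])], .leaf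 1 [(0,[(12,529232),(20,264616),(33,2018720),(3,3160388),(0,1329900)])], .split 1 0 (.leaf 1 [(0,[(0,1)])]) (.leaf 0 [(30,[(14,41005932),(34,105954156),(4,85451190),(0,2)])]), .leaf 1 [(0,[(9,70971648),(13,4583040),(14,4452096),(19,196416),(24,1113024),(26,65472),(3,2226048),(34,982080)])], .leaf 3 [(0,[(9,7070976),(12,16891776),(24,1636800),(4,17808384),(3,14632992),(1,30444480),(34,1767744)]),(0,[(9,7070976),(12,14272896),(24,2160576),(32,18332160),(1,10802880),(34,1767744)]),(0,[(12,17153664),(13,2749824),(14,785664),(22,1374912),(4,13880064),(3,4190208),(1,5106816)]),(0,[(9,74114304),(24,5827008),(4,21998592),(3,5761536),(34,1767744)]),(0,[(9,7070976),(26,5827008),(4,16171584),(3,8675040),(34,1767744)])], .leaf 0 [(0,[(13,3535488),(33,3535488),(4,1178496),(3,2226048)])], .leaf 1 [(0,[(9,1088472),(13,2539086),(14,1397418),(19,664950),(33,3457740),(4,476718),(3,3236772),(34,272118)])],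 .leaf 0 [(0,[(13,2471568),(14,1665444),(19,1477212),(24,335544),(33,2712996)])]]
noncomputable def t0 : TT := a0
theorem c0 : chkT (fsm (-1) ([4,4,-1,0,0,0,0,0,0,0] : Fm) :: fsm (-1) ([0,0,0,1,-1,0,0,0,0,0] : Fm) :: ([0,0,0,0,0,0,0,1,-1,0] : Fm) :: ([0,0,0,0,-2,0,0,0,1,0] : Fm) :: ([0,0,0,-1,-1,0,0,1,-1,0] : Fm) :: K2O11.C0) t0 = true := by decide +kernel
end K2O11M00011

namespace K2O11M00100
noncomputable def a0 : TT := .leaf ⟨true,8,1,0,9,1,63,[[0,0,0,8],[0,0,0,8],[],[8,8,0,-24,-72,0,0,8,16],[],[],[0,0,0,24],[0,0,0,1],[0,0,0,8],[],[0,0,0,8]]⟩ [.leaf 0 [(0,[])], .leaf 0 [(0,[])], .leaf 0 [(0,[])], .leaf 0 [(1,[(32,1),(4,1),(2,2)])], .leaf 0 [(0,[])], .leaf 0 [(0,[(4,8),(2,8)])], .leaf 0 [(0,[])], .leaf 0 [(0,[]),(0,[]),(0,[]),(0,[]),(0,[]),(0,[])], .leaf 0 [(0,[(12,1024),(4,2048),(3,3072),(2,1024)])], .leaf 0 [(0,[])], .leaf 0 [(0,[])], .leaf 0 [(0,[])],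 .leaf 0 [(0,[])], .leaf 0 [(0,[])], .leaf 0 [(0,[])], .leaf 0 [(0,[])], .leaf 0 [(0,[])], .leaf 0 [(0,[])], .leaf 0 [(0,[(19,1024),(32,5120)])], .leaf 0 [(0,[(19,1024),(2,2048)])], .leaf 0 [(0,[(19,1024),(31,7168),(33,1024),(2,1024)])], .leaf 0 [(0,[(4,768),(3,2816),(1,2816)])], .leaf 0 [(0,[(12,1024),(4,2048),(2,1024)])], .leaf 0 [(0,[(9,512),(24,256),(4,3840),(3,2816),(2,2816),(34,128)])], .leaf 0 [(0,[(9,8192),(12,1024),(4,2560),(3,2816),(2,1792)])], .leaf 3 [(0,[(13,2816),(19,512),(22,768),(31,256),(33,1024)]),(0,[(25,512),(33,1024),(3,768)]),(0,[(13,1792),(14,256),(31,2048),(4,512),(3,5248)]),(0,[(13,2048),(19,512),(33,2048),(4,1024),(3,1536),(1,3584)]),(0,[(13,2048),(19,1024),(33,2048)])], .leaf 0 [(0,[(14,256),(19,1280),(24,256),(4,2816),(2,3072),(0,512)])], .leaf 1 [(0,[(14,256),(19,1312),(4,2784),(2,3104),(0,512)])], .leaf 0 [(0,[(9,512),(4,3488),(3,2976),(2,2496),(34,128)])],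 .leaf 2 [(0,[(9,8192),(4,3584),(3,2816),(2,2816)])], .leaf 4 [(0,[(14,2048),(19,512),(31,2048),(32,2688),(4,128),(2,3328)]),(0,[(8,6400),(14,448),(19,1088),(22,1600),(31,352),(33,96),(4,1760),(2,448),(35,1600)]),(0,[(14,1280),(22,512),(32,2560),(2,1024)]),(8,[(9,60416),(14,15104),(19,7936),(22,3328),(31,15104),(32,5376),(35,3328)]),(0,[(14,2048),(19,512),(31,2048),(32,2688),(4,128),(2,3328)])], .leaf 0 [(0,[(12,1024),(4,2560),(3,2816),(2,1792)])], .leaf 1 [(0,[(9,512),(12,992),(4,2240),(3,2976),(2,1248),(34,128)])], .leaf 0 [(0,[(13,256),(19,1312),(4,7968),(3,352),(2,8288),(0,512)])], .leaf 1 [(0,[(9,8192),(12,1024),(4,768),(3,2816),(1,1792)])], .leaf 3 [(0,[(12,1536),(4,3072),(2,1536)]),(0,[(12,1280),(4,3328),(2,1792)]),(0,[(12,2560),(4,5120),(3,512),(2,2816)]),(0,[(9,8192)]),(0,[(12,1536),(4,11264),(2,9728)])], .leaf 0 [(0,[(4,1024),(3,2816),(1,2816)])],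 .leaf 1 [(0,[(12,736),(4,992),(3,2976),(1,1504)])], .leaf 0 [(0,[(12,736),(32,1248),(4,1248),(2,1504)])]]
noncomputable def t0 : TT := a0
theorem c0 : chkT (([4,4,-1,0,0,0,0,0,0,0] : Fm) :: ([0,0,0,1,-1,0,0,0,0,0] : Fm) :: fsm (-1) ([0,0,0,0,0,0,0,1,-1,0] : Fm) :: ([0,0,0,0,-2,0,0,0,1,0] : Fm) :: ([0,0,0,-1,-1,0,0,1,-1,0] : Fm) :: K2O11.C0) t0 = true := by decide +kernel
end K2O11M00100

namespace K2O11M00101
noncomputable def a0 : TT := .leaf ⟨false,0,0,0,1,3,7,[[],[],[],[1,1,0,-3,-4,0,0,1,2],[],[],[],[],[],[],[]]⟩ [.leaf 0 [(0,[])], .leaf 0 [(0,[])], .leaf 0 [(0,[])], .leaf 0 [(0,[])], .leaf 0 [(0,[])], .leaf 0 [(0,[])], .leaf 0 [(0,[(12,128),(4,256),(3,64),(2,128)])], .leaf 0 [(0,[])], .leaf 0 [(0,[])], .leaf 0 [(0,[])], .leaf 0 [(0,[])], .leaf 0 [(0,[])], .leaf 0 [(0,[])], .leaf 0 [(0,[])], .leaf 0 [(0,[])], .leaf 0 [(0,[])], .leaf 0 [(0,[(19,128),(4,640)])],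 .leaf 0 [(0,[(19,128),(3,256),(2,256)])], .leaf 0 [(0,[(19,128),(31,640),(33,384),(3,64)])], .leaf 0 [(0,[(3,256)])], .leaf 0 [(0,[(12,128),(4,256),(2,128)])], .leaf 0 [(0,[(9,64),(12,128),(24,32),(4,368),(3,24),(2,240),(34,16)])], .leaf 0 [(0,[(9,1024),(12,128),(4,1280),(2,1184)])], .leaf 0 [(0,[(13,256),(19,96),(31,64),(33,192)]),(0,[(13,256),(19,96),(31,64),(33,192)]),(0,[(33,96),(3,64),(0,24)]),(0,[(9,1024),(13,256),(19,96),(31,256),(4,736),(2,960)]),(0,[(13,256),(19,96),(31,32),(33,224)])], .leaf 1 [(0,[(12,128),(4,256),(3,80),(2,128)])], .split 1 0 (.leaf 1 [(0,[(0,1)])]) (.leaf 0 [(92,[(10,704),(13,992),(5,3216),(3,2224),(0,11),(35,176)])]), .leaf 0 [(0,[(9,64),(12,124),(4,360),(3,38),(2,236),(34,16)])], .leaf 2 [(0,[(9,1024),(12,128),(32,448),(4,832),(2,1184)])], .leaf 4 [(0,[(14,256),(19,64),(31,256),(32,160),(4,160),(2,384)]),(0,[(12,64),(14,256),(31,256),(4,640),(2,352)]),(12,[(12,384),(17,192),(22,832),(32,2496),(0,864),(35,1536)]),(0,[(9,832),(14,208),(19,112),(22,48),(31,208),(32,600),(4,456),(2,976),(35,48)]),(4,[(14,1024),(15,32),(19,544),(22,256),(31,1024),(4,6208),(2,5792),(35,256)])],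 .leaf 0 [(0,[(12,128),(4,288),(3,48),(2,192)])], .leaf 1 [(0,[(9,64),(12,124),(4,392),(3,6),(2,268),(34,16)])], .split 1 0 (.leaf 1 [(0,[(0,1)])]) (.leaf 0 [(30,[(10,1984),(5,3772),(4,6282),(0,2),(35,496)])]), .leaf 1 [(0,[(9,1024),(12,128),(32,448),(4,832),(2,1184)])], .leaf 3 [(0,[(12,192),(32,160),(4,224),(2,192)]),(0,[(12,160),(4,416),(2,224)]),(0,[(12,320),(32,96),(4,544),(2,352)]),(0,[(9,1024),(12,192),(4,1408),(2,1216)]),(0,[(12,192),(32,672),(4,736),(2,1216)])], .leaf 0 [(0,[(4,128),(3,208)])], .leaf 1 [(0,[(4,124),(3,202)])], .leaf 0 [(0,[(12,92),(32,312),(2,188)])]]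
noncomputable def t0 : TT := a0
theorem c0 : chkT (fsm (-1) ([4,4,-1,0,0,0,0,0,0,0] : Fm) :: ([0,0,0,1,-1,0,0,0,0,0] : Fm) :: fsm (-1) ([0,0,0,0,0,0,0,1,-1,0] : Fm) :: ([0,0,0,0,-2,0,0,0,1,0] : Fm) :: ([0,0,0,-1,-1,0,0,1,-1,0] : Fm) :: K2O11.C0) t0 = true := by decide +kernel
end K2O11M00101

namespace K2O11M00110
noncomputable def a0 : TT := .leaf ⟨true,8,1,0,9,1,63,[[0,0,0,8],[0,0,0,8],[],[8,8,0,-24,-72,0,0,8,16],[],[],[0,0,0,24],[0,0,0,1],[0,0,0,8],[],[0,0,0,8]]⟩ [.leaf 0 [(0,[])], .leaf 0 [(0,[])], .leaf 0 [(0,[])], .leaf 0 [(0,[(4,1),(2,1)])], .leaf 0 [(0,[])], .leaf 0 [(0,[(1,8)])], .leaf 0 [(0,[])], .leaf 0 [(0,[]),(0,[]),(0,[]),(0,[]),(0,[]),(0,[])], .leaf 0 [(0,[(12,1024),(4,2048),(3,3072),(2,1024)])], .leaf 0 [(0,[])], .leaf 0 [(0,[])], .leaf 0 [(0,[])], .leaf 0 [(0,[])], .leaf 0 [(0,[])], .leaf 0 [(0,[])], .leaf 0 [(0,[])], .leaf 0 [(0,[])], .leaf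 0 [(0,[])], .leaf 0 [(0,[(19,1024),(32,5120)])], .leaf 0 [(0,[(19,1024),(2,2048)])], .leaf 0 [(0,[(19,1024),(31,7168),(33,1024),(2,1024)])], .leaf 0 [(0,[(12,1024),(4,2560),(3,2816),(2,1792)])], .leaf 0 [(0,[(12,1024),(4,1024),(1,1024)])], .leaf 0 [(0,[(9,512),(12,1024),(24,256),(4,2816),(3,2816),(2,1792),(34,128)])], .leaf 0 [(0,[(9,8192),(12,1024),(4,2560),(3,2816),(2,1792)])], .leaf 3 [(0,[(13,2816),(19,512),(22,768),(31,256),(33,1024)]),(0,[(25,512),(33,1024),(3,768)]),(0,[(13,1792),(14,256),(31,2048),(4,512),(3,5248)]),(0,[(13,2048),(19,512),(33,2048),(4,4608),(3,1536),(2,3584)]),(0,[(13,2048),(19,1024),(33,2048)])], .leaf 0 [(0,[(14,256),(19,1280),(24,256),(4,2816),(2,3072),(0,512)])], .leaf 1 [(0,[(14,256),(19,1312),(4,2784),(2,3104),(0,512)])], .leaf 0 [(0,[(9,512),(12,992),(4,2496),(3,2976),(2,1504),(34,128)])], .leaf 2 [(0,[(9,8192),(12,1024),(4,2560),(3,2816),(2,1792)])],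 .leaf 4 [(0,[(14,2048),(19,1152),(31,2048),(4,128),(1,2688)]),(6,[(8,44032),(14,3328),(19,7424),(22,11008),(31,3328),(4,12032),(3,768),(2,3328),(35,11008)]),(0,[(22,512),(32,1536),(1,2304)]),(8,[(9,60416),(14,15104),(19,7936),(22,3328),(31,15104),(32,5376),(35,3328)]),(0,[(14,2048),(19,1152),(31,2048),(4,128),(1,2688)])], .leaf 0 [(0,[(12,1024),(4,2560),(3,2816),(2,1792)])], .leaf 1 [(0,[(9,512),(12,992),(4,2240),(3,2976),(2,1248),(34,128)])], .leaf 0 [(0,[(9,5248),(13,1568),(14,1312),(4,4032),(3,2976),(2,3040),(0,512),(34,1312)])], .leaf 1 [(0,[(9,8192),(12,1024),(4,2560),(3,2816),(2,1792)])], .leaf 3 [(0,[(12,1536),(4,1536),(1,1536)]),(0,[(4,1536),(1,3072)]),(0,[(12,2560),(4,5120),(3,512),(2,2816)]),(0,[(9,8192)]),(0,[(12,1536),(4,11264),(2,9728)])], .leaf 0 [(0,[(12,1024),(4,2816),(3,2816),(2,1792)])], .leaf 1 [(0,[(12,736),(4,2496),(3,2976),(2,1504)])],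 .leaf 0 [(0,[(12,736),(4,992),(3,256),(1,1504)])]]
noncomputable def t0 : TT := a0
theorem c0 : chkT (([4,4,-1,0,0,0,0,0,0,0] : Fm) :: fsm (-1) ([0,0,0,1,-1,0,0,0,0,0] : Fm) :: fsm (-1) ([0,0,0,0,0,0,0,1,-1,0] : Fm) :: ([0,0,0,0,-2,0,0,0,1,0] : Fm) :: ([0,0,0,-1,-1,0,0,1,-1,0] : Fm) :: K2O11.C0) t0 = true := by decide +kernel
end K2O11M00110

namespace K2O11M00111
noncomputable def a0 : TT := .leaf ⟨false,0,0,0,1,3,7,[[],[],[],[1,1,0,-3,-4,0,0,1,2],[],[],[],[],[],[],[]]⟩ [.leaf 0 [(0,[])], .leaf 0 [(0,[])], .leaf 0 [(0,[])], .leaf 0 [(0,[])], .leaf 0 [(0,[])], .leaf 0 [(0,[])], .leaf 0 [(0,[(12,128),(4,128),(3,192),(1,128)])], .leaf 0 [(0,[])], .leaf 0 [(0,[])], .leaf 0 [(0,[])], .leaf 0 [(0,[])], .leaf 0 [(0,[])], .leaf 0 [(0,[])], .leaf 0 [(0,[])], .leaf 0 [(0,[])], .leaf 0 [(0,[])], .leaf 0 [(0,[(19,128),(4,640)])], .leaf 0 [(0,[(19,128),(3,256),(2,256)])],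 .leaf 0 [(0,[(19,128),(31,640),(33,384),(3,64)])], .leaf 0 [(0,[(3,256)])], .leaf 0 [(0,[(12,128),(4,128),(1,128)])], .leaf 0 [(0,[(9,64),(12,128),(24,32),(4,128),(3,264),(1,240),(34,16)])], .leaf 0 [(0,[(9,1024),(12,128),(4,1280),(2,1184)])], .leaf 0 [(0,[(13,256),(19,96),(31,64),(33,192)]),(0,[(13,256),(19,96),(31,64),(33,192)]),(0,[(33,96),(3,64),(0,24)]),(0,[(9,1024),(13,256),(19,96),(31,256),(4,432),(2,656),(1,304)]),(0,[(13,256),(19,96),(31,32),(33,224)])], .leaf 1 [(0,[(12,128),(4,256),(3,80),(2,128)])], .split 1 0 (.leaf 1 [(0,[(0,1)])]) (.leaf 0 [(92,[(10,704),(5,992),(2,3216),(0,11),(35,176)])]), .leaf 0 [(0,[(9,64),(12,124),(4,124),(3,274),(1,236),(34,16)])], .leaf 2 [(0,[(9,1024),(12,128),(4,1280),(2,1184)])], .leaf 4 [(0,[(14,256),(19,64),(31,256),(4,320),(2,384)]),(0,[(12,64),(14,256),(31,256),(4,640),(2,352)]),(0,[(4,192),(1,384),(0,16)]),(0,[(9,832),(14,208),(19,112),(22,48),(31,208),(4,1056),(2,976),(35,48)]),(0,[(14,256),(19,64),(31,256),(4,1344),(2,1216)])],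 .leaf 0 [(0,[(12,128),(4,288),(3,48),(2,192)])], .leaf 1 [(0,[(9,64),(12,124),(4,392),(3,6),(2,268),(34,16)])], .split 1 0 (.leaf 1 [(0,[(0,1)])]) (.leaf 0 [(30,[(10,1984),(5,3772),(4,6282),(0,2),(35,496)])]), .leaf 1 [(0,[(9,1024),(12,128),(4,1280),(2,1184)])], .leaf 3 [(0,[(12,192),(4,192),(3,32),(1,192)]),(0,[(12,160),(4,192),(1,224)]),(0,[(12,320),(4,288),(3,256),(1,352)]),(0,[(9,1024),(12,192),(4,1408),(2,1216)]),(0,[(12,192),(4,1408),(2,1216)])], .leaf 0 [(0,[(4,128),(3,208)])], .leaf 1 [(0,[(4,124),(3,202)])], .leaf 0 [(0,[(12,92),(32,124),(1,188)])]]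
noncomputable def t0 : TT := a0
theorem c0 : chkT (fsm (-1) ([4,4,-1,0,0,0,0,0,0,0] : Fm) :: fsm (-1) ([0,0,0,1,-1,0,0,0,0,0] : Fm) :: fsm (-1) ([0,0,0,0,0,0,0,1,-1,0] : Fm) :: ([0,0,0,0,-2,0,0,0,1,0] : Fm) :: ([0,0,0,-1,-1,0,0,1,-1,0] : Fm) :: K2O11.C0) t0 = true := by decide +kernel
end K2O11M00111

namespace K2O11M00000
theorem top : ∃ t, chkT (([4,4,-1,0,0,0,0,0,0,0] : Fm) :: ([0,0,0,1,-1,0,0,0,0,0] : Fm) :: ([0,0,0,0,0,0,0,1,-1,0] : Fm) :: ([0,0,0,0,-2,0,0,0,1,0] : Fm) :: ([0,0,0,-1,-1,0,0,1,-1,0] : Fm) :: K2O11.C0) t = true := ⟨_, c0⟩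
end K2O11M00000
namespace K2O11M00001
theorem top : ∃ t, chkT (fsm (-1) ([4,4,-1,0,0,0,0,0,0,0] : Fm) :: ([0,0,0,1,-1,0,0,0,0,0] : Fm) :: ([0,0,0,0,0,0,0,1,-1,0] : Fm) :: ([0,0,0,0,-2,0,0,0,1,0] : Fm) :: ([0,0,0,-1,-1,0,0,1,-1,0] : Fm) :: K2O11.C0) t = true := ⟨_, c0⟩
end K2O11M00001
namespace K2O11M00010
theorem top : ∃ t, chkT (([4,4,-1,0,0,0,0,0,0,0] : Fm) :: fsm (-1) ([0,0,0,1,-1,0,0,0,0,0] : Fm) :: ([0,0,0,0,0,0,0,1,-1,0] : Fm) :: ([0,0,0,0,-2,0,0,0,1,0] : Fm) :: ([0,0,0,-1,-1,0,0,1,-1,0] : Fm) :: K2O11.C0) t = true := ⟨_, c0⟩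
end K2O11M00010
namespace K2O11M00011
theorem top : ∃ t, chkT (fsm (-1) ([4,4,-1,0,0,0,0,0,0,0] : Fm) :: fsm (-1) ([0,0,0,1,-1,0,0,0,0,0] : Fm) :: ([0,0,0,0,0,0,0,1,-1,0] : Fm) :: ([0,0,0,0,-2,0,0,0,1,0] : Fm) :: ([0,0,0,-1,-1,0,0,1,-1,0] : Fm) :: K2O11.C0) t = true := ⟨_, c0⟩
end K2O11M00011
namespace K2O11M00100
theorem top : ∃ t, chkT (([4,4,-1,0,0,0,0,0,0,0] : Fm) :: ([0,0,0,1,-1,0,0,0,0,0] : Fm) :: fsm (-1) ([0,0,0,0,0,0,0,1,-1,0] : Fm) :: ([0,0,0,0,-2,0,0,0,1,0] : Fm) :: ([0,0,0,-1,-1,0,0,1,-1,0] : Fm) :: K2O11.C0) t = true := ⟨_, c0⟩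
end K2O11M00100
namespace K2O11M00101
theorem top : ∃ t, chkT (fsm (-1) ([4,4,-1,0,0,0,0,0,0,0] : Fm) :: ([0,0,0,1,-1,0,0,0,0,0] : Fm) :: fsm (-1) ([0,0,0,0,0,0,0,1,-1,0] : Fm) :: ([0,0,0,0,-2,0,0,0,1,0] : Fm) :: ([0,0,0,-1,-1,0,0,1,-1,0] : Fm) :: K2O11.C0) t = true := ⟨_, c0⟩
end K2O11M00101
namespace K2O11M00110
theorem top : ∃ t, chkT (([4,4,-1,0,0,0,0,0,0,0] : Fm) :: fsm (-1) ([0,0,0,1,-1,0,0,0,0,0] : Fm) :: fsm (-1) ([0,0,0,0,0,0,0,1,-1,0] : Fm) :: ([0,0,0,0,-2,0,0,0,1,0] : Fm) :: ([0,0,0,-1,-1,0,0,1,-1,0] : Fm) :: K2O11.C0) t = true := ⟨_, c0⟩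
end K2O11M00110
namespace K2O11M00111
theorem top : ∃ t, chkT (fsm (-1) ([4,4,-1,0,0,0,0,0,0,0] : Fm) :: fsm (-1) ([0,0,0,1,-1,0,0,0,0,0] : Fm) :: fsm (-1) ([0,0,0,0,0,0,0,1,-1,0] : Fm) :: ([0,0,0,0,-2,0,0,0,1,0] : Fm) :: ([0,0,0,-1,-1,0,0,1,-1,0] : Fm) :: K2O11.C0) t = true := ⟨_, c0⟩
end K2O11M00111
def K2O11P00 := (splE (splE (splE K2O11M00000.top K2O11M00001.top) (splE K2O11M00010.top K2O11M00011.top)) (splE (splE K2O11M00100.top K2O11M00101.top) (splE K2O11M00110.top K2O11M00111.top)))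

end Vale.Agent.P235
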