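import Vale.Agent.P235.T.K2O11C

namespace Vale.Agent.P235

set_option maxRecDepth 100000

namespace K2O11M10000
noncomputable def a0 : TT := .leaf ⟨true,31,33,0,64,1,130943,[[0,0,0,0,42966],[0,0,0,0,42966],[],[7161,7161,0,-14322,-19437,-1023,0,7161,5115,1023],[],[],[0,0,0,0,42966],[0,0,0,0,1386],[0,0,0,0,1302],[],[0,0,0,0,3968]]⟩ [.leaf 0 [(0,[])], .leaf 0 [(0,[])], .leaf 0 [(0,[])], .leaf 0 [(0,[])], .leaf 0 [(0,[(2,123008)])], .leaf 0 [(0,[])], .leaf 0 [(0,[])], .leaf 0 [(0,[]),(0,[]),(0,[]),(0,[]),(0,[]),(0,[])], .leaf 0 [(0,[(9,261888),(13,851136),(23,65472),(26,65472),(33,785664),(4,1145760),(36,65472)])], .leaf 0 [(0,[])], .leaf 0 [(0,[])], .leaf 0 [(0,[])], .leaf 0 [(0,[])], .leaf 0 [(0,[])], .leaf 0 [(0,[])], .leaf 0 [(0,[])], .leaf 0 [(0,[])], .leaf 0 [(0,[])], .leaf 0 [(0,[(15,130944),(20,916608),(25,147312),(33,14845776),(4,7615212),(0,8184)])], .leaf 0 [(0,[(15,130944),(20,916608),(25,147312),(5,1915056),(4,9530268),(0,8184)])],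 .leaf 0 [(0,[(14,1571328),(20,916608),(23,1571328),(32,13225344),(34,1833216),(4,10082688)])], .leaf 0 [(0,[(34,130944),(4,654720),(2,1178496)])], .leaf 0 [(0,[(9,261888),(13,785664),(23,130944),(33,851136),(36,65472)])], .leaf 0 [(0,[(13,916608),(15,392832),(25,441936),(33,671088),(0,24552)])], .leaf 1 [(0,[(13,793848),(16,8184),(23,130944),(33,842952),(36,65472)])], .leaf 1 [(0,[(14,4190208),(20,687456),(32,2717088),(34,1374912),(4,4583040)]),(0,[(14,4190208),(20,687456),(32,2717088),(34,1374912)]),(0,[(20,687456),(34,1374912),(4,2569776)]),(0,[(14,4190208),(20,687456),(32,2717088),(34,1374912)]),(0,[(14,4190208),(20,1604064),(32,752928),(34,3208128)])], .leaf 1 [(0,[(13,916608),(33,916608)])], .split 1 0 (.leaf 1 [(0,[(0,1)])]) (.leaf 0 [(402,[(14,113659392),(18,73852416),(33,16237056),(34,113659392),(0,141)])]), .leaf 0 [(3,[(13,5052597),(15,1587696),(20,1500741),(23,308946),(33,1058805),(0,99231)])],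 .leaf 0 [(0,[(13,916608),(15,130944),(26,130944),(33,785664)])], .leaf 0 [(0,[(15,5335968),(20,687456),(26,1145760),(32,2946240),(33,1669536),(4,3437280)]),(0,[(15,4190208),(20,687456),(33,2815296)]),(0,[(15,4190208),(20,687456),(32,2651616),(34,1440384),(4,5205024),(3,3731904)]),(0,[(15,4190208),(20,687456),(32,4092000),(33,2815296)]),(0,[(15,5172288),(20,1604064),(26,982080),(32,2978976)])], .split 1 0 (.leaf 1 [(0,[(0,1)])]) (.leaf 0 [(54,[(0,9)])]), .split 0 0 (.leaf 0 [(0,[(0,1)])]) (.leaf 1 [(3974,[(11,4164019200),(34,3506942208),(0,793),(36,1041004800)])]), .split 0 0 (.leaf 0 [(0,[(0,1)])]) (.leaf 1 [(2014,[(11,673575936),(22,405926400),(35,81185280),(3,2814248448),(2,32474112),(0,705),(36,168393984)])]), .leaf 2 [(0,[(13,916608),(15,130944),(26,130944),(33,785664)])], .leaf 4 [(0,[(13,4777410),(15,65472),(20,1045506),(25,73656),(33,2645478),(4,5315508),(0,4092)]),(0,[(13,4648512),(15,65472),(26,65472),(33,4583040),(4,6874560)]),(0,[(13,2880768),(27,65472),(4,3862848),(2,720192),(1,65472)]),(0,[(13,3731904),(15,65472),(25,73656),(33,3690984),(0,4092)]),(0,[(13,6463314),(15,589248),(20,2731410),(25,139128),(33,632214),(4,961620),(0,36828)])],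 .leaf 0 [(0,[(14,130944),(26,130944),(4,916608),(3,785664),(2,1047552)])], .leaf 1 [(0,[(22,364188),(32,126852),(4,1125300),(2,810216)])], .split 1 0 (.leaf 1 [(0,[(0,1)])]) (.leaf 0 [(1986,[(14,717311232),(16,251150592),(27,251150592),(0,221)])])]
noncomputable def a1 : TT := .leaf ⟨true,31,33,0,64,3,32735,[[0,0,0,0,11253],[0,0,0,0,11253],[],[1023,0,-1023,-1023,-16368,0,0,0,14322,1023],[],[],[0,0,0,0,37851],[0,0,0,0,363],[0,0,0,0,341],[],[0,0,0,0,992]]⟩ [.leaf 0 [(0,[])], .leaf 0 [(0,[])], .leaf 0 [(0,[])], .leaf 0 [(0,[])], .leaf 0 [(0,[(2,30752)])], .leaf 0 [(0,[])], .leaf 0 [(0,[])], .leaf 0 [(0,[]),(0,[]),(0,[]),(0,[]),(0,[]),(0,[])], .leaf 0 [(0,[(13,130944),(23,130944),(4,982080)])], .leaf 0 [(0,[])], .leaf 0 [(0,[])], .leaf 0 [(0,[])], .leaf 0 [(0,[])], .leaf 0 [(0,[])], .leaf 0 [(0,[])], .leaf 0 [(0,[])], .leaf 0 [(0,[])], .leaf 0 [(0,[])], .leaf 0 [(0,[(13,982080),(20,1113024),(25,130944),(33,3077184)])],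 .leaf 0 [(0,[(20,130944),(25,130944),(5,130944),(4,1113024)])], .leaf 0 [(348,[(14,33914496),(20,45699456),(26,10475520),(32,1357889280),(34,49627776),(4,684182400),(0,654720)])], .leaf 0 [(0,[(21,130944),(23,130944),(4,1047552)])], .leaf 0 [(0,[(13,130944),(23,130944)])], .leaf 0 [(0,[(13,130944),(17,130944),(4,1636800)])], .leaf 1 [(0,[(13,130944),(23,130944)])], .leaf 1 [(12,[(14,17039088),(20,1276704),(23,2733456),(26,523776),(32,7676592),(34,1473120),(0,32736)]),(0,[(14,1145760),(20,98208),(32,851136),(34,98208)]),(0,[(14,163680),(24,327360),(26,98208),(34,98208)]),(0,[(14,1145760),(20,98208),(32,851136),(34,98208)]),(0,[(14,1145760),(20,98208),(32,720192),(34,229152)])], .leaf 1 [(0,[(13,130944),(23,130944)])], .split 2 0 (.leaf 2 [(0,[(0,1)])]) (.leaf 0 [(31,[(27,1047552),(33,18855936),(35,1047552),(0,7)])]), .split 0 0 (.leaf 0 [(0,[(0,1)])]) (.leaf 1 [(112,[(14,13618176),(18,29331456),(26,1178496),(5,189475968),(0,111)])]),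 .leaf 0 [(0,[(13,130944),(23,130944)])], .leaf 0 [(126,[(14,9722592),(15,130594816),(20,12472416),(32,120872224),(33,122094368),(4,58630176),(0,152768)]),(0,[(15,621984),(28,327360),(33,1374912)]),(28,[(14,6944124),(15,24288748),(20,7999860),(34,27648280),(3,46816572),(0,58652)]),(0,[(15,1145760),(20,196416),(32,949344),(33,851136)]),(0,[(15,1194864),(20,196416),(26,49104),(32,900240),(33,802032)])], .leaf 1 [(34,[(10,14403840),(15,7136448),(20,33063360),(25,2422464),(34,2553408),(5,29855232),(2,87405120),(1,9166080),(0,65472),(35,3600960)])], .leaf 0 [(24,[(10,15178592),(25,1452660),(27,1602700),(1,812944),(0,160270),(35,3794648)])], .leaf 0 [(0,[(10,211296),(15,2232),(20,998820),(34,133176),(5,834024),(2,1949466),(1,261888),(0,3162),(35,52824)])], .leaf 2 [(0,[(13,130944),(23,130944)])], .leaf 2 [(0,[(13,949344),(25,98208),(33,1047552),(4,310992)]),(0,[(27,98208),(3,327360),(2,523776)]),(0,[(13,949344),(25,98208),(33,1047552)]),(0,[(13,949344),(25,98208),(33,1047552)]),(0,[(13,949344),(17,130944),(25,229152),(33,1047552)])],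 .leaf 0 [(0,[(23,130944),(4,1113024)])], .leaf 0 [(4,[(10,2138752),(34,43648),(5,290532),(0,32054),(35,534688)])], .leaf 1 [(4,[(10,2138752),(32,43648),(3,320540),(0,32054),(35,534688)])]]
noncomputable def t0 : TT := (.split [-16,-18,-34,6,351,32,0,10,18,2] a0 a1)
theorem c0 : chkT (([4,4,-1,0,0,0,0,0,0,0] : Fm) :: ([0,0,0,1,-1,0,0,0,0,0] : Fm) :: ([0,0,0,0,0,0,0,1,-1,0] : Fm) :: ([0,0,0,0,-2,0,0,0,1,0] : Fm) :: fsm (-1) ([0,0,0,-1,-1,0,0,1,-1,0] : Fm) :: K2O11.C0) t0 = true := by decide +kernel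
end K2O11M10000

namespace K2O11M10001
noncomputable def a0 : TT := .leaf ⟨true,31,33,0,64,3,16367,[[0,0,0,0,5115],[0,0,0,0,5115],[],[0,0,0,0,-16368,0,0,0,8184],[],[],[0,0,0,0,15345],[0,0,0,0,165],[0,0,0,0,155],[],[0,0,0,0,496]]⟩ [.leaf 0 [(0,[])], .leaf 0 [(0,[])], .leaf 0 [(0,[])], .leaf 0 [(0,[])], .leaf 0 [(0,[(1,15376)])], .leaf 0 [(0,[])], .leaf 0 [(0,[])], .leaf 0 [(0,[]),(0,[]),(0,[]),(0,[]),(0,[]),(0,[])], .leaf 0 [(0,[(3,1047552)])], .leaf 0 [(0,[])], .leaf 0 [(0,[])], .leaf 0 [(0,[])], .leaf 0 [(0,[])], .leaf 0 [(0,[])], .leaf 0 [(0,[])], .leaf 0 [(0,[])], .leaf 0 [(0,[])], .leaf 0 [(0,[])], .leaf 0 [(0,[(32,2095104)])], .leaf 0 [(0,[])], .leaf 0 [(0,[(31,2095104),(3,654720)])], .leaf 0 [(0,[(4,65472),(3,982080),(1,196416)])], .leaf 0 [(0,[])], .leaf 0 [(0,[(9,436480),(12,763840),(24,65472),(3,120032),(0,152768),(34,109120)])], .leaf 1 [(0,[])], .leaf 1 [(0,[(13,523776),(31,523776)]),(0,[(13,523776),(31,523776)]),(0,[(31,261888)]),(0,[(13,523776),(31,523776)]),(0,[(13,523776),(31,458304),(33,65472)])],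 .leaf 1 [(0,[(3,425568)])], .split 0 0 (.leaf 0 [(0,[(0,1)])]) (.leaf 1 [(92,[(10,40592640),(13,71037120),(1,14207424),(0,13),(35,10148160)])]), .leaf 0 [(0,[(9,436480),(12,763840),(3,120032),(0,152768),(34,109120)])], .leaf 0 [(0,[])], .leaf 0 [(0,[(14,523776),(31,523776),(32,523776)]),(0,[(14,523776),(31,261888),(32,523776)]),(0,[(14,523776),(31,425568),(33,98208),(2,360096)]),(0,[(14,621984),(25,98208),(31,425568),(32,425568)]),(0,[(14,523776),(31,523776),(32,523776)])], .leaf 0 [(0,[(9,174592),(12,371008),(20,65472),(3,250976),(0,87296),(34,43648)])], .leaf 1 [(0,[(9,523776),(12,982080),(0,196416),(34,130944)])], .split 1 0 (.leaf 1 [(0,[(0,1)])]) (.leaf 0 [(30,[(10,4059264),(5,130944),(4,31262880),(2,3772824),(0,2),(35,1014816)])]), .leaf 2 [(0,[])], .leaf 2 [(0,[(12,523776),(32,523776)]),(0,[(21,261888)]),(0,[(12,523776),(32,523776)]),(0,[(12,523776),(32,523776)]),(0,[(9,436480),(12,1320352),(24,32736),(26,32736),(32,491040),(0,152768),(34,109120)])],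 .leaf 0 [(0,[(3,982080),(1,196416)])], .leaf 1 [(0,[(19,65472),(4,65472),(3,883872),(1,392832)])], .split 1 0 (.leaf 1 [(0,[(0,1)])]) (.leaf 0 [(30,[(20,2029632),(5,2029632),(0,2)])])]
noncomputable def t0 : TT := a0
theorem c0 : chkT (fsm (-1) ([4,4,-1,0,0,0,0,0,0,0] : Fm) :: ([0,0,0,1,-1,0,0,0,0,0] : Fm) :: ([0,0,0,0,0,0,0,1,-1,0] : Fm) :: ([0,0,0,0,-2,0,0,0,1,0] : Fm) :: fsm (-1) ([0,0,0,-1,-1,0,0,1,-1,0] : Fm) :: K2O11.C0) t0 = true := by decide +kernel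
end K2O11M10001

namespace K2O11M10010
noncomputable def a0 : TT := .leaf ⟨false,1,1,0,2,2,31,[[0,0,0,8],[0,0,0,0,8],[],[3,3,0,-6,-6,0,0,3,3],[],[],[0,0,0,28],[],[],[],[]]⟩ [.leaf 0 [(0,[])], .leaf 0 [(0,[])], .leaf 0 [(0,[])], .leaf 0 [(0,[])], .leaf 0 [(0,[])], .leaf 0 [(0,[])], .leaf 0 [(0,[(12,768),(19,384)])], .leaf 0 [(0,[])], .leaf 0 [(0,[])], .leaf 0 [(0,[])], .leaf 0 [(0,[])], .leaf 0 [(0,[])], .leaf 0 [(0,[])], .leaf 0 [(0,[])], .leaf 0 [(0,[])], .leaf 0 [(0,[(1,3584)])], .leaf 0 [(0,[(19,384),(32,2304),(3,1280)])], .leaf 0 [(0,[(19,384),(4,768),(3,2048),(1,1024)])], .leaf 0 [(0,[(19,384),(31,3328),(33,768),(3,2304),(1,1024)])], .leaf 0 [(0,[])], .leaf 0 [(0,[])], .leaf 0 [(6,[(9,1024),(24,896),(0,384),(34,256)])], .leaf 0 [(0,[(9,4096),(1,3840)])], .leaf 0 [(0,[(13,1024),(19,288),(31,448),(33,576),(3,832),(1,768)]),(0,[(13,1024),(19,288),(31,448),(33,576),(1,768)]),(0,[(19,128),(25,160),(33,576),(3,608),(1,768)]),(0,[(9,3328),(13,576),(19,672),(24,64),(33,1088),(1,4032),(35,192)]),(0,[(9,1280),(13,1344),(14,320),(19,352),(33,1024),(34,320)])],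 .leaf 1 [(0,[])], .split 1 0 (.leaf 1 [(0,[(0,1)])]) (.leaf 0 [(92,[(10,4864),(33,5952),(0,19),(35,1216)])]), .leaf 0 [(6,[(9,992),(0,400),(34,248)])], .leaf 2 [(0,[(9,4096)])], .leaf 4 [(0,[(14,1024),(19,192),(31,1024),(32,640),(3,1280),(1,768)]),(0,[(8,768),(14,1664),(22,192),(25,832),(32,256),(3,224),(1,704),(35,192)]),(0,[(14,704),(22,192),(32,704),(3,416),(2,96)]),(0,[(9,3840),(14,896),(19,320),(33,1024),(2,512),(35,64)]),(0,[(14,1024),(19,192),(31,1024),(32,640),(1,3840)])], .leaf 0 [(0,[])], .leaf 1 [(0,[(9,192),(32,152),(0,32),(34,48)])], .split 0 0 (.leaf 0 [(0,[(0,1)])]) (.leaf 1 [(92,[(10,4864),(21,5952),(0,19),(35,1216)])]), .leaf 1 [(0,[(9,4096)])], .leaf 1 [(0,[(12,736),(3,736),(1,736)]),(0,[(3,224)]),(0,[(1,448)]),(0,[(9,4096)]),(0,[(12,352),(32,352),(3,352)])], .leaf 0 [(0,[])], .leaf 1 [(0,[])], .leaf 0 [(0,[])]]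
noncomputable def t0 : TT := a0
theorem c0 : chkT (([4,4,-1,0,0,0,0,0,0,0] : Fm) :: fsm (-1) ([0,0,0,1,-1,0,0,0,0,0] : Fm) :: ([0,0,0,0,0,0,0,1,-1,0] : Fm) :: ([0,0,0,0,-2,0,0,0,1,0] : Fm) :: fsm (-1) ([0,0,0,-1,-1,0,0,1,-1,0] : Fm) :: K2O11.C0) t0 = true := by decide +kernel
end K2O11M10010

namespace K2O11M10011
noncomputable def a0 : TT := .leaf ⟨true,31,0,33,64,1,2727,[[0,0,0,1023],[],[0,0,0,1023],[0,0,0,-341,-682,0,0,0,682],[],[0,0,0,2728],[],[0,0,0,33],[],[0,0,0,31],[0,0,0,88]]⟩ [.leaf 0 [(0,[])], .leaf 0 [(0,[])], .leaf 0 [(0,[])], .leaf 0 [(0,[])], .leaf 0 [(0,[])], .leaf 0 [(0,[])], .leaf 0 [(0,[(9,1056),(12,2640),(1,2112),(0,528),(34,264)])], .leaf 0 [(0,[]),(0,[]),(0,[]),(0,[]),(0,[]),(0,[])], .leaf 0 [(0,[(3,65472),(1,43648)])], .leaf 0 [(0,[])], .leaf 0 [(0,[])], .leaf 0 [(0,[])], .leaf 0 [(0,[])], .leaf 0 [(0,[])], .leaf 0 [(0,[])], .leaf 0 [(0,[])], .leaf 0 [(0,[])],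 .leaf 0 [(0,[])], .leaf 0 [(0,[(12,109120),(19,109120),(32,196416)])], .leaf 0 [(0,[(3,240064),(1,218240)])], .leaf 0 [(0,[(31,305536),(33,43648),(3,109120)])], .leaf 0 [(0,[(4,10912),(3,49104)])], .leaf 0 [(0,[])], .leaf 0 [(0,[(9,31744),(12,24800),(24,10912),(3,76384),(1,74400),(0,4960),(34,7936)])], .leaf 0 [(0,[(9,349184),(4,10912),(3,49104)])], .leaf 0 [(0,[(13,87296),(14,21824),(25,21824),(31,43648),(33,21824),(3,65472),(1,65472)]),(0,[(13,87296),(31,87296)]),(0,[(12,152768),(1,43648),(0,38192)]),(0,[(9,250976),(13,62744),(19,24552),(25,24552),(31,2728),(33,60016),(35,24552)]),(0,[(13,87296),(31,65472),(33,21824)])], .leaf 1 [(0,[(3,70928),(1,43648)])], .split 0 0 (.leaf 0 [(0,[(0,1)])]) (.leaf 1 [(30,[(10,676544),(0,2),(35,169136)])]), .leaf 0 [(0,[(9,31248),(12,23560),(3,84568),(1,81592),(0,4712),(34,7812)])], .leaf 2 [(0,[(9,349184),(4,10912),(3,49104)])], .leaf 2 [(0,[(14,125488),(25,38192),(31,49104),(32,16368)]),(0,[(12,38192),(32,87296),(1,16368),(0,9548)]),(0,[(14,87296),(31,65472),(33,21824)]),(0,[(9,305536),(14,65472),(19,21824),(31,87296),(35,10912)]),(0,[(14,87296),(31,87296),(32,10912),(2,54560)])],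 .leaf 0 [(8,[(9,43648),(20,98208),(3,687456),(1,567424),(0,19096),(34,10912)])], .leaf 1 [(0,[(9,28272),(12,16120),(3,84568),(1,86552),(0,3224),(34,7068)])], .split 1 0 (.leaf 1 [(0,[(0,1)])]) (.leaf 0 [(30,[(10,676544),(5,21824),(4,1488124),(0,2),(35,169136)])]), .leaf 1 [(0,[(9,349184),(4,10912),(3,49104)])], .leaf 3 [(0,[(12,103664),(19,16368),(32,70928),(3,98208),(1,98208)]),(0,[(12,76384),(1,65472)]),(0,[(12,87296),(3,114576),(1,98208)]),(0,[(9,349184),(21,21824),(3,65472)]),(0,[(3,65472),(2,21824)])], .leaf 0 [(0,[(3,49104)])], .leaf 1 [(0,[(19,10912),(4,10912),(3,53196)])], .leaf 0 [(0,[(19,10912),(4,10912)])]]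
noncomputable def t0 : TT := a0
theorem c0 : chkT (fsm (-1) ([4,4,-1,0,0,0,0,0,0,0] : Fm) :: fsm (-1) ([0,0,0,1,-1,0,0,0,0,0] : Fm) :: ([0,0,0,0,0,0,0,1,-1,0] : Fm) :: ([0,0,0,0,-2,0,0,0,1,0] : Fm) :: fsm (-1) ([0,0,0,-1,-1,0,0,1,-1,0] : Fm) :: K2O11.C0) t0 = true := by decide +kernel
end K2O11M10011

namespace K2O11M10100
noncomputable def a0 : TT := .leaf ⟨true,31,33,0,64,3,8183,[[0,0,0,0,2046],[0,0,0,0,4092],[],[0,0,0,0,-1023,0,0,0,1023],[],[],[0,0,0,0,9207],[0,0,0,0,66],[0,0,0,0,124],[],[0,0,0,0,248]]⟩ [.leaf 0 [(0,[])], .leaf 0 [(0,[])], .leaf 0 [(0,[])], .leaf 0 [(0,[])], .leaf 0 [(0,[(1,7688)])], .leaf 0 [(0,[])], .leaf 0 [(0,[])], .leaf 0 [(0,[]),(0,[]),(0,[]),(0,[]),(0,[]),(0,[])], .leaf 0 [(0,[(3,65472)])], .leaf 0 [(0,[])], .leaf 0 [(0,[])], .leaf 0 [(0,[])], .leaf 0 [(0,[])], .leaf 0 [(0,[])], .leaf 0 [(0,[])], .leaf 0 [(0,[])], .leaf 0 [(0,[])], .leaf 0 [(0,[])], .leaf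 0 [(0,[(12,327360),(19,327360),(32,720192),(3,261888)])], .leaf 0 [(0,[(3,327360)])], .leaf 0 [(0,[(31,1047552),(3,851136)])], .leaf 0 [(0,[(4,32736)])], .leaf 0 [(0,[])], .leaf 0 [(0,[(9,65472),(24,32736),(32,114576),(2,114576),(34,16368)])], .leaf 0 [(0,[(9,1047552),(32,1047552),(2,1080288)])], .leaf 0 [(0,[(13,261888),(31,261888),(3,310992)]),(0,[(13,261888),(14,49104),(25,49104),(31,163680),(33,49104)]),(0,[(3,49104)]),(0,[(9,654720),(13,163680),(19,98208),(25,98208),(31,163680),(32,360096),(2,589248),(35,98208)]),(0,[(13,261888),(31,229152),(33,32736)])], .leaf 1 [(0,[])], .split 0 0 (.leaf 0 [(0,[(0,1)])]) (.leaf 1 [(30,[(10,2029632),(33,3551856),(3,3551856),(0,2),(35,507408)])]), .leaf 0 [(0,[(9,65472),(32,114576),(2,114576),(34,16368)])], .leaf 2 [(0,[(9,1047552),(32,1047552),(2,1080288)])], .leaf 4 [(0,[(14,261888),(31,261888),(32,523776),(3,458304),(2,261888)]),(0,[(14,523776),(25,261888),(32,261888),(2,294624)]),(0,[(14,196416),(27,32736),(32,589248),(3,229152),(2,294624)]),(0,[(9,589248),(14,147312),(19,114576),(22,114576),(31,147312),(32,883872),(2,736560),(35,114576)]),(0,[(8,458304),(14,147312),(19,114576),(22,114576),(31,147312),(32,1342176),(2,1194864),(35,114576)])],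 .leaf 0 [(0,[(32,32736),(2,65472)])], .leaf 1 [(0,[(9,65472),(32,147312),(2,147312),(34,16368)])], .split 1 0 (.leaf 1 [(0,[(0,1)])]) (.leaf 0 [(30,[(10,2029632),(3,65472),(0,2),(35,507408)])]), .leaf 1 [(0,[(9,1047552),(32,1047552),(2,1080288)])], .leaf 1 [(0,[(12,261888),(32,261888),(3,212784)]),(0,[(3,81840)]),(0,[(12,261888),(32,261888)]),(0,[(9,1047552),(32,1571328),(2,1342176)]),(0,[(12,98208),(24,32736),(32,425568),(2,163680),(0,32736)])], .leaf 0 [(0,[])], .leaf 1 [(0,[(19,32736),(4,32736)])], .leaf 0 [(0,[(19,32736),(32,32736),(2,65472)])]]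
noncomputable def t0 : TT := a0
theorem c0 : chkT (([4,4,-1,0,0,0,0,0,0,0] : Fm) :: ([0,0,0,1,-1,0,0,0,0,0] : Fm) :: fsm (-1) ([0,0,0,0,0,0,0,1,-1,0] : Fm) :: ([0,0,0,0,-2,0,0,0,1,0] : Fm) :: fsm (-1) ([0,0,0,-1,-1,0,0,1,-1,0] : Fm) :: K2O11.C0) t0 = true := by decide +kernel
end K2O11M10100

namespace K2O11M10101
noncomputable def a0 : TT := .leaf ⟨true,31,0,33,64,0,2727,[[0,0,0,1023],[],[0,0,0,1023],[0,0,0,-1023,-1364,0,0,0,1364],[],[0,0,0,3410],[],[0,0,0,33],[],[0,0,0,31],[0,0,0,88]]⟩ [.leaf 0 [(0,[])], .leaf 0 [(0,[])], .leaf 0 [(0,[])], .leaf 0 [(0,[])], .leaf 0 [(0,[])], .leaf 0 [(0,[])], .leaf 0 [(0,[(9,1056),(12,2640),(32,2112),(2,2112),(0,528),(34,264)])], .leaf 0 [(0,[]),(0,[]),(0,[]),(0,[]),(0,[]),(0,[])], .leaf 0 [(0,[(12,21824),(19,21824),(32,109120),(3,130944),(2,130944)])], .leaf 0 [(0,[])], .leaf 0 [(0,[])], .leaf 0 [(0,[])], .leaf 0 [(0,[])], .leaf 0 [(0,[])], .leaf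 0 [(0,[])], .leaf 0 [(0,[])], .leaf 0 [(0,[])], .leaf 0 [(0,[])], .leaf 0 [(0,[(32,218240),(3,21824)])], .leaf 0 [(0,[(32,130944),(3,152768),(2,130944)])], .leaf 0 [(0,[(13,87296),(22,87296),(31,261888)])], .leaf 0 [(0,[(3,87296),(2,10912)])], .leaf 0 [(0,[])], .leaf 0 [(0,[(9,27776),(12,20336),(24,5456),(26,5456),(32,159216),(3,163680),(2,164672),(0,2976),(34,6944)])], .leaf 0 [(0,[(9,349184),(3,87296),(2,10912)])], .split 0 4 (.leaf 0 [(0,[(14,109120),(23,21824),(32,65472)]),(0,[(14,87296),(32,54560),(34,32736)]),(0,[(13,130944),(32,43648),(1,32736)]),(0,[(10,316448),(14,79112),(20,8184),(26,8184),(32,51832),(34,27280),(36,8184)]),(0,[(0,1)])]) (.leaf 3 [(31,[(14,2880768),(32,2880768),(4,2662528),(2,130944),(0,1)]),(0,[(13,163680),(24,5456),(4,5456),(1,40920)]),(35,[(14,3229952),(15,1614976),(26,1614976),(34,1614976),(4,4604864),(0,1)]),(0,[(14,87296),(34,87296),(2,436480)]),(31,[(14,2880768),(32,2880768),(4,2662528),(2,11304832),(0,1)])]),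 .leaf 1 [(0,[(32,130944),(3,158224),(2,130944)])], .split 0 0 (.leaf 0 [(0,[(0,1)])]) (.leaf 1 [(30,[(10,676544),(0,2),(35,169136)])]), .leaf 0 [(0,[(9,31248),(12,23560),(32,166160),(3,169136),(2,166160),(0,4712),(34,7812)])], .leaf 2 [(0,[(9,349184),(3,87296),(2,10912)])], .leaf 4 [(0,[(8,87296),(14,65472),(19,21824),(22,21824),(31,65472),(32,65472),(35,21824)]),(2,[(8,349184),(14,174592),(19,87296),(22,87296),(31,174592),(32,545600),(3,403744),(2,403744),(35,87296)]),(0,[(12,43648),(14,65472),(32,87296),(0,10912)]),(0,[(9,349184),(14,87296),(31,87296)]),(0,[(14,76384),(19,10912),(26,10912),(31,98208)])], .leaf 0 [(0,[(32,141856),(3,158224),(2,152768)])], .leaf 1 [(0,[(9,28272),(12,16120),(32,171120),(3,169136),(2,171120),(0,3224),(34,7068)])], .split 0 0 (.leaf 0 [(0,[(0,1)])]) (.leaf 1 [(30,[(10,65472),(3,338272),(2,371008),(0,3),(35,16368)])]), .leaf 1 [(0,[(9,349184),(3,87296),(2,10912)])],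 .leaf 3 [(0,[(12,87296),(32,141856),(3,70928),(2,54560)]),(0,[(12,76384),(32,21824)]),(0,[(12,180048),(19,92752),(32,49104),(3,65472),(2,65472)]),(0,[(9,349184),(12,87296)]),(0,[(9,21824),(12,76384),(21,10912),(3,10912),(34,5456)])], .leaf 0 [(0,[(3,92752)])], .leaf 1 [(0,[(19,10912),(3,90024),(2,10912)])], .leaf 0 [(0,[(19,10912),(4,10912)])]]
noncomputable def t0 : TT := a0
theorem c0 : chkT (fsm (-1) ([4,4,-1,0,0,0,0,0,0,0] : Fm) :: ([0,0,0,1,-1,0,0,0,0,0] : Fm) :: fsm (-1) ([0,0,0,0,0,0,0,1,-1,0] : Fm) :: ([0,0,0,0,-2,0,0,0,1,0] : Fm) :: fsm (-1) ([0,0,0,-1,-1,0,0,1,-1,0] : Fm) :: K2O11.C0) t0 = true := by decide +kernel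
end K2O11M10101

namespace K2O11M10110
noncomputable def a0 : TT := .leaf ⟨true,33,31,0,64,2,32735,[[0,0,0,8184],[0,0,0,16368],[],[1023,1023,0,-2046,-2046,0,0,1023,1023],[],[],[0,0,0,18414],[0,0,0,248],[0,0,0,528],[],[0,0,0,992]]⟩ [.leaf 0 [(0,[])], .leaf 0 [(0,[])], .leaf 0 [(0,[])], .leaf 0 [(0,[])], .leaf 0 [(0,[])], .leaf 0 [(0,[(1,30752)])], .leaf 0 [(0,[])], .leaf 0 [(0,[]),(0,[]),(0,[]),(0,[]),(0,[]),(0,[])], .leaf 0 [(0,[(12,130944),(32,130944),(3,130944)])], .leaf 0 [(0,[])], .leaf 0 [(0,[])], .leaf 0 [(0,[])], .leaf 0 [(0,[])], .leaf 0 [(0,[])], .leaf 0 [(0,[])], .leaf 0 [(0,[])], .leaf 0 [(0,[])], .leaf 0 [(0,[])], .leaf 0 [(0,[(19,130944),(32,3928320),(3,2356992),(1,1047552)])], .leaf 0 [(0,[(19,130944),(3,1964160),(2,261888)])], .leaf 0 [(0,[(19,130944),(31,3928320),(33,261888),(3,3404544),(1,3142656)])], .leaf 0 [(0,[(3,130944)])], .leaf 0 [(0,[(12,130944),(32,130944),(1,1047552)])],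 .leaf 0 [(0,[(9,261888),(12,130944),(26,130944),(3,130944),(34,65472)])], .leaf 0 [(0,[(9,4190208),(3,130944)])], .leaf 0 [(0,[(13,1047552),(14,458304),(19,98208),(25,458304),(33,589248),(3,785664),(2,65472),(1,720192)]),(0,[(13,1833216),(19,98208),(22,785664),(31,65472),(33,196416),(1,2880768)]),(0,[(25,98208),(33,196416),(3,949344)]),(0,[(9,3229952),(13,807488),(19,338272),(25,240064),(33,807488),(3,305536),(35,240064)]),(0,[(13,1047552),(19,229152),(33,1047552),(3,294624)])], .split 1 0 (.leaf 1 [(0,[(0,1)])]) (.leaf 0 [(45,[(10,12046848),(25,6023424),(33,9297024),(0,25),(35,3011712)])]), .split 0 0 (.leaf 0 [(0,[(0,1)])]) (.leaf 1 [(4958,[(10,1047552000),(2,8799174912),(1,125575296),(0,289),(35,261888000)])]), .leaf 2 [(0,[(19,130944),(3,1964160),(2,261888)])], .leaf 2 [(0,[(9,4190208),(3,130944)])], .leaf 4 [(0,[(14,1047552),(19,65472),(31,1047552),(32,916608),(3,1833216),(1,1833216)]),(0,[(8,261888),(14,1964160),(22,65472),(25,982080),(35,65472)]),(0,[(14,785664),(22,65472),(27,65472),(32,1047552),(3,916608),(1,916608)]),(0,[(9,2356992),(14,130944),(19,982080),(31,1047552),(35,458304)]),(0,[(14,1047552),(19,65472),(31,1047552),(3,458304)])],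 .leaf 0 [(0,[(3,130944)])], .leaf 1 [(0,[(9,261888),(21,65472),(3,192324),(34,65472)])], .split 0 0 (.leaf 0 [(0,[(0,1)])]) (.leaf 1 [(92,[(10,35092992),(13,16891776),(14,8773248),(4,4059264),(3,4059264),(0,67),(35,8773248)])]), .leaf 1 [(0,[(9,4190208),(3,130944)])], .leaf 1 [(0,[(12,949344),(3,949344),(1,949344)]),(0,[(3,949344)]),(0,[(12,949344),(1,1996896)]),(0,[(9,4190208),(3,949344)]),(0,[(12,1636800),(19,818400)])], .leaf 1 [(0,[(12,130944),(1,1309440)])], .leaf 2 [(0,[(19,130944),(3,1964160),(2,261888)])], .leaf 0 [(0,[(19,4092),(32,122760),(1,1342176)])]]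
noncomputable def t0 : TT := a0
theorem c0 : chkT (([4,4,-1,0,0,0,0,0,0,0] : Fm) :: fsm (-1) ([0,0,0,1,-1,0,0,0,0,0] : Fm) :: fsm (-1) ([0,0,0,0,0,0,0,1,-1,0] : Fm) :: ([0,0,0,0,-2,0,0,0,1,0] : Fm) :: fsm (-1) ([0,0,0,-1,-1,0,0,1,-1,0] : Fm) :: K2O11.C0) t0 = true := by decide +kernel
end K2O11M10110

namespace K2O11M10111
noncomputable def a0 : TT := .leaf ⟨true,33,0,31,64,1,523775,[[-40920,0,0,224037],[],[60357,0,0,92070],[0,0,0,-74679,0,0,0,104346],[],[0,0,0,447051],[],[-1240,0,0,6789],[],[1947,0,0,2970],[0,0,0,15872]]⟩ [.leaf 0 [(0,[(9,2480),(13,1240),(34,620)])], .leaf 0 [(0,[])], .leaf 0 [(0,[])], .leaf 0 [(1,[(9,2828),(13,1414),(34,707)])], .leaf 0 [(0,[])], .leaf 0 [(0,[])], .leaf 0 [(10,[(9,1968128),(12,4920320),(1,3936256),(0,984064),(34,492032)])], .leaf 0 [(0,[]),(0,[]),(0,[]),(0,[]),(0,[]),(0,[])], .leaf 0 [(0,[(12,4779456),(19,4779456),(32,4779456)])], .leaf 0 [(0,[])],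 .leaf 0 [(0,[])], .leaf 0 [(0,[])], .leaf 0 [(0,[])], .leaf 0 [(0,[(9,73328640),(13,36664320),(34,18332160)])], .leaf 0 [(0,[])], .leaf 0 [(0,[])], .leaf 0 [(0,[(9,73328640),(13,36664320),(34,18332160)])], .leaf 0 [(0,[])], .leaf 0 [(0,[(19,12963456),(32,40592640),(3,20296320)])], .leaf 0 [(0,[(9,4975872),(13,2487936),(3,53326944),(2,13356288),(1,39610560),(34,1243968)])], .leaf 0 [(0,[(14,12963456),(22,12963456),(31,48449280),(33,5630592),(3,24224640),(2,7725696)])], .leaf 0 [(0,[])], .leaf 0 [(0,[(32,2095104)])], .leaf 0 [(6,[(9,82756608),(24,14665728),(32,93494016),(3,67436160),(0,12341472),(34,20689152)])], .leaf 0 [(0,[(9,67043328)])], .leaf 0 [(0,[(8,7856640),(13,12832512),(14,2520672),(25,2520672),(31,1702272),(33,12537888),(3,18463104),(1,18463104),(35,1964160)]),(0,[(13,16760832),(31,6743616),(33,10017216),(1,12570624)]),(0,[(12,26123328),(3,3699168),(2,10017216),(0,7480176)]),(0,[(9,24224640),(22,4648512),(33,12112320),(3,6056160),(35,10704672)]),(0,[(9,75947520),(13,54734592),(33,16760832),(3,8380416),(2,6612672),(34,18986880)])],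 .leaf 1 [(6,[(9,82756608),(32,93494016),(3,74769024),(0,12341472),(34,20689152)])], .split 0 0 (.leaf 0 [(0,[(0,1)])]) (.leaf 1 [(30,[(10,129896448),(33,4190208),(0,2),(35,32474112)])]), .leaf 0 [(18,[(9,188297472),(19,37294488),(32,208544688),(3,171250200),(0,29084913),(34,47074368)])], .leaf 2 [(0,[(9,67043328)])], .leaf 2 [(0,[(14,23504448),(25,6743616),(31,10017216),(3,6432624),(1,2848032)]),(0,[(12,4730352),(1,4730352),(0,1182588)]),(0,[(14,16760832),(33,16760832)]),(0,[(9,50282496),(14,16760832),(22,8380416),(31,8380416),(35,4190208)]),(0,[(14,18512208),(25,1751376),(31,13290816),(33,1718640),(3,6645408),(2,6645408)])], .leaf 0 [(18,[(9,152942592),(19,45830400),(32,168132096),(3,122301696),(0,31000992),(34,38235648)])], .leaf 1 [(18,[(9,176283360),(19,52565832),(32,193273344),(3,140707512),(0,38275545),(34,44070840)])], .split 1 0 (.leaf 1 [(0,[(0,1)])]) (.leaf 0 [(30,[(10,129896448),(13,64948224),(0,2),(35,32474112)])]),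 .leaf 1 [(0,[(9,135396096),(13,34176384),(34,17088192)])], .leaf 1 [(0,[(12,10966560),(32,6743616),(3,23389872),(1,17481024)]),(0,[(3,16760832)]),(0,[(12,5728800),(32,785664)]),(0,[(9,128914368),(13,30935520),(3,16760832),(34,15467760)]),(0,[(12,13225344),(20,3535488),(3,10148160),(2,3077184)])], .leaf 0 [(0,[(32,6285312),(3,4190208)])], .leaf 1 [(0,[(19,2095104),(32,6285312),(3,4190208)])], .leaf 0 [(0,[(19,2095104),(32,2095104)])]]
noncomputable def t0 : TT := a0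
theorem c0 : chkT (fsm (-1) ([4,4,-1,0,0,0,0,0,0,0] : Fm) :: fsm (-1) ([0,0,0,1,-1,0,0,0,0,0] : Fm) :: fsm (-1) ([0,0,0,0,0,0,0,1,-1,0] : Fm) :: ([0,0,0,0,-2,0,0,0,1,0] : Fm) :: fsm (-1) ([0,0,0,-1,-1,0,0,1,-1,0] : Fm) :: K2O11.C0) t0 = true := by decide +kernel
end K2O11M10111

namespace K2O11M10000
theorem top : ∃ t, chkT (([4,4,-1,0,0,0,0,0,0,0] : Fm) :: ([0,0,0,1,-1,0,0,0,0,0] : Fm) :: ([0,0,0,0,0,0,0,1,-1,0] : Fm) :: ([0,0,0,0,-2,0,0,0,1,0] : Fm) :: fsm (-1) ([0,0,0,-1,-1,0,0,1,-1,0] : Fm) :: K2O11.C0) t = true := ⟨_, c0⟩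
end K2O11M10000
namespace K2O11M10001
theorem top : ∃ t, chkT (fsm (-1) ([4,4,-1,0,0,0,0,0,0,0] : Fm) :: ([0,0,0,1,-1,0,0,0,0,0] : Fm) :: ([0,0,0,0,0,0,0,1,-1,0] : Fm) :: ([0,0,0,0,-2,0,0,0,1,0] : Fm) :: fsm (-1) ([0,0,0,-1,-1,0,0,1,-1,0] : Fm) :: K2O11.C0) t = true := ⟨_, c0⟩
end K2O11M10001
namespace K2O11M10010
theorem top : ∃ t, chkT (([4,4,-1,0,0,0,0,0,0,0] : Fm) :: fsm (-1) ([0,0,0,1,-1,0,0,0,0,0] : Fm) :: ([0,0,0,0,0,0,0,1,-1,0] : Fm) :: ([0,0,0,0,-2,0,0,0,1,0] : Fm) :: fsm (-1) ([0,0,0,-1,-1,0,0,1,-1,0] : Fm) :: K2O11.C0) t = true := ⟨_, c0⟩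
end K2O11M10010
namespace K2O11M10011
theorem top : ∃ t, chkT (fsm (-1) ([4,4,-1,0,0,0,0,0,0,0] : Fm) :: fsm (-1) ([0,0,0,1,-1,0,0,0,0,0] : Fm) :: ([0,0,0,0,0,0,0,1,-1,0] : Fm) :: ([0,0,0,0,-2,0,0,0,1,0] : Fm) :: fsm (-1) ([0,0,0,-1,-1,0,0,1,-1,0] : Fm) :: K2O11.C0) t = true := ⟨_, c0⟩
end K2O11M10011
namespace K2O11M10100
theorem top : ∃ t, chkT (([4,4,-1,0,0,0,0,0,0,0] : Fm) :: ([0,0,0,1,-1,0,0,0,0,0] : Fm) :: fsm (-1) ([0,0,0,0,0,0,0,1,-1,0] : Fm) :: ([0,0,0,0,-2,0,0,0,1,0] : Fm) :: fsm (-1) ([0,0,0,-1,-1,0,0,1,-1,0] : Fm) :: K2O11.C0) t = true := ⟨_, c0⟩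
end K2O11M10100
namespace K2O11M10101
theorem top : ∃ t, chkT (fsm (-1) ([4,4,-1,0,0,0,0,0,0,0] : Fm) :: ([0,0,0,1,-1,0,0,0,0,0] : Fm) :: fsm (-1) ([0,0,0,0,0,0,0,1,-1,0] : Fm) :: ([0,0,0,0,-2,0,0,0,1,0] : Fm) :: fsm (-1) ([0,0,0,-1,-1,0,0,1,-1,0] : Fm) :: K2O11.C0) t = true := ⟨_, c0⟩
end K2O11M10101
namespace K2O11M10110
theorem top : ∃ t, chkT (([4,4,-1,0,0,0,0,0,0,0] : Fm) :: fsm (-1) ([0,0,0,1,-1,0,0,0,0,0] : Fm) :: fsm (-1) ([0,0,0,0,0,0,0,1,-1,0] : Fm) :: ([0,0,0,0,-2,0,0,0,1,0] : Fm) :: fsm (-1) ([0,0,0,-1,-1,0,0,1,-1,0] : Fm) :: K2O11.C0) t = true := ⟨_, c0⟩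
end K2O11M10110
namespace K2O11M10111
theorem top : ∃ t, chkT (fsm (-1) ([4,4,-1,0,0,0,0,0,0,0] : Fm) :: fsm (-1) ([0,0,0,1,-1,0,0,0,0,0] : Fm) :: fsm (-1) ([0,0,0,0,0,0,0,1,-1,0] : Fm) :: ([0,0,0,0,-2,0,0,0,1,0] : Fm) :: fsm (-1) ([0,0,0,-1,-1,0,0,1,-1,0] : Fm) :: K2O11.C0) t = true := ⟨_, c0⟩
end K2O11M10111
def K2O11P10 := (splE (splE (splE K2O11M10000.top K2O11M10001.top) (splE K2O11M10010.top K2O11M10011.top)) (splE (splE K2O11M10100.top K2O11M10101.top) (splE K2O11M10110.top K2O11M10111.top)))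

end Vale.Agent.P235
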