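import Vale.Agent.P235.T.K2O12C

namespace Vale.Agent.P235

set_option maxRecDepth 100000

namespace K2O12M00000
noncomputable def a0 : TT := .leaf ⟨true,33,31,0,64,3,16367,[[0,0,0,0,5115],[0,0,0,0,5115],[],[0,0,0,0,-5115,0,0,0,6138],[],[],[0,0,0,0,5115],[0,0,0,0,155],[0,0,0,0,165],[],[0,0,0,0,528]]⟩ [.leaf 0 [(0,[])], .leaf 0 [(0,[])], .leaf 0 [(0,[])], .leaf 0 [(0,[])], .leaf 0 [(0,[(0,528)])], .leaf 0 [(0,[])], .leaf 0 [(0,[])], .leaf 0 [(0,[]),(0,[]),(0,[]),(0,[]),(0,[]),(0,[])], .leaf 0 [(0,[(4,327360)])], .leaf 0 [(0,[])], .leaf 0 [(0,[])], .leaf 0 [(0,[])], .leaf 0 [(0,[])], .leaf 0 [(0,[])], .leaf 0 [(0,[])], .leaf 0 [(0,[])], .leaf 0 [(0,[])], .leaf 0 [(0,[])], .leaf 0 [(0,[(13,654720),(20,654720),(33,1374912),(34,65472),(5,65472)])], .leaf 0 [(0,[(4,720192)])], .leaf 0 [(0,[(32,720192),(5,1374912)])], .leaf 0 [(0,[(10,261888),(14,65472),(15,65472),(21,65472),(4,360096),(35,65472)])],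 .leaf 0 [(0,[])], .leaf 0 [(0,[(17,65472),(25,65472),(4,720192)])], .leaf 1 [(0,[])], .leaf 1 [(0,[(14,523776),(5,523776)]),(0,[(14,523776),(32,523776)]),(0,[(5,392832)]),(0,[(14,523776),(32,523776)]),(0,[(10,261888),(14,589248),(15,65472),(21,65472),(32,523776),(35,65472)])], .leaf 1 [(0,[])], .split 0 0 (.leaf 0 [(0,[(0,1)])]) (.leaf 1 [(30,[(18,2029632),(0,33)])]), .leaf 0 [(0,[(17,65472),(4,742698)])], .leaf 0 [(0,[])], .leaf 0 [(4,[(9,1833216),(15,2160576),(20,458304),(23,458304),(32,687456),(33,1702272),(5,1473120),(36,458304)]),(0,[(15,523776),(33,523776),(3,65472)]),(0,[(15,392832),(27,130944),(5,654720)]),(0,[(15,720192),(26,196416),(32,327360),(33,327360)]),(0,[(15,720192),(26,196416),(33,327360),(5,327360)])], .split 1 0 (.leaf 1 [(0,[(0,1)])]) (.leaf 0 [(18,[(11,2880768),(16,196416),(22,1243968),(26,196416),(0,3),(36,720192)])]), .split 0 0 (.leaf 0 [(0,[(0,1)])])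 (.leaf 1 [(18,[(11,2880768),(22,196416),(35,196416),(0,3),(36,720192)])]), .split 0 0 (.leaf 0 [(0,[(0,1)])]) (.leaf 1 [(92,[(11,13618176),(22,6088896),(1,489056),(0,11),(36,3404544)])]), .leaf 2 [(0,[])], .leaf 2 [(0,[(13,523776),(15,229152),(26,229152),(33,16368),(34,278256),(5,49104)]),(0,[(34,458304),(5,458304),(0,2976)]),(0,[(13,523776),(33,523776)]),(0,[(13,523776),(33,523776)]),(0,[(13,523776),(33,458304),(34,65472)])], .leaf 0 [(0,[(4,360096)])], .leaf 1 [(0,[(10,261888),(14,65472),(15,65472),(4,382602),(35,65472)])], .split 2 0 (.leaf 2 [(0,[(0,1)])]) (.leaf 1 [(95,[(34,17284608),(0,11)])])]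
noncomputable def a1 : TT := .leaf ⟨true,0,8,1,9,3,127,[[],[0,0,0,0,40],[0,0,0,0,8],[-8,-8,0,0,-64,0,0,8,80],[0,0,0,0,48],[],[],[],[0,0,0,0,5],[0,0,0,0,8],[0,0,0,0,16]]⟩ [.leaf 0 [(0,[])], .leaf 0 [(0,[])], .leaf 0 [(0,[])], .leaf 0 [(0,[])], .leaf 0 [(0,[])], .leaf 0 [(0,[])], .leaf 0 [(0,[(2,16)])], .leaf 0 [(0,[]),(0,[]),(0,[]),(0,[]),(0,[]),(0,[])], .leaf 0 [(0,[(20,1024),(4,4096)])], .leaf 0 [(0,[])], .leaf 0 [(0,[])], .leaf 0 [(0,[])], .leaf 0 [(0,[])], .leaf 0 [(0,[])], .leaf 0 [(0,[])], .leaf 0 [(0,[])], .leaf 0 [(0,[])], .leaf 0 [(0,[])], .leaf 0 [(0,[(13,1024),(33,14336),(34,1024),(5,1024),(4,5120)])], .leaf 0 [(0,[(21,1024),(4,2048)])], .leaf 0 [(0,[(21,1024),(5,16384)])], .leaf 0 [(0,[(10,2048),(14,512),(15,512),(20,512),(4,1280),(35,512)])], .leaf 0 [(0,[(20,1024)])], .leaf 0 [(30,[(10,31744),(20,15872),(34,15872),(4,92544),(0,1280),(35,7936)])], .leaf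 0 [(30,[(10,571392),(14,15872),(15,15872),(20,15872),(0,19456),(35,15872)])], .split 0 0 (.split 0 1 (.split 0 4 (.leaf 0 [(0,[(2,1)]),(0,[(1,1)]),(30,[(13,31744),(24,15872),(37,15872),(5,312064),(3,1280),(1,31),(38,7936)]),(30,[(13,571392),(17,15872),(18,15872),(24,15872),(3,19456),(1,31),(38,15872)]),(0,[(0,1)])]) (.leaf 3 [(2,[(17,4096),(8,4096),(7,4608),(2,2)]),(0,[(31,512),(8,3072)]),(0,[(17,4096),(23,512),(8,4096),(7,3584)]),(0,[(17,4096),(24,512),(8,4096)]),(7,[(13,6144),(17,46592),(18,1536),(24,7936),(8,45056),(7,18176),(0,3),(38,1536)])])) (.leaf 3 [(0,[(16,4096),(23,512),(34,512),(7,3584)]),(0,[(30,512),(7,3072)]),(0,[(16,4096),(22,512),(7,4096),(6,3584)]),(0,[(22,256),(1,1)]),(10,[(16,61440),(23,8704),(7,61440),(6,25088),(0,4)])])) (.leaf 3 [(0,[(15,4096),(22,512),(33,512),(6,3584)]),(0,[(22,512),(6,3072)]),(0,[(15,4096),(21,512),(6,4096),(5,3584)]),(0,[(15,4096),(22,512),(6,4096)]),(10,[(15,94208),(22,14848),(6,94208),(5,25088),(0,12)])]),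 .leaf 1 [(0,[(20,1024),(4,2304)])], .split 0 0 (.leaf 0 [(0,[(0,1)])]) (.leaf 1 [(30,[(11,31744),(16,7936),(21,22752),(24,7936),(35,7936),(1,1280),(0,2),(36,7936)])]), .leaf 0 [(30,[(10,31744),(15,7936),(20,22816),(23,7936),(34,7936),(4,94528),(0,1280),(35,7936)])], .leaf 2 [(30,[(10,571392),(14,15872),(15,15872),(20,15872),(4,249600),(0,19456),(35,15872)])], .leaf 4 [(30,[(13,15872),(15,166656),(26,39680),(33,39552),(34,31872),(5,119168),(0,4096)]),(30,[(15,126976),(20,15872),(33,111104),(5,126976),(4,95872),(0,4608)]),(30,[(13,15872),(15,111104),(33,15232),(34,95872),(5,143488),(0,4608)]),(30,[(10,396800),(15,99200),(20,11904),(23,27776),(33,9792),(34,89408),(5,188608),(0,16000),(36,27776)]),(30,[(13,15872),(15,126976),(32,126976),(33,111104),(0,20480)])], .leaf 0 [(30,[(10,31744),(20,15872),(4,109440),(0,2304),(35,7936)])], .leaf 1 [(30,[(10,31744),(20,30752),(4,108448),(0,2304),(35,7936)])],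 .split 1 0 (.leaf 1 [(0,[(0,1)])]) (.leaf 0 [(30,[(11,63488),(15,15872),(21,14816),(5,37568),(0,2),(36,15872)])]), .leaf 1 [(30,[(10,571392),(14,15872),(15,15872),(20,15872),(0,19456),(35,15872)])], .leaf 4 [(0,[(13,5504),(15,384),(20,896),(26,384),(34,2304),(5,1920)]),(0,[(9,6144),(13,2048),(23,1536),(26,1536),(34,3072),(4,4736),(36,1536)]),(0,[(34,2304),(5,2304)]),(30,[(33,111104),(0,4608)]),(0,[(13,4608),(34,3584),(5,3584),(4,1664)])], .leaf 0 [(0,[(20,1024),(4,1280)])], .leaf 1 [(0,[(10,2048),(14,512),(15,512),(20,992),(4,1344),(35,512)])], .leaf 0 [(30,[(10,63488),(14,15872),(15,15872),(20,30752),(4,2592),(0,3584),(35,15872)])]]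
noncomputable def t0 : TT := (.split [0,0,0,31,-33,0,0,0,0,0] a0 a1)
theorem c0 : chkT (([-1,4,4,0,0,0,0,0,0,0] : Fm) :: ([0,0,0,0,-1,1,0,0,0,0] : Fm) :: ([0,0,0,0,0,0,0,0,-1,1] : Fm) :: ([0,0,0,0,-2,0,0,0,1,0] : Fm) :: ([0,0,0,0,-1,-1,0,0,-1,1] : Fm) :: K2O12.C0) t0 = true := by decide +kernel
end K2O12M00000

namespace K2O12M00001
noncomputable def a0 : TT := .leaf ⟨true,31,33,0,64,0,8183,[[0,0,0,0,3069],[0,0,0,0,3069],[],[0,0,0,0,3069,0,0,0,1023],[],[],[0,0,0,0,9207],[0,0,0,0,99],[0,0,0,0,93],[],[0,0,0,0,248]]⟩ [.leaf 0 [(0,[])], .leaf 0 [(0,[])], .leaf 0 [(0,[])], .leaf 0 [(0,[])], .leaf 0 [(1,[(9,3844),(13,9610),(1,7688),(0,1922),(34,961)])], .leaf 0 [(0,[])], .leaf 0 [(0,[])], .leaf 0 [(0,[]),(0,[]),(0,[]),(0,[]),(0,[]),(0,[])], .leaf 0 [(0,[])], .leaf 0 [(0,[])], .leaf 0 [(0,[])], .leaf 0 [(0,[])], .leaf 0 [(0,[])], .leaf 0 [(0,[])], .leaf 0 [(0,[])], .leaf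 0 [(0,[])], .leaf 0 [(0,[])], .leaf 0 [(0,[])], .leaf 0 [(0,[(14,327360),(25,327360),(33,720192),(4,392832)])], .leaf 0 [(0,[(3,720192)])], .leaf 0 [(0,[(4,1047552),(3,65472)])], .leaf 0 [(0,[(9,81840),(13,40920),(20,32736),(0,8184),(34,20460)])], .leaf 0 [(0,[])], .leaf 0 [(0,[(16,32736),(24,32736)])], .leaf 1 [(0,[])], .leaf 1 [(0,[(13,261888),(4,261888),(3,294624)]),(0,[(13,261888),(31,32736),(4,229152)]),(0,[(4,229152),(3,245520)]),(0,[(13,261888),(4,261888)]),(0,[(13,261888),(31,261888)])], .leaf 1 [(0,[])], .split 0 0 (.leaf 0 [(0,[(0,1)])]) (.leaf 1 [(30,[(17,1014816),(0,33)])]), .leaf 0 [(0,[(16,32736)])], .leaf 0 [(0,[])], .leaf 0 [(0,[(14,261888),(33,261888),(4,523776),(3,32736)]),(0,[(8,349184),(32,38192),(33,223696),(4,60016),(0,43648),(35,87296)]),(0,[(13,32736),(26,229152),(4,491040),(3,229152),(0,8184)]),(0,[(14,261888),(31,261888),(32,261888)]),(0,[(14,261888),(32,261888),(4,261888)])],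 .leaf 1 [(0,[(9,32736),(13,49104),(24,32736),(0,16368),(34,8184)])], .split 2 0 (.leaf 2 [(0,[(0,1)])]) (.leaf 0 [(95,[(34,8642304),(5,5499648),(0,11)])]), .leaf 0 [(0,[(9,98208),(13,81840),(0,16368),(34,24552)])], .leaf 2 [(0,[])], .leaf 2 [(0,[(12,261888),(32,261888),(3,409200)]),(0,[(12,32736),(21,229152),(3,392832)]),(0,[(12,261888),(32,261888)]),(0,[(8,349184),(32,261888),(0,43648),(35,87296)]),(4,[(8,392832),(12,1014816),(13,196416),(33,1309440),(4,1309440),(3,1473120),(1,392832),(0,98208),(35,98208)])], .leaf 0 [(0,[])], .leaf 1 [(0,[(9,81840),(13,40920),(0,8184),(34,20460)])], .split 1 0 (.leaf 1 [(0,[(0,1)])]) (.leaf 0 [(247,[(10,20296320),(14,10148160),(1,2029632),(0,43),(35,5074080)])])]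
noncomputable def t0 : TT := a0
theorem c0 : chkT (fsm (-1) ([-1,4,4,0,0,0,0,0,0,0] : Fm) :: ([0,0,0,0,-1,1,0,0,0,0] : Fm) :: ([0,0,0,0,0,0,0,0,-1,1] : Fm) :: ([0,0,0,0,-2,0,0,0,1,0] : Fm) :: ([0,0,0,0,-1,-1,0,0,-1,1] : Fm) :: K2O12.C0) t0 = true := by decide +kernel
end K2O12M00001

namespace K2O12M00010
noncomputable def a0 : TT := .leaf ⟨false,0,1,0,1,3,7,[[],[0,0,0,0,5],[],[0,0,0,0,-2,0,0,0,4],[],[],[],[],[],[],[]]⟩ [.leaf 0 [(0,[])], .leaf 0 [(0,[])], .leaf 0 [(0,[])], .leaf 0 [(0,[])], .leaf 0 [(0,[])], .leaf 0 [(0,[])], .leaf 0 [(0,[(5,128)])], .leaf 0 [(0,[])], .leaf 0 [(0,[])], .leaf 0 [(0,[])], .leaf 0 [(0,[])], .leaf 0 [(0,[])], .leaf 0 [(0,[])], .leaf 0 [(0,[])], .leaf 0 [(0,[])], .leaf 0 [(0,[])], .leaf 0 [(0,[(34,320),(35,704),(6,704)])], .leaf 0 [(0,[(5,64)])], .leaf 0 [(0,[(6,1024)])], .leaf 0 [(0,[(11,64),(22,32),(3,32),(36,16)])], .leaf 0 [(0,[])],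 .leaf 0 [(0,[(18,32),(26,32),(5,320)])], .leaf 1 [(0,[])], .leaf 1 [(0,[(15,256),(6,256)]),(0,[(15,256),(33,256)]),(0,[(33,128)]),(0,[(15,256),(33,256)]),(0,[(29,32),(33,128),(6,96),(3,288),(2,32)])], .leaf 1 [(0,[])], .leaf 2 [(0,[(33,64),(6,704),(3,256)])], .leaf 0 [(0,[(18,32),(5,322)])], .leaf 0 [(0,[(5,320)])], .split 0 3 (.leaf 0 [(34,[(17,4320),(35,4320),(7,8704),(1,137),(0,1)]),(64,[(35,9920),(7,13792),(1,341),(0,3)]),(0,[(17,176),(29,80),(35,48),(7,336)]),(0,[(0,1)]),(0,[(17,160),(34,256),(35,160),(1,3)])]) (.split 3 3 (.leaf 3 [(4,[(8,1024),(2,32),(0,1)]),(37,[(18,6720),(8,7936),(5,1984),(0,7)]),(2,[(2,16),(0,1)]),(0,[(0,1)]),(0,[(0,1)])]) (.leaf 4 [(30,[(29,256),(36,7424),(8,6432),(5,1248),(2,256)]),(0,[(29,128),(8,128),(2,12)]),(30,[(29,2272),(36,5376),(8,2560),(2,288)]),(30,[(37,9920),(8,19136),(7,9760),(5,44800),(3,992),(2,288),(1,1),(0,35),(39,7936)]),(588,[(29,152320),(36,449280),(8,473600),(2,24320),(1,1856)])])),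 .leaf 1 [(0,[(11,64),(26,32),(3,64),(36,16)])], .split 2 0 (.leaf 2 [(0,[(0,1)])]) (.leaf 0 [(15,[(35,224),(36,2080),(7,1568),(0,3)])]), .leaf 0 [(0,[(11,64),(3,64),(36,16)])], .leaf 2 [(0,[])], .leaf 4 [(2,[(10,128),(14,736),(24,32),(27,32),(35,704),(6,640),(37,32)]),(2,[(14,768),(27,256),(35,256),(5,592),(0,8)]),(0,[]),(0,[(14,256),(16,128),(27,128),(35,128)]),(0,[(14,256),(35,256),(6,256),(5,176)])], .leaf 0 [(0,[])], .leaf 1 [(0,[(11,64),(3,32),(36,16)])], .split 2 0 (.leaf 2 [(0,[(0,1)])]) (.leaf 0 [(31,[(22,1024),(28,8192),(36,8192),(1,256),(0,23)])])]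
noncomputable def a1 : TT := .leaf ⟨true,0,1,8,9,3,1023,[[],[0,0,0,0,0,104],[0,0,0,0,0,104],[0,0,0,0,-512,48,0,0,512,16],[0,0,0,0,0,360],[],[],[],[0,0,0,0,0,104],[0,0,0,0,0,13],[0,0,0,0,0,128]]⟩ [.leaf 0 [(0,[])], .leaf 0 [(0,[])], .leaf 0 [(0,[])], .leaf 0 [(0,[])], .leaf 0 [(0,[])], .leaf 0 [(0,[(4,128)])], .leaf 0 [(0,[])], .leaf 0 [(0,[]),(0,[]),(0,[]),(0,[]),(0,[]),(0,[])], .leaf 0 [(0,[(6,32768)])], .leaf 0 [(0,[])], .leaf 0 [(0,[])], .leaf 0 [(0,[])], .leaf 0 [(0,[])], .leaf 0 [(0,[])], .leaf 0 [(0,[])], .leaf 0 [(0,[])], .leaf 0 [(0,[])], .leaf 0 [(0,[])], .leaf 0 [(0,[(17,31744),(28,31744),(35,48128),(36,51200),(7,17408),(4,34816)])], .leaf 0 [(11504,[(17,8345600),(18,3682304),(23,19142656),(27,13101056),(36,15824896),(6,514284544),(4,94746624),(0,18432),(38,29458432)])], .leaf 0 [(0,[(34,93184),(7,35840),(4,8192)])], .leaf 0 [(136766,[(23,301314048),(30,261623808),(6,4828823552),(1,8687616),(0,63488)])],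 .leaf 0 [(0,[])], .leaf 0 [(734,[(18,483328),(23,1273856),(27,1196032),(36,905216),(6,34668544),(0,2048),(38,3866624)])], .leaf 2 [(734,[(18,483328),(23,1273856),(27,1196032),(36,905216),(6,34668544),(0,2048),(38,3866624)])], .leaf 2 [(0,[(16,32768),(34,20736),(7,10496),(4,6144)]),(0,[(7,31232),(4,38912)]),(0,[(7,16384)]),(0,[(7,16384)]),(0,[(30,4096),(7,16384),(3,4096)])], .leaf 0 [(11504,[(17,8345600),(18,3682304),(23,19142656),(27,13101056),(36,15824896),(4,497664),(0,18432),(38,29458432)])], .leaf 1 [(3834,[(17,2868800),(18,1265792),(23,6580288),(25,11204672),(36,5439808),(4,1152832),(0,6336),(38,10126336)])], .leaf 0 [(3834,[(17,2868800),(18,1265792),(23,6580288),(25,11204672),(36,5439808),(6,160500736),(0,6336),(38,10126336)])], .leaf 1 [(11504,[(17,8345600),(18,3682304),(23,19142656),(27,13101056),(36,15824896),(6,508393984),(4,82965504),(0,18432),(38,29458432)])],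 .leaf 0 [(0,[(17,40192),(28,7424),(35,25344),(7,23808),(4,16128)]),(0,[(17,32768),(35,32768),(5,16384)]),(0,[(35,17920),(7,31232),(4,35584)]),(0,[(17,32768),(36,32768),(7,64000),(6,8960)]),(0,[(17,32768),(35,32768),(7,20480)])], .leaf 1 [(4274,[(23,790528),(27,8929280),(36,421888),(6,146800640),(0,2048)])], .split 1 0 (.leaf 1 [(0,[(0,1)])]) (.leaf 0 [(1084,[(13,8126464),(24,929792),(28,3133440),(37,929792),(7,8126464),(0,227),(38,2031616)])]), .leaf 0 [(2698,[(23,460800),(6,94073856),(3,26624),(0,2560)])], .leaf 0 [(11504,[(17,8345600),(18,3682304),(23,19142656),(27,13101056),(36,15824896),(6,508393984),(4,82965504),(0,18432),(38,29458432)])], .leaf 0 [(0,[(15,32768),(17,7424),(28,7424),(35,8320),(36,17024),(7,8064),(4,16128)]),(0,[(15,2816),(36,17920),(7,16384),(4,2816)]),(0,[(15,32768),(35,20480),(36,12288),(4,40192)]),(0,[(15,32768),(36,32768),(7,27136),(6,640),(4,44800)]),(0,[(15,32768),(35,16384),(36,16384)])],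 .leaf 0 [(0,[(6,34816)])], .leaf 1 [(0,[(12,8192),(6,35840),(37,2048)])], .split 0 0 (.leaf 0 [(0,[(0,1)])]) (.leaf 1 [(30,[(13,24576),(5,28672),(0,3),(38,6144)])])]
noncomputable def a2 : TT := .leaf ⟨true,31,33,0,64,3,16367,[[0,0,0,0,5115],[0,0,0,0,5115],[],[0,0,0,0,-8184,0,0,0,8184],[],[],[0,0,0,0,18414],[0,0,0,0,165],[0,0,0,0,155],[],[0,0,0,0,496]]⟩ [.leaf 0 [(0,[])], .leaf 0 [(0,[])], .leaf 0 [(0,[])], .leaf 0 [(0,[])], .leaf 0 [(394552,[(12,5984936384),(17,156610016),(7,177511952),(6,2397388720),(4,63972592),(2,850640),(0,633392),(37,1496234096)])], .leaf 0 [(0,[])], .leaf 0 [(0,[])], .leaf 0 [(0,[]),(0,[]),(0,[]),(0,[]),(0,[]),(0,[])], .leaf 0 [(0,[(6,523776)])], .leaf 0 [(0,[])], .leaf 0 [(0,[])], .leaf 0 [(0,[])], .leaf 0 [(0,[])], .leaf 0 [(0,[])], .leaf 0 [(0,[])], .leaf 0 [(0,[])], .leaf 0 [(0,[])], .leaf 0 [(0,[])], .leaf 0 [(8380,[(22,1276442112),(25,1209398784),(28,1074264576),(35,12215503872),(36,2145386496),(0,523776)])],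 .leaf 0 [(0,[(6,523776)])], .leaf 0 [(0,[(7,2095104)])], .leaf 0 [(0,[(12,130944),(23,65472),(6,589248),(4,65472),(37,32736)])], .leaf 0 [(0,[])], .leaf 0 [(0,[(19,65472),(27,65472),(6,916608)])], .leaf 1 [(0,[])], .leaf 1 [(0,[(16,523776),(7,523776)]),(0,[(16,523776),(34,327360),(4,196416)]),(0,[(26,163680),(7,98208)]),(0,[(7,523776),(4,523776)]),(0,[(16,196416),(23,65472),(34,523776),(4,327360),(3,65472)])], .leaf 1 [(0,[])], .leaf 2 [(0,[(7,1571328),(4,523776)])], .leaf 0 [(0,[(19,65472),(6,932976)])], .leaf 0 [(0,[])], .leaf 0 [(0,[(17,523776),(35,523776),(7,376464),(4,147312)]),(0,[(17,523776),(35,523776),(5,261888)]),(0,[(17,474672),(29,49104),(35,212784),(7,572880)]),(0,[(17,621984),(28,98208),(34,425568),(35,425568)]),(0,[(17,621984),(28,98208),(35,425568),(7,425568)])], .leaf 1 [(0,[(12,130944),(27,65472),(6,621984),(4,130944),(37,32736)])], .leaf 0 [(3964,[(12,1358871360),(27,213340512),(29,17677440),(0,98208),(37,339717840)])],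 .leaf 0 [(64,[(28,65472),(36,65472),(6,40662204),(4,8511360),(1,130944)])], .leaf 2 [(0,[])], .leaf 2 [(0,[(15,654720),(22,130944),(35,392832)]),(0,[(24,392832),(6,130944)]),(0,[(15,523776),(35,523776)]),(0,[(15,523776),(35,523776)]),(0,[(15,523776),(35,458304),(36,65472)])], .leaf 0 [(0,[(6,556512)])], .leaf 0 [(3964,[(12,1365353088),(23,213340512),(30,28578528),(4,280416576),(0,98208),(37,341338272)])], .leaf 1 [(3784,[(12,932190336),(17,25337664),(34,28578528),(4,9919008),(0,98208),(37,233047584)])]]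
noncomputable def a3 : TT := .leaf ⟨true,0,1,8,9,3,1023,[[],[0,0,0,0,0,104],[0,0,0,0,0,104],[0,0,0,0,-512,48,0,0,512,16],[0,0,0,0,0,360],[],[],[],[0,0,0,0,0,104],[0,0,0,0,0,13],[0,0,0,0,0,128]]⟩ [.leaf 0 [(0,[])], .leaf 0 [(0,[])], .leaf 0 [(0,[])], .leaf 0 [(0,[])], .leaf 0 [(0,[])], .leaf 0 [(0,[(2,128)])], .leaf 0 [(0,[])], .leaf 0 [(0,[]),(0,[]),(0,[]),(0,[]),(0,[]),(0,[])], .leaf 0 [(0,[(4,32768)])], .leaf 0 [(0,[])], .leaf 0 [(0,[])], .leaf 0 [(0,[])], .leaf 0 [(0,[])], .leaf 0 [(0,[])], .leaf 0 [(0,[])], .leaf 0 [(0,[])], .leaf 0 [(0,[])], .leaf 0 [(0,[])], .leaf 0 [(0,[(33,129024),(34,2048),(4,49152),(2,34816)])], .leaf 0 [(12,[(10,73728),(15,18432),(20,63488),(23,63488),(34,8192),(4,472064),(2,106496),(0,10240),(35,18432)])], .leaf 0 [(0,[(5,129024),(2,8192)])], .leaf 0 [(0,[(10,8192),(21,4096),(4,34816),(35,2048)])], .leaf 0 [(0,[])], .leaf 0 [(12,[(10,73728),(15,18432),(20,63488),(23,63488),(34,8192),(4,418816),(0,10240),(35,18432)])],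 .leaf 2 [(12,[(10,73728),(15,18432),(20,63488),(23,63488),(34,8192),(4,418816),(0,10240),(35,18432)])], .leaf 2 [(0,[(14,32768),(32,20736),(5,10496),(2,6144)]),(0,[(32,31232),(2,38912)]),(0,[(5,16384)]),(0,[(5,16384)]),(0,[(28,4096),(5,16384),(1,4096)])], .leaf 0 [(12,[(10,73728),(15,18432),(20,63488),(23,63488),(34,8192),(0,10240),(35,18432)])], .leaf 1 [(12,[(10,76032),(15,19008),(20,65472),(23,118720),(34,8448),(2,3328),(0,10560),(35,19008)])], .leaf 0 [(12,[(10,76032),(15,19008),(20,65472),(23,118720),(34,8448),(4,431904),(0,10560),(35,19008)])], .leaf 1 [(12,[(10,73728),(15,18432),(20,63488),(23,63488),(34,8192),(4,465408),(2,93184),(0,10240),(35,18432)])], .leaf 0 [(0,[(15,32768),(33,32768),(5,16384),(2,30976)]),(0,[(15,32768),(33,32768),(3,16384)]),(0,[(27,28672),(32,51072),(5,8832),(2,6912)]),(0,[(15,32768),(34,32768),(5,64000),(4,8960)]),(0,[(15,32768),(33,32768),(5,20480)])],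 .leaf 1 [(0,[(10,4096),(25,2048),(4,33792),(35,1024)])], .leaf 0 [(6,[(10,198656),(33,5024),(34,38432),(5,58976),(0,6208),(35,49664)])], .leaf 0 [(0,[(10,8192),(4,33792),(35,2048)])], .leaf 0 [(12,[(10,73728),(15,18432),(20,63488),(23,63488),(34,8192),(4,465408),(2,93184),(0,10240),(35,18432)])], .leaf 0 [(0,[(13,32768),(15,7424),(26,7424),(33,8320),(34,17024),(5,8064),(2,16128)]),(0,[(13,17792),(22,14976),(34,2944),(5,1408),(2,2816)]),(0,[(13,32768),(33,20480),(34,12288),(2,40192)]),(0,[(13,37824),(20,5056),(34,27712),(5,22080),(4,640),(2,44800)]),(0,[(13,32768),(33,16384),(34,16384)])], .leaf 0 [(0,[(4,34816)])], .leaf 0 [(6,[(10,198656),(27,14784),(32,64000),(2,36672),(0,6208),(35,49664)])], .leaf 0 [(2,[(10,39424),(20,56896),(23,68544),(2,4352),(1,704),(0,8128),(35,9856)])]]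
noncomputable def t0 : TT := (.split [-8,-16,-8,10,5,0,0,7,-8,8] (.split [32,0,32,-64,-32,-32,0,1,0,0] a0 (.split [-4488,-4746,-4360,6106,6560,4096,0,180,3494,291] a1 a2)) a3)
theorem c0 : chkT (([-1,4,4,0,0,0,0,0,0,0] : Fm) :: fsm (-1) ([0,0,0,0,-1,1,0,0,0,0] : Fm) :: ([0,0,0,0,0,0,0,0,-1,1] : Fm) :: ([0,0,0,0,-2,0,0,0,1,0] : Fm) :: ([0,0,0,0,-1,-1,0,0,-1,1] : Fm) :: K2O12.C0) t0 = true := by decide +kernel
end K2O12M00010

namespace K2O12M00011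
noncomputable def a0 : TT := .leaf ⟨true,31,33,0,64,1,8183,[[0,0,0,0,3069],[0,0,0,0,3069],[],[0,0,0,0,-4092,0,0,0,4092],[],[],[0,0,0,0,9207],[0,0,0,0,99],[0,0,0,0,93],[],[0,0,0,0,248]]⟩ [.leaf 0 [(0,[])], .leaf 0 [(0,[])], .leaf 0 [(0,[])], .leaf 0 [(0,[])], .leaf 0 [(0,[(9,3844),(13,9610),(0,1922),(34,961)])], .leaf 0 [(0,[])], .leaf 0 [(0,[])], .leaf 0 [(0,[]),(0,[]),(0,[]),(0,[]),(0,[]),(0,[])], .leaf 0 [(0,[(3,261888)])], .leaf 0 [(0,[])], .leaf 0 [(0,[])], .leaf 0 [(0,[])], .leaf 0 [(0,[])], .leaf 0 [(0,[])], .leaf 0 [(0,[])], .leaf 0 [(0,[])], .leaf 0 [(0,[])], .leaf 0 [(0,[])], .leaf 0 [(0,[(12,261888),(19,261888),(32,785664)])], .leaf 0 [(0,[(3,261888)])], .leaf 0 [(0,[(4,1047552)])], .leaf 0 [(0,[(9,65472),(20,32736),(3,294624),(1,32736),(34,16368)])], .leaf 0 [(0,[])], .leaf 0 [(0,[(16,32736),(24,32736),(3,392832)])], .leaf 1 [(0,[])], .leaf 3 [(0,[(13,261888),(4,261888),(3,49104)]),(0,[(13,229152)]),(0,[(13,261888),(4,261888),(3,114576)]),(0,[(1,523776)]),(0,[(9,65472),(13,261888),(4,261888),(1,32736),(34,16368)])],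 .leaf 1 [(0,[])], .leaf 2 [(0,[(31,130944),(4,654720),(1,261888)])], .leaf 0 [(0,[(16,32736),(3,401016)])], .leaf 0 [(0,[])], .leaf 3 [(22,[(13,2895090),(14,3373854),(15,261888),(19,2387682),(32,2387682),(4,6023424),(1,1587696),(0,1108932),(35,2095104)]),(0,[(13,261888),(14,163680),(4,261888),(1,98208),(0,65472)]),(42,[(8,17677440),(14,6350784),(19,4910400),(32,2913504),(4,9853536),(1,8740512),(0,982080),(35,4419360)]),(0,[(14,261888),(31,261888),(32,261888),(1,1309440)]),(0,[(8,212784),(13,186186),(14,233244),(19,79794),(25,51150),(31,210738),(32,130944),(1,1096656),(0,53196),(35,53196)])], .leaf 1 [(0,[(9,65472),(24,32736),(3,310992),(1,65472),(34,16368)])], .split 2 0 (.leaf 2 [(0,[(0,1)])]) (.leaf 0 [(15,[(33,1833216),(34,523776),(0,3)])]), .leaf 0 [(0,[(9,65472),(3,315084),(1,65472),(34,16368)])], .leaf 2 [(0,[])], .leaf 4 [(0,[(12,392832),(19,130944),(33,130944),(4,130944)]),(0,[(12,261888),(33,261888),(4,261888),(3,261888)]),(0,[(33,261888),(4,261888),(3,130944)]),(0,[(12,261888),(32,261888)]),(6,[(12,1571328),(17,10912),(33,1833216),(0,98208),(35,87296)])],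 .leaf 0 [(0,[(3,278256)])], .leaf 1 [(0,[(9,81840),(13,40920),(3,270072),(0,8184),(34,20460)])], .split 1 0 (.leaf 1 [(0,[(0,1)])]) (.leaf 0 [(61,[(10,4059264),(2,2029632),(0,9),(35,1014816)])])]
noncomputable def t0 : TT := a0
theorem c0 : chkT (fsm (-1) ([-1,4,4,0,0,0,0,0,0,0] : Fm) :: fsm (-1) ([0,0,0,0,-1,1,0,0,0,0] : Fm) :: ([0,0,0,0,0,0,0,0,-1,1] : Fm) :: ([0,0,0,0,-2,0,0,0,1,0] : Fm) :: ([0,0,0,0,-1,-1,0,0,-1,1] : Fm) :: K2O12.C0) t0 = true := by decide +kernel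
end K2O12M00011

namespace K2O12M00100
noncomputable def a0 : TT := .leaf ⟨true,8,1,0,9,1,63,[[0,0,0,8],[0,0,0,8],[],[0,8,8,0,-72,-24,0,0,16,8],[],[],[0,0,0,24],[0,0,0,1],[0,0,0,8],[],[0,0,0,8]]⟩ [.leaf 0 [(0,[])], .leaf 0 [(0,[])], .leaf 0 [(0,[])], .leaf 0 [(47,[(15,1),(16,151),(17,1),(4,4832),(2,4832),(0,30),(35,16)])], .leaf 0 [(0,[])], .leaf 0 [(2,[(15,1),(16,76),(4,2416),(2,2416),(0,15),(35,8)])], .leaf 0 [(0,[])], .leaf 0 [(0,[]),(0,[]),(0,[]),(0,[]),(0,[]),(0,[])], .leaf 0 [(0,[(13,1024),(4,2048),(3,3072),(2,1024)])], .leaf 0 [(0,[])], .leaf 0 [(0,[])], .leaf 0 [(0,[])], .leaf 0 [(0,[])], .leaf 0 [(0,[])], .leaf 0 [(0,[])], .leaf 0 [(0,[])], .leaf 0 [(0,[])], .leaf 0 [(0,[])], .leaf 0 [(0,[(22,1024),(32,6144),(33,2048)])], .leaf 0 [(0,[(22,1024),(2,2048)])], .leaf 0 [(2,[(15,256),(16,14848),(22,7680),(4,486400),(2,472576),(0,3840),(35,2048)])], .leaf 0 [(0,[(9,512),(13,1024),(20,256),(4,2560),(3,2816),(2,1536),(1,256),(34,128)])],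 .leaf 0 [(0,[(13,1024),(4,2048),(2,1024)])], .leaf 0 [(0,[(13,1024),(4,768),(3,2816),(1,1792)])], .leaf 0 [(0,[(9,8704),(13,1024),(20,256),(4,2560),(3,2816),(2,1536),(1,256),(34,128)])], .leaf 3 [(2,[(13,2176),(15,32),(31,1024),(4,3968),(2,384),(0,480),(35,256)]),(0,[(3,768)]),(0,[(13,2560),(4,3072),(3,2560),(2,512)]),(0,[(13,1536),(4,3072),(3,2560),(2,1536)]),(0,[(13,256),(4,2304),(2,768),(0,256)])], .leaf 0 [(0,[(13,1024),(4,2304),(2,1536)])], .leaf 1 [(2,[(8,256),(13,1568),(31,3744),(4,4256),(2,5024),(0,128),(35,64)])], .leaf 0 [(0,[(13,736),(4,992),(3,2976),(1,1504)])], .leaf 2 [(0,[(9,8704),(20,256),(4,3584),(3,2816),(2,2560),(1,256),(34,128)])], .leaf 4 [(2,[(15,704),(16,10560),(19,3840),(32,640),(33,1664),(4,336000),(2,329728),(0,576),(35,5632)]),(0,[(8,6144),(14,640),(19,1536),(22,1024),(25,128),(31,128),(32,128),(4,1792),(2,512),(35,1536)]),(2,[(14,1280),(15,512),(16,5376),(19,3584),(22,256),(33,2560),(4,166400),(2,159488),(35,4096)]),(4,[(9,31744),(14,7936),(16,768),(19,2304),(22,4096),(31,9984),(32,7936),(4,14848),(2,21248),(35,2304)]),(2,[(15,704),(16,10560),(19,3840),(32,640),(33,1664),(4,336000),(2,329728),(0,576),(35,5632)])],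 .leaf 0 [(0,[(9,512),(27,256),(4,768),(3,2816),(1,3072),(34,128)])], .leaf 1 [(0,[(9,512),(4,992),(3,2976),(1,2240),(34,128)])], .leaf 0 [(0,[(9,512),(13,992),(4,2496),(3,2848),(2,1504),(34,128)])], .leaf 1 [(0,[(9,8704),(13,1024),(20,256),(4,2560),(3,2816),(2,1536),(1,256),(34,128)])], .leaf 3 [(0,[(16,2720),(17,224),(25,1280),(32,768),(4,89088),(2,90880),(0,32),(35,1792)]),(0,[(16,3744),(17,224),(25,1280),(31,6784),(32,768),(4,115072),(2,123648),(0,288),(35,1792)]),(0,[(16,640),(17,256),(22,896),(25,1792),(4,26112),(2,28288),(35,2048)]),(0,[(9,9216),(2,512),(34,256)]),(2,[(16,84960),(17,1696),(25,3840),(32,2304),(4,2741248),(2,2746624),(0,15456),(35,13568)])], .leaf 0 [(0,[(13,1024),(4,2432),(3,2816),(2,1408),(1,384)])], .leaf 1 [(0,[(9,512),(13,992),(4,2368),(3,2976),(2,1376),(1,128),(34,128)])], .leaf 0 [(2,[(15,32),(22,3264),(31,2848),(4,5568),(2,8704),(0,1248),(35,256)])]]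
noncomputable def t0 : TT := a0
theorem c0 : chkT (([-1,4,4,0,0,0,0,0,0,0] : Fm) :: ([0,0,0,0,-1,1,0,0,0,0] : Fm) :: fsm (-1) ([0,0,0,0,0,0,0,0,-1,1] : Fm) :: ([0,0,0,0,-2,0,0,0,1,0] : Fm) :: ([0,0,0,0,-1,-1,0,0,-1,1] : Fm) :: K2O12.C0) t0 = true := by decide +kernel
end K2O12M00100

namespace K2O12M00101
noncomputable def a0 : TT := .leaf ⟨false,0,0,1,1,2,7,[[],[],[0,0,0,0,0,4],[0,1,1,0,3,-6,0,0,2,1],[],[],[],[],[],[],[]]⟩ [.leaf 0 [(0,[])], .leaf 0 [(0,[])], .leaf 0 [(0,[])], .leaf 0 [(0,[])], .leaf 0 [(0,[])], .leaf 0 [(0,[])], .leaf 0 [(0,[(13,128),(31,576),(4,64),(2,512)])], .leaf 0 [(0,[])], .leaf 0 [(0,[])], .leaf 0 [(0,[])], .leaf 0 [(0,[])], .leaf 0 [(0,[])], .leaf 0 [(0,[])], .leaf 0 [(0,[])], .leaf 0 [(0,[])], .leaf 0 [(0,[])], .leaf 0 [(54,[(17,256),(19,3200),(25,2944),(32,34496),(33,15680),(4,5696),(3,22912),(0,1984),(35,2048)])], .leaf 0 [(0,[(22,128),(4,640),(3,384),(2,896)])],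 .leaf 0 [(0,[(22,128),(4,384)])], .leaf 0 [(0,[(9,80),(13,168),(20,32),(31,128),(0,8),(34,20)])], .leaf 0 [(0,[(13,128),(4,128)])], .leaf 0 [(0,[(13,128),(31,128),(2,32)])], .leaf 1 [(0,[(4,128),(3,256)])], .leaf 3 [(0,[(13,192),(4,192),(3,288)]),(0,[(4,192),(3,320),(1,128)]),(0,[(13,320),(4,704),(2,384)]),(0,[(4,192),(3,320),(1,1152)]),(0,[(13,192),(4,1152),(3,320),(2,960)])], .leaf 0 [(0,[(13,128),(31,160),(2,64)])], .leaf 1 [(0,[(13,92),(31,156),(2,32)])], .leaf 0 [(0,[(13,92),(4,156),(2,32)])], .leaf 0 [(0,[(4,128),(3,256)])], .leaf 3 [(6,[(8,1024),(14,1408),(19,384),(32,224),(33,1184),(4,1056),(0,144),(35,256)]),(0,[(4,192),(0,16)]),(8,[(13,3956),(14,2112),(15,104),(19,1196),(25,1108),(4,1484),(0,936),(35,832)]),(0,[(14,164),(17,4),(33,252),(4,128),(0,32),(35,32)]),(6,[(14,1024),(15,32),(32,1792),(0,288),(35,256)])], .leaf 1 [(0,[(13,128),(31,160),(2,64)])],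 .split 2 0 (.leaf 2 [(0,[(0,1)])]) (.leaf 0 [(31,[(10,3584),(34,9984),(5,7168),(0,13),(35,896)])]), .leaf 0 [(0,[(9,64),(13,124),(4,156),(2,32),(34,16)])], .leaf 2 [(0,[(13,128),(4,128),(3,192)])], .leaf 4 [(2,[(8,256),(12,640),(25,64),(33,704),(4,448),(3,832),(0,64),(35,64)]),(2,[(8,1664),(25,480),(33,288),(3,448),(0,40),(35,416)]),(6,[(12,1024),(13,1728),(33,448),(3,896),(1,2176),(0,544)]),(0,[(8,128),(12,160),(33,256),(4,1120),(3,320),(2,928),(0,32),(35,32)]),(64,[(12,15040),(17,128),(25,1472),(32,9536),(33,5632),(3,17856),(1,85696),(0,1152),(35,1024)])], .leaf 0 [(0,[(13,128),(4,128)])], .leaf 1 [(0,[(9,80),(13,164),(31,124),(0,8),(34,20)])], .split 2 0 (.leaf 2 [(0,[(0,1)])]) (.leaf 1 [(95,[(10,3584),(33,6656),(34,1792),(0,11),(35,896)])])]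
noncomputable def t0 : TT := a0
theorem c0 : chkT (fsm (-1) ([-1,4,4,0,0,0,0,0,0,0] : Fm) :: ([0,0,0,0,-1,1,0,0,0,0] : Fm) :: fsm (-1) ([0,0,0,0,0,0,0,0,-1,1] : Fm) :: ([0,0,0,0,-2,0,0,0,1,0] : Fm) :: ([0,0,0,0,-1,-1,0,0,-1,1] : Fm) :: K2O12.C0) t0 = true := by decide +kernel
end K2O12M00101

namespace K2O12M00110
noncomputable def a0 : TT := .leaf ⟨true,8,1,0,9,1,63,[[0,0,0,8],[0,0,0,8],[],[0,8,8,0,-72,-24,0,0,16,8],[],[],[0,0,0,24],[0,0,0,1],[0,0,0,8],[],[0,0,0,8]]⟩ [.leaf 0 [(0,[])], .leaf 0 [(0,[])], .leaf 0 [(0,[])], .leaf 0 [(47,[(15,1),(16,151),(17,1),(4,4832),(2,4832),(0,30),(35,16)])], .leaf 0 [(0,[])], .leaf 0 [(2,[(15,1),(16,76),(4,2416),(2,2416),(0,15),(35,8)])], .leaf 0 [(0,[])], .leaf 0 [(0,[]),(0,[]),(0,[]),(0,[]),(0,[]),(0,[])], .leaf 0 [(0,[(13,1024),(4,2048),(3,3072),(2,1024)])], .leaf 0 [(0,[])], .leaf 0 [(0,[])], .leaf 0 [(0,[])], .leaf 0 [(0,[])],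 .leaf 0 [(0,[])], .leaf 0 [(0,[])], .leaf 0 [(0,[])], .leaf 0 [(0,[])], .leaf 0 [(0,[])], .leaf 0 [(0,[(22,1024),(32,6144),(33,2048)])], .leaf 0 [(0,[(22,1024),(2,2048)])], .leaf 0 [(2,[(15,256),(16,14848),(22,7680),(4,486400),(2,472576),(0,3840),(35,2048)])], .leaf 0 [(0,[(9,512),(13,1024),(20,256),(4,2816),(3,2816),(2,1792),(34,128)])], .leaf 0 [(0,[(13,1024),(4,1024),(1,1024)])], .leaf 0 [(0,[(13,1024),(4,2560),(3,2816),(2,1792)])], .leaf 0 [(0,[(9,8704),(13,1024),(20,256),(4,2816),(3,2816),(2,1792),(34,128)])], .leaf 3 [(2,[(8,1024),(13,2048),(4,4608),(1,512),(0,512),(35,256)]),(0,[(3,768)]),(0,[(13,2560),(4,3072),(3,2560),(2,512)]),(0,[(13,1536),(4,3072),(3,2560),(2,1536)]),(0,[(13,256),(4,2304),(2,768),(0,256)])], .leaf 0 [(0,[(13,1024),(4,2304),(2,1536)])], .leaf 1 [(2,[(8,256),(13,1568),(4,2976),(3,1280),(1,5024),(0,128),(35,64)])], .leaf 0 [(0,[(13,736),(4,2496),(3,2976),(2,1504)])],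 .leaf 2 [(0,[(9,8704),(20,256),(4,3840),(3,2816),(2,2816),(34,128)])], .leaf 4 [(2,[(15,704),(16,10560),(19,3840),(32,640),(33,1664),(4,336000),(2,329728),(0,576),(35,5632)]),(0,[(8,6144),(14,512),(19,1536),(22,1024),(32,256),(4,1920),(2,640),(1,128),(35,1536)]),(2,[(14,1280),(15,512),(16,5376),(19,3584),(22,256),(33,2560),(4,166400),(2,159488),(35,4096)]),(4,[(9,31744),(14,7936),(16,768),(19,2304),(22,4096),(33,7936),(4,32768),(2,21248),(35,2304)]),(2,[(15,704),(16,10560),(19,3840),(32,640),(33,1664),(4,336000),(2,329728),(0,576),(35,5632)])], .leaf 0 [(0,[(9,512),(13,1024),(20,256),(4,2816),(3,2816),(2,1792),(34,128)])], .leaf 1 [(0,[(9,512),(13,992),(4,2240),(3,2976),(2,1248),(34,128)])], .leaf 0 [(0,[(9,512),(13,992),(4,2496),(3,2848),(2,1504),(34,128)])], .leaf 1 [(0,[(9,8704),(13,1024),(20,256),(4,2816),(3,2816),(2,1792),(34,128)])], .leaf 3 [(0,[(16,2720),(17,224),(25,1280),(33,768),(4,89856),(2,90880),(0,32),(35,1792)]),(0,[(16,3744),(17,224),(25,1280),(33,768),(4,122624),(2,123648),(0,288),(35,1792)]),(0,[(16,640),(17,256),(22,896),(25,1792),(4,25600),(2,27776),(1,512),(35,2048)]),(0,[(9,9216),(2,512),(34,256)]),(2,[(16,84960),(17,1696),(25,3840),(32,2304),(4,2741248),(2,2746624),(0,15456),(35,13568)])],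 .leaf 0 [(0,[(13,1024),(4,2816),(3,2816),(2,1792)])], .leaf 1 [(0,[(9,512),(13,992),(4,2496),(3,2976),(2,1504),(34,128)])], .leaf 0 [(2,[(15,32),(22,3264),(4,3168),(3,2400),(2,3456),(1,5248),(0,1248),(35,256)])]]
noncomputable def t0 : TT := a0
theorem c0 : chkT (([-1,4,4,0,0,0,0,0,0,0] : Fm) :: fsm (-1) ([0,0,0,0,-1,1,0,0,0,0] : Fm) :: fsm (-1) ([0,0,0,0,0,0,0,0,-1,1] : Fm) :: ([0,0,0,0,-2,0,0,0,1,0] : Fm) :: ([0,0,0,0,-1,-1,0,0,-1,1] : Fm) :: K2O12.C0) t0 = true := by decide +kernel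
end K2O12M00110

namespace K2O12M00111
noncomputable def a0 : TT := .leaf ⟨false,0,0,1,1,2,7,[[],[],[0,0,0,0,0,4],[0,1,1,0,3,-6,0,0,2,1],[],[],[],[],[],[],[]]⟩ [.leaf 0 [(0,[])], .leaf 0 [(0,[])], .leaf 0 [(0,[])], .leaf 0 [(0,[])], .leaf 0 [(0,[])], .leaf 0 [(0,[])], .leaf 0 [(0,[(13,128),(31,64),(4,64),(1,512)])], .leaf 0 [(0,[])], .leaf 0 [(0,[])], .leaf 0 [(0,[])], .leaf 0 [(0,[])], .leaf 0 [(0,[])], .leaf 0 [(0,[])], .leaf 0 [(0,[])], .leaf 0 [(0,[])], .leaf 0 [(0,[])], .leaf 0 [(54,[(17,256),(19,3200),(25,2944),(32,34496),(33,15680),(4,5696),(3,22912),(0,1984),(35,2048)])], .leaf 0 [(0,[(22,128),(4,640),(3,384),(2,896)])], .leaf 0 [(0,[(22,128),(4,384)])], .leaf 0 [(0,[(9,64),(20,32),(31,128),(1,160),(34,16)])], .leaf 0 [(0,[(4,128),(1,128)])], .leaf 0 [(0,[(13,128),(31,96),(1,32)])], .leaf 1 [(0,[(4,128),(3,256)])], .leaf 3 [(0,[(13,192),(4,192),(3,288)]),(0,[(13,160),(4,192),(3,304)]),(0,[(13,320),(4,320),(3,160),(1,384)]),(0,[(13,192),(4,1152),(3,320),(2,960)]),(0,[(13,192),(4,1152),(3,320),(2,960)])],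 .leaf 0 [(0,[(13,128),(31,96),(1,64)])], .leaf 1 [(0,[(31,124),(1,124)])], .leaf 0 [(0,[(1,248)])], .leaf 0 [(0,[(4,128),(3,256)])], .leaf 3 [(6,[(8,1024),(14,1408),(19,384),(32,224),(33,1184),(4,1056),(0,144),(35,256)]),(0,[(4,192),(0,16)]),(0,[(13,129),(14,464),(15,2),(19,23),(25,233),(4,55),(1,344),(0,18),(35,16)]),(0,[(14,164),(17,4),(33,252),(4,128),(0,32),(35,32)]),(6,[(14,1024),(15,32),(32,1792),(0,288),(35,256)])], .leaf 1 [(0,[(1,288)])], .split 2 0 (.leaf 2 [(0,[(0,1)])]) (.leaf 0 [(31,[(10,3584),(34,9984),(5,7168),(0,13),(35,896)])]), .leaf 0 [(0,[(9,64),(1,280),(34,16)])], .leaf 2 [(0,[(13,128),(4,128),(3,192)])], .leaf 4 [(2,[(8,256),(12,640),(25,64),(33,704),(4,448),(3,832),(0,64),(35,64)]),(2,[(8,1664),(25,480),(33,288),(3,448),(0,40),(35,416)]),(0,[(12,208),(33,256),(4,192),(3,280),(0,16)]),(20,[(12,3840),(17,64),(33,5376),(4,23360),(3,6720),(2,19328),(0,576),(35,512)]),(20,[(12,3840),(17,64),(33,5376),(4,23360),(3,6720),(2,19328),(0,576),(35,512)])],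 .leaf 0 [(0,[(13,128),(4,128)])], .leaf 1 [(0,[(9,64),(13,124),(31,124),(1,32),(34,16)])], .split 2 0 (.leaf 2 [(0,[(0,1)])]) (.leaf 1 [(95,[(10,3584),(33,6656),(34,1792),(0,11),(35,896)])])]
noncomputable def t0 : TT := a0
theorem c0 : chkT (fsm (-1) ([-1,4,4,0,0,0,0,0,0,0] : Fm) :: fsm (-1) ([0,0,0,0,-1,1,0,0,0,0] : Fm) :: fsm (-1) ([0,0,0,0,0,0,0,0,-1,1] : Fm) :: ([0,0,0,0,-2,0,0,0,1,0] : Fm) :: ([0,0,0,0,-1,-1,0,0,-1,1] : Fm) :: K2O12.C0) t0 = true := by decide +kernel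
end K2O12M00111

namespace K2O12M00000
theorem top : ∃ t, chkT (([-1,4,4,0,0,0,0,0,0,0] : Fm) :: ([0,0,0,0,-1,1,0,0,0,0] : Fm) :: ([0,0,0,0,0,0,0,0,-1,1] : Fm) :: ([0,0,0,0,-2,0,0,0,1,0] : Fm) :: ([0,0,0,0,-1,-1,0,0,-1,1] : Fm) :: K2O12.C0) t = true := ⟨_, c0⟩
end K2O12M00000
namespace K2O12M00001
theorem top : ∃ t, chkT (fsm (-1) ([-1,4,4,0,0,0,0,0,0,0] : Fm) :: ([0,0,0,0,-1,1,0,0,0,0] : Fm) :: ([0,0,0,0,0,0,0,0,-1,1] : Fm) :: ([0,0,0,0,-2,0,0,0,1,0] : Fm) :: ([0,0,0,0,-1,-1,0,0,-1,1] : Fm) :: K2O12.C0) t = true := ⟨_, c0⟩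
end K2O12M00001
namespace K2O12M00010
theorem top : ∃ t, chkT (([-1,4,4,0,0,0,0,0,0,0] : Fm) :: fsm (-1) ([0,0,0,0,-1,1,0,0,0,0] : Fm) :: ([0,0,0,0,0,0,0,0,-1,1] : Fm) :: ([0,0,0,0,-2,0,0,0,1,0] : Fm) :: ([0,0,0,0,-1,-1,0,0,-1,1] : Fm) :: K2O12.C0) t = true := ⟨_, c0⟩
end K2O12M00010
namespace K2O12M00011
theorem top : ∃ t, chkT (fsm (-1) ([-1,4,4,0,0,0,0,0,0,0] : Fm) :: fsm (-1) ([0,0,0,0,-1,1,0,0,0,0] : Fm) :: ([0,0,0,0,0,0,0,0,-1,1] : Fm) :: ([0,0,0,0,-2,0,0,0,1,0] : Fm) :: ([0,0,0,0,-1,-1,0,0,-1,1] : Fm) :: K2O12.C0) t = true := ⟨_, c0⟩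
end K2O12M00011
namespace K2O12M00100
theorem top : ∃ t, chkT (([-1,4,4,0,0,0,0,0,0,0] : Fm) :: ([0,0,0,0,-1,1,0,0,0,0] : Fm) :: fsm (-1) ([0,0,0,0,0,0,0,0,-1,1] : Fm) :: ([0,0,0,0,-2,0,0,0,1,0] : Fm) :: ([0,0,0,0,-1,-1,0,0,-1,1] : Fm) :: K2O12.C0) t = true := ⟨_, c0⟩
end K2O12M00100
namespace K2O12M00101
theorem top : ∃ t, chkT (fsm (-1) ([-1,4,4,0,0,0,0,0,0,0] : Fm) :: ([0,0,0,0,-1,1,0,0,0,0] : Fm) :: fsm (-1) ([0,0,0,0,0,0,0,0,-1,1] : Fm) :: ([0,0,0,0,-2,0,0,0,1,0] : Fm) :: ([0,0,0,0,-1,-1,0,0,-1,1] : Fm) :: K2O12.C0) t = true := ⟨_, c0⟩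
end K2O12M00101
namespace K2O12M00110
theorem top : ∃ t, chkT (([-1,4,4,0,0,0,0,0,0,0] : Fm) :: fsm (-1) ([0,0,0,0,-1,1,0,0,0,0] : Fm) :: fsm (-1) ([0,0,0,0,0,0,0,0,-1,1] : Fm) :: ([0,0,0,0,-2,0,0,0,1,0] : Fm) :: ([0,0,0,0,-1,-1,0,0,-1,1] : Fm) :: K2O12.C0) t = true := ⟨_, c0⟩
end K2O12M00110
namespace K2O12M00111
theorem top : ∃ t, chkT (fsm (-1) ([-1,4,4,0,0,0,0,0,0,0] : Fm) :: fsm (-1) ([0,0,0,0,-1,1,0,0,0,0] : Fm) :: fsm (-1) ([0,0,0,0,0,0,0,0,-1,1] : Fm) :: ([0,0,0,0,-2,0,0,0,1,0] : Fm) :: ([0,0,0,0,-1,-1,0,0,-1,1] : Fm) :: K2O12.C0) t = true := ⟨_, c0⟩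
end K2O12M00111
def K2O12P00 := (splE (splE (splE K2O12M00000.top K2O12M00001.top) (splE K2O12M00010.top K2O12M00011.top)) (splE (splE K2O12M00100.top K2O12M00101.top) (splE K2O12M00110.top K2O12M00111.top)))

end Vale.Agent.P235
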