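import Vale.Agent.P235.T.K2O12C

namespace Vale.Agent.P235

set_option maxRecDepth 100000

namespace K2O12M0100000
noncomputable def a0 : TT := .leaf ⟨true,0,33,31,64,0,32735,[[],[0,-1023,-1023,0,31713,0,0,0,-4092,1023],[0,1023,1023,0,0,0,0,0,2046,-1023],[0,2046,2046,0,-11253,0,0,0,19437,-2046],[0,0,0,0,3069],[],[],[],[0,-31,-31,0,961,0,0,0,-124,31],[0,33,33,0,0,0,0,0,66,-33],[0,0,0,0,992]]⟩ [.leaf 0 [(0,[])], .leaf 0 [(0,[(24,31),(5,155)])], .leaf 0 [(0,[(26,33)])], .leaf 0 [(0,[(24,2)])], .leaf 0 [(0,[])], .leaf 0 [(0,[])], .leaf 0 [(0,[(3,30752)])], .leaf 0 [(0,[]),(0,[]),(0,[]),(0,[]),(0,[]),(0,[])], .leaf 0 [(0,[(26,261888),(0,1440384)])], .leaf 0 [(0,[])], .leaf 0 [(0,[(24,916608),(5,4583040)])], .leaf 0 [(0,[(26,916608),(0,392832)])], .leaf 0 [(0,[])], .leaf 0 [(0,[])], .leaf 0 [(0,[(26,916608)])], .leaf 0 [(0,[])], .leaf 0 [(0,[])], .leaf 0 [(0,[(24,916608),(5,4583040)])], .leaf 0 [(0,[(14,851136),(21,851136),(24,261888),(35,3339072),(6,3339072)])],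 .leaf 0 [(0,[(24,523776)])], .leaf 0 [(0,[(6,4190208)])], .leaf 0 [(0,[(11,261888),(16,130944),(22,130944),(26,261888),(1,130944),(36,65472)])], .leaf 0 [(0,[(26,523776),(0,1309440)])], .leaf 0 [(0,[(18,130944),(26,130944),(0,1571328)])], .leaf 1 [(0,[(26,261888)])], .leaf 3 [(0,[(15,851136),(33,343728),(6,900240)]),(0,[(33,1178496)]),(0,[(15,1113024),(6,982080),(0,752928)]),(0,[(15,851136),(33,1243968),(5,1243968)]),(0,[(15,589248),(33,278256),(6,1227600)])], .leaf 1 [(0,[])], .leaf 0 [(0,[(5,184140)])], .leaf 0 [(0,[(18,130944),(24,16368),(0,1530408)])], .leaf 0 [(0,[(26,1178496),(0,1571328)])], .split 4 0 (.split 2 3 (.leaf 2 [(30,[(18,24682944),(23,2553408),(37,24552000),(8,54341760),(1,5)]),(0,[(18,1047552),(26,229152),(37,1047552),(8,1964160)]),(0,[(17,32736),(18,491040),(30,556512),(8,1571328),(2,360096)]),(0,[(0,1)]),(0,[(18,1047552),(26,1407648),(36,1047552),(8,1047552),(7,7463808)])]) (.leaf 4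 [(0,[(1,1)]),(5,[(17,491040),(18,1047552),(23,2095104),(8,556512),(1,5),(0,2),(39,2095104)]),(55,[(23,16760832),(26,9591648),(37,5237760),(8,12570624),(7,25828704),(5,46157760),(1,49),(0,16),(39,16760832)]),(0,[(23,1047552),(26,98208),(7,98208),(39,1047552)]),(5,[(18,1047552),(23,2880768),(26,5008608),(8,1047552),(7,27072672),(1,5),(0,2),(39,2095104)])])) (.leaf 2 [(0,[(17,1113024),(25,98208),(28,65472),(36,982080),(7,1964160)]),(0,[(17,1047552),(25,229152),(36,1047552),(7,1964160)]),(0,[(16,392832),(17,130944),(22,360096),(29,556512),(7,1571328)]),(394,[(12,210296064),(17,100532256),(22,350962656),(36,48809376),(7,128848896),(6,14141952),(2,20492736),(0,36),(38,361209024)]),(0,[(17,1047552),(25,1407648),(34,1047552),(35,1047552),(6,7463808)])]), .split 1 0 (.leaf 1 [(0,[(0,1)])]) (.leaf 0 [(18,[(12,5761536),(23,2880768),(27,785664),(36,392832),(0,3),(37,1440384)])]), .leaf 0 [(0,[(11,261888),(26,122760),(5,192324),(3,597432),(36,65472)])],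 .leaf 1 [(0,[(11,261888),(22,130944),(5,184140),(3,581064),(36,65472)])], .leaf 2 [(0,[(24,654720),(5,2226048)])], .leaf 4 [(0,[(14,1227600),(21,180048),(24,229152),(34,343728),(35,523776),(6,523776)]),(0,[(14,1931424),(15,163680),(21,883872),(35,163680),(0,752928)]),(0,[(23,556512),(27,360096),(5,425568)]),(0,[(14,1047552),(24,1276704),(34,1047552),(5,4877664)]),(0,[(14,1538592),(15,556512),(21,491040),(35,556512)])], .leaf 0 [(0,[(26,261888)])], .leaf 0 [(0,[(11,294624),(16,130944),(22,130944),(33,16368),(5,216876),(1,114576),(36,73656)])], .leaf 1 [(0,[(24,8184),(5,208692)])]]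
noncomputable def t0 : TT := a0
theorem c0 : chkT (([0,0,0,0,-1,0,0,0,1,0] : Fm) :: ([-1,0,0,4,0,0,0,0,0,0] : Fm) :: ([-1,4,4,0,0,0,0,0,0,0] : Fm) :: ([0,0,0,0,-1,1,0,0,0,0] : Fm) :: ([0,0,0,0,0,0,0,0,-1,1] : Fm) :: fsm (-1) ([0,0,0,0,-2,0,0,0,1,0] : Fm) :: ([0,0,0,0,-1,-1,0,0,-1,1] : Fm) :: K2O12.C0) t0 = true := by decide +kernel
end K2O12M0100000

namespace K2O12M010000100
noncomputable def a0 : TT := .leaf ⟨true,0,8,1,9,3,511,[[],[0,-8,-8,0,512,0,0,0,-176,8],[0,0,0,0,0,0,0,0,16],[0,-8,-8,0,0,0,0,0,192,8],[0,0,0,0,0,0,0,0,24],[],[],[],[0,-1,-1,0,64,0,0,0,-22,1],[0,0,0,0,0,0,0,0,16],[0,0,0,0,64]]⟩ [.leaf 0 [(0,[])], .leaf 0 [(0,[(27,1),(8,23)])], .leaf 0 [(0,[])], .leaf 0 [(0,[(29,1)])], .leaf 0 [(0,[])], .leaf 0 [(0,[])], .leaf 0 [(0,[(6,64)])], .leaf 0 [(0,[]),(0,[]),(0,[]),(0,[]),(0,[]),(0,[])], .leaf 0 [(0,[(27,1024)])], .leaf 0 [(0,[])], .leaf 0 [(0,[(27,7168),(8,167936)])], .leaf 0 [(0,[])], .leaf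 0 [(0,[])], .leaf 0 [(0,[])], .leaf 0 [(0,[])], .leaf 0 [(0,[])], .leaf 0 [(0,[])], .leaf 0 [(0,[(27,7168),(8,164864)])], .leaf 0 [(0,[(38,65536),(9,63488),(2,512)])], .leaf 0 [(0,[])], .leaf 0 [(0,[(9,63488),(2,512)])], .leaf 0 [(30,[(14,126976),(25,63488),(27,63488),(1,2048),(39,31744)])], .leaf 0 [(0,[])], .leaf 0 [(0,[(21,2048)])], .leaf 1 [(0,[(27,9216),(3,150528)])], .leaf 1 [(0,[(9,15616),(2,4288)]),(0,[(9,14592),(2,4544)]),(0,[(8,16384),(7,10240)]),(30,[(3,5206016),(1,32768)]),(30,[(32,63488),(9,452352),(8,150784),(4,63488),(1,18176)])], .leaf 1 [(0,[(27,2048),(3,4096)])], .leaf 0 [(0,[(29,64),(8,2112)])], .leaf 2 [(0,[])], .leaf 0 [(0,[(27,2048)])], .split 4 3 (.split 2 3 (.leaf 2 [(28,[(19,16384),(21,442368),(29,381440),(40,425984),(11,475136),(8,147456),(4,131072),(2,16384)]),(10,[(19,74752),(21,87040),(29,76288),(40,106496),(11,171008),(2,18432)]),(168,[(33,917504),(11,1867776),(4,1179648),(0,105),(41,1720320)]),(0,[(0,1)]),(30,[(21,507904),(29,174592),(39,507904),(10,4602880),(3,16384)])])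 (.leaf 4 [(419248,[(21,3818547200),(24,97511424),(29,2925527552),(39,3034257408),(11,3721035776),(3,59320320),(2,1183924224),(1,310693),(0,335341),(42,1183924224)]),(4886,[(21,29474816),(22,6324224),(29,12911104),(39,21053440),(11,29474816),(1,5015),(0,2313),(42,6324224)]),(54132,[(21,316588032),(24,61761536),(40,304496640),(11,670187520),(8,387956736),(2,13565952),(1,59209),(0,29880),(42,13565952)]),(0,[(1,1)]),(216,[(29,698368),(34,3555328),(39,4571136),(10,28190208),(5,3601408),(3,229376),(1,1240),(0,1240)])])) (.leaf 0 [(2,[(18,6144),(20,38912),(28,5632),(39,36864),(10,75776),(1,4096)]),(0,[(20,16384),(39,16384),(10,29184),(7,19968)]),(0,[(25,10640),(10,14848),(3,3648),(1,1232)]),(1066,[(15,3473408),(28,18673152),(10,3866624),(7,8208384),(4,19300352),(1,8208384),(0,436),(41,6275072)]),(30,[(20,507904),(28,174592),(38,507904),(9,4602880),(2,16384)])]), .leaf 1 [(30,[(14,126976),(1,4096),(39,31744)])],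 .leaf 0 [(0,[(14,4096),(29,2112),(6,6336),(3,2240),(39,1024)])], .leaf 0 [(30,[(14,126976),(27,61504),(1,4096),(39,31744)])], .leaf 2 [(0,[(27,9216),(8,164864)])], .leaf 4 [(0,[(17,16384),(38,16384),(9,16128),(2,64)]),(0,[(17,32768),(24,16384),(27,768)]),(0,[(26,13568),(30,768),(37,2048),(8,9472)]),(0,[(17,16384),(27,7936),(37,16384),(3,174336)]),(6,[(17,114688),(27,19968),(38,114688),(9,95232),(2,4864)])], .leaf 0 [(0,[(27,2048)])], .leaf 0 [(30,[(14,126976),(25,63488),(3,111104),(1,2048),(39,31744)])], .leaf 1 [(0,[(29,64),(8,2240)])]]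
noncomputable def a1 : TT := .leaf ⟨true,1,8,0,9,3,32767,[[-24,224,248,0,0,0,0,24,2224,-248],[232,-2544,-2776,0,32768,0,0,-232,-19432,2776],[],[280,1224,944,0,0,0,0,-280,4680,-944],[],[],[0,0,0,0,0,0,0,0,2496],[-24,224,248,0,0,0,0,24,2224,-248],[29,-318,-347,0,4096,0,0,-29,-2429,347],[],[0,0,0,0,4096]]⟩ [.leaf 0 [(0,[(25,24),(30,248)])], .leaf 0 [(0,[(26,29),(28,347),(9,1291),(4,1514)])], .leaf 0 [(0,[])], .leaf 0 [(0,[(25,5),(30,99)])], .leaf 0 [(0,[(15,12288),(7,2048),(3,2048),(40,3072)])], .leaf 0 [(0,[])], .leaf 0 [(0,[])], .leaf 0 [(0,[]),(0,[]),(0,[]),(0,[]),(0,[]),(0,[])], .leaf 0 [(0,[(26,35840),(30,120832)])], .leaf 0 [(0,[])], .leaf 0 [(0,[(26,207872),(28,2487296),(9,9253888),(4,10852352)])], .leaf 0 [(0,[])], .leaf 0 [(0,[])], .leaf 0 [(0,[(25,21504),(30,222208)])], .leaf 0 [(0,[])], .leaf 0 [(0,[])], .leaf 0 [(0,[(25,21504),(30,222208)])], .leaf 0 [(0,[(26,207872),(28,2487296),(4,20425728)])],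 .leaf 0 [(0,[(18,3016192),(25,3084800),(39,1178112),(10,911872),(3,66560)])], .leaf 0 [(0,[(25,3072),(28,507904)])], .leaf 0 [(0,[(25,62464),(10,3991552),(3,50688)])], .leaf 0 [(30,[(15,20570112),(26,4158464),(33,2031616),(10,6221824),(4,65297408),(2,131072),(40,5142528)])], .leaf 0 [(0,[(26,3072),(30,507904)])], .leaf 0 [(20,[(20,525312),(21,131072),(28,3732480),(39,2227200),(9,33240064),(4,628736),(1,1179648),(41,1048576)])], .leaf 0 [(278,[(15,89391104),(25,320741376),(28,750523392),(9,1458081792),(4,4485537792),(2,5832704),(1,144244736),(41,270204928)])], .leaf 0 [(0,[(25,24576),(10,1163008),(3,233536)]),(0,[(25,54272),(28,283392),(3,524288)]),(0,[(29,573696),(33,5120),(10,808448),(9,719360)]),(278,[(15,89391104),(25,336740352),(28,532465920),(10,585105408),(9,2106326016),(4,3189049344),(2,5832704),(1,144244736),(41,270204928)]),(30,[(33,3555328),(37,35708928),(10,915712),(6,4063232),(2,915712)])], .leaf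 1 [(0,[(26,62464),(28,202752),(4,1999872)])], .leaf 0 [(0,[(25,1952),(30,6336),(9,89248)])], .leaf 0 [(20,[(20,1310720),(21,131072),(25,787424),(28,6032896),(39,1441792),(4,39168864),(1,1179648),(41,1048576)])], .leaf 0 [(0,[(26,40960),(30,19456)])], .split 2 3 (.leaf 2 [(0,[(21,1048576),(26,49152),(29,1396992),(40,1048576),(11,524288),(8,524288),(4,524288)]),(0,[(19,1256192),(21,840960),(26,1100800),(8,1889536)]),(6708,[(21,703594496),(26,5135442944),(29,1370522624),(11,3867672576),(8,3166175232),(4,3166175232),(0,1341),(41,1406140416)]),(0,[(0,1)]),(30,[(19,4825088),(21,32505856),(29,70670080),(39,27680768),(5,534068992),(3,1048576)])]) (.leaf 4 [(53388,[(21,20393754624),(26,67766626048),(29,73550147328),(40,12396265472),(11,4898422784),(8,9297199104),(4,9297199104),(1,4448583680),(0,27076),(42,28391243776)]),(171554,[(21,83617644544),(22,12033851392),(26,193814784256),(29,178463236352),(39,59726888960),(11,83617644544),(0,102528),(42,203779211264)]),(28618,[(15,110305476608),(26,36188382464),(29,27255635200),(32,1318322176),(40,231079936),(11,1345585152),(8,10587471872),(0,6740),(42,34643771392)]),(0,[(26,1106688),(29,669440),(42,1048576)]),(30,[(26,242294016),(29,202447360),(10,142681344),(3,2097152),(0,217),(42,227540992)])]),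 .leaf 0 [(4,[(23,294912),(25,2767872),(28,1308672),(39,294912),(7,3869696),(4,8064000),(1,1343488),(41,2359296)])], .leaf 0 [(0,[(15,262144),(30,137248),(39,2144),(7,331488),(4,69344),(40,65536)])], .leaf 0 [(92,[(15,7848704),(28,24171072),(9,97348992),(4,118044960),(2,853088),(1,2066336),(40,1962176)])], .leaf 1 [(278,[(15,89391104),(25,326740992),(28,688527360),(9,2070042624),(4,3261616128),(2,5832704),(1,144244736),(41,270204928)])], .leaf 1 [(0,[(18,1813760),(25,792064),(28,90624),(39,283392),(10,283392)]),(0,[(27,433920),(31,477696),(4,1738752)]),(0,[(18,1112064),(28,565504),(31,123136),(39,985088),(3,246272)]),(92,[(15,52822016),(28,306099456),(31,34497792),(39,91422720),(4,1831216128),(2,622592),(1,19300352),(41,84312064)]),(0,[(18,1048320),(28,414208),(38,917760),(39,131072),(9,780288)])], .leaf 0 [(0,[(26,68608),(28,266240),(9,1424384),(4,1214464)])], .leaf 0 [(30,[(26,520800),(33,492032),(9,739040),(2,163840),(1,1015808)])],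 .leaf 1 [(30,[(30,191456),(39,66464),(9,2149664),(5,66464),(2,2144)])]]
noncomputable def a2 : TT := .leaf ⟨false,0,1,0,1,1,7,[[],[-1,-3,-2,0,8,0,0,1,-5,2],[],[-1,-2,-1,0,0,0,0,1,2,1],[],[],[],[],[],[],[]]⟩ [.leaf 0 [(0,[])], .leaf 0 [(0,[(25,1),(28,2),(4,8)])], .leaf 0 [(0,[])], .leaf 0 [(0,[])], .leaf 0 [(0,[(26,1),(30,2)])], .leaf 0 [(0,[])], .leaf 0 [(0,[(25,128),(28,128)])], .leaf 0 [(0,[])], .leaf 0 [(0,[(25,896),(28,1792),(4,7168)])], .leaf 0 [(0,[])], .leaf 0 [(0,[])], .leaf 0 [(0,[])], .leaf 0 [(0,[])], .leaf 0 [(0,[])], .leaf 0 [(0,[])], .leaf 0 [(0,[(25,896),(28,1792),(4,7168)])], .leaf 0 [(0,[(18,256),(39,768),(10,384),(3,96)])], .leaf 0 [(0,[(28,128)])], .leaf 0 [(0,[(26,256),(10,640),(3,96)])], .leaf 0 [(526,[(25,130944),(10,202368),(4,79360),(2,128),(0,12896)])], .leaf 0 [(0,[(30,128)])], .leaf 0 [(40,[(20,736),(23,224),(25,9984),(28,15232),(39,800),(4,39808),(0,288),(41,1792)])], .leaf 0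 [(0,[(25,1152),(28,2176),(4,8064),(0,32),(41,256)])], .leaf 0 [(0,[(26,96),(10,160),(3,88)]),(0,[(26,224),(30,96),(3,128)]),(0,[(31,32),(10,352),(4,224)]),(0,[(25,928),(28,1696),(10,512),(4,7040),(0,32),(41,256)]),(0,[(14,672),(18,48),(20,24),(26,200),(10,32),(7,168),(4,264),(3,168),(0,24),(41,168)])], .leaf 1 [(0,[(25,256),(28,384),(7,64),(4,1056)])], .leaf 0 [(0,[(26,8),(30,12),(9,40)])], .leaf 0 [(40,[(20,736),(23,224),(25,9984),(28,16708),(39,800),(7,2624),(4,42432),(0,288),(41,1792)])], .leaf 2 [(0,[(25,256),(28,384),(4,896),(0,32),(41,256)])], .leaf 4 [(0,[(14,1024),(25,128),(28,64),(41,256)]),(0,[(14,2048),(25,384),(28,448),(4,896),(0,32),(41,512)]),(0,[(23,32),(25,128),(28,64),(41,256)]),(0,[(25,128),(28,64),(41,256)]),(4,[(14,140288),(25,6144),(28,10304),(31,1024),(39,2048),(4,21504),(0,4096),(41,35072)])], .leaf 0 [(0,[(20,32),(23,32),(25,256),(28,384),(4,896),(0,32),(41,256)])], .leaf 0 [(0,[(15,64),(26,8),(30,44),(7,104),(4,40),(40,16)])],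 .leaf 0 [(278,[(28,19220),(37,42988),(10,41580),(2,2520),(0,9610)])], .leaf 1 [(0,[(25,1152),(28,2176),(4,8064),(0,32),(41,256)])], .leaf 4 [(0,[(18,288),(39,224),(10,224)]),(0,[(18,368),(25,208),(28,128),(39,144),(10,144)]),(0,[(27,16),(31,112),(10,144),(4,476),(0,9)]),(4,[(14,11776),(25,3680),(28,9984),(39,2944),(10,3200),(4,34688),(0,384),(41,2944)]),(0,[(18,160),(28,288),(39,352),(10,320),(9,352),(4,288)])], .leaf 0 [(0,[(25,256),(28,352),(38,2),(10,32),(4,982),(0,2)])], .leaf 0 [(526,[(26,13764),(33,2108),(4,24552),(2,512),(0,992)])], .leaf 1 [(0,[(26,8),(30,12),(9,40)])]]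
noncomputable def t0 : TT := (.split [1,1,4,-5,-16,-5,0,3,3,0] a0 (.split [16,16,16,-24,-20,-16,0,1,4,0] a1 a2))
theorem c0 : chkT (([0,0,0,0,33,-31,0,0,0,0] : Fm) :: ([0,3,3,0,-4,-4,0,0,0,0] : Fm) :: fsm (-1) ([0,0,0,0,-1,0,0,0,1,0] : Fm) :: ([-1,0,0,4,0,0,0,0,0,0] : Fm) :: ([-1,4,4,0,0,0,0,0,0,0] : Fm) :: ([0,0,0,0,-1,1,0,0,0,0] : Fm) :: ([0,0,0,0,0,0,0,0,-1,1] : Fm) :: fsm (-1) ([0,0,0,0,-2,0,0,0,1,0] : Fm) :: ([0,0,0,0,-1,-1,0,0,-1,1] : Fm) :: K2O12.C0) t0 = true := by decide +kernel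
end K2O12M010000100

namespace K2O12M010000101000
noncomputable def a0 : TT := .leaf ⟨true,0,31,33,64,3,8183,[[],[0,0,0,0,8184,0,0,0,-2046],[0,0,0,0,0,0,0,0,1023],[0,0,0,0,0,0,0,0,4092],[0,0,0,0,0,0,0,0,5115],[],[],[],[0,0,0,0,264,0,0,0,-66],[0,0,0,0,0,0,0,0,31],[0,0,0,0,264]]⟩ [.leaf 0 [(0,[])], .leaf 0 [(0,[(10,66)])], .leaf 0 [(0,[])], .leaf 0 [(0,[])], .leaf 0 [(0,[])], .leaf 0 [(0,[])], .leaf 0 [(0,[(3,264)])], .leaf 0 [(0,[]),(0,[]),(0,[]),(0,[]),(0,[]),(0,[])], .leaf 0 [(0,[])], .leaf 0 [(0,[])], .leaf 0 [(0,[(10,2487936)])], .leaf 0 [(0,[])], .leaf 0 [(0,[])], .leaf 0 [(0,[])], .leaf 0 [(0,[])], .leaf 0 [(0,[])], .leaf 0 [(0,[])], .leaf 0 [(0,[(10,1833216)])], .leaf 0 [(0,[(40,1047552),(11,1047552)])], .leaf 0 [(0,[])], .leaf 0 [(0,[(11,1047552)])], .leaf 0 [(0,[(16,65472),(27,32736),(1,32736),(41,16368)])], .leaf 0 [(0,[])], .leaf 0 [(0,[(23,32736),(31,32736)])], .leaf 1 [(0,[(10,556512)])], .leaf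 1 [(0,[(11,261888),(4,65472)]),(0,[(4,87296),(2,87296)]),(0,[(30,229152),(10,294624),(3,1984)]),(0,[(38,261888),(10,949344),(4,65472)]),(0,[(27,32736),(6,32736),(4,76384),(2,109120)])], .leaf 1 [(0,[])], .leaf 0 [(0,[(10,36828)])], .leaf 0 [(0,[(23,32736)])], .leaf 0 [(0,[])], .split 2 3 (.leaf 2 [(96,[(16,39872448),(22,14510232),(27,10892904),(30,9043320),(41,6391704),(12,38988576),(4,523776),(1,8118528),(43,9968112)]),(0,[(22,261888),(40,261888),(12,229152),(4,24800)]),(0,[(12,650628),(4,4092),(1,194370)]),(0,[(0,1)]),(0,[(22,261888),(39,261888),(40,261888),(6,1407648)])]) (.leaf 4 [(2751,[(16,1782933504),(22,274982400),(27,979199232),(30,979199232),(41,16498944),(12,675081792),(4,12374208),(1,191800224),(0,2037),(43,979199232)]),(96,[(22,7332864),(23,2258784),(27,25239456),(30,27498240),(39,3666432),(40,5237760),(12,3666432),(0,36),(43,27498240)]),(60,[(22,8020320),(25,851136),(27,18594048),(30,18594048),(40,7692960),(12,9166080),(4,868000),(0,45),(43,18594048)]),(0,[(27,261888),(30,261888),(43,261888)]),(6,[(22,1833216),(27,10475520),(30,10475520),(40,523776),(12,1833216),(6,4026528),(0,40),(43,10475520)])]),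 .leaf 1 [(0,[(16,32736),(27,16368),(1,49104),(0,16368),(41,8184)])], .leaf 0 [(0,[(16,32736),(27,16368),(5,28644),(3,2356),(0,16368),(41,8184)])], .leaf 0 [(0,[(16,65472),(1,65472),(41,16368)])], .leaf 2 [(0,[(5,1473120)])], .leaf 4 [(0,[(19,261888),(40,261888),(11,261888)]),(0,[(19,261888),(40,261888),(2,130944)]),(0,[(10,130944),(5,261888)]),(0,[(19,261888),(39,261888),(5,1964160)]),(0,[(19,261888),(40,261888),(2,130944)])], .leaf 0 [(0,[])], .leaf 0 [(0,[(16,65472),(27,32736),(5,61380),(1,32736),(41,16368)])], .leaf 1 [(0,[(5,45012)])]]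
noncomputable def t0 : TT := a0
theorem c0 : chkT (([0,0,0,0,0,0,0,1,0,-2] : Fm) :: ([0,0,0,0,8,-1,0,0,0,0] : Fm) :: ([0,0,0,0,-2,-2,0,0,1,2] : Fm) :: fsm (-1) ([0,0,0,0,33,-31,0,0,0,0] : Fm) :: ([0,3,3,0,-4,-4,0,0,0,0] : Fm) :: fsm (-1) ([0,0,0,0,-1,0,0,0,1,0] : Fm) :: ([-1,0,0,4,0,0,0,0,0,0] : Fm) :: ([-1,4,4,0,0,0,0,0,0,0] : Fm) :: ([0,0,0,0,-1,1,0,0,0,0] : Fm) :: ([0,0,0,0,0,0,0,0,-1,1] : Fm) :: fsm (-1) ([0,0,0,0,-2,0,0,0,1,0] : Fm) :: ([0,0,0,0,-1,-1,0,0,-1,1] : Fm) :: K2O12.C0) t0 = true := by decide +kernel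
end K2O12M010000101000

namespace K2O12M010000101001
noncomputable def a0 : TT := .leaf ⟨true,0,31,33,64,2,65471,[[],[0,0,0,0,65472,0,0,0,-16368],[2046,2046,0,0,0,0,0,-2046,5115],[2046,0,-2046,0,0,0,0,-2046,21483,2046],[0,0,0,0,0,0,0,0,3069],[],[],[],[0,0,0,0,2112,0,0,0,-528],[62,62,0,0,0,0,0,-62,155],[0,0,0,0,2112]]⟩ [.leaf 0 [(0,[])], .leaf 0 [(0,[(6,528)])], .leaf 0 [(0,[(28,62)])], .leaf 0 [(0,[(27,62)])], .leaf 0 [(0,[])], .leaf 0 [(0,[])], .leaf 0 [(0,[(4,2112)])], .leaf 0 [(0,[]),(0,[]),(0,[]),(0,[]),(0,[]),(0,[])], .leaf 0 [(0,[(28,261888),(30,261888)])], .leaf 0 [(0,[])], .leaf 0 [(0,[(11,15058560)])], .leaf 0 [(0,[(28,1833216)])], .leaf 0 [(0,[])], .leaf 0 [(0,[])], .leaf 0 [(0,[(28,1833216)])], .leaf 0 [(0,[])], .leaf 0 [(0,[])], .leaf 0 [(0,[(6,14665728)])], .leaf 0 [(0,[(27,523776),(41,8380416),(12,8118528),(5,65472)])], .leaf 0 [(0,[(27,523776),(32,261888)])], .leaf 0 [(0,[(12,8118528),(5,65472)])],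 .leaf 0 [(0,[(17,523776),(28,785664),(30,261888),(2,261888),(42,130944)])], .leaf 0 [(0,[(28,523776),(30,261888)])], .leaf 0 [(0,[(24,261888)])], .leaf 1 [(0,[(28,2356992),(30,261888),(6,11654016)])], .leaf 1 [(0,[(27,196416),(12,1898688),(5,572880)]),(0,[(28,65472),(5,763840),(3,567424)]),(0,[(39,1636800),(40,458304),(11,621984),(8,458304)]),(0,[(28,1898688),(39,1898688),(11,11752224),(5,572880)]),(0,[(27,458304),(12,1636800),(6,1538592),(5,851136),(4,20832)])], .leaf 1 [(0,[(30,261888),(11,523776)])], .leaf 0 [(0,[(32,8184),(11,270072)])], .leaf 2 [(0,[(27,523776),(32,261888)])], .leaf 0 [(0,[(28,2356992),(30,261888)])], .leaf 0 [(168,[(22,293314560),(27,88256256),(41,293314560),(12,566725632),(5,9166080),(4,8380416),(0,949344)]),(0,[(22,1898688),(27,261888),(41,2291520),(12,3928320),(4,71424)]),(696,[(22,182535936),(27,1083933972),(34,133206876),(12,1331786412),(5,368906076),(4,33157476),(0,2496120)]),(1854,[(16,1296171008),(22,33521664),(30,290521088),(12,474628352),(4,469565184),(0,55138336),(43,324042752)]),(0,[(22,1636800),(40,2553408),(12,1636800),(6,15811488),(2,916608)])],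 .leaf 1 [(0,[(17,523776),(28,523776),(2,523776),(42,130944)])], .leaf 0 [(0,[(17,523776),(32,253704),(34,16368),(11,294624),(4,33728),(42,130944)])], .leaf 0 [(0,[(17,523776),(28,523776),(30,253704),(2,523776),(42,130944)])], .leaf 2 [(0,[(28,523776),(30,261888),(6,14403840)])], .leaf 4 [(0,[(20,1833216),(41,2356992),(12,2226048),(5,32736)]),(0,[(20,2356992),(30,130944),(41,1833216),(3,916608)]),(0,[(29,1440384),(34,130944),(40,785664)]),(0,[(20,1702272),(22,130944),(40,2226048),(41,130944),(11,14665728)]),(342,[(16,33521664),(20,1249205760),(33,8380416),(41,162894336),(5,12177792),(4,392832),(3,54800064),(43,8380416)])], .leaf 0 [(0,[(28,523776),(30,261888)])], .leaf 0 [(0,[(17,523776),(28,245520),(32,8184),(11,425568),(2,261888),(42,130944)])], .leaf 1 [(0,[(27,8184),(41,8184),(11,310992),(7,8184),(2,8184)])]]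
noncomputable def a1 : TT := .leaf ⟨true,0,31,33,64,3,16367,[[],[-1023,-1023,0,0,16368,0,0,1023,-12276],[0,0,0,0,0,0,0,0,2046],[-1023,-1023,0,0,0,0,0,1023,1023],[0,0,0,0,0,0,0,0,11253],[],[],[],[-33,-33,0,0,528,0,0,33,-396],[0,0,0,0,0,0,0,0,62],[0,0,0,0,528]]⟩ [.leaf 0 [(0,[])], .leaf 0 [(0,[(29,33),(13,99),(8,330)])], .leaf 0 [(0,[])], .leaf 0 [(0,[(30,33)])], .leaf 0 [(0,[])], .leaf 0 [(0,[])], .leaf 0 [(0,[(6,528)])], .leaf 0 [(0,[]),(0,[]),(0,[]),(0,[]),(0,[]),(0,[])], .leaf 0 [(0,[(29,130944)])], .leaf 0 [(0,[])], .leaf 0 [(0,[(29,916608),(13,1309440),(8,12046848)])], .leaf 0 [(0,[])], .leaf 0 [(0,[])], .leaf 0 [(0,[])], .leaf 0 [(0,[])], .leaf 0 [(0,[])], .leaf 0 [(0,[])], .leaf 0 [(0,[(29,916608),(13,2749824),(8,9166080)])], .leaf 0 [(84,[(29,63638784),(32,25141248),(43,46092288),(6,1047552),(1,4190208),(0,1014816)])], .leaf 0 [(0,[])], .leaf 0 [(0,[(30,261888),(5,1047552)])], .leaf 0 [(0,[(19,229152),(24,49104),(29,196416),(13,671088),(8,703824),(7,16368),(44,57288)])],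 .leaf 0 [(0,[])], .leaf 0 [(14,[(29,2929872),(32,474672),(43,1047552),(13,27751944),(6,777232),(2,8184)])], .leaf 1 [(0,[(29,1178496),(13,3077184),(8,8511360)])], .leaf 1 [(0,[(30,98208),(7,174592),(5,174592)]),(0,[(30,229152),(7,174592),(5,174592)]),(0,[(42,32736),(13,98208),(12,458304),(10,32736),(8,818400)]),(0,[(29,949344),(41,523776),(8,10540992),(7,130944)]),(0,[(9,32736),(7,163680),(5,196416),(3,32736)])], .leaf 1 [(0,[(29,261888),(8,2029632)])], .leaf 0 [(0,[(30,8184),(8,20460)])], .leaf 0 [(4,[(29,976624),(32,485584),(43,349184),(8,9884908),(2,2728)])], .leaf 0 [(0,[(29,261888)])], .split 2 3 (.leaf 2 [(172,[(25,102921984),(33,147246528),(44,56633280),(8,44979264),(7,1800480),(1,338613)]),(0,[(23,196416),(7,23932),(2,53196)]),(0,[(25,65472),(30,261888),(33,523776),(8,327360),(7,7936)]),(0,[(0,1)]),(0,[(25,523776),(30,720192),(42,523776),(43,523776),(9,9395232)])]) (.leaf 4 [(1494,[(25,244341504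),(30,167215488),(33,628531200),(8,81447168),(7,5892480),(2,97946112),(1,3163116),(0,640),(46,335216640)]),(462,[(25,39774240),(30,74932704),(33,70807968),(44,45601248),(9,155103168),(5,85375488),(4,42687744),(2,36860736),(0,100),(46,52377600)]),(40,[(25,21689088),(33,5862720),(44,34831104),(7,1136832),(4,21689088),(2,494016)]),(0,[(30,392832),(33,523776),(46,523776)]),(36,[(25,7856640),(30,86946816),(33,95327232),(9,54341760),(5,47287152),(4,3928320),(2,2095104),(0,180),(46,94279680)])]), .leaf 0 [(4,[(29,310992),(32,474672),(43,1374912),(8,8110344),(3,654720),(2,8184)])], .leaf 0 [(4,[(30,24552),(34,190960),(6,25792),(2,2728)])], .leaf 0 [(0,[(19,1145760),(36,253704),(14,253704),(8,871596),(7,84568),(4,46376),(44,286440)])], .leaf 2 [(0,[(29,1178496),(13,1243968),(8,12177792)])], .leaf 4 [(0,[(22,556512),(43,491040),(14,491040)]),(162,[(22,60796704),(32,285696),(35,3142656),(43,91955424),(6,142848),(5,42835056),(1,571392),(0,138384)]),(0,[(31,360096),(42,147312),(43,114576),(14,114576),(8,1014816)]),(0,[(29,491040),(42,1047552),(13,491040),(8,11588544)]),(9,[(22,863040),(32,113088),(35,1243968),(43,2487936),(6,56544),(1,226176),(0,54777)])],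 .leaf 0 [(0,[(29,261888),(13,523776),(8,982080)])], .leaf 0 [(0,[(19,130944),(30,65472),(13,126852),(4,65472),(44,32736)])], .leaf 1 [(0,[(30,8184),(8,36828)])]]
noncomputable def a2 : TT := .leaf ⟨true,0,31,33,64,3,16367,[[],[-1023,-1023,0,0,16368,0,0,1023,-12276],[0,0,0,0,0,0,0,0,2046],[-1023,-1023,0,0,0,0,0,1023,1023],[0,0,0,0,0,0,0,0,11253],[],[],[],[-33,-33,0,0,528,0,0,33,-396],[0,0,0,0,0,0,0,0,62],[0,0,0,0,528]]⟩ [.leaf 0 [(0,[])], .leaf 0 [(0,[(30,33),(9,429)])], .leaf 0 [(0,[])], .leaf 0 [(0,[(31,33)])], .leaf 0 [(0,[])], .leaf 0 [(0,[])], .leaf 0 [(0,[(7,528)])], .leaf 0 [(0,[]),(0,[]),(0,[]),(0,[]),(0,[]),(0,[])], .leaf 0 [(0,[(30,130944)])], .leaf 0 [(0,[])], .leaf 0 [(0,[(30,916608),(14,1309440),(9,12046848)])], .leaf 0 [(0,[])], .leaf 0 [(0,[])], .leaf 0 [(0,[])], .leaf 0 [(0,[])], .leaf 0 [(0,[])], .leaf 0 [(0,[])], .leaf 0 [(0,[(30,916608),(9,11915904)])], .leaf 0 [(0,[(23,261888),(44,1833216),(6,916608)])],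 .leaf 0 [(0,[])], .leaf 0 [(0,[(31,261888),(6,1047552)])], .leaf 0 [(0,[(30,196416),(9,1373889),(5,32736),(1,1023)])], .leaf 0 [(0,[])], .leaf 0 [(0,[(43,196416),(44,65472),(9,1501764),(1,4092)])], .leaf 1 [(0,[(30,1178496),(14,3077184),(9,8511360)])], .leaf 0 [(0,[(31,98208),(8,174592),(6,174592)]),(0,[(31,229152),(8,174592),(6,174592)]),(0,[(34,425568),(36,32736),(9,982080)]),(0,[(30,360096),(36,523776),(9,10392657),(5,556512),(1,17391),(46,523776)]),(0,[(10,32736),(8,163680),(6,196416),(4,32736)])], .leaf 1 [(0,[(43,261888),(14,1501764),(7,49352),(1,4092)])], .leaf 0 [(0,[(31,8184),(14,20460)])], .leaf 0 [(0,[(30,196416),(33,65472),(44,65472),(14,2024517),(7,62186),(1,1023)])], .leaf 0 [(0,[(30,261888)])], .split 0 3 (.leaf 0 [(448,[(32,24355584),(9,16237056),(8,523776),(7,36533376),(3,24355584),(0,77)]),(0,[(24,196416),(8,23932),(3,53196)]),(144,[(26,9493440),(31,28712448),(9,16748928),(8,502944),(7,35079600),(1,1157664)]),(0,[(0,1)]),(0,[(26,523776),(31,720192),(43,523776),(44,523776),(10,9395232)])])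 (.split 4 0 (.leaf 4 [(0,[(0,1)]),(20149,[(27,695247168),(35,1121338944),(46,624668352),(7,1614277632),(6,659957760),(4,2242677888),(3,9198816),(1,4727)]),(286,[(25,32343168),(27,110582208),(45,78239040),(46,166953600),(9,9231552),(6,148163136),(0,40)]),(0,[(32,392832),(35,523776),(48,523776)]),(372,[(32,25010304),(35,56567808),(4,113135616),(1,1600),(0,785)])]) (.leaf 2 [(232,[(25,53588832),(27,42605904),(35,62501208),(10,13397208),(4,9493440),(2,2414280)]),(18,[(25,3731904),(27,9737472),(46,5862720),(9,779712),(4,35712)]),(144,[(27,9493440),(32,28712448),(10,16748928),(9,502944),(8,35079600),(2,1157664)]),(1471,[(22,416925696),(27,87994368),(32,349751424),(35,830184960),(10,23046144),(3,130944),(2,18855936),(0,293),(48,666766848)]),(0,[(27,523776),(32,720192),(45,523776),(17,523776),(11,9395232)])])), .leaf 0 [(0,[(43,65472),(44,261888),(14,1632708),(7,49352),(4,130944),(1,4092)])], .leaf 0 [(4,[(31,24552),(35,190960),(7,25792),(3,2728)])],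 .leaf 0 [(0,[(20,1145760),(37,253704),(15,253704),(9,871596),(8,84568),(5,46376),(45,286440)])], .leaf 2 [(0,[(30,1178496),(9,13421760)])], .leaf 4 [(0,[(23,556512),(44,491040),(15,491040)]),(0,[(23,425568),(44,621984),(15,621984)]),(0,[(32,360096),(44,261888),(15,261888),(9,1014816)]),(0,[(30,491040),(43,1047552),(9,12079584)]),(0,[(23,425568),(44,621984),(15,621984)])], .leaf 0 [(0,[(30,261888),(9,1505856)])], .leaf 0 [(0,[(31,65472),(14,125829),(5,32736),(1,1023)])], .leaf 1 [(0,[(31,8184),(14,36828)])]]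
noncomputable def a3 : TT := .leaf ⟨true,0,31,33,64,3,16367,[[],[-1023,-1023,0,0,16368,0,0,1023,-12276],[0,0,0,0,0,0,0,0,2046],[-1023,-1023,0,0,0,0,0,1023,1023],[0,0,0,0,0,0,0,0,11253],[],[],[],[-33,-33,0,0,528,0,0,33,-396],[0,0,0,0,0,0,0,0,62],[0,0,0,0,528]]⟩ [.leaf 0 [(0,[])], .leaf 0 [(0,[(31,33),(15,99),(10,330)])], .leaf 0 [(0,[])], .leaf 0 [(0,[(32,33)])], .leaf 0 [(0,[])], .leaf 0 [(0,[])], .leaf 0 [(0,[(8,528)])], .leaf 0 [(0,[]),(0,[]),(0,[]),(0,[]),(0,[]),(0,[])], .leaf 0 [(0,[(31,130944)])], .leaf 0 [(0,[])], .leaf 0 [(0,[(31,916608),(10,13356288)])], .leaf 0 [(0,[])], .leaf 0 [(0,[])], .leaf 0 [(0,[])], .leaf 0 [(0,[])], .leaf 0 [(0,[])], .leaf 0 [(0,[])], .leaf 0 [(0,[(31,916608),(15,2749824),(10,9166080)])], .leaf 0 [(300,[(24,117260352),(34,359179392),(37,60692544),(45,442132416),(9,106915776),(8,1113024),(3,4452096)])], .leaf 0 [(0,[])], .leaf 0 [(0,[(32,261888),(7,1047552)])], .leaf 0 [(0,[(31,196416),(10,1373889),(6,32736),(2,1023)])],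 .leaf 0 [(0,[])], .leaf 0 [(0,[(31,196416),(45,65472),(10,1897665),(2,1023)])], .leaf 0 [(94,[(21,34831104),(31,140306496),(34,21605760),(10,1079664993),(6,949344),(2,164703),(1,4321152),(47,41050944)])], .leaf 0 [(0,[(32,98208),(9,174592),(7,174592)]),(0,[(32,229152),(9,174592),(7,174592)]),(0,[(37,32736),(43,425568),(15,982080),(8,40672)]),(0,[(31,360096),(37,523776),(10,10392657),(6,556512),(2,17391),(47,523776)]),(0,[(11,32736),(9,163680),(7,196416),(5,32736)])], .leaf 1 [(0,[(31,261888),(15,2029632),(8,61504)])], .leaf 0 [(0,[(32,8184),(15,20460)])], .leaf 0 [(0,[(34,65472),(44,196416),(45,65472),(15,1628616),(8,53072),(2,4092)])], .leaf 0 [(0,[(31,261888)])], .split 4 0 (.split 2 3 (.leaf 2 [(130,[(26,28611264),(28,65733888),(36,111498816),(47,42884160),(11,36206016),(10,982080)]),(1,[(26,261888),(47,261888),(10,92928),(1,1)]),(0,[(28,65472),(33,261888),(36,523776),(11,327360),(10,7936)]),(0,[(0,1)]),(0,[(28,523776),(33,720192),(46,523776),(18,523776),(17,5794272),(12,3600960)])])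 (.leaf 4 [(0,[(1,1)]),(43186,[(36,12701568),(47,717835008),(17,20672980416),(8,2461616256),(7,634620096),(5,4962646656),(4,36467904),(3,551405184)]),(788,[(28,193971712),(31,13727296),(36,116321920),(47,508237312),(10,14054656),(7,276335488),(5,13007104),(49,109818368)]),(0,[(33,392832),(36,523776),(49,523776)]),(76,[(33,151109376),(36,192225792),(12,120100200),(8,11784960),(5,7332864),(4,368280),(0,360),(49,188559360)])])) (.leaf 2 [(130,[(25,28611264),(27,65733888),(35,111498816),(46,42884160),(10,36206016),(9,982080)]),(18,[(25,3731904),(27,9737472),(46,5862720),(9,779712),(4,35712)]),(0,[(27,65472),(32,261888),(35,523776),(10,327360),(9,7936)]),(7,[(27,2095104),(32,2487936),(35,8380416),(46,1571328),(1,147312),(0,5),(48,4190208)]),(0,[(27,523776),(32,720192),(45,523776),(17,523776),(16,5794272),(11,3600960)])]), .leaf 0 [(0,[(44,65472),(45,261888),(15,1632708),(8,49352),(5,130944),(2,4092)])], .leaf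 0 [(1,[(21,184140),(36,120714),(10,16368),(8,11222),(1,2046),(46,46035)])], .leaf 0 [(0,[(21,1014816),(38,188232),(44,65472),(16,188232),(10,871596),(9,84568),(6,46376),(46,253704)])], .leaf 1 [(94,[(21,34831104),(31,140306496),(34,21605760),(10,1253820513),(6,949344),(2,164703),(1,4321152),(47,41050944)])], .leaf 4 [(0,[(24,556512),(45,491040),(16,491040)]),(0,[(24,425568),(45,621984),(16,621984)]),(0,[(33,360096),(44,147312),(45,114576),(16,114576),(10,1014816)]),(0,[(31,491040),(44,1047552),(10,12079584)]),(0,[(24,425568),(45,621984),(16,621984)])], .leaf 0 [(0,[(31,261888),(10,1505856)])], .leaf 0 [(0,[(32,65472),(15,125829),(6,32736),(2,1023)])], .leaf 1 [(0,[(32,8184),(10,36828)])]]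
noncomputable def a4 : TT := .leaf ⟨true,0,31,33,64,2,16367,[[],[-1023,-1023,0,0,16368,0,0,1023,-13299],[0,0,0,0,0,0,0,0,2046],[-1023,-1023,0,0,0,0,0,1023,1023],[0,0,0,0,0,0,0,0,1023],[],[],[],[-33,-33,0,0,528,0,0,33,-429],[0,0,0,0,0,0,0,0,62],[0,0,0,0,528]]⟩ [.leaf 0 [(0,[])], .leaf 0 [(0,[(34,33),(13,462)])], .leaf 0 [(0,[])], .leaf 0 [(0,[(35,33)])], .leaf 0 [(0,[])], .leaf 0 [(0,[])], .leaf 0 [(0,[(11,528)])], .leaf 0 [(0,[]),(0,[]),(0,[]),(0,[]),(0,[]),(0,[])], .leaf 0 [(0,[(34,130944)])], .leaf 0 [(0,[])], .leaf 0 [(0,[(34,916608),(13,12963456)])], .leaf 0 [(0,[])], .leaf 0 [(0,[])], .leaf 0 [(0,[])], .leaf 0 [(0,[])], .leaf 0 [(0,[])], .leaf 0 [(0,[])], .leaf 0 [(0,[(34,916608),(13,12832512)])], .leaf 0 [(0,[(27,261888),(48,1833216),(10,916608)])], .leaf 0 [(0,[])], .leaf 0 [(0,[(35,261888),(10,1047552)])], .leaf 0 [(0,[(24,229152),(29,49104),(34,196416),(18,540144),(13,965712),(12,16368),(49,57288)])],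 .leaf 0 [(0,[])], .leaf 0 [(0,[(34,196416),(48,65472),(13,2028609),(11,961),(5,1023)])], .leaf 0 [(1948,[(24,1158592512),(34,2169283776),(13,24402069120),(9,517490688),(5,16171584),(3,45699456),(1,555006144),(50,731191296)])], .leaf 0 [(0,[(35,98208),(12,174592),(10,174592)]),(0,[(35,229152),(12,174592),(10,174592)]),(0,[(47,32736),(19,458304),(18,1047552),(15,32736),(11,18848)]),(0,[(24,166656),(34,443424),(40,440448),(19,83328),(18,112995),(14,83328),(13,11329818),(9,473184),(5,14787),(50,482112)]),(0,[(35,229152),(19,523776),(12,130944)])], .leaf 1 [(0,[(47,261888),(18,1632708),(11,57288),(5,4092)])], .leaf 0 [(0,[(35,8184),(18,16368)])], .leaf 0 [(4,[(37,325952),(47,983488),(48,325952),(18,8815488),(11,306240),(5,20460),(3,44)])], .leaf 2 [(18,[(24,15713280),(34,3731904),(12,1178496),(5,36828),(3,486948),(1,10933824),(50,6023424)])], .leaf 2 [(130,[(27,28611264),(29,65733888),(37,111498816),(48,42884160),(12,36206016),(11,982080)]),(4,[(27,982080),(48,65472),(11,259776),(6,261888)]),(0,[(34,261888),(12,152768),(11,2816),(10,261888),(2,10736)]),(0,[(0,65472),(50,523776)]),(0,[(29,523776),(34,720192),(46,523776),(47,523776),(13,12243264)])],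 .leaf 0 [(96,[(47,23111616),(13,136255416),(11,1035896),(8,3273600),(7,130944),(3,531960),(1,9427968)])], .leaf 0 [(66,[(24,6154368),(35,482856),(39,3841024),(11,289664),(7,10912),(49,1538592)])], .leaf 0 [(2,[(24,1440384),(34,564696),(13,4321152),(12,174592),(9,218240),(49,360096)])], .leaf 1 [(1948,[(24,1627895808),(34,2169283776),(13,27980506752),(9,106850304),(5,3339072),(3,38366592),(1,1141635264),(50,613865472)])], .leaf 4 [(0,[(27,556512),(48,491040),(19,491040)]),(0,[(27,425568),(48,621984),(19,621984)]),(0,[(36,360096),(48,261888),(19,261888),(13,1178496)]),(0,[(34,491040),(47,752928),(48,294624),(19,294624),(13,13159872)]),(0,[(27,425568),(48,621984),(19,621984)])], .leaf 0 [(0,[(34,261888),(13,1636800)])], .leaf 0 [(0,[(35,65472),(18,129921),(9,32736),(5,1023)])], .leaf 1 [(0,[(35,8184),(13,32736)])]]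
noncomputable def a5 : TT := .leaf ⟨true,1,8,0,9,0,63,[[],[-8,-8,0,0,64,0,0,8,-56],[],[],[],[],[],[],[-1,-1,0,0,8,0,0,1,-7],[],[0,0,0,0,8]]⟩ [.leaf 0 [(0,[])], .leaf 0 [(0,[(34,1),(13,8)])], .leaf 0 [(0,[])], .leaf 0 [(0,[(35,1)])], .leaf 0 [(1842,[(24,208),(29,40),(19,64),(2,464),(0,8),(49,52)])], .leaf 0 [(0,[])], .leaf 0 [(0,[])], .leaf 0 [(0,[]),(0,[]),(0,[]),(0,[]),(0,[]),(0,[])], .leaf 0 [(0,[])], .leaf 0 [(0,[])], .leaf 0 [(0,[(34,7168),(13,57344)])], .leaf 0 [(0,[])], .leaf 0 [(0,[])], .leaf 0 [(0,[])], .leaf 0 [(0,[])], .leaf 0 [(0,[])], .leaf 0 [(0,[])], .leaf 0 [(0,[(34,7168),(13,57344)])], .leaf 0 [(0,[(27,1024),(48,7168),(10,3584)])], .leaf 0 [(0,[(34,1024)])], .leaf 0 [(0,[(35,1024),(10,4096)])], .leaf 0 [(294,[(34,268544),(19,83968),(13,1775616),(9,43008),(5,1344),(3,2624),(0,10496)])], .leaf 0 [(0,[(35,1024)])], .leaf 0 [(32,[(47,25344),(48,8448),(13,210672),(11,496),(5,528)])], .leaf 0 [(105972,[(24,258621440),(34,1052661504),(19,237080576),(13,5692026880),(9,6160384),(5,721600),(4,16930816),(3,6879680),(0,19053312),(50,152377344)])],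 .leaf 0 [(2,[(12,2048),(10,2048)]),(2,[(35,3072),(12,2048),(10,2048)]),(10,[(38,9152),(40,10560),(47,704),(15,528),(14,176),(13,46464),(11,64)]),(1560,[(24,5619712),(34,12755712),(19,3932160),(13,90572800),(9,245760),(5,7680),(3,35072),(1,3584000),(0,91904),(50,1792000)]),(2,[(12,2048),(10,2048)])], .leaf 1 [(10,[(47,11264),(13,70224),(11,336),(5,176)])], .leaf 0 [(0,[(35,32),(18,64)])], .leaf 0 [(65,[(47,69696),(18,417615),(11,15230),(5,1089),(3,528)])], .leaf 2 [(2352,[(24,3735552),(34,3837696),(37,4061184),(12,555008),(5,17344),(3,294848),(2,339712),(1,7770112),(0,507648),(50,3885056)])], .leaf 4 [(0,[(23,8192),(34,1536),(37,2048),(50,2048)]),(0,[(29,128),(37,128),(18,3002),(13,332),(9,64),(6,384),(5,2),(3,8),(1,384)]),(52,[(27,28416),(29,80896),(37,1280),(48,175360),(11,4864),(8,109312),(6,2560)]),(0,[(34,1536),(37,2048),(50,2048)]),(6,[(29,14336),(34,59904),(47,10240),(19,32768),(18,168896),(13,59520),(3,576),(0,2304)])],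 .leaf 0 [(120,[(34,137984),(18,724900),(11,18632),(8,22528),(5,220),(3,1408),(0,5632)])], .leaf 0 [(230,[(24,98208),(35,3168),(39,56496),(11,4304),(4,528),(49,24552)])], .leaf 0 [(146,[(24,150528),(34,184832),(47,22304),(19,122624),(13,296928),(9,75264),(3,2656),(0,15328),(49,37632)])], .leaf 1 [(9246,[(24,38019072),(34,80291072),(19,13813760),(13,511550464),(12,2046976),(5,63968),(3,1213152),(1,18866176),(0,1726720),(50,9433088)])], .leaf 4 [(0,[(27,1792),(48,2304),(19,2304)]),(0,[(27,1792),(48,2304),(19,2304)]),(0,[(36,512),(48,2816),(19,2816),(13,3584)]),(1208,[(24,262144),(34,7999744),(41,65536),(48,4886528),(19,5476352),(13,68280320),(3,14336),(0,65536),(49,65536)]),(1080,[(27,256768),(37,1605632),(48,4056320),(19,3368192),(12,229376),(2,25088),(0,114688)])], .leaf 0 [(58,[(24,16384),(29,512),(34,58880),(41,3584),(19,7680),(13,463616),(0,512),(49,4096)])], .leaf 0 [(2438,[(35,60448),(42,186880),(12,112128),(9,1700864),(5,46144),(4,37376)])],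 .leaf 1 [(60,[(24,1024),(35,1632),(46,384),(9,128),(8,64),(0,64),(49,256)])]]
noncomputable def a6 : TT := .leaf ⟨true,0,31,33,64,2,16367,[[],[-1023,-1023,0,0,16368,0,0,1023,-13299],[0,0,0,0,0,0,0,0,2046],[-1023,-1023,0,0,0,0,0,1023,1023],[0,0,0,0,0,0,0,0,1023],[],[],[],[-33,-33,0,0,528,0,0,33,-429],[0,0,0,0,0,0,0,0,62],[0,0,0,0,528]]⟩ [.leaf 0 [(0,[])], .leaf 0 [(0,[(33,33),(12,462)])], .leaf 0 [(0,[])], .leaf 0 [(0,[(34,33)])], .leaf 0 [(0,[])], .leaf 0 [(0,[])], .leaf 0 [(0,[(10,528)])], .leaf 0 [(0,[]),(0,[]),(0,[]),(0,[]),(0,[]),(0,[])], .leaf 0 [(0,[(33,130944)])], .leaf 0 [(0,[])], .leaf 0 [(0,[(33,916608),(17,1702272),(12,11261184)])], .leaf 0 [(0,[])], .leaf 0 [(0,[])], .leaf 0 [(0,[])], .leaf 0 [(0,[])], .leaf 0 [(0,[])], .leaf 0 [(0,[])], .leaf 0 [(0,[(33,916608),(12,12832512)])], .leaf 0 [(0,[(26,261888),(47,1833216),(9,916608)])], .leaf 0 [(0,[])], .leaf 0 [(0,[(34,261888),(9,1047552)])], .leaf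 0 [(0,[(33,196416),(12,1504833),(8,32736),(4,1023)])], .leaf 0 [(0,[])], .leaf 0 [(0,[(46,196416),(47,65472),(12,1632708),(10,3844),(4,4092)])], .leaf 0 [(4,[(23,1833216),(33,7485632),(12,60870205),(8,1123936),(4,5115),(3,240064),(2,30008),(49,2160576)])], .leaf 0 [(0,[(34,98208),(11,174592),(9,174592)]),(0,[(34,229152),(11,174592),(9,174592)]),(0,[(37,441936),(39,16368),(46,16368),(14,12276),(13,4092),(12,1080288),(10,1488)]),(4,[(23,1833216),(33,2717088),(39,1702272),(18,916608),(12,57215367),(8,2324256),(4,72633),(49,2160576)]),(0,[(34,229152),(18,523776),(11,130944)])], .leaf 1 [(990,[(33,129634560),(46,129896448),(17,1879308288),(10,62787648),(4,2029632)])], .leaf 0 [(0,[(34,8184),(17,16368)])], .leaf 0 [(0,[(46,261888),(17,1634754),(10,59396),(4,4092),(2,2046)])], .leaf 0 [(0,[(33,261888)])], .split 4 0 (.split 4 4 (.leaf 4 [(0,[(1,1)]),(115479,[(30,3969698304),(35,651315456),(38,4767409152),(20,3969698304),(10,1795504128),(7,9534818304),(6,56109504),(0,7779)]),(28966,[(31,359965056),(49,20028670464),(12,840398592),(9,14967815808),(7,1053051648),(4,50200656),(51,2879720448)]),(0,[(35,392832),(38,523776),(51,523776)]),(0,[(0,1)])])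 (.leaf 2 [(0,[(36,65472),(13,43648),(12,1408),(11,98208),(7,65472),(2,216832)]),(20181,[(24,2088818688),(30,5547311616),(33,157132800),(48,5390178816),(12,918179328),(1,3097),(51,1779267072)]),(0,[(35,261888),(13,152768),(12,2816),(11,261888),(2,171776)]),(1119,[(25,123611136),(30,43997184),(35,326050560),(38,599723520),(13,14665728),(6,458304),(3,9166080),(0,25),(51,555726336)]),(0,[(30,523776),(35,720192),(48,523776),(20,523776),(19,2946240),(14,9297024)])])) (.leaf 2 [(0,[(35,65472),(37,196416),(12,109120),(11,3520),(6,65472),(1,149248)]),(0,[(27,196416),(11,23932),(6,53196)]),(0,[(34,261888),(12,152768),(11,2816),(10,261888),(2,10736)]),(883,[(34,286898304),(37,536870400),(12,49234944),(11,654720),(5,904332),(2,5736984),(1,147704832),(0,141),(50,463017984)]),(0,[(29,523776),(34,720192),(47,523776),(19,523776),(18,2946240),(13,9297024)])]), .leaf 0 [(0,[(46,65472),(47,261888),(12,1763652),(10,3844),(7,130944),(4,4092)])],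 .leaf 0 [(914,[(38,52925928),(47,1415832),(10,6323008),(3,1113024),(2,1211232)])], .leaf 0 [(2,[(23,1440384),(33,564696),(12,4321152),(11,174592),(8,218240),(48,360096)])], .leaf 1 [(94,[(23,34831104),(33,140306496),(36,21605760),(12,1353337953),(8,949344),(4,164703),(3,4321152),(49,41050944)])], .leaf 4 [(0,[(26,556512),(47,491040),(18,491040)]),(0,[(26,425568),(47,621984),(18,621984)]),(0,[(35,360096),(47,261888),(18,261888),(12,1178496)]),(0,[(33,491040),(46,752928),(47,294624),(18,294624),(12,13159872)]),(0,[(26,425568),(47,621984),(18,621984)])], .leaf 0 [(0,[(33,261888),(12,1636800)])], .leaf 0 [(0,[(34,65472),(12,129921),(8,32736),(4,1023)])], .leaf 1 [(0,[(34,8184),(17,32736)])]]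
noncomputable def a7 : TT := .leaf ⟨true,0,31,33,64,2,16367,[[],[-1023,-1023,0,0,16368,0,0,1023,-13299],[0,0,0,0,0,0,0,0,2046],[-1023,-1023,0,0,0,0,0,1023,1023],[0,0,0,0,0,0,0,0,1023],[],[],[],[-33,-33,0,0,528,0,0,33,-429],[0,0,0,0,0,0,0,0,62],[0,0,0,0,528]]⟩ [.leaf 0 [(0,[])], .leaf 0 [(0,[(32,33),(11,462)])], .leaf 0 [(0,[])], .leaf 0 [(0,[(33,33)])], .leaf 0 [(0,[])], .leaf 0 [(0,[])], .leaf 0 [(0,[(9,528)])], .leaf 0 [(0,[]),(0,[]),(0,[]),(0,[]),(0,[]),(0,[])], .leaf 0 [(0,[(32,130944)])], .leaf 0 [(0,[])], .leaf 0 [(0,[(32,916608),(11,12963456)])], .leaf 0 [(0,[])], .leaf 0 [(0,[])], .leaf 0 [(0,[])], .leaf 0 [(0,[])], .leaf 0 [(0,[])], .leaf 0 [(0,[])], .leaf 0 [(0,[(32,916608),(11,12832512)])], .leaf 0 [(0,[(25,261888),(46,1833216),(8,916608)])], .leaf 0 [(0,[])], .leaf 0 [(0,[(33,261888),(8,1047552)])], .leaf 0 [(0,[(32,196416),(16,230175),(11,1274658),(7,32736),(3,1023)])], .leaf 0 [(0,[])], .leaf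 0 [(0,[(45,196416),(46,65472),(11,1632708),(9,3844),(3,4092)])], .leaf 0 [(4,[(22,1833216),(32,7485632),(17,1200320),(16,11880099),(11,47789786),(3,5115),(2,240064),(1,30008),(48,2160576)])], .leaf 0 [(0,[(33,98208),(10,174592),(8,174592)]),(0,[(33,229152),(10,174592),(8,174592)]),(0,[(45,32736),(17,458304),(13,32736),(11,1047552)]),(4,[(22,1833216),(32,2717088),(38,1702272),(17,916608),(11,57215367),(7,2324256),(3,72633),(48,2160576)]),(0,[(33,229152),(17,523776),(10,130944)])], .leaf 1 [(0,[(45,261888),(11,1632708),(9,7812),(3,4092)])], .leaf 0 [(0,[(33,8184),(16,16368)])], .leaf 0 [(0,[(45,261888),(11,1634754),(9,9858),(3,4092),(1,2046)])], .leaf 0 [(0,[(32,261888)])], .leaf 4 [(238,[(27,24355584),(33,40461696),(35,57877248),(46,24355584),(10,16237056),(9,523776),(4,18332160),(0,1047552)]),(0,[(27,523776),(32,130944),(45,458304),(17,511500),(8,6138),(0,18414)]),(0,[(27,65472),(9,23808),(4,65472),(0,14322)]),(0,[(32,392832),(35,523776),(48,523776)]),(0,[(27,523776),(32,785664),(45,401016),(46,122760),(17,646536),(11,11244816),(0,81840)])],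 .leaf 0 [(0,[(45,196416),(16,1628616),(9,57040),(3,4092),(0,4092)])], .leaf 0 [(23,[(37,916608),(46,327360),(9,189472),(3,5115),(2,65472)])], .leaf 0 [(0,[(22,1014816),(39,188232),(45,65472),(17,188232),(11,998448),(10,84568),(7,46376),(47,253704)])], .leaf 1 [(72,[(22,131991552),(32,81250752),(11,1043394528),(10,7627488),(3,238359),(1,1042437),(0,4110414),(48,5237760)])], .leaf 4 [(0,[(25,556512),(46,491040),(17,491040)]),(0,[(25,425568),(46,621984),(17,621984)]),(0,[(34,360096),(45,65472),(46,196416),(17,196416),(11,1178496)]),(0,[(32,491040),(45,752928),(46,294624),(17,294624),(11,13159872)]),(0,[(25,425568),(46,621984),(17,621984)])], .leaf 0 [(0,[(32,261888),(16,392832),(11,1243968)])], .leaf 0 [(0,[(33,65472),(11,129921),(7,32736),(3,1023)])], .leaf 1 [(0,[(33,8184),(16,32736)])]]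
noncomputable def a8 : TT := .leaf ⟨true,0,33,31,64,2,16367,[[],[-1023,-2046,-1023,0,16368,0,0,1023,-9207,1023],[0,-1023,-1023,0,0,0,0,0,6138,1023],[-1023,-1023,0,0,0,0,0,1023,1023],[0,0,0,0,0,0,0,0,20460],[],[],[],[-31,-62,-31,0,496,0,0,31,-279,31],[0,-33,-33,0,0,0,0,0,198,33],[0,0,0,0,496]]⟩ [.leaf 0 [(0,[])], .leaf 0 [(0,[(28,31),(31,31),(12,155),(7,186)])], .leaf 0 [(0,[(31,33)])], .leaf 0 [(961,[(17,26040),(21,651),(23,651),(29,22010),(33,55058),(7,448),(6,217),(5,7),(0,1302),(44,6510)])], .leaf 0 [(0,[])], .leaf 0 [(0,[])], .leaf 0 [(32,[(5,15376)])], .leaf 0 [(0,[]),(0,[]),(0,[]),(0,[]),(0,[]),(0,[])], .leaf 0 [(0,[(28,130944)])], .leaf 0 [(0,[])], .leaf 0 [(0,[(28,916608),(31,916608),(7,12701568)])], .leaf 0 [(0,[(31,916608)])], .leaf 0 [(0,[])], .leaf 0 [(0,[])], .leaf 0 [(0,[(31,916608)])], .leaf 0 [(0,[])], .leaf 0 [(0,[])], .leaf 0 [(0,[(28,916608),(31,916608),(12,4583040),(7,5499648)])], .leaf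 0 [(0,[(21,261888),(42,1833216),(13,1571328),(6,65472)])], .leaf 0 [(0,[])], .leaf 0 [(0,[(29,261888),(4,1047552)])], .leaf 0 [(0,[(18,1047552),(23,261888),(40,261888),(43,261888)])], .leaf 0 [(0,[])], .leaf 0 [(14,[(23,474672),(28,3404544),(42,572880),(12,29716104),(5,896272),(1,8184)])], .leaf 0 [(6934,[(23,454048320),(28,10148880192),(31,17784661312),(7,44585515392),(3,8588638784),(1,31775744),(0,373234048),(44,3632386560)])], .leaf 0 [(0,[(29,98208),(6,174592),(4,174592)]),(0,[(29,229152),(6,174592),(4,174592)]),(0,[(34,32736),(7,1538592),(5,14880)]),(166,[(18,57964544),(28,236550336),(31,330360800),(34,17644704),(13,47205312),(12,983520384),(3,92446464),(2,46223232),(0,10060864),(44,72979456)]),(0,[(29,229152),(13,523776),(6,130944)])], .leaf 1 [(0,[(28,261888),(7,2160576),(5,3968)])], .leaf 0 [(0,[(29,8184),(12,16368)])], .leaf 0 [(14,[(23,523776),(28,3453648),(31,932976),(42,523776),(7,31680264),(5,55304),(1,8184)])],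 .leaf 2 [(792,[(23,38235648),(28,625617696),(31,1308556128),(3,193273344),(2,13683648),(1,605616),(0,75423744),(44,415354368)])], .leaf 2 [(130,[(21,28611264),(23,65733888),(31,98633568),(42,42884160),(6,36206016),(5,982080)]),(2,[(23,2160576),(41,982080),(6,32736),(5,168640)]),(0,[(23,65472),(28,261888),(31,556512),(6,327360),(5,7936)]),(0,[(23,441192),(28,388926),(31,2267805),(42,375720),(6,285417),(5,9207),(0,83793),(44,523776)]),(0,[(23,523776),(28,720192),(31,949344),(40,523776),(41,523776),(12,4746720),(7,4648512)])], .leaf 0 [(4,[(28,310992),(31,474672),(42,1374912),(7,8765064),(2,654720),(1,8184)])], .leaf 0 [(10,[(33,180048),(42,302808),(12,155496),(5,53072),(0,65472)])], .leaf 0 [(0,[(18,654720),(28,188232),(40,261888),(12,130944),(3,130944),(43,163680)])], .leaf 1 [(6934,[(23,454048320),(28,11221311552),(31,11431040192),(7,80076577152),(3,4286691904),(1,14971264),(0,568777088),(44,3632386560)])],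 .leaf 4 [(0,[(21,556512),(42,491040),(13,458304),(6,8184)]),(0,[(21,425568),(31,98208),(42,621984),(4,310992)]),(0,[(30,261888),(34,98208),(41,212784),(42,49104),(13,49104),(7,883872)]),(0,[(28,491040),(31,1014816),(41,1047552),(12,2455200),(7,7660224)]),(0,[(21,425568),(31,1014816),(42,621984),(4,310992)])], .leaf 0 [(0,[(18,523776),(28,261888),(13,261888),(7,327360),(43,130944)])], .leaf 0 [(0,[(36,29760),(12,71424),(3,65472),(0,5952)])], .leaf 1 [(0,[(33,1364),(7,60016),(6,3751),(0,1364)])]]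
noncomputable def t0 : TT := (.split [122,64,70,-128,-192,-384,0,6,145,50] a0 (.split [5,0,6,-16,-11,-11,0,6,-1,5] (.split [64,64,0,-64,-96,-32,0,0,1,0] a1 (.split [10,6,14,-18,-64,-18,0,8,15,5] a2 (.split [0,32,32,0,-64,-32,0,0,-1,0] a3 (.split [0,0,0,32,-32,0,0,0,1,0] (.split [-1,0,0,0,2,0,0,0,0,0] (.split [-5,-13,-8,8,-8,0,0,4,50,8] a4 a5) a6) a7)))) a8))
theorem c0 : chkT (fsm (-1) ([0,0,0,0,0,0,0,1,0,-2] : Fm) :: ([0,0,0,0,8,-1,0,0,0,0] : Fm) :: ([0,0,0,0,-2,-2,0,0,1,2] : Fm) :: fsm (-1) ([0,0,0,0,33,-31,0,0,0,0] : Fm) :: ([0,3,3,0,-4,-4,0,0,0,0] : Fm) :: fsm (-1) ([0,0,0,0,-1,0,0,0,1,0] : Fm) :: ([-1,0,0,4,0,0,0,0,0,0] : Fm) :: ([-1,4,4,0,0,0,0,0,0,0] : Fm) :: ([0,0,0,0,-1,1,0,0,0,0] : Fm) :: ([0,0,0,0,0,0,0,0,-1,1] : Fm) :: fsm (-1) ([0,0,0,0,-2,0,0,0,1,0] : Fm) :: ([0,0,0,0,-1,-1,0,0,-1,1] : Fm) :: K2O12.C0) t0 = true := by decide +kernel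
end K2O12M010000101001

namespace K2O12M01000010101
noncomputable def a0 : TT := .leaf ⟨true,0,31,33,64,0,32735,[[],[0,0,0,0,32736,0,0,0,-11253],[0,0,0,0,0,0,0,0,2046],[0,0,0,0,0,0,0,0,17391],[0,0,0,0,0,0,0,0,10230],[],[],[],[0,0,0,0,1056,0,0,0,-363],[0,0,0,0,0,0,0,0,62],[0,0,0,0,1056]]⟩ [.leaf 0 [(0,[])], .leaf 0 [(0,[(9,363)])], .leaf 0 [(0,[])], .leaf 0 [(0,[])], .leaf 0 [(0,[])], .leaf 0 [(0,[])], .leaf 0 [(0,[(2,1056)])], .leaf 0 [(0,[]),(0,[]),(0,[]),(0,[]),(0,[]),(0,[])], .leaf 0 [(0,[])], .leaf 0 [(0,[])], .leaf 0 [(0,[(4,11392128)])], .leaf 0 [(0,[])], .leaf 0 [(0,[])], .leaf 0 [(0,[])], .leaf 0 [(0,[])], .leaf 0 [(0,[])], .leaf 0 [(0,[])], .leaf 0 [(0,[(9,10082688)])], .leaf 0 [(0,[(39,4190208),(10,4190208)])], .leaf 0 [(0,[])], .leaf 0 [(0,[(10,4190208)])], .leaf 0 [(0,[(15,261888),(20,130944),(26,130944),(5,130944),(40,65472)])], .leaf 0 [(0,[])], .leaf 0 [(0,[(22,130944),(30,130944)])], .leaf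 1 [(0,[(9,7332864)])], .leaf 1 [(0,[(10,1047552),(3,261888)]),(0,[(3,349184),(1,349184)]),(0,[(4,2324256),(2,6944)]),(0,[(37,1047552),(9,9133344),(3,261888)]),(0,[(10,1047552),(4,1800480),(3,349184),(0,181412)])], .leaf 1 [(0,[])], .leaf 0 [(0,[(4,147312)])], .leaf 0 [(0,[(22,130944)])], .leaf 0 [(0,[])], .leaf 0 [(2,[(20,3142656),(28,1047552),(39,3142656),(10,5237760),(3,349184),(0,349184)]),(42,[(20,45044736),(38,45044736),(2,4190208),(0,5237760)]),(0,[(20,327360),(25,720192),(10,1047552),(3,240064),(0,141856)]),(0,[(20,1047552),(28,1767744),(39,1047552),(10,327360),(4,65472),(3,589248),(0,589248)]),(0,[(20,1047552),(37,1047552),(38,1047552),(4,12243264)])], .leaf 1 [(0,[(15,1833216),(30,130944),(3,261888),(40,458304)])], .leaf 0 [(0,[(15,261888),(30,130944),(4,163680),(2,12896),(40,65472)])], .leaf 0 [(0,[(15,1833216),(3,261888),(40,458304)])], .leaf 2 [(0,[(4,9166080)])], .leaf 4 [(0,[(18,1047552),(28,245520),(39,1047552),(10,802032),(3,61380)]),(0,[(18,1047552),(39,1047552),(1,523776)]),(0,[(4,1996896)]),(0,[(18,1047552),(38,1047552),(9,11032032)]),(0,[(18,1047552),(28,441936),(38,605616),(39,441936),(3,147312),(0,132990)])],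 .leaf 0 [(0,[])], .leaf 0 [(0,[(15,261888),(20,130944),(26,130944),(5,130944),(4,253704),(40,65472)])], .leaf 1 [(0,[(4,163680)])]]
noncomputable def t0 : TT := a0
theorem c0 : chkT (fsm (-1) ([0,0,0,0,8,-1,0,0,0,0] : Fm) :: ([0,0,0,0,-2,-2,0,0,1,2] : Fm) :: fsm (-1) ([0,0,0,0,33,-31,0,0,0,0] : Fm) :: ([0,3,3,0,-4,-4,0,0,0,0] : Fm) :: fsm (-1) ([0,0,0,0,-1,0,0,0,1,0] : Fm) :: ([-1,0,0,4,0,0,0,0,0,0] : Fm) :: ([-1,4,4,0,0,0,0,0,0,0] : Fm) :: ([0,0,0,0,-1,1,0,0,0,0] : Fm) :: ([0,0,0,0,0,0,0,0,-1,1] : Fm) :: fsm (-1) ([0,0,0,0,-2,0,0,0,1,0] : Fm) :: ([0,0,0,0,-1,-1,0,0,-1,1] : Fm) :: K2O12.C0) t0 = true := by decide +kernel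
end K2O12M01000010101

namespace K2O12M0100001011
noncomputable def a0 : TT := .leaf ⟨false,0,0,0,1,0,0,[[],[],[],[],[],[],[],[],[],[],[]]⟩ [.leaf 0 [(0,[])], .leaf 0 [(0,[])], .leaf 0 [(0,[])], .leaf 0 [(0,[])], .leaf 0 [(0,[])], .leaf 0 [(0,[])], .leaf 0 [(0,[])], .leaf 0 [(0,[])], .leaf 0 [(0,[])], .leaf 0 [(0,[])], .leaf 0 [(0,[])], .leaf 0 [(0,[])], .leaf 0 [(0,[])], .leaf 0 [(0,[])], .leaf 0 [(0,[])], .leaf 0 [(0,[])], .leaf 0 [(0,[(17,64),(24,64),(37,64)])], .leaf 0 [(0,[(27,186),(2,62),(1,2),(0,93)])], .leaf 0 [(0,[(18,64),(27,64),(36,64)])], .leaf 0 [(0,[(10,8),(14,32),(19,4),(25,4),(6,4),(3,4),(2,4),(39,8)])], .leaf 0 [(0,[(8,4)])], .leaf 0 [(130,[(21,260),(29,260),(3,128),(1,264),(0,132)])], .leaf 0 [(6,[(12,28),(14,384),(25,28),(27,4912),(9,1656),(5,284),(2,1164),(0,3284),(40,128)])], .leaf 0 [(0,[(18,64),(27,32)]),(0,[(18,62),(27,30),(36,2)]),(0,[(18,60),(27,28),(6,4)]),(20,[(12,84),(14,1152),(25,84),(27,14064),(9,4520),(5,852),(2,3492),(0,8956),(40,384)]),(0,[(18,64),(27,32)])],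 .leaf 0 [(0,[(27,24),(8,10),(2,8),(0,14)])], .leaf 0 [(0,[(8,4)])], .leaf 0 [(126,[(21,244),(27,264),(3,132),(1,264),(0,132)])], .leaf 0 [(2,[(27,558),(9,194),(2,186),(1,6),(0,376)])], .leaf 0 [(0,[(19,64),(30,32)]),(0,[(17,2),(19,60),(24,2),(30,28),(37,2)]),(6,[(14,496),(18,262),(19,420),(26,124),(27,138),(30,72),(36,14),(39,124)]),(0,[(19,32),(27,93),(38,32),(9,55),(2,31),(1,1),(0,42)]),(0,[(19,64),(30,32)])], .leaf 0 [(47243,[(20,7874),(21,36202),(25,98425),(27,1408677),(32,90551),(5,307086),(3,757488),(1,107308),(0,749614),(40,62992)])], .leaf 0 [(0,[(14,8),(29,4),(8,4),(6,12),(39,2)])], .leaf 0 [(0,[(10,24),(14,56),(2,8),(39,14)])], .leaf 0 [(2,[(27,1188),(9,136),(3,384),(2,396),(0,668)])], .leaf 0 [(0,[(17,64),(24,32)]),(0,[(10,6),(14,12),(17,60),(24,28),(6,2),(2,2),(39,3)]),(0,[(17,62),(24,30),(37,2)]),(2,[(17,96),(27,1188),(38,96),(9,104),(3,384),(2,396),(0,604)]),(0,[(17,64),(24,32)])], .leaf 0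 [(0,[(10,12),(14,24),(6,4),(3,4),(2,4),(39,6)])], .leaf 0 [(0,[(14,16),(18,4),(19,4),(25,4),(8,4),(39,4)])], .leaf 0 [(5,[(20,1),(27,732),(8,366),(5,39),(2,179),(0,366),(40,8)])]]
noncomputable def t0 : TT := a0
theorem c0 : chkT (fsm (-1) ([0,0,0,0,-2,-2,0,0,1,2] : Fm) :: fsm (-1) ([0,0,0,0,33,-31,0,0,0,0] : Fm) :: ([0,3,3,0,-4,-4,0,0,0,0] : Fm) :: fsm (-1) ([0,0,0,0,-1,0,0,0,1,0] : Fm) :: ([-1,0,0,4,0,0,0,0,0,0] : Fm) :: ([-1,4,4,0,0,0,0,0,0,0] : Fm) :: ([0,0,0,0,-1,1,0,0,0,0] : Fm) :: ([0,0,0,0,0,0,0,0,-1,1] : Fm) :: fsm (-1) ([0,0,0,0,-2,0,0,0,1,0] : Fm) :: ([0,0,0,0,-1,-1,0,0,-1,1] : Fm) :: K2O12.C0) t0 = true := by decide +kernel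
end K2O12M0100001011

namespace K2O12M01000011
noncomputable def a0 : TT := .leaf ⟨true,0,33,31,64,3,16367,[[],[0,-1023,-1023,0,16368,0,0,0,-13299,1023],[0,0,0,0,0,0,0,0,2046],[0,-1023,-1023,0,0,0,0,0,1023,1023],[0,0,0,0,0,0,0,0,1023],[],[],[],[0,-31,-31,0,496,0,0,0,-403,31],[0,0,0,0,0,0,0,0,66],[0,0,0,0,496]]⟩ [.leaf 0 [(0,[])], .leaf 0 [(0,[(28,31),(9,62),(4,372)])], .leaf 0 [(0,[])], .leaf 0 [(0,[(30,31)])], .leaf 0 [(0,[])], .leaf 0 [(0,[])], .leaf 0 [(0,[(7,15376)])], .leaf 0 [(0,[]),(0,[]),(0,[]),(0,[]),(0,[]),(0,[])], .leaf 0 [(0,[(28,130944)])], .leaf 0 [(0,[])], .leaf 0 [(0,[(28,916608),(9,1702272),(4,11261184)])], .leaf 0 [(0,[])], .leaf 0 [(0,[])], .leaf 0 [(0,[])], .leaf 0 [(0,[])], .leaf 0 [(0,[])], .leaf 0 [(0,[])], .leaf 0 [(0,[(28,916608),(9,1833216),(4,10999296)])], .leaf 0 [(0,[(18,1571328),(19,261888),(25,1571328),(39,523776),(10,261888)])], .leaf 0 [(0,[])], .leaf 0 [(0,[(19,261888),(10,1833216)])],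 .leaf 0 [(0,[(15,654720),(20,65472),(26,65472),(37,261888),(4,1113024),(40,163680)])], .leaf 0 [(0,[])], .leaf 0 [(0,[(8,196416),(4,1636800),(3,87296)])], .leaf 1 [(0,[(28,1178496),(9,2029632),(4,10606464)])], .leaf 1 [(0,[(19,621984),(10,425568)]),(0,[(19,752928),(10,294624)]),(0,[(10,491040),(9,491040),(4,556512)]),(0,[(28,425568),(10,1047552),(9,4124736),(4,6416256)]),(0,[(19,425568),(20,65472),(26,65472),(37,556512),(9,392832),(5,130944)])], .leaf 1 [(0,[(9,43648),(8,261888),(4,1593152),(3,87296)])], .leaf 0 [(0,[(30,8184),(9,16368)])], .leaf 0 [(0,[(10,261888),(9,283712),(4,1353088),(3,109120)])], .leaf 0 [(0,[(28,261888)])], .leaf 0 [(0,[(20,425568),(39,425568),(10,802032),(0,49104)]),(0,[(20,476160),(39,452352),(7,1190400),(0,23808)]),(4,[(20,261888),(32,1767744),(10,3666432),(0,261888)]),(6,[(18,523776),(28,4386624),(39,523776),(0,1571328)]),(0,[(20,523776),(28,720192),(38,523776),(10,523776),(9,4975872),(4,5237760)])],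 .leaf 0 [(2,[(23,8184),(26,94116),(33,102300),(10,683364),(7,860684),(6,319176),(4,4910400),(3,762476),(41,65472)])], .leaf 0 [(0,[(30,73656),(7,185504),(4,32736),(3,21824)])], .leaf 1 [(0,[(15,130944),(26,65472),(30,8184),(7,147312),(4,16368),(40,32736)])], .leaf 2 [(0,[(28,1178496),(9,196416),(4,14272896)])], .leaf 4 [(6,[(18,4517568),(25,818400),(31,163680),(38,196416),(39,2291520),(10,1964160),(0,65472)]),(0,[(18,851136),(25,327360),(28,98208),(39,196416),(10,196416)]),(0,[(15,196416),(18,32736),(27,425568),(39,98208),(10,196416),(4,1178496),(40,49104)]),(0,[(18,523776),(28,1014816),(39,523776),(10,523776),(9,458304),(4,13749120)]),(0,[(18,523776),(28,98208),(39,523776),(10,523776)])], .leaf 0 [(0,[(28,261888),(4,1636800)])], .leaf 0 [(0,[(26,130944),(9,196416),(1,65472)])], .leaf 1 [(0,[(30,8184),(9,32736)])]]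
noncomputable def a1 : TT := .leaf ⟨true,0,33,31,64,3,16367,[[],[0,-1023,-1023,0,16368,0,0,0,-13299,1023],[0,0,0,0,0,0,0,0,2046],[0,-1023,-1023,0,0,0,0,0,1023,1023],[0,0,0,0,0,0,0,0,1023],[],[],[],[0,-31,-31,0,496,0,0,0,-403,31],[0,0,0,0,0,0,0,0,66],[0,0,0,0,496]]⟩ [.leaf 0 [(0,[])], .leaf 0 [(47,[(12,1488),(11,4929),(6,12958),(5,496),(1,31)])], .leaf 0 [(0,[])], .leaf 0 [(0,[(32,31)])], .leaf 0 [(0,[])], .leaf 0 [(0,[])], .leaf 0 [(0,[(9,15376)])], .leaf 0 [(0,[]),(0,[]),(0,[]),(0,[]),(0,[]),(0,[])], .leaf 0 [(0,[(30,130944)])], .leaf 0 [(0,[])], .leaf 0 [(0,[(39,916608),(6,11149336),(5,305536),(1,19096)])], .leaf 0 [(0,[])], .leaf 0 [(0,[])], .leaf 0 [(0,[])], .leaf 0 [(0,[])], .leaf 0 [(0,[])], .leaf 0 [(0,[])], .leaf 0 [(0,[(12,916608),(11,3036264),(6,7982128),(5,305536),(1,19096)])], .leaf 0 [(46,[(16,13618176),(27,12701568),(41,81185280),(12,66912384),(1,24552),(0,392832),(43,3404544)])], .leaf 0 [(0,[])],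 .leaf 0 [(0,[(21,261888),(12,1833216)])], .leaf 0 [(0,[(39,229152),(6,762476),(5,54560),(2,32736),(1,9548)])], .leaf 0 [(0,[])], .leaf 0 [(0,[(12,196416),(11,305536),(6,1331264),(5,87296)])], .leaf 0 [(2,[(27,392832),(39,2880768),(6,25209448),(5,960256),(3,720192),(2,654720),(1,68200),(43,1571328)])], .leaf 0 [(0,[(21,621984),(12,425568)]),(0,[(21,752928),(12,294624)]),(0,[(12,491040),(11,491040),(6,556512)]),(6,[(27,523776),(39,8871456),(8,130944),(6,55009438),(5,731104),(3,1898688),(2,1440384),(1,78430),(43,3666432)]),(0,[(21,425568),(28,65472),(39,556512),(11,396924),(7,65472),(1,4092)])], .leaf 1 [(0,[(12,261888),(6,1636800),(5,87296)])], .leaf 0 [(0,[(32,8184),(11,16368)])], .leaf 0 [(0,[(12,261888),(11,283712),(6,1353088),(5,109120)])], .leaf 0 [(0,[(30,261888)])], .split 0 3 (.leaf 0 [(22,[(23,11523072),(28,3142656),(42,5237760),(13,10475520),(0,7)]),(39,[(21,21867648),(23,10148160),(28,15778752),(42,458304),(13,7987584),(0,9)]),(0,[(22,467232),(23,65472),(28,418128),(13,260400),(2,837),(1,13392)]),(0,[(0,1)]),(0,[(23,523776),(41,523776),(13,1243968),(12,5921124),(7,2867128),(6,240064),(2,15004)])])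 (.split 4 0 (.leaf 4 [(0,[(0,1)]),(15,[(37,523776),(14,3862848),(13,7754340),(8,5486008),(7,1287616),(3,145948),(1,3),(0,18)]),(94,[(18,67043328),(43,25141248),(14,43997184),(11,86946816),(10,14600256),(7,28545792),(0,47),(45,16760832)]),(0,[(29,523776),(32,392832),(45,523776)]),(16,[(14,11130240),(13,29331456),(7,4353888),(3,392832),(1,68),(0,85)])]) (.leaf 2 [(0,[(22,416640),(23,136896),(24,416640),(29,488064),(14,267840),(3,744),(2,11904)]),(0,[(18,1964160),(29,523776),(32,261888),(11,589248),(45,491040)]),(0,[(23,467232),(24,65472),(29,418128),(14,260400),(3,837),(2,13392)]),(71,[(19,18855936),(24,1047552),(29,31950336),(32,22653312),(5,3666432),(3,65472),(2,1047552),(0,11),(45,32997888)]),(0,[(24,523776),(43,523776),(14,1767744),(13,6968676),(8,1819576),(7,240064),(3,15004)])])), .leaf 0 [(2,[(25,8184),(28,94116),(35,102300),(12,683364),(9,860684),(8,319176),(6,4910400),(5,762476),(43,65472)])], .leaf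 0 [(0,[(32,73656),(9,185504),(6,32736),(5,21824)])], .leaf 0 [(0,[(17,638352),(12,253704),(11,826584),(6,180048),(1,8184),(42,159588)])], .leaf 1 [(6,[(27,523776),(39,6809088),(8,130944),(6,72076488),(5,2487936),(3,1898688),(2,1440384),(1,188232),(43,3666432)])], .leaf 4 [(0,[(20,523776),(21,32736),(41,523776),(12,491040)]),(0,[(20,851136),(27,327360),(30,98208),(41,196416),(12,196416)]),(0,[(29,409200),(40,8184),(41,139128),(12,220968),(6,998448),(2,16368)]),(0,[(20,523776),(39,371349),(40,523776),(12,643467),(6,12198934),(5,338272),(1,21142)]),(0,[(20,752928),(27,229152),(30,98208),(41,294624),(12,294624)])], .leaf 0 [(0,[(39,261888),(6,1118480),(5,87296),(1,5456)])], .leaf 0 [(174,[(17,5630592),(28,7136448),(32,2160576),(2,2160576),(1,851136),(42,1407648)])], .leaf 1 [(0,[(32,8184),(6,32736)])]]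
noncomputable def a2 : TT := .leaf ⟨false,0,1,0,1,1,3,[[],[-1,-2,-1,0,4,0,0,1,-2,1],[],[-1,-2,-1,0,0,0,0,1,2,1],[],[],[],[],[],[],[]]⟩ [.leaf 0 [(0,[])], .leaf 0 [(47,[(28,48),(13,48),(7,97),(6,16),(2,1)])], .leaf 0 [(0,[])], .leaf 0 [(0,[])], .leaf 0 [(0,[(29,1),(33,1)])], .leaf 0 [(0,[])], .leaf 0 [(0,[(28,128),(31,128)])], .leaf 0 [(0,[])], .leaf 0 [(2,[(28,2688),(13,2688),(7,5432),(6,896),(2,56)])], .leaf 0 [(0,[])], .leaf 0 [(0,[])], .leaf 0 [(0,[])], .leaf 0 [(0,[])], .leaf 0 [(0,[])], .leaf 0 [(0,[])], .leaf 0 [(2,[(28,2688),(13,2688),(7,5432),(6,896),(2,56)])], .leaf 0 [(0,[(21,256),(22,256),(42,256)])], .leaf 0 [(0,[])], .leaf 0 [(0,[(22,256),(29,256),(13,256)])], .leaf 0 [(32,[(28,3840),(40,1920),(13,2176),(2,256),(0,272)])], .leaf 0 [(0,[])], .leaf 0 [(46,[(28,11408),(41,384),(13,11024),(9,112),(6,4112),(0,16)])], .leaf 0 [(2,[(28,2688),(13,2688),(12,3528),(7,1904),(6,896),(2,56),(0,48),(44,384)])],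 .leaf 3 [(0,[(22,160),(29,32),(13,96)]),(2,[(34,288),(13,384),(7,576),(6,80)]),(0,[(22,32),(28,96),(13,224)]),(0,[(28,992),(13,1120),(7,2002),(6,288),(2,18)]),(0,[(22,32),(40,152),(13,72),(7,96),(4,56)])], .leaf 1 [(46,[(28,11408),(41,384),(11,11776),(9,112),(6,4112),(0,16)])], .leaf 0 [(0,[(29,8),(33,8),(7,32)])], .leaf 0 [(242,[(28,61488),(42,864),(13,63312),(6,22096),(1,48)])], .leaf 2 [(0,[(0,16),(44,128)])], .leaf 4 [(0,[(17,512),(44,128)]),(54,[(17,15872),(24,384),(28,13200),(31,192),(13,13888),(9,496),(6,5456),(2,496),(44,7040)]),(0,[(26,16),(44,128)]),(0,[(44,128)]),(5300,[(17,11573760),(28,5404800),(31,23680),(13,5817856),(9,499200),(6,2698496),(2,279808),(1,218368),(44,2893440)])], .leaf 0 [(2,[(28,672),(41,48),(13,624),(9,96),(6,416)])], .leaf 0 [(10,[(29,24),(33,296),(10,752),(6,16),(3,32)])], .leaf 0 [(3,[(13,464),(4,200),(2,8),(0,33)])], .leaf 1 [(106,[(28,111376),(13,114368),(12,144192),(6,35856),(2,2224),(1,1088),(0,896),(44,13696)])],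 .leaf 4 [(0,[(21,160),(22,32),(42,96),(13,64)]),(0,[(21,184),(28,152),(31,96),(42,72),(13,72)]),(0,[(41,64),(42,16),(13,96),(4,16),(3,16)]),(1416,[(28,833088),(41,832192),(13,1536064),(12,395264),(6,503328),(2,59168),(1,26080)]),(2,[(21,96),(41,672),(13,256),(11,32),(6,112)])], .leaf 0 [(2,[(31,224),(40,224),(13,48),(4,248),(0,17)])], .leaf 0 [(174,[(18,1376),(29,1744),(33,528),(3,528),(2,208),(43,344)])], .leaf 1 [(0,[(29,8),(33,8),(7,32)])]]
noncomputable def a3 : TT := .leaf ⟨true,0,33,31,64,3,16367,[[],[0,-1023,-1023,0,16368,0,0,0,-13299,1023],[0,0,0,0,0,0,0,0,2046],[0,-1023,-1023,0,0,0,0,0,1023,1023],[0,0,0,0,0,0,0,0,1023],[],[],[],[0,-31,-31,0,496,0,0,0,-403,31],[0,0,0,0,0,0,0,0,66],[0,0,0,0,496]]⟩ [.leaf 0 [(0,[])], .leaf 0 [(47,[(13,1488),(12,4929),(7,12958),(6,496),(2,31)])], .leaf 0 [(0,[])], .leaf 0 [(0,[(33,31)])], .leaf 0 [(0,[])], .leaf 0 [(0,[])], .leaf 0 [(0,[(10,15376)])], .leaf 0 [(0,[]),(0,[]),(0,[]),(0,[]),(0,[]),(0,[])],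 .leaf 0 [(0,[(31,130944)])], .leaf 0 [(0,[])], .leaf 0 [(0,[(40,916608),(7,11149336),(6,305536),(2,19096)])], .leaf 0 [(0,[])], .leaf 0 [(0,[])], .leaf 0 [(0,[])], .leaf 0 [(0,[])], .leaf 0 [(0,[])], .leaf 0 [(0,[])], .leaf 0 [(0,[(13,916608),(12,3036264),(7,7982128),(6,305536),(2,19096)])], .leaf 0 [(0,[(21,1571328),(22,261888),(28,1571328),(42,523776),(13,261888)])], .leaf 0 [(0,[])], .leaf 0 [(0,[(22,261888),(13,1833216)])], .leaf 0 [(8,[(29,196416),(36,294624),(40,2226048),(7,8428156),(6,731104),(2,80476),(1,32736)])], .leaf 0 [(0,[])], .leaf 0 [(0,[(40,152768),(13,43648),(7,1636800),(6,87296)])], .leaf 0 [(718,[(23,191112768),(41,144038400),(13,1165859904),(12,4156522656),(6,299927232),(2,14763936),(1,63704256),(44,376594944)])], .leaf 0 [(0,[(22,621984),(13,425568)]),(0,[(22,752928),(13,294624)]),(0,[(13,491040),(12,491040),(7,556512)]),(74,[(42,2749824),(13,103151136),(12,460086066),(7,107760092),(6,7060064),(4,21016512),(3,13356288),(2,400334),(1,654720),(44,39283200)]),(816,[(22,436600032),(29,34438272),(40,486424224),(2,2946240),(1,6350784)])],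 .leaf 1 [(0,[(12,43648),(11,261888),(7,1593152),(6,87296)])], .leaf 0 [(408,[(33,1227600),(42,932976),(1,106392),(0,40920)])], .leaf 0 [(0,[(13,261888),(7,1636800),(6,109120)])], .leaf 0 [(0,[(31,261888)])], .leaf 4 [(1356,[(17,2667067392),(28,808186368),(31,424127616),(13,214748160),(6,71233536),(2,4779456),(1,1047552),(0,6285312),(44,666766848)]),(11008,[(17,16044687360),(24,275095488),(28,4508538816),(41,911727360),(13,7832474880),(6,2569180800),(2,237603840),(1,124932480),(44,6211935744)]),(18,[(17,4888576),(26,1091200),(28,9875360),(31,3109920),(34,76384),(13,4277504),(10,2444288),(9,152768),(6,1680448),(44,9951744)]),(0,[(28,523776),(31,392832),(44,523776)]),(7302,[(17,59315536896),(24,477421824),(28,8288755200),(41,477421824),(13,17797908480),(12,4056514176),(6,5383631616),(2,233538624),(1,1647013632),(44,18648258816)])], .leaf 0 [(80,[(26,785664),(36,3044448),(13,21933120),(9,3535488),(7,94181472),(6,13214432),(1,752928),(44,6285312)])],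 .leaf 0 [(0,[(33,40920),(42,15840),(10,126016),(8,33792),(6,27808),(0,1056)])], .leaf 0 [(210,[(13,75639504),(6,1814616),(2,1563888),(1,4421592)])], .leaf 1 [(86,[(34,589248),(40,123873024),(8,10999296),(7,840575912),(6,43888064),(4,6874560),(2,2468840),(1,4386624),(44,45568512)])], .leaf 4 [(0,[(21,523776),(22,32736),(42,523776),(13,491040)]),(0,[(21,851136),(28,327360),(31,98208),(42,196416),(13,196416)]),(24,[(30,11015664),(42,2520672),(13,5712432),(7,21949488),(6,130944),(1,147312)]),(0,[(21,523776),(40,371349),(41,523776),(13,643467),(7,12198934),(6,338272),(2,21142)]),(0,[(21,523776),(31,98208),(42,523776),(13,523776)])], .leaf 0 [(4,[(35,261888),(13,1309440),(12,2946240),(4,261888),(3,261888)])], .leaf 0 [(0,[(29,48832),(8,16832),(6,5184),(3,6400),(2,4736),(1,1280)])], .leaf 1 [(0,[(33,8184),(12,32736)])]]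
noncomputable def a4 : TT := .leaf ⟨true,0,33,31,64,3,16367,[[],[0,-1023,-1023,0,16368,0,0,0,-13299,1023],[0,0,0,0,0,0,0,0,2046],[0,-1023,-1023,0,0,0,0,0,1023,1023],[0,0,0,0,0,0,0,0,1023],[],[],[],[0,-31,-31,0,496,0,0,0,-403,31],[0,0,0,0,0,0,0,0,66],[0,0,0,0,496]]⟩ [.leaf 0 [(0,[])], .leaf 0 [(0,[(31,31),(7,434)])], .leaf 0 [(0,[])], .leaf 0 [(0,[(33,31)])], .leaf 0 [(0,[])], .leaf 0 [(0,[])], .leaf 0 [(0,[(10,15376)])], .leaf 0 [(0,[]),(0,[]),(0,[]),(0,[]),(0,[]),(0,[])], .leaf 0 [(0,[(31,130944)])], .leaf 0 [(0,[])], .leaf 0 [(0,[(31,916608),(12,1702272),(7,11261184)])], .leaf 0 [(0,[])], .leaf 0 [(0,[])], .leaf 0 [(0,[])], .leaf 0 [(0,[])], .leaf 0 [(0,[])], .leaf 0 [(0,[])], .leaf 0 [(0,[(31,916608),(7,12832512)])], .leaf 0 [(0,[(22,261888),(42,2095104),(13,1833216)])], .leaf 0 [(0,[])], .leaf 0 [(0,[(22,261888),(13,1833216)])], .leaf 0 [(6,[(23,523776),(40,1440384),(7,3797376),(4,327360),(3,392832)])],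 .leaf 0 [(0,[])], .leaf 0 [(0,[(12,109120),(11,196416),(7,1527680),(6,87296)])], .leaf 0 [(0,[(23,458304),(28,720192),(31,327360),(40,458304),(7,8053056),(3,392832),(44,523776)])], .leaf 0 [(0,[(22,621984),(13,425568)]),(0,[(22,752928),(13,294624)]),(0,[(13,491040),(12,491040),(7,556512)]),(6,[(23,1080288),(28,2062368),(13,8413152),(12,40461696),(7,11883168),(4,1276704),(3,1898688),(44,3666432)]),(0,[(22,425568),(23,65472),(29,65472),(13,556512),(8,130944),(7,392832)])], .leaf 1 [(0,[(13,261888),(12,305536),(7,1331264),(6,87296)])], .leaf 0 [(0,[(33,8184),(7,16368)])], .leaf 0 [(0,[(13,261888),(12,283712),(7,1353088),(6,109120)])], .leaf 0 [(0,[(31,261888)])], .split 4 4 (.leaf 4 [(0,[(29,8184),(32,106392),(1,24552)]),(6565,[(24,973110336),(32,1085460288),(41,1278930048),(42,543221184),(7,101939904),(1,101939904),(0,621)]),(0,[(32,4092),(35,8184),(14,110484),(11,356004),(10,49104),(7,118668),(1,24552)]),(0,[(29,523776),(32,392832),(45,523776)]),(0,[(0,1)])])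 (.leaf 2 [(22,[(23,1153944),(29,3330888),(14,5205024),(2,261888),(1,302808)]),(254,[(29,34029072),(32,594704),(14,21840368),(2,3841024),(1,3093552)]),(26,[(23,3731904),(24,15189504),(14,11457600),(0,2)]),(115,[(24,2618880),(29,50806272),(32,41902080),(14,2618880),(5,4975872),(0,5),(45,60758016)]),(0,[(24,523776),(32,720192),(42,523776),(14,523776),(13,4975872),(8,5237760)])]), .leaf 0 [(50,[(26,139128),(29,1599972),(36,1739100),(13,11617188),(9,5425992),(7,82616116),(6,12962092),(2,860684),(44,1113024)])], .leaf 0 [(0,[(33,73656),(7,21824),(6,21824),(2,10912)])], .leaf 1 [(0,[(18,119040),(29,62496),(33,9672),(10,148800),(3,1488),(43,29760)])], .leaf 1 [(2,[(24,21824),(28,327360),(31,2837120),(7,35856832),(4,872960),(3,698368),(44,1745920)])], .leaf 4 [(0,[(21,523776),(22,32736),(42,523776),(13,491040)]),(0,[(21,523776),(31,98208),(42,523776),(13,523776)]),(0,[(30,409200),(41,8184),(42,139128),(13,220968),(7,998448),(3,16368)]),(0,[(21,523776),(31,1014816),(41,229152),(42,294624),(13,294624),(7,14207424)]),(0,[(21,752928),(28,229152),(31,98208),(42,294624),(13,294624)])],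 .leaf 0 [(0,[(13,218240),(12,698368),(7,21824),(4,65472),(3,43648)])], .leaf 0 [(0,[(29,130944),(12,196416),(4,65472)])], .leaf 1 [(0,[(33,8184),(7,32736)])]]
noncomputable def a5 : TT := .leaf ⟨true,0,33,31,64,3,16367,[[],[0,-1023,-1023,0,16368,0,0,0,-13299,1023],[0,0,0,0,0,0,0,0,2046],[0,-1023,-1023,0,0,0,0,0,1023,1023],[0,0,0,0,0,0,0,0,1023],[],[],[],[0,-31,-31,0,496,0,0,0,-403,31],[0,0,0,0,0,0,0,0,66],[0,0,0,0,496]]⟩ [.leaf 0 [(0,[])], .leaf 0 [(0,[(32,31),(13,62),(8,372)])], .leaf 0 [(0,[])], .leaf 0 [(0,[(34,31)])], .leaf 0 [(0,[])], .leaf 0 [(0,[])], .leaf 0 [(0,[(11,15376)])], .leaf 0 [(0,[]),(0,[]),(0,[]),(0,[]),(0,[]),(0,[])], .leaf 0 [(0,[(32,130944)])], .leaf 0 [(0,[])], .leaf 0 [(0,[(32,916608),(13,1702272),(8,11261184)])], .leaf 0 [(0,[])], .leaf 0 [(0,[])], .leaf 0 [(0,[])], .leaf 0 [(0,[])], .leaf 0 [(0,[])], .leaf 0 [(0,[])], .leaf 0 [(0,[(32,916608),(13,1833216),(8,10999296)])], .leaf 0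 [(492,[(18,115230720),(29,86684928),(43,889109760),(14,774140928),(0,785664),(45,28807680)])], .leaf 0 [(0,[])], .leaf 0 [(0,[(23,261888),(14,1833216)])], .leaf 0 [(0,[(24,81840),(32,49104),(14,163680),(13,703824),(5,32736),(4,49104)])], .leaf 0 [(0,[])], .leaf 0 [(0,[(14,196416),(13,305536),(8,1331264),(7,87296)])], .leaf 0 [(2,[(25,21824),(29,327360),(32,2837120),(8,30357184),(5,872960),(4,698368),(45,1745920)])], .leaf 0 [(0,[(23,621984),(14,425568)]),(0,[(23,752928),(14,294624)]),(0,[(14,491040),(8,1047552)]),(2,[(25,21824),(29,327360),(32,578336),(14,3142656),(13,16084288),(8,7987584),(5,872960),(4,698368),(45,1745920)]),(0,[(23,425568),(24,65472),(30,65472),(14,556512),(9,130944),(8,392832)])], .leaf 1 [(0,[(14,261888),(8,1636800),(7,87296)])], .leaf 0 [(0,[(34,8184),(13,16368)])], .leaf 0 [(0,[(14,261888),(8,1636800),(7,109120)])], .leaf 0 [(0,[(32,261888)])], .split 2 3 (.leaf 2 [(60,[(19,98535360),(30,25490432),(33,21223840),(15,1887776),(1,174592),(46,24633840)]),(4,[(23,2029632),(33,1964160),(44,2029632),(15,1636800),(3,65472)]),(60,[(24,1374912),(25,3993792),(37,20689152),(15,44193600),(1,196416)]),(0,[(0,1)]),(0,[(25,523776),(33,720192),(43,523776),(15,523776),(14,4975872),(9,5237760)])])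 (.leaf 4 [(3045,[(19,6048565248),(25,61478208),(30,1607992320),(33,1205012160),(44,49496832),(15,111564288),(1,589248),(0,183),(46,1607992320)]),(1078,[(19,219985920),(25,219985920),(26,36271488),(30,599592576),(33,668141760),(42,219985920),(43,149276160),(0,555),(46,635864064)]),(696,[(19,89827584),(28,42425856),(30,369196608),(33,138375072),(44,2291520),(15,142303392),(12,53850720),(8,45601248),(0,14),(46,369196608)]),(0,[(30,523776),(33,392832),(46,523776)]),(5,[(25,1571328),(26,196416),(30,17088192),(33,16433472),(42,1571328),(6,261888),(0,31),(46,17808384)])]), .leaf 0 [(2,[(18,261888),(30,98208),(37,98208),(14,687456),(11,905696),(10,327360),(8,4910400),(7,774752),(45,65472)])], .leaf 0 [(4,[(34,273048),(36,62496),(11,725152),(7,67456),(1,2976)])], .leaf 1 [(1,[(30,99696),(9,68448),(7,22816),(3,17887),(1,1488)])], .leaf 1 [(2,[(25,21824),(29,327360),(32,2837120),(8,35856832),(5,872960),(4,698368),(45,1745920)])],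 .leaf 4 [(16,[(18,900240),(22,10922571),(29,2243439),(35,452166),(43,5762559),(14,4864365),(0,6138),(45,225060)]),(0,[(22,851136),(29,327360),(32,98208),(43,196416),(14,196416)]),(4,[(19,196416),(31,2095104),(43,654720),(14,1080288),(8,5172288),(4,65472),(44,49104)]),(0,[(22,523776),(32,1014816),(43,523776),(14,523776),(13,458304),(8,13749120)]),(0,[(22,523776),(32,98208),(43,523776),(14,523776)])], .leaf 0 [(0,[(43,21824),(14,240064),(13,698368),(5,65472),(4,43648)])], .leaf 0 [(0,[(19,35712),(24,77376),(30,41664),(34,11904),(9,77376),(4,11904),(44,8928)])], .leaf 1 [(0,[(34,8184),(13,32736)])]]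
noncomputable def a6 : TT := .leaf ⟨false,0,1,0,1,1,3,[[],[-1,-2,-1,0,4,0,0,1,-2,1],[],[-1,-2,-1,0,0,0,0,1,2,1],[],[],[],[],[],[],[]]⟩ [.leaf 0 [(0,[])], .leaf 0 [(140,[(25,74),(30,141),(33,33),(43,74),(15,72),(1,2)])], .leaf 0 [(0,[])], .leaf 0 [(0,[])], .leaf 0 [(0,[(31,1),(35,1)])], .leaf 0 [(0,[])], .leaf 0 [(0,[(30,128),(33,128)])], .leaf 0 [(0,[])], .leaf 0 [(140,[(25,66304),(30,126336),(33,29568),(43,66304),(15,64512),(1,1792)])], .leaf 0 [(0,[])], .leaf 0 [(0,[])], .leaf 0 [(0,[])], .leaf 0 [(0,[])], .leaf 0 [(0,[])], .leaf 0 [(0,[])], .leaf 0 [(140,[(25,66304),(30,126336),(33,29568),(43,66304),(15,64512),(1,1792)])], .leaf 0 [(0,[(23,256),(24,256),(44,256)])], .leaf 0 [(0,[])], .leaf 0 [(0,[(24,256),(31,256),(15,256)])], .leaf 0 [(2,[(33,256),(42,256),(6,256),(0,16)])], .leaf 0 [(0,[])], .leaf 0 [(2,[(30,768),(15,720),(9,48),(8,256)])], .leaf 0 [(16,[(19,25088),(25,896),(43,1792),(15,896),(9,27776),(0,1168),(46,8448)])],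 .leaf 3 [(0,[(24,160),(31,32),(15,96)]),(0,[(30,96),(13,224),(9,192)]),(0,[(24,32),(30,96),(15,224)]),(98,[(25,4672),(30,98272),(33,78560),(44,4672),(15,34688),(9,331392),(1,128)]),(0,[(37,32),(42,152),(15,104),(14,64),(10,64),(6,40)])], .leaf 1 [(250,[(30,63632),(43,1200),(13,63968),(8,21328),(6,16),(1,16)])], .leaf 0 [(0,[(31,8),(35,8),(9,32)])], .leaf 0 [(140,[(30,34224),(43,1152),(15,35328),(11,336),(8,13088),(0,48)])], .leaf 2 [(0,[(0,16),(46,128)])], .split 4 4 (.leaf 4 [(0,[(20,512),(47,128)]),(95,[(20,27136),(26,6656),(31,10624),(34,10624),(37,2560),(43,1536),(0,11),(47,6784)]),(2,[(20,1536),(13,320),(12,48),(9,80),(47,384)]),(0,[(47,128)]),(0,[(0,1)])]) (.leaf 2 [(13,[(20,7680),(10,1792),(0,1),(47,1920)]),(16,[(24,4080),(26,272),(32,1088),(36,1360),(10,2160),(5,288)]),(111,[(25,28288),(26,1792),(32,896),(16,896),(10,16128),(0,9)]),(20023,[(26,320384),(32,130048),(16,148096),(11,171520),(10,2749824),(2,768),(0,1611),(47,2563072)]),(0,[(26,128),(31,704),(34,704),(43,128),(44,128),(10,3456)])]),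 .leaf 0 [(2,[(30,672),(43,48),(15,624),(11,96),(8,416)])], .leaf 0 [(922,[(35,13664),(37,3032),(4,2256),(2,496)])], .leaf 1 [(54,[(23,464),(31,648),(35,88),(12,1792),(2,32)])], .leaf 1 [(140,[(25,67496),(30,180480),(33,55632),(43,65240),(15,65184),(1,2312),(46,18048)])], .leaf 4 [(0,[(23,160),(24,32),(44,96),(15,64)]),(0,[(23,184),(30,152),(33,96),(44,72),(15,72)]),(164,[(44,21520),(15,32960),(1,128),(0,131)]),(98,[(25,4672),(30,85600),(33,91232),(44,30016),(15,34688),(9,331392),(1,128)]),(8,[(23,288),(43,2016),(15,832),(14,32),(8,336)])], .leaf 0 [(40,[(33,5888),(43,4240),(15,2304),(6,4096),(0,144)])], .leaf 0 [(246,[(25,3504),(31,2624),(35,864),(10,3456),(6,448),(1,48)])], .leaf 1 [(0,[(31,8),(35,8),(14,32)])]]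
noncomputable def a7 : TT := .leaf ⟨true,0,33,31,64,3,16367,[[],[0,-1023,-1023,0,16368,0,0,0,-13299,1023],[0,0,0,0,0,0,0,0,2046],[0,-1023,-1023,0,0,0,0,0,1023,1023],[0,0,0,0,0,0,0,0,1023],[],[],[],[0,-31,-31,0,496,0,0,0,-403,31],[0,0,0,0,0,0,0,0,66],[0,0,0,0,496]]⟩ [.leaf 0 [(0,[])], .leaf 0 [(283,[(25,6045),(43,5952),(15,5890),(14,21731),(9,55614),(6,31),(5,124),(1,155)])], .leaf 0 [(0,[])], .leaf 0 [(0,[(35,31)])], .leaf 0 [(0,[])], .leaf 0 [(0,[])], .leaf 0 [(0,[(4,961)])], .leaf 0 [(0,[]),(0,[]),(0,[]),(0,[]),(0,[]),(0,[])], .leaf 0 [(0,[(33,130944)])], .leaf 0 [(0,[])], .leaf 0 [(0,[(33,916608),(14,1702272),(9,11261184)])], .leaf 0 [(0,[])], .leaf 0 [(0,[])], .leaf 0 [(0,[])], .leaf 0 [(0,[])], .leaf 0 [(0,[])], .leaf 0 [(0,[])], .leaf 0 [(70,[(25,44684640),(43,43997184),(15,43538880),(14,160635552),(9,411098688),(6,229152),(5,916608),(1,1145760)])], .leaf 0 [(0,[(24,261888),(44,2095104),(15,1833216)])],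 .leaf 0 [(0,[])], .leaf 0 [(0,[(24,261888),(15,1833216)])], .leaf 0 [(0,[(25,17391),(42,206646),(9,627099),(6,48081),(1,3069)])], .leaf 0 [(0,[])], .leaf 0 [(0,[(15,196416),(9,1636800),(8,87296)])], .leaf 0 [(6,[(25,5952),(30,690432),(33,6761472),(9,72465600),(6,1833216),(5,1380864),(1,5952),(46,3666432)])], .leaf 0 [(0,[(24,621984),(15,425568)]),(0,[(24,752928),(15,294624)]),(0,[(34,491040),(9,1047552)]),(50,[(30,4975872),(33,10922912),(15,53381504),(14,288295040),(9,133039104),(6,13378112),(5,10039040),(1,43648),(46,26712576)]),(4,[(24,1407648),(25,349184),(15,3131744),(14,1287616),(10,1047552),(0,21824)])], .leaf 1 [(0,[(42,152768),(15,109120),(9,1636800),(8,87296)])], .leaf 0 [(0,[(35,8184),(14,16368)])], .leaf 0 [(0,[(42,21824),(13,240064),(9,1636800),(8,109120)])], .leaf 0 [(0,[(33,261888)])], .leaf 4 [(2094,[(19,3358451712),(25,195433920),(30,1702272000),(33,1099143936),(44,159489792),(15,3488348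16),(1,6088896),(0,35944128),(46,839612928)]),(12,[(19,30212352),(25,3220032),(30,7553088),(33,3470016),(42,1020768),(43,2368896),(15,2092128),(1,107136),(46,7553088)]),(28,[(19,7332864),(28,1669536),(30,15074928),(33,4861296),(36,114576),(15,6416256),(11,229152),(8,2520672),(4,229152),(46,15189504)]),(0,[(30,523776),(33,392832),(46,523776)]),(1420,[(19,13310719488),(25,814929984),(30,4331758464),(44,773093376),(15,1487131008),(9,3673633920),(1,100892352),(0,41836608),(46,3327679872)])], .leaf 0 [(86,[(28,1211232),(44,12472416),(15,26417952),(9,56960640),(8,5215936),(1,491040),(46,9689856)])], .leaf 0 [(50,[(35,3058088),(37,458304),(8,807488),(4,469216),(2,21824)])], .leaf 1 [(3,[(38,68541),(12,657789),(2,9207)])], .leaf 1 [(64,[(33,62503936),(43,4757632),(44,218240),(9,779684224),(6,19619776),(5,10388224),(1,218240),(46,34045440)])], .leaf 4 [(4,[(19,65472),(23,2455200),(36,65472),(44,2586144),(15,2455200),(0,6138),(46,16368)]),(0,[(23,851136),(30,327360),(33,98208),(44,196416),(15,196416)]),(16,[(32,6907296),(36,98208),(44,2422464),(15,3731904),(9,17350080),(5,261888)]),(0,[(23,523776),(33,1014816),(43,229152),(44,294624),(15,294624),(9,14207424)]),(0,[(23,752928),(30,229152),(33,98208),(44,294624),(15,294624)])],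 .leaf 0 [(0,[(33,261888),(9,1636800)])], .leaf 0 [(0,[(20,130944),(25,65472),(31,65472),(10,65472),(9,130944),(45,32736)])], .leaf 1 [(0,[(35,8184),(14,32736)])]]
noncomputable def a8 : TT := .leaf ⟨false,0,1,0,1,1,3,[[],[-1,-2,-1,0,4,0,0,1,-2,1],[],[-1,-2,-1,0,0,0,0,1,2,1],[],[],[],[],[],[],[]]⟩ [.leaf 0 [(0,[])], .leaf 0 [(0,[(28,1),(31,1),(7,4)])], .leaf 0 [(0,[])], .leaf 0 [(0,[])], .leaf 0 [(0,[(29,1),(33,1)])], .leaf 0 [(0,[])], .leaf 0 [(0,[(28,128),(31,128)])], .leaf 0 [(0,[])], .leaf 0 [(0,[(28,896),(31,896),(7,3584)])], .leaf 0 [(0,[])], .leaf 0 [(0,[])], .leaf 0 [(0,[])], .leaf 0 [(0,[])], .leaf 0 [(0,[])], .leaf 0 [(0,[])], .leaf 0 [(0,[(28,896),(31,896),(7,3584)])], .leaf 0 [(0,[(21,256),(22,256),(42,256)])], .leaf 0 [(0,[])], .leaf 0 [(0,[(22,256),(29,256),(13,256)])], .leaf 0 [(2,[(31,256),(40,256),(4,256),(0,16)])], .leaf 0 [(0,[])], .leaf 0 [(30,[(28,7864),(40,6048),(41,144),(13,1360),(6,2632),(1,8)])],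 .leaf 0 [(0,[(28,896),(31,896),(7,3584),(0,16),(44,128)])], .leaf 3 [(0,[(22,160),(29,32),(13,96)]),(2,[(34,288),(13,384),(7,576),(6,80)]),(0,[(22,32),(28,96),(13,224)]),(0,[(23,36),(28,992),(31,796),(42,36),(13,344),(7,3400),(6,4),(1,4)]),(0,[(22,32),(41,40),(13,224),(7,56),(4,56)])], .leaf 1 [(46,[(28,11408),(41,384),(13,11776),(9,112),(6,4112),(0,16)])], .leaf 0 [(0,[(29,8),(33,8),(7,32)])], .leaf 0 [(92,[(28,23592),(41,432),(13,23712),(6,8392),(1,24)])], .leaf 2 [(0,[(0,16),(44,128)])], .leaf 4 [(0,[(17,512),(44,128)]),(288,[(17,160704),(23,4464),(24,160),(28,78288),(31,61584),(13,8432),(7,92752),(6,992),(1,992),(44,41456)]),(0,[(26,16),(44,128)]),(0,[(44,128)]),(26,[(17,69120),(23,4608),(28,38016),(31,9344),(42,4608),(13,11264),(7,4608),(1,2048),(44,17280)])], .leaf 0 [(2,[(28,672),(41,48),(13,624),(9,96),(6,416)])], .leaf 0 [(2,[(29,24),(33,72),(10,208),(7,96),(6,16)])], .leaf 1 [(726,[(29,15144),(33,6840),(8,7024),(6,40996),(2,12000),(1,256)])],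 .leaf 1 [(0,[(28,896),(31,896),(7,3584),(0,16),(44,128)])], .leaf 4 [(0,[(21,160),(22,32),(42,96),(13,64)]),(0,[(21,32),(31,96),(42,224),(13,224)]),(38,[(18,3424),(41,6112),(13,3248),(1,80),(0,6),(43,856)]),(152,[(23,66240),(28,132192),(31,29728),(41,105408),(13,92608),(6,6336),(1,7360)]),(2,[(21,96),(41,672),(13,256),(11,32),(6,112)])], .leaf 0 [(2,[(31,224),(40,224),(13,48),(4,248),(0,17)])], .leaf 0 [(20,[(23,288),(29,224),(33,64),(8,304),(4,32),(1,16)])], .leaf 1 [(0,[(29,8),(33,8),(7,32)])]]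
noncomputable def a9 : TT := .leaf ⟨true,0,33,31,64,3,16367,[[],[0,-1023,-1023,0,16368,0,0,0,-13299,1023],[0,0,0,0,0,0,0,0,2046],[0,-1023,-1023,0,0,0,0,0,1023,1023],[0,0,0,0,0,0,0,0,1023],[],[],[],[0,-31,-31,0,496,0,0,0,-403,31],[0,0,0,0,0,0,0,0,66],[0,0,0,0,496]]⟩ [.leaf 0 [(0,[])], .leaf 0 [(16,[(23,279),(41,279),(13,403),(12,1488),(7,3472),(6,31),(1,31)])], .leaf 0 [(0,[])], .leaf 0 [(0,[(33,31)])], .leaf 0 [(0,[])], .leaf 0 [(0,[])], .leaf 0 [(0,[(2,961)])], .leaf 0 [(0,[]),(0,[]),(0,[]),(0,[]),(0,[]),(0,[])], .leaf 0 [(0,[(31,130944)])], .leaf 0 [(0,[])], .leaf 0 [(16,[(23,8249472),(41,8249472),(13,11915904),(12,41771136),(7,107112192),(6,916608),(1,916608)])], .leaf 0 [(0,[])], .leaf 0 [(0,[])], .leaf 0 [(0,[])], .leaf 0 [(0,[])], .leaf 0 [(0,[])], .leaf 0 [(0,[])], .leaf 0 [(16,[(23,8249472),(41,8249472),(13,11915904),(12,43997184),(7,102660096),(6,916608),(1,916608)])], .leaf 0 [(6,[(17,523776),(28,1833216),(42,13094400),(13,12046848),(0,49104),(44,130944)])],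 .leaf 0 [(0,[])], .leaf 0 [(0,[(22,261888),(13,1833216)])], .leaf 0 [(2,[(23,174592),(31,480128),(13,218240),(7,3339072),(1,21824)])], .leaf 0 [(0,[])], .leaf 0 [(0,[(13,196416),(12,305536),(7,1331264),(6,87296)])], .leaf 0 [(16,[(23,6416256),(40,13225344),(41,9755328),(7,104296896),(6,1702272),(4,4452096),(1,1702272),(44,8904192)])], .leaf 0 [(0,[(22,621984),(13,425568)]),(0,[(22,752928),(13,294624)]),(0,[(32,491040),(7,1047552)]),(8,[(13,11162976),(7,68287296),(6,403744),(4,2356992),(1,523776),(44,4713984)]),(0,[(22,425568),(23,65472),(29,65472),(40,556512),(8,130944),(7,392832)])], .leaf 1 [(0,[(13,261888),(7,1636800),(6,87296)])], .leaf 0 [(0,[(33,8184),(12,16368)])], .leaf 0 [(0,[(13,261888),(12,283712),(7,1353088),(6,109120)])], .leaf 0 [(0,[(31,261888)])], .leaf 4 [(178,[(17,311777664),(23,11441232),(28,132155232),(31,82838448),(42,9182448),(13,26712576),(6,1522224),(1,1522224),(0,2258784),(44,77944416)]),(2,[(17,7070976),(23,196416),(28,1767744),(31,1549504),(40,98208),(13,141856),(7,3928320),(1,43648),(44,1767744)]),(28,[(17,7332864),(26,1669536),(28,15074928),(31,4861296),(34,114576),(13,6416256),(9,229152),(6,2520672),(2,229152),(44,15189504)]),(0,[(28,523776),(31,392832),(44,523776)]),(2522,[(17,24765176832),(28,7588335744),(13,1865952000),(7,11660912384),(6,422905472),(2,7180096),(1,597235584),(0,59448576),(44,6191294208)])],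 .leaf 0 [(8,[(26,73656),(13,2095104),(10,152768),(9,515592),(7,11850432),(6,1560416),(1,65472),(44,589248)])], .leaf 0 [(0,[(33,73656),(7,21824),(6,21824),(2,10912)])], .leaf 0 [(0,[(18,785664),(23,261888),(28,2946240),(31,1366728),(13,458304),(1,130944),(0,130944),(43,196416)])], .leaf 1 [(6,[(23,3993792),(41,5368704),(13,4844928),(12,16826304),(7,32343168),(4,1833216),(1,851136),(44,3666432)])], .leaf 4 [(0,[(21,687456),(23,5456),(28,196416),(34,16368),(42,321904),(13,294624),(0,1364)]),(0,[(21,851136),(28,327360),(31,98208),(42,196416),(13,196416)]),(36,[(30,15631440),(42,5074080),(13,8118528),(7,37122624),(6,81840),(1,147312)]),(0,[(21,523776),(31,1014816),(41,229152),(42,294624),(13,294624),(7,14207424)]),(0,[(21,523776),(31,98208),(42,523776),(13,523776)])], .leaf 0 [(64,[(42,1767744),(13,16171584),(12,47663616),(6,654720),(4,4124736),(1,654720)])], .leaf 0 [(6,[(23,392832),(29,305536),(33,87296),(8,414656),(4,43648),(1,21824)])],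 .leaf 1 [(0,[(33,8184),(12,32736)])]]
noncomputable def a10 : TT := .leaf ⟨true,0,33,31,64,3,16367,[[],[0,-1023,-1023,0,16368,0,0,0,-13299,1023],[0,0,0,0,0,0,0,0,2046],[0,-1023,-1023,0,0,0,0,0,1023,1023],[0,0,0,0,0,0,0,0,1023],[],[],[],[0,-31,-31,0,496,0,0,0,-403,31],[0,0,0,0,0,0,0,0,66],[0,0,0,0,496]]⟩ [.leaf 0 [(0,[])], .leaf 0 [(0,[(27,31),(8,62),(3,372)])], .leaf 0 [(0,[])], .leaf 0 [(0,[(29,31)])], .leaf 0 [(0,[])], .leaf 0 [(0,[])], .leaf 0 [(0,[(6,15376)])], .leaf 0 [(0,[]),(0,[]),(0,[]),(0,[]),(0,[]),(0,[])], .leaf 0 [(0,[(27,130944)])], .leaf 0 [(0,[])], .leaf 0 [(0,[(27,916608),(3,12963456)])], .leaf 0 [(0,[])], .leaf 0 [(0,[])], .leaf 0 [(0,[])], .leaf 0 [(0,[])], .leaf 0 [(0,[])], .leaf 0 [(0,[])], .leaf 0 [(0,[(27,916608),(8,1833216),(3,10999296)])], .leaf 0 [(0,[(17,1571328),(18,261888),(24,1571328),(38,523776),(9,261888)])], .leaf 0 [(0,[])], .leaf 0 [(0,[(18,261888),(9,1833216)])], .leaf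 0 [(0,[(14,654720),(19,65472),(25,65472),(36,261888),(3,1113024),(39,163680)])], .leaf 0 [(0,[])], .leaf 0 [(0,[(36,152768),(9,43648),(3,1636800),(2,87296)])], .leaf 1 [(0,[(27,1178496),(8,2029632),(3,10606464)])], .leaf 1 [(0,[(18,621984),(9,425568)]),(0,[(18,752928),(9,294624)]),(0,[(28,491040),(3,1047552)]),(0,[(27,425568),(9,1047552),(8,4124736),(3,6416256)]),(0,[(18,425568),(19,65472),(25,65472),(9,556512),(8,392832),(4,130944)])], .leaf 1 [(0,[(36,43648),(7,218240),(3,1636800),(2,87296)])], .leaf 0 [(0,[(29,8184),(8,16368)])], .leaf 0 [(0,[(8,21824),(7,261888),(3,1614976),(2,109120)])], .leaf 0 [(0,[(27,261888)])], .split 4 4 (.leaf 4 [(0,[(19,35712),(20,452352),(21,11904),(25,916608),(31,23808),(10,369024),(1,416640),(41,95232)]),(292,[(20,139324416),(25,203879808),(28,17153664),(38,18201216),(10,139324416),(1,101939904),(0,27)]),(0,[(20,261888),(25,982080),(38,130944),(10,392832),(3,98208),(1,589248)]),(0,[(25,523776),(28,392832),(41,523776)]),(0,[(0,1)])])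 (.leaf 2 [(90,[(19,32277696),(20,32997888),(25,81185280),(10,31099200),(1,32997888),(0,1)]),(0,[(18,982080),(25,458304),(28,327360),(39,65472),(7,589248)]),(223,[(19,144300288),(20,14665728),(25,107374080),(10,85113600),(0,9)]),(223,[(15,10475520),(20,14665728),(25,107374080),(28,85113600),(5,14665728),(0,9),(41,114706944)]),(0,[(20,523776),(28,720192),(38,523776),(10,523776),(9,4975872),(4,5237760)])]), .leaf 0 [(0,[(32,32736),(9,229152),(6,174592),(5,98208),(3,1604064),(2,240064),(0,32736)])], .leaf 0 [(0,[(29,73656),(6,185504),(3,32736),(2,21824)])], .leaf 1 [(0,[(25,65472),(29,8184),(6,169136),(4,65472),(3,16368),(2,21824)])], .leaf 2 [(0,[(27,1178496),(3,14469312)])], .leaf 4 [(0,[(17,523776),(18,32736),(38,523776),(9,491040)]),(0,[(17,851136),(24,327360),(27,98208),(38,196416),(9,196416)]),(0,[(14,196416),(26,436480),(38,98208),(9,196416),(3,1167584),(0,10912),(39,49104)]),(4,[(27,4550304),(30,523776),(37,1669536),(38,1473120),(9,1473120),(3,69989568),(0,1047552)]),(0,[(17,752928),(24,229152),(27,98208),(38,294624),(9,294624)])],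 .leaf 0 [(0,[(14,523776),(9,261888),(8,916608),(3,196416),(39,130944)])], .leaf 0 [(0,[(14,130944),(19,65472),(25,65472),(8,130944),(4,65472),(39,32736)])], .leaf 1 [(0,[(29,8184),(3,32736)])]]
noncomputable def a11 : TT := .leaf ⟨false,0,1,0,1,1,3,[[],[-1,-2,-1,0,4,0,0,1,-2,1],[],[-1,-2,-1,0,0,0,0,1,2,1],[],[],[],[],[],[],[]]⟩ [.leaf 0 [(0,[])], .leaf 0 [(0,[(23,1),(26,1),(2,4)])], .leaf 0 [(0,[])], .leaf 0 [(0,[])], .leaf 0 [(0,[(24,1),(28,1)])], .leaf 0 [(0,[])], .leaf 0 [(0,[(23,128),(26,128)])], .leaf 0 [(0,[])], .leaf 0 [(0,[(23,896),(26,896),(2,3584)])], .leaf 0 [(0,[])], .leaf 0 [(0,[])], .leaf 0 [(0,[])], .leaf 0 [(0,[])], .leaf 0 [(0,[])], .leaf 0 [(0,[])], .leaf 0 [(0,[(23,896),(26,896),(2,3584)])], .leaf 0 [(0,[(16,256),(17,256),(37,256)])], .leaf 0 [(0,[])], .leaf 0 [(0,[(17,256),(24,256),(8,256)])], .leaf 0 [(12,[(13,4096),(18,512),(23,2816),(26,1792),(8,1536),(7,3072),(38,1024)])], .leaf 0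 [(0,[])], .leaf 0 [(2,[(23,768),(8,720),(7,48),(1,256)])], .leaf 0 [(26,[(13,16960),(18,784),(23,30320),(26,30320),(37,352),(8,1136),(2,107888),(0,2272),(38,784)])], .leaf 3 [(0,[(17,160),(24,32),(8,96)]),(2,[(29,288),(8,384),(2,576),(1,80)]),(0,[(17,32),(23,96),(8,224)]),(24,[(13,4096),(23,24800),(26,19552),(8,8448),(2,88704),(0,896),(38,1024)]),(0,[(18,32),(23,96),(35,48),(8,176),(7,192),(3,48)])], .leaf 1 [(2,[(23,768),(8,768),(2,48),(1,256)])], .leaf 0 [(0,[(24,8),(28,8),(7,32)])], .leaf 0 [(2,[(23,768),(8,768),(2,48),(1,272)])], .leaf 2 [(26,[(13,16960),(18,784),(23,6128),(26,6128),(37,352),(8,1136),(2,11120),(0,2272),(38,784)])], .leaf 4 [(0,[(12,512),(39,128)]),(0,[(18,128),(23,128),(26,128),(36,112),(8,128),(2,16),(0,18)]),(0,[(21,16),(39,128)]),(0,[(39,128)]),(0,[(18,128),(23,768),(26,768),(35,88),(36,128),(8,40),(2,3072),(0,80)])], .leaf 0 [(2,[(23,720),(35,569),(8,151),(3,48),(1,272),(0,30)])],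 .leaf 0 [(2,[(24,24),(28,72),(5,208),(2,96),(1,16)])], .leaf 1 [(2,[(24,72),(28,24),(5,208),(3,48),(2,96),(1,16)])], .leaf 1 [(26,[(13,16960),(18,784),(23,30320),(26,30320),(37,352),(8,1136),(2,107888),(0,2272),(38,784)])], .leaf 4 [(0,[(16,160),(17,32),(37,96),(8,64)]),(0,[(16,184),(23,152),(26,96),(37,72),(8,72)]),(6,[(13,1024),(26,64),(29,96),(8,512),(2,1792),(38,256)]),(26,[(13,4096),(18,1024),(23,22304),(26,25760),(37,7936),(8,8960),(2,96128),(0,640),(38,1024)]),(2,[(16,96),(36,672),(8,272),(2,16),(1,112)])], .leaf 0 [(6,[(13,1984),(23,1792),(26,800),(8,992),(7,1712),(38,496)])], .leaf 0 [(0,[(13,32),(18,16),(24,16),(7,32),(3,16),(38,8)])], .leaf 1 [(0,[(24,8),(28,8),(2,32)])]]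
noncomputable def t0 : TT := (.split [0,0,0,8,-1,0,0,0,0,0] (.split [-2,-2,0,2,2,0,0,1,0,0] (.split [2,3,6,-5,-16,-5,0,2,10,-1] a0 (.split [0,0,0,0,16,-16,0,0,1,0] (.split [15,11,14,-18,-64,-18,0,3,43,5] a1 (.split [-32,-48,-32,24,48,16,0,15,0,16] a2 a3)) (.split [9,14,23,-18,-64,-18,0,9,39,-4] (.split [21,10,31,-64,-43,-43,0,21,23,11] a4 (.split [37,54,91,-73,-256,-73,0,37,155,-18] a5 (.split [-32,-48,-32,24,48,16,0,15,0,16] a6 a7))) (.split [-32,-48,-32,24,48,16,0,15,0,16] a8 a9)))) a10) a11)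
theorem c0 : chkT (fsm (-1) ([0,3,3,0,-4,-4,0,0,0,0] : Fm) :: fsm (-1) ([0,0,0,0,-1,0,0,0,1,0] : Fm) :: ([-1,0,0,4,0,0,0,0,0,0] : Fm) :: ([-1,4,4,0,0,0,0,0,0,0] : Fm) :: ([0,0,0,0,-1,1,0,0,0,0] : Fm) :: ([0,0,0,0,0,0,0,0,-1,1] : Fm) :: fsm (-1) ([0,0,0,0,-2,0,0,0,1,0] : Fm) :: ([0,0,0,0,-1,-1,0,0,-1,1] : Fm) :: K2O12.C0) t0 = true := by decide +kernel
end K2O12M01000011

namespace K2O12M010001
noncomputable def a0 : TT := .leaf ⟨false,0,1,0,1,1,7,[[],[0,-1,-1,0,10,2,0,0,-1,-1],[],[0,1,1,0,-2,-2,0,0,1,1],[],[],[],[],[],[],[]]⟩ [.leaf 0 [(0,[])], .leaf 0 [(3,[(10,16),(25,4),(4,8),(0,7),(35,4)])], .leaf 0 [(0,[])], .leaf 0 [(0,[])], .leaf 0 [(0,[(14,1),(5,1)])], .leaf 0 [(0,[])], .leaf 0 [(0,[(14,128),(5,128)])], .leaf 0 [(0,[])], .leaf 0 [(0,[(10,3584),(25,896),(4,1792),(0,1568),(35,896)])], .leaf 0 [(0,[])], .leaf 0 [(0,[])], .leaf 0 [(0,[])], .leaf 0 [(0,[])], .leaf 0 [(0,[])], .leaf 0 [(0,[])], .leaf 0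 [(0,[(10,3584),(25,896),(4,1792),(0,1568),(35,896)])], .leaf 0 [(0,[(34,1024),(5,1024)])], .leaf 0 [(0,[(10,1024),(25,256),(0,448),(35,256)])], .leaf 0 [(0,[(5,1024)])], .leaf 0 [(0,[(10,128),(14,32),(15,32),(21,32),(4,32),(35,32)])], .leaf 0 [(0,[(14,256),(5,256)])], .leaf 0 [(0,[(10,64),(25,32),(4,32),(0,28),(35,16)])], .leaf 0 [(0,[(10,6016),(14,672),(15,32),(21,32),(25,896),(4,1824),(0,2432),(35,1248)])], .leaf 0 [(0,[(14,160),(5,160)]),(0,[(14,288),(5,288)]),(0,[]),(0,[(10,6016),(14,736),(15,32),(21,32),(25,864),(4,1760),(0,2432),(35,1248)]),(0,[(14,32),(5,32)])], .leaf 1 [(0,[(4,32)])], .leaf 0 [(0,[(4,32)])], .leaf 0 [(0,[(10,96),(25,8),(4,16),(0,42),(35,24)])], .leaf 2 [(0,[(10,6016),(14,2464),(15,32),(21,32),(4,32),(0,2432),(35,1248)])], .leaf 4 [(0,[(14,256),(20,256),(5,256),(0,192)]),(0,[(15,256),(20,128),(32,256),(0,128)]),(0,[(2,512),(0,192)]),(0,[(10,512),(20,256),(5,256),(0,224),(36,128)]),(2,[(10,7680),(15,448),(20,320),(25,1472),(34,448),(4,4480),(0,4480),(35,1920)])],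 .leaf 0 [(0,[(10,640),(21,32),(4,32),(0,288),(35,160)])], .leaf 0 [(0,[(10,64),(25,32),(4,32),(2,128),(35,16)])], .leaf 1 [(0,[(10,64),(21,32),(4,32),(2,128),(35,16)])], .leaf 1 [(0,[(10,6016),(14,672),(15,32),(21,32),(25,896),(4,1824),(0,2432),(35,1248)])], .leaf 4 [(0,[(13,256),(23,96),(34,256),(5,64)]),(0,[(13,512),(14,32),(20,256),(5,32)]),(2,[(10,1280),(23,32),(34,704),(35,320)]),(0,[(10,3456),(21,256),(25,608),(34,512),(4,1728),(0,1512),(35,864)]),(0,[(10,480),(26,16),(34,240),(0,278),(35,120)])], .leaf 0 [(0,[(4,32)])], .leaf 0 [(0,[(10,128),(14,16),(15,32),(21,32),(25,8),(4,48),(35,32)])], .leaf 1 [(0,[(4,32)])]]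
noncomputable def t0 : TT := a0
theorem c0 : chkT (fsm (-1) ([-1,0,0,4,0,0,0,0,0,0] : Fm) :: ([-1,4,4,0,0,0,0,0,0,0] : Fm) :: ([0,0,0,0,-1,1,0,0,0,0] : Fm) :: ([0,0,0,0,0,0,0,0,-1,1] : Fm) :: fsm (-1) ([0,0,0,0,-2,0,0,0,1,0] : Fm) :: ([0,0,0,0,-1,-1,0,0,-1,1] : Fm) :: K2O12.C0) t0 = true := by decide +kernel
end K2O12M010001

namespace K2O12M01001
noncomputable def a0 : TT := .leaf ⟨false,0,1,0,1,1,3,[[],[0,0,0,0,4,0,0,0,-1],[],[0,0,0,0,0,0,0,0,2],[],[],[],[],[],[],[]]⟩ [.leaf 0 [(0,[])], .leaf 0 [(0,[(3,1)])], .leaf 0 [(0,[])], .leaf 0 [(0,[])], .leaf 0 [(0,[])], .leaf 0 [(0,[])], .leaf 0 [(0,[])], .leaf 0 [(0,[])], .leaf 0 [(0,[(3,896)])], .leaf 0 [(0,[])], .leaf 0 [(0,[])], .leaf 0 [(0,[])], .leaf 0 [(0,[])], .leaf 0 [(0,[])], .leaf 0 [(0,[])], .leaf 0 [(0,[(3,896)])], .leaf 0 [(0,[(33,512),(4,512)])], .leaf 0 [(0,[])], .leaf 0 [(0,[(4,512)])], .leaf 0 [(0,[(9,40),(13,20),(20,16),(0,4),(34,10)])], .leaf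 0 [(0,[])], .leaf 0 [(0,[(16,16),(24,16)])], .leaf 1 [(0,[(3,784)])], .leaf 3 [(0,[(13,128),(4,128)]),(0,[(3,128),(2,32)]),(0,[(13,128),(4,128)]),(0,[(13,128),(31,128),(3,928)]),(0,[(9,40),(13,148),(4,128),(3,32),(0,4),(34,10)])], .leaf 1 [(0,[])], .leaf 0 [(0,[(3,20)])], .leaf 0 [(0,[(16,16)])], .leaf 0 [(0,[])], .split 2 3 (.leaf 2 [(0,[(9,256),(14,80),(15,48),(20,80),(34,48),(5,176),(1,32),(36,64)]),(2,[(9,800),(20,216),(34,168),(5,504),(2,248),(1,46),(36,200)]),(0,[(14,192),(5,128),(2,64),(1,48)]),(0,[(0,1)]),(0,[(15,128),(32,128),(33,128),(4,1120)])]) (.leaf 0 [(2,[(9,512),(14,128),(34,384),(5,768),(1,96),(36,128)]),(10,[(13,640),(18,32),(34,1408),(5,2640),(2,432),(1,288),(36,256)]),(0,[(14,256),(5,128),(1,64)]),(92,[(9,11136),(14,28368),(20,11088),(34,7648),(5,27360),(2,29840),(1,9616),(0,61),(36,10592)]),(0,[(15,128),(33,128),(5,128),(4,1120)])]), .leaf 1 [(0,[(9,16),(13,24),(24,16),(0,8),(34,4)])],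 .leaf 0 [(0,[(9,32),(24,16),(3,20),(1,72),(34,8)])], .leaf 0 [(0,[(9,48),(13,40),(0,8),(34,12)])], .leaf 2 [(0,[(3,784)])], .leaf 4 [(0,[(12,176),(19,48),(33,80),(4,80)]),(0,[(12,256),(19,128)]),(0,[(21,112),(3,48)]),(2,[(15,16),(32,384),(3,2784),(0,64),(35,128)]),(4,[(12,544),(15,4),(32,640),(3,160),(0,36),(35,32)])], .leaf 0 [(0,[])], .leaf 0 [(0,[(9,40),(13,20),(20,16),(3,28),(0,4),(34,10)])], .leaf 1 [(0,[(3,20)])]]
noncomputable def t0 : TT := a0
theorem c0 : chkT (fsm (-1) ([-1,4,4,0,0,0,0,0,0,0] : Fm) :: ([0,0,0,0,-1,1,0,0,0,0] : Fm) :: ([0,0,0,0,0,0,0,0,-1,1] : Fm) :: fsm (-1) ([0,0,0,0,-2,0,0,0,1,0] : Fm) :: ([0,0,0,0,-1,-1,0,0,-1,1] : Fm) :: K2O12.C0) t0 = true := by decide +kernel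
end K2O12M01001

namespace K2O12M0100000
theorem top : ∃ t, chkT (([0,0,0,0,-1,0,0,0,1,0] : Fm) :: ([-1,0,0,4,0,0,0,0,0,0] : Fm) :: ([-1,4,4,0,0,0,0,0,0,0] : Fm) :: ([0,0,0,0,-1,1,0,0,0,0] : Fm) :: ([0,0,0,0,0,0,0,0,-1,1] : Fm) :: fsm (-1) ([0,0,0,0,-2,0,0,0,1,0] : Fm) :: ([0,0,0,0,-1,-1,0,0,-1,1] : Fm) :: K2O12.C0) t = true := ⟨_, c0⟩
end K2O12M0100000
namespace K2O12M010000100
theorem top : ∃ t, chkT (([0,0,0,0,33,-31,0,0,0,0] : Fm) :: ([0,3,3,0,-4,-4,0,0,0,0] : Fm) :: fsm (-1) ([0,0,0,0,-1,0,0,0,1,0] : Fm) :: ([-1,0,0,4,0,0,0,0,0,0] : Fm) :: ([-1,4,4,0,0,0,0,0,0,0] : Fm) :: ([0,0,0,0,-1,1,0,0,0,0] : Fm) :: ([0,0,0,0,0,0,0,0,-1,1] : Fm) :: fsm (-1) ([0,0,0,0,-2,0,0,0,1,0] : Fm) :: ([0,0,0,0,-1,-1,0,0,-1,1] : Fm) :: K2O12.C0) t = true := ⟨_, c0⟩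
end K2O12M010000100
namespace K2O12M010000101000
theorem top : ∃ t, chkT (([0,0,0,0,0,0,0,1,0,-2] : Fm) :: ([0,0,0,0,8,-1,0,0,0,0] : Fm) :: ([0,0,0,0,-2,-2,0,0,1,2] : Fm) :: fsm (-1) ([0,0,0,0,33,-31,0,0,0,0] : Fm) :: ([0,3,3,0,-4,-4,0,0,0,0] : Fm) :: fsm (-1) ([0,0,0,0,-1,0,0,0,1,0] : Fm) :: ([-1,0,0,4,0,0,0,0,0,0] : Fm) :: ([-1,4,4,0,0,0,0,0,0,0] : Fm) :: ([0,0,0,0,-1,1,0,0,0,0] : Fm) :: ([0,0,0,0,0,0,0,0,-1,1] : Fm) :: fsm (-1) ([0,0,0,0,-2,0,0,0,1,0] : Fm) :: ([0,0,0,0,-1,-1,0,0,-1,1] : Fm) :: K2O12.C0) t = true := ⟨_, c0⟩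
end K2O12M010000101000
namespace K2O12M010000101001
theorem top : ∃ t, chkT (fsm (-1) ([0,0,0,0,0,0,0,1,0,-2] : Fm) :: ([0,0,0,0,8,-1,0,0,0,0] : Fm) :: ([0,0,0,0,-2,-2,0,0,1,2] : Fm) :: fsm (-1) ([0,0,0,0,33,-31,0,0,0,0] : Fm) :: ([0,3,3,0,-4,-4,0,0,0,0] : Fm) :: fsm (-1) ([0,0,0,0,-1,0,0,0,1,0] : Fm) :: ([-1,0,0,4,0,0,0,0,0,0] : Fm) :: ([-1,4,4,0,0,0,0,0,0,0] : Fm) :: ([0,0,0,0,-1,1,0,0,0,0] : Fm) :: ([0,0,0,0,0,0,0,0,-1,1] : Fm) :: fsm (-1) ([0,0,0,0,-2,0,0,0,1,0] : Fm) :: ([0,0,0,0,-1,-1,0,0,-1,1] : Fm) :: K2O12.C0) t = true := ⟨_, c0⟩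
end K2O12M010000101001
namespace K2O12M01000010101
theorem top : ∃ t, chkT (fsm (-1) ([0,0,0,0,8,-1,0,0,0,0] : Fm) :: ([0,0,0,0,-2,-2,0,0,1,2] : Fm) :: fsm (-1) ([0,0,0,0,33,-31,0,0,0,0] : Fm) :: ([0,3,3,0,-4,-4,0,0,0,0] : Fm) :: fsm (-1) ([0,0,0,0,-1,0,0,0,1,0] : Fm) :: ([-1,0,0,4,0,0,0,0,0,0] : Fm) :: ([-1,4,4,0,0,0,0,0,0,0] : Fm) :: ([0,0,0,0,-1,1,0,0,0,0] : Fm) :: ([0,0,0,0,0,0,0,0,-1,1] : Fm) :: fsm (-1) ([0,0,0,0,-2,0,0,0,1,0] : Fm) :: ([0,0,0,0,-1,-1,0,0,-1,1] : Fm) :: K2O12.C0) t = true := ⟨_, c0⟩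
end K2O12M01000010101
namespace K2O12M0100001011
theorem top : ∃ t, chkT (fsm (-1) ([0,0,0,0,-2,-2,0,0,1,2] : Fm) :: fsm (-1) ([0,0,0,0,33,-31,0,0,0,0] : Fm) :: ([0,3,3,0,-4,-4,0,0,0,0] : Fm) :: fsm (-1) ([0,0,0,0,-1,0,0,0,1,0] : Fm) :: ([-1,0,0,4,0,0,0,0,0,0] : Fm) :: ([-1,4,4,0,0,0,0,0,0,0] : Fm) :: ([0,0,0,0,-1,1,0,0,0,0] : Fm) :: ([0,0,0,0,0,0,0,0,-1,1] : Fm) :: fsm (-1) ([0,0,0,0,-2,0,0,0,1,0] : Fm) :: ([0,0,0,0,-1,-1,0,0,-1,1] : Fm) :: K2O12.C0) t = true := ⟨_, c0⟩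
end K2O12M0100001011
namespace K2O12M01000011
theorem top : ∃ t, chkT (fsm (-1) ([0,3,3,0,-4,-4,0,0,0,0] : Fm) :: fsm (-1) ([0,0,0,0,-1,0,0,0,1,0] : Fm) :: ([-1,0,0,4,0,0,0,0,0,0] : Fm) :: ([-1,4,4,0,0,0,0,0,0,0] : Fm) :: ([0,0,0,0,-1,1,0,0,0,0] : Fm) :: ([0,0,0,0,0,0,0,0,-1,1] : Fm) :: fsm (-1) ([0,0,0,0,-2,0,0,0,1,0] : Fm) :: ([0,0,0,0,-1,-1,0,0,-1,1] : Fm) :: K2O12.C0) t = true := ⟨_, c0⟩
end K2O12M01000011
namespace K2O12M010001
theorem top : ∃ t, chkT (fsm (-1) ([-1,0,0,4,0,0,0,0,0,0] : Fm) :: ([-1,4,4,0,0,0,0,0,0,0] : Fm) :: ([0,0,0,0,-1,1,0,0,0,0] : Fm) :: ([0,0,0,0,0,0,0,0,-1,1] : Fm) :: fsm (-1) ([0,0,0,0,-2,0,0,0,1,0] : Fm) :: ([0,0,0,0,-1,-1,0,0,-1,1] : Fm) :: K2O12.C0) t = true := ⟨_, c0⟩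
end K2O12M010001
namespace K2O12M01001
theorem top : ∃ t, chkT (fsm (-1) ([-1,4,4,0,0,0,0,0,0,0] : Fm) :: ([0,0,0,0,-1,1,0,0,0,0] : Fm) :: ([0,0,0,0,0,0,0,0,-1,1] : Fm) :: fsm (-1) ([0,0,0,0,-2,0,0,0,1,0] : Fm) :: ([0,0,0,0,-1,-1,0,0,-1,1] : Fm) :: K2O12.C0) t = true := ⟨_, c0⟩
end K2O12M01001
def K2O12P0100 := (splE (splE (splE K2O12M0100000.top (splE (splE K2O12M010000100.top (splE (splE (splE K2O12M010000101000.top K2O12M010000101001.top) K2O12M01000010101.top) K2O12M0100001011.top)) K2O12M01000011.top)) K2O12M010001.top) K2O12M01001.top)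

end Vale.Agent.P235
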