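import Vale.Agent.P235.T.K2O12C

namespace Vale.Agent.P235

set_option maxRecDepth 100000

namespace K2O12M01010
noncomputable def a0 : TT := .leaf ⟨false,0,1,0,1,3,2047,[[],[12,20,9,0,1835,-224,0,-11,-71,-9],[],[12,35,24,0,-107,542,0,-12,117,-10],[],[],[],[],[],[],[]]⟩ [.leaf 0 [(0,[])], .leaf 0 [(0,[(24,11),(28,9),(7,91),(5,224)])], .leaf 0 [(0,[])], .leaf 0 [(0,[])], .leaf 0 [(31,[(20,213),(23,352),(26,203),(4,32)])], .leaf 0 [(0,[])], .leaf 0 [(0,[(17,1664),(24,1536),(28,1280),(3,12032)])], .leaf 0 [(0,[])], .leaf 0 [(0,[(24,9856),(28,8064),(7,81536),(5,200704)])], .leaf 0 [(0,[])], .leaf 0 [(0,[])], .leaf 0 [(0,[])], .leaf 0 [(0,[])], .leaf 0 [(0,[])], .leaf 0 [(0,[])], .leaf 0 [(0,[(24,9856),(28,8064),(7,81536),(5,200704)])], .leaf 0 [(0,[(12,512),(23,3072),(26,4224),(29,256),(37,261760),(8,259712),(5,42496),(3,3712),(39,128)])], .leaf 0 [(0,[(20,1792),(26,128),(5,155392),(3,226304)])],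 .leaf 0 [(0,[(23,2880),(26,4672),(29,64),(8,259840),(5,43008),(4,128),(3,4352)])], .leaf 0 [(0,[(13,16128),(24,11136),(28,2432),(7,7680),(38,4032)])], .leaf 0 [(0,[(24,128),(28,128),(4,128)])], .leaf 0 [(0,[(20,8192),(28,8192),(1,128)])], .leaf 1 [(0,[(18,1024),(24,12800),(28,11264),(7,89984),(5,158976)])], .leaf 1 [(0,[(17,63232),(23,1152),(8,66496),(5,53376),(3,44448)]),(0,[(17,59104),(29,2560),(8,65088),(5,30240),(4,128)]),(0,[(31,256)]),(0,[(17,72448),(24,10112),(35,57280),(5,282752)]),(0,[(24,8448),(8,65344),(5,146432),(4,8064)])], .leaf 1 [(0,[(24,2944),(28,2432),(7,7680)])], .leaf 0 [(0,[(20,146),(23,90),(29,2),(7,8466),(4,4)])], .leaf 0 [(6,[(13,496),(18,868),(20,45812),(24,20580),(28,16996),(7,1624),(38,124)])], .leaf 0 [(0,[(1,128)])], .leaf 2 [(354,[(12,22806528),(16,9064448),(18,17539072),(23,8843264),(37,9310208),(8,26554368),(5,8159232),(3,16580608),(0,3168),(39,5701632)]),(2,[(16,101008),(18,88208),(21,32),(26,117360),(37,203232),(8,263376),(3,132768),(39,256)]),(4260,[(18,33161216),(30,243924992),(8,519831552),(5,130547712),(3,311820288),(0,5280)]),(0,[(0,32),(39,65536)]),(0,[(12,25280),(18,57792),(36,54320),(8,59296),(5,232576),(39,6320)])],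 .leaf 1 [(0,[(13,13056),(24,2944),(28,10624),(7,7680),(38,3264)])], .leaf 0 [(426,[(13,7861248),(28,2100224),(30,732160),(37,33280),(7,1610496),(1,31572),(38,1965312)])], .leaf 0 [(0,[(13,16136),(24,2852),(28,2356),(38,4034)])], .leaf 2 [(0,[(24,12800),(28,10496),(7,89216),(5,160000)])], .leaf 4 [(0,[(16,65168),(26,1232),(29,16),(37,65904),(8,65008),(5,42752),(3,43616)]),(1658,[(16,215751344),(23,106688976),(37,1811824),(8,1622640),(4,132704),(1,71072)]),(2146,[(37,1919680),(5,153251712),(0,96)]),(0,[(16,69472),(18,7968),(36,44768),(37,8864),(5,272128)]),(0,[(16,66688),(26,192),(37,64384),(8,63392),(5,71520),(3,99744)])], .leaf 0 [(0,[(24,2944),(28,2432),(7,7680)])], .leaf 0 [(0,[(13,16488),(18,56),(24,8184),(31,4),(7,8936),(5,11252),(38,4122)])], .leaf 1 [(0,[(13,440),(7,8376),(5,1492),(38,110)])]]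
noncomputable def a1 : TT := .leaf ⟨false,1,1,0,2,2,7,[[0,0,0,0,1],[0,0,0,0,5,0,0,0,-1],[],[0,0,0,0,0,-1,0,0,2],[],[],[],[],[],[],[]]⟩ [.leaf 0 [(0,[])], .leaf 0 [(0,[(7,1)])], .leaf 0 [(0,[])], .leaf 0 [(89,[(13,500),(18,92),(37,103),(8,177),(5,1997),(3,290),(2,5),(1,6),(38,125)])], .leaf 0 [(0,[(3,2)])], .leaf 0 [(0,[])], .leaf 0 [(0,[(5,128),(3,128)])], .leaf 0 [(0,[])], .leaf 0 [(0,[(7,896)])], .leaf 0 [(0,[])], .leaf 0 [(0,[])], .leaf 0 [(0,[])], .leaf 0 [(0,[])], .leaf 0 [(0,[])], .leaf 0 [(0,[])], .leaf 0 [(0,[(7,896)])], .leaf 0 [(0,[(16,192),(18,256),(23,192),(29,256),(37,576),(8,320)])], .leaf 0 [(0,[(3,512)])], .leaf 0 [(0,[(8,896)])], .leaf 0 [(0,[(13,64),(24,32),(5,160),(38,16)])], .leaf 0 [(0,[(5,128)])], .leaf 0 [(2102,[(13,228992),(23,224704),(26,342560),(37,73056),(7,320160),(0,160),(38,57248)])], .leaf 1 [(0,[(7,800),(5,128)])], .leaf 1 [(0,[(17,256),(8,256),(3,96)]),(0,[(17,256),(8,160)]),(0,[(8,64)]),(0,[(17,160),(8,256),(7,736)]),(0,[(17,96),(35,192)])],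 .leaf 0 [(2102,[(13,228992),(18,56768),(23,281472),(26,285792),(37,16288),(5,563136),(0,160),(38,57248)])], .leaf 0 [(0,[(7,36)])], .leaf 0 [(29138,[(13,973216),(18,241264),(20,646440),(23,1196256),(26,1500624),(37,69224),(0,680),(38,243304)])], .leaf 0 [(0,[(5,128)])], .leaf 2 [(0,[(18,256),(36,16),(37,240),(8,496)]),(0,[(16,128),(18,256),(23,128),(37,128),(8,224)]),(2,[(17,1024),(18,32),(8,256),(3,32),(2,64)]),(0,[(7,64),(2,32),(39,256)]),(0,[(18,256),(35,256),(36,256),(7,864)])], .leaf 1 [(0,[(13,64),(28,32),(5,192),(38,16)])], .leaf 0 [(20,[(13,9568),(37,368),(1,16),(38,2392)])], .leaf 0 [(0,[(13,64),(5,188),(38,16)])], .leaf 2 [(0,[(7,800),(5,128)])], .leaf 1 [(0,[(16,416),(23,160),(37,96),(8,96)]),(0,[(25,64)]),(0,[(16,256),(36,256)]),(5650,[(13,3623168),(23,3501952),(26,4997856),(37,1158336),(7,14176480),(5,1274208),(0,1824),(39,540864)]),(0,[(16,288),(23,32),(37,224),(8,224)])],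 .leaf 0 [(0,[(5,128)])], .leaf 0 [(0,[(13,64),(24,32),(7,44),(5,28),(38,16)])], .leaf 1 [(0,[(7,36)])]]
noncomputable def a2 : TT := .leaf ⟨false,0,1,0,1,1,127,[[],[0,0,1,0,96,32,0,0,-34],[],[0,0,-1,0,-64,47,0,0,64,2],[],[],[],[],[],[],[]]⟩ [.leaf 0 [(0,[])], .leaf 0 [(0,[(9,34)])], .leaf 0 [(0,[])], .leaf 0 [(0,[])], .leaf 0 [(540,[(26,1104),(30,880),(3,48),(2,32)])], .leaf 0 [(0,[])], .leaf 0 [(216,[(15,16384),(26,896),(28,19584),(5,1757184),(0,896),(40,4096)])], .leaf 0 [(0,[])], .leaf 0 [(0,[(9,30464)])], .leaf 0 [(0,[])], .leaf 0 [(0,[])], .leaf 0 [(0,[])], .leaf 0 [(0,[])], .leaf 0 [(0,[])], .leaf 0 [(0,[])], .leaf 0 [(0,[(9,30464)])], .leaf 0 [(64,[(39,1064960),(10,1058688),(2,10368)])], .leaf 0 [(138,[(15,64),(26,278048),(30,278576),(39,112),(3,80),(1,34512),(40,16)])], .leaf 0 [(64,[(10,1058688),(2,10368)])], .leaf 0 [(0,[(15,1024),(26,512),(40,256)])], .leaf 0 [(0,[(28,256),(5,4096)])],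 .leaf 0 [(66,[(15,1024),(26,31232),(30,39680),(39,1792),(5,135680),(3,1280),(40,256)])], .leaf 1 [(0,[(37,256),(9,26880)])], .leaf 3 [(82,[(19,360848),(20,528),(26,8160),(33,3984),(10,315328),(3,528)]),(0,[(10,3968),(9,1472)]),(0,[(19,4064),(10,4224),(5,5024)]),(0,[(10,3968),(9,31936)]),(10,[(19,16992),(37,43744),(9,16384),(6,5632),(2,96)])], .leaf 1 [(0,[])], .leaf 0 [(66,[(15,32),(26,976),(30,1240),(39,56),(9,45280),(3,40),(40,8)])], .leaf 0 [(58,[(26,88968),(30,62720),(3,440),(1,9856)])], .leaf 1 [(82,[(15,128),(20,1664),(26,37568),(30,52256),(5,182336),(3,1632),(40,32)])], .split 4 4 (.leaf 4 [(2014,[(15,321408),(21,8092736),(39,1188528),(40,6801264),(11,6520752),(3,160704),(1,263648),(42,80352)]),(30,[(21,126976),(40,106496),(1,4608)]),(30,[(21,111104),(39,59520),(40,62848),(1,4608)]),(62,[(11,19008),(5,704),(3,1152),(2,31552),(1,176),(42,258048)]),(0,[(0,1)])]) (.leaf 2 [(1188765,[(15,2360876288),(20,256102016),(21,4343941216),(33,67805472),(40,4296790496),(11,8602419968),(4,26118912),(0,23473),(42,590219072)]),(0,[(21,4096),(39,2208),(40,1888),(11,5280)]),(1188765,[(20,1415082240),(21,660168320),(33,3786679040),(11,8052993792),(4,25728768),(0,28785)]),(11941,[(16,15470592),(21,6114304),(33,1746944),(11,12821376),(10,30622592),(8,24913408),(2,5630848),(0,975),(42,45046784)]),(0,[(21,4096),(39,4096),(10,41792)])]),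 .leaf 1 [(0,[(15,512),(30,256),(40,128)])], .leaf 2 [(2572,[(18,1767744),(19,2651616),(39,29426368),(10,16279072),(5,4591296),(3,80352),(0,342560)])], .leaf 0 [(0,[(15,1024),(40,256)])], .leaf 2 [(0,[(37,256),(9,26880)])], .leaf 4 [(0,[(14,192),(18,4000),(39,4048),(10,3920),(7,2016),(41,48)]),(998,[(18,4750592),(19,626720),(39,3496960),(5,6667744),(4,82336),(0,18592)]),(0,[(32,128),(38,3968),(9,1472)]),(0,[(18,4096),(38,3968),(39,128),(9,31936)]),(30,[(18,120032),(28,8928),(38,106688),(39,20064),(9,70880),(0,224)])], .leaf 0 [(0,[])], .leaf 0 [(0,[(15,1040),(26,512),(30,8),(9,912),(7,580),(40,260)])], .leaf 1 [(0,[(15,16),(30,8),(9,640),(7,324),(40,4)])]]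
noncomputable def a3 : TT := .leaf ⟨false,0,1,0,1,1,127,[[],[0,0,1,0,96,32,0,0,-34],[],[0,0,-1,0,-64,47,0,0,64,2],[],[],[],[],[],[],[]]⟩ [.leaf 0 [(0,[])], .leaf 0 [(0,[(9,34)])], .leaf 0 [(0,[])], .leaf 0 [(0,[])], .leaf 0 [(540,[(26,1104),(30,880),(3,48),(2,32)])], .leaf 0 [(0,[])], .leaf 0 [(0,[(28,128),(10,128),(5,8064)])], .leaf 0 [(0,[])], .leaf 0 [(0,[(9,30464)])], .leaf 0 [(0,[])], .leaf 0 [(0,[])], .leaf 0 [(0,[])], .leaf 0 [(0,[])], .leaf 0 [(0,[])], .leaf 0 [(0,[])], .leaf 0 [(0,[(9,30464)])], .leaf 0 [(64,[(14,20736),(31,10368),(39,1049408),(10,1032768),(2,10368),(41,5184)])], .leaf 0 [(108,[(26,47616),(30,61504),(39,2048),(5,190464),(3,1984),(0,64)])], .leaf 0 [(64,[(10,1058688),(2,10368)])], .leaf 0 [(0,[(15,1024),(26,512),(40,256)])], .leaf 0 [(0,[(28,256),(5,4096)])], .leaf 0 [(176,[(26,258816),(30,270336),(3,1280),(1,28672)])], .leaf 1 [(0,[(37,256),(9,26880)])], .leaf 3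 [(82,[(19,360848),(20,528),(26,8160),(33,3984),(10,315328),(3,528)]),(0,[(29,3584),(10,384),(9,1472)]),(0,[(19,4064),(10,4224),(5,5024)]),(0,[(9,35904)]),(0,[(19,1536),(37,3968),(9,1472),(7,576),(6,512)])], .leaf 1 [(0,[])], .leaf 0 [(0,[(22,8),(30,8),(9,640)])], .leaf 0 [(0,[(22,48),(26,1600),(30,1144),(2,8),(1,200)])], .leaf 1 [(82,[(20,1632),(26,37536),(30,52224),(5,182304),(3,1632),(0,1)])], .split 2 3 (.leaf 2 [(12954,[(15,212195072),(19,3434624),(20,3434624),(40,2484736),(6,404864),(3,29824),(2,1169024),(0,11503),(42,5932480)]),(0,[(21,4096),(40,4096),(11,3072)]),(0,[(20,8192),(0,1),(41,4096)]),(0,[(0,1)]),(0,[(21,4096),(38,3648),(39,4096),(10,38144)])]) (.leaf 4 [(128,[(15,2113536),(32,1088),(11,51576),(6,13616),(3,2176),(2,65912),(42,528384)]),(12,[(15,196608),(29,8192),(2,7168),(0,3),(42,61440)]),(3620076,[(15,3596746752),(22,63201280),(24,1668513280),(26,114176000),(29,177377280),(32,110033920),(2,1850040320),(0,54882),(42,14977699840)]),(74,[(21,272),(26,2448),(11,31248),(6,29152),(4,272),(2,37312),(42,307200)]),(3,[(22,1536),(34,4864),(11,7008),(10,132576),(2,11168),(0,19),(42,90112)])]),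 .leaf 1 [(0,[(0,8)])], .leaf 0 [(0,[(39,512),(10,16376),(5,136),(0,512)])], .leaf 0 [(0,[(15,1024),(40,256)])], .leaf 2 [(0,[(10,256),(9,26880)])], .leaf 4 [(64,[(14,16512),(18,260000),(31,2016),(39,260096),(10,251776),(2,2016),(41,4128)]),(0,[(18,6960),(25,2864),(28,32),(39,1232),(10,1328),(5,5024)]),(0,[(27,3584),(39,128),(9,1856)]),(0,[(18,4096),(38,3968),(39,128),(9,31936)]),(0,[(18,3984),(20,112),(28,400),(38,3568),(39,528),(9,2272)])], .leaf 0 [(0,[])], .leaf 0 [(223,[(15,2097152),(26,99886),(33,14802),(9,237476),(6,241321),(2,16594),(40,524288)])], .leaf 1 [(24208,[(30,3234),(9,15665602),(3,98),(2,120172),(0,2254)])]]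
noncomputable def a4 : TT := .leaf ⟨false,0,1,0,1,1,511,[[],[-2,-3,-1,0,197,381,0,3,-95,10],[],[-1,-6,-4,0,-107,37,0,2,97,10],[],[],[],[],[],[],[]]⟩ [.leaf 0 [(0,[])], .leaf 0 [(8,[(25,11),(31,1),(38,8),(10,81),(9,776),(4,1)])], .leaf 0 [(0,[])], .leaf 0 [(0,[])], .leaf 0 [(8783,[(26,59149),(30,84327),(6,3221),(5,465438),(3,5563),(2,25952),(1,11894)])], .leaf 0 [(0,[])], .leaf 0 [(188,[(23,1728),(25,5056),(28,77632),(39,3904),(10,123136),(5,2392704),(4,5632),(41,13824)])], .leaf 0 [(0,[])], .leaf 0 [(8,[(25,9856),(31,896),(38,7168),(10,72576),(9,695296),(4,896)])], .leaf 0 [(0,[])], .leaf 0 [(0,[])], .leaf 0 [(0,[])], .leaf 0 [(0,[])], .leaf 0 [(0,[])], .leaf 0 [(0,[])], .leaf 0 [(8,[(25,9856),(31,896),(38,7168),(10,72576),(9,695296),(4,896)])], .leaf 0 [(1884,[(14,1538560),(19,263040),(21,10880),(25,208640),(39,122120320),(10,118902016),(2,1607296),(41,471680)])], .leaf 0 [(0,[(25,128),(5,26624)])],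 .leaf 0 [(400,[(19,1626752),(26,1363584),(10,24438400),(6,54528),(5,22144),(3,48128),(2,99456)])], .leaf 0 [(0,[(15,3584),(26,256),(33,1152),(40,896)])], .leaf 0 [(766,[(26,604544),(5,12141056),(3,22016),(2,418304)])], .leaf 0 [(504,[(28,131072),(39,83968),(0,896)])], .leaf 2 [(322,[(31,81536),(38,427008),(9,26929152),(4,53376),(0,768)])], .leaf 1 [(64,[(19,1052480),(33,12480),(10,994976),(6,6240),(2,4896)]),(64,[(19,1040000),(26,37440),(10,974304),(6,14560),(5,178720),(2,54944)]),(0,[(31,160),(38,32),(10,5056)]),(6,[(29,42944),(31,96),(10,136608),(9,466240),(6,13568)]),(144,[(19,2390688),(33,196336),(10,1746016),(6,26768),(3,5712)])], .leaf 1 [(502,[(31,32768),(9,899072),(0,1152)])], .leaf 0 [(18,[(26,2404),(30,3028),(9,46572),(6,64),(3,88),(2,164)])], .leaf 0 [(1310,[(15,270304),(28,3474920),(31,87120),(39,473032),(9,4143888),(0,1132),(40,67576)])], .leaf 1 [(15918,[(18,3946496),(39,690176),(7,104128512),(4,579584),(3,190464),(2,411648),(0,4224)])],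 .split 1 3 (.leaf 1 [(1819,[(15,68087808),(20,135168),(21,5668864),(11,5474304),(1,65568),(0,433),(42,17021952)]),(0,[(15,1728),(21,15808),(40,15664),(11,7776),(42,432)]),(2002,[(20,43173888),(21,4169728),(11,3975168),(6,1499136),(1,83136),(0,433)]),(0,[(0,1)]),(502,[(21,7427584),(39,9054720),(11,11442432),(10,34773632),(1,1440)])]) (.leaf 4 [(0,[(15,65536),(1,64),(42,16384)]),(5438,[(15,44695552),(22,1869824),(24,7872512),(29,3301376),(34,8204288),(38,1904640),(1,350272),(42,89112576)]),(0,[(24,2048),(1,64),(42,16384)]),(0,[(1,64),(42,16384)]),(7761263,[(15,2383480946688),(21,14924644352),(24,3897206784),(40,25983844352),(11,20427491328),(10,642307743744),(1,2471726688),(0,31491953),(42,627047890944)])]), .leaf 1 [(504,[(28,131072),(39,83968),(0,896)])], .leaf 0 [(4,[(15,39192),(32,9768),(39,20),(10,7800),(1,1236),(40,9798)])], .leaf 0 [(0,[(15,5336),(40,1334)])], .leaf 0 [(322,[(31,81536),(38,427008),(9,26929152),(4,53376),(0,768)])],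 .leaf 4 [(0,[(14,128),(18,16384),(19,224),(31,64),(39,16288),(10,15904),(5,3424),(41,32)]),(0,[(14,128),(18,25264),(25,9072),(28,352),(39,7536),(10,8144),(5,16224),(41,32)]),(0,[(18,9872),(19,96),(27,4208),(10,816)]),(8,[(18,131104),(31,2848),(38,83200),(39,84960),(10,167040),(9,560512),(4,544)]),(0,[(18,18328),(28,4088),(31,2200),(38,8328),(39,6112),(10,784)])], .leaf 0 [(24,[(28,4224),(8,47488),(4,1536)])], .leaf 0 [(0,[(15,4096),(26,2044),(9,2812),(7,672),(40,1024)])], .leaf 1 [(3,[(15,532),(30,250),(9,8514),(7,7024),(1,10),(40,133)])]]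
noncomputable def a5 : TT := .leaf ⟨false,1,1,0,2,2,7,[[0,0,0,0,1],[0,0,0,0,5,0,0,0,-1],[],[0,0,0,0,0,-1,0,0,2],[],[],[],[],[],[],[]]⟩ [.leaf 0 [(0,[])], .leaf 0 [(0,[(9,1)])], .leaf 0 [(0,[])], .leaf 0 [(647254,[(15,63588),(19,6324),(39,165484),(10,128166),(4,140014),(2,28632),(1,43990),(0,3162),(40,15897)])], .leaf 0 [(0,[(5,2)])], .leaf 0 [(0,[])], .leaf 0 [(64,[(10,128),(5,7680),(2,128)])], .leaf 0 [(0,[])], .leaf 0 [(0,[(9,896)])], .leaf 0 [(0,[])], .leaf 0 [(0,[])], .leaf 0 [(0,[])], .leaf 0 [(0,[])], .leaf 0 [(0,[])], .leaf 0 [(0,[])], .leaf 0 [(0,[(9,896)])], .leaf 0 [(0,[(38,192),(39,832),(10,704)])], .leaf 0 [(0,[(5,512)])], .leaf 0 [(0,[(10,896)])], .leaf 0 [(0,[(15,64),(26,32),(7,160),(40,16)])], .leaf 0 [(0,[(7,128)])], .leaf 0 [(14080,[(15,25984),(20,41280),(26,436352),(30,759392),(39,4192),(9,36384),(3,35552),(0,1536),(40,6496)])], .leaf 1 [(64,[(10,128),(9,52256),(2,128)])],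 .leaf 1 [(0,[(19,256),(10,256),(5,96)]),(0,[(19,256),(10,160)]),(0,[(37,48),(10,16)]),(0,[(10,256),(9,736),(7,160)]),(0,[(10,256),(7,32)])], .leaf 0 [(14954,[(15,26240),(30,282848),(39,45920),(5,4181792),(3,40608),(0,3904),(40,6560)])], .leaf 0 [(0,[(9,36)])], .leaf 0 [(28868,[(15,53536),(20,84366),(26,993342),(30,725974),(39,9322),(5,322024),(3,72336),(0,2708),(40,13384)])], .leaf 0 [(0,[(2,2)])], .leaf 2 [(0,[(18,192),(20,256),(25,192),(39,64),(10,288)]),(0,[(20,136),(23,8),(28,128),(39,184),(10,224),(41,64)]),(0,[(32,224),(10,480),(5,128)]),(0,[(9,64),(4,32),(41,256)]),(0,[(20,256),(37,256),(38,256),(9,864)])], .leaf 1 [(82,[(15,8128),(20,2080),(26,3136),(30,3568),(3,48),(40,2032)])], .leaf 0 [(11386,[(15,738096),(32,182736),(39,15600),(9,33524),(4,14408),(0,1192),(40,184524)])], .leaf 0 [(64,[(15,4160),(37,188),(2,188),(40,1040)])], .leaf 2 [(64,[(10,128),(9,52256),(2,128)])], .leaf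 2 [(0,[(18,416),(25,160),(39,96),(10,96)]),(0,[(27,64)]),(0,[(18,256),(38,256)]),(0,[(18,256),(38,256),(9,736)]),(0,[(18,288),(25,32),(39,224),(10,224)])], .leaf 0 [(330,[(19,1664),(26,2944),(30,2432),(3,128)])], .leaf 0 [(15,[(15,1024),(26,505),(33,7),(9,718),(2,7),(40,256)])], .leaf 1 [(0,[(9,36)])]]
noncomputable def a6 : TT := .leaf ⟨false,0,1,0,1,1,127,[[],[0,0,1,0,96,32,0,0,-34],[],[0,0,-1,0,-64,47,0,0,64,2],[],[],[],[],[],[],[]]⟩ [.leaf 0 [(0,[])], .leaf 0 [(0,[(8,34)])], .leaf 0 [(0,[])], .leaf 0 [(0,[])], .leaf 0 [(78,[(14,4),(25,122),(29,88),(38,7),(6,947),(4,21),(2,5),(39,1)])], .leaf 0 [(0,[])], .leaf 0 [(0,[(27,128),(4,8070),(1,2)])], .leaf 0 [(0,[])], .leaf 0 [(0,[(8,30464)])], .leaf 0 [(0,[])], .leaf 0 [(0,[])], .leaf 0 [(0,[])], .leaf 0 [(0,[])], .leaf 0 [(0,[])], .leaf 0 [(0,[])], .leaf 0 [(0,[(8,30464)])], .leaf 0 [(11390,[(17,17564800),(30,38444032),(37,20946048),(38,91031552),(2,319360),(0,9514624)])],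 .leaf 0 [(66,[(14,1024),(25,31232),(29,39680),(38,1792),(4,135680),(2,1280),(39,256)])], .leaf 0 [(0,[(9,16128),(6,10368)])], .leaf 0 [(0,[(14,1024),(25,512),(39,256)])], .leaf 0 [(0,[(27,256),(4,4096)])], .leaf 0 [(66,[(14,1024),(19,1536),(25,29696),(29,41216),(38,256),(4,135680),(2,1280),(39,256)])], .leaf 1 [(0,[(8,27136)])], .leaf 3 [(82,[(18,360848),(19,528),(25,8160),(32,3984),(9,315328),(2,528)]),(0,[(8,3584),(7,1856)]),(0,[(9,4224),(4,9088)]),(0,[(28,3968),(8,31936)]),(0,[(18,1536),(9,3968),(8,1472),(6,576),(5,512)])], .leaf 0 [(1024,[(14,32768),(25,999424),(29,1105664),(38,57344),(4,10382336),(2,40960),(1,122368),(39,8192)])], .leaf 0 [(66,[(14,32),(19,48),(25,928),(29,1288),(38,8),(8,45280),(2,40),(39,8)])], .leaf 0 [(306,[(14,3168),(19,5544),(21,28880),(25,91080),(4,896176),(2,3960),(39,792)])], .leaf 0 [(7648,[(14,48640),(25,3323520),(29,2538368),(38,85120),(4,22778880),(2,140800),(1,1906432),(39,12160)])],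 .split 3 3 (.leaf 3 [(400,[(20,1048576),(39,1048576),(10,2064384),(0,145)]),(464,[(10,1015808),(0,209)]),(462,[(14,3048448),(20,171520),(28,1524224),(38,933632),(0,49),(41,762112)]),(0,[(0,1)]),(0,[(20,4096),(37,3968),(38,4096),(9,24320)])]) (.split 4 4 (.leaf 4 [(837116,[(15,13431341056),(40,748195840),(11,1466806272),(4,128184320),(3,334467072),(2,984981504),(1,786755),(42,3357835264)]),(12483,[(15,102793984),(21,11758528),(24,1322304),(26,35841024),(29,36712832),(39,4916224),(11,12158720),(0,973),(42,36276928)]),(15900576,[(24,3939316224),(26,26206819072),(29,37146636544),(40,14817200640),(11,16571264000),(3,324396032),(2,5513847040),(0,1846485),(42,31514529792)]),(5083900,[(26,193617920),(40,4166115328),(11,8329560064),(5,107831296),(4,754819072),(3,1786650624),(2,6599753728),(1,5237059),(42,20823658496)]),(0,[(0,1)])]) (.leaf 2 [(0,[(19,276),(21,2164),(29,276),(39,2440),(11,1972),(8,5568),(2,552)]),(0,[(19,96),(21,4000),(29,96),(40,4096),(11,2976)]),(9692,[(20,10857440),(38,13538784),(4,197408),(2,5976800)]),(1466443277,[(40,276242137088),(11,681490790400),(10,5941738632192),(5,484202343424),(4,79212916736),(3,90844581888),(2,798033154048),(1,546097787),(0,94996544),(42,6006551666688)]),(0,[(21,4096),(38,3648),(39,4096),(10,38144)])])),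 .leaf 1 [(0,[(14,512),(29,256),(39,128)])], .leaf 0 [(62,[(14,73232),(29,34688),(8,36464),(1,1928),(39,18308)])], .leaf 0 [(0,[(14,1024),(39,256)])], .leaf 2 [(0,[(8,27136)])], .leaf 4 [(3796,[(17,16749312),(30,2913088),(37,2284288),(38,7594368),(2,21760),(0,746176)]),(0,[(17,4096),(27,32),(38,4096),(9,4192),(4,5024)]),(0,[(26,3584),(37,384),(38,128),(8,1472)]),(0,[(17,4096),(37,3968),(38,128),(8,31936)]),(0,[(17,3984),(19,112),(27,400),(37,3568),(38,528),(8,2272)])], .leaf 0 [(0,[])], .leaf 0 [(0,[(14,1040),(19,8),(25,512),(29,8),(8,912),(6,572),(39,260)])], .leaf 1 [(0,[(14,16),(29,8),(8,640),(6,324),(39,4)])]]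
noncomputable def a7 : TT := .leaf ⟨false,0,1,1,2,2,31,[[],[0,0,0,0,17,0,0,0,-1],[0,-1,-1,0,1,1,0,0,1,1],[0,0,0,0,3,-5,0,0,8,1],[0,0,0,0,3,4,0,0,-1],[],[],[],[],[],[]]⟩ [.leaf 0 [(0,[])], .leaf 0 [(0,[(8,1)])], .leaf 0 [(0,[(27,1)])], .leaf 0 [(0,[])], .leaf 0 [(0,[(4,2)])], .leaf 0 [(36,[(25,6),(29,62),(38,12),(8,130),(1,6),(0,2)])], .leaf 0 [(0,[(9,128),(6,512)])], .leaf 0 [(0,[(8,128)])], .leaf 0 [(0,[(8,768),(6,512)])], .leaf 0 [(0,[(27,896)])], .leaf 0 [(0,[])], .leaf 0 [(0,[])], .leaf 0 [(0,[(27,896)])], .leaf 0 [(0,[])], .leaf 0 [(0,[])], .leaf 0 [(0,[(8,896)])], .leaf 0 [(0,[(37,448),(38,3648),(9,3136)])], .leaf 0 [(10,[(19,732),(29,1380),(38,732),(4,28948),(1,28),(0,244)])], .leaf 0 [(0,[(27,128),(9,3328)])], .leaf 0 [(0,[(14,512),(25,128),(9,256),(6,512),(39,128)])], .leaf 0 [(158,[(25,5760),(27,12032),(32,128),(2,256)])], .leaf 0 [(0,[(29,128)])], .leaf 0 [(2186,[(27,613104),(32,544864),(36,1424064),(8,916768),(3,53840),(2,95344),(0,768288),(40,2239488)])],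 .leaf 4 [(0,[(18,992),(9,992),(6,736),(4,1504)]),(0,[(18,992),(9,992),(6,1376),(4,1760)]),(0,[(18,736),(36,208),(9,912),(6,736)]),(0,[(27,32),(6,5792)]),(82,[(14,21136),(18,73504),(25,1288),(36,65800),(9,26096),(2,56),(39,5284)])], .leaf 0 [(0,[(27,128),(6,640)])], .leaf 0 [(2,[(19,7),(24,1),(27,11),(38,5),(8,474),(0,2)])], .leaf 0 [(2,[(19,6),(29,12),(38,6),(0,2)])], .leaf 2 [(121872,[(14,10919936),(27,122806016),(9,18984448),(3,13718912),(2,484096),(0,40922112),(40,122067968)])], .leaf 2 [(0,[(19,1024),(38,1024),(9,1920)]),(58,[(17,7328),(19,53088),(38,60416),(9,99840),(1,224)]),(0,[(18,736),(19,134),(9,624),(3,54)]),(136,[(19,4768),(24,23136),(27,152480),(8,119744),(3,15328),(0,2560),(40,140288)]),(0,[(19,1024),(36,800),(37,1024),(8,896)])], .leaf 0 [(8,[(22,256),(24,1344),(27,1600),(0,832),(40,2048)])], .leaf 0 [(186,[(14,2360),(31,13680),(8,13880),(1,1928),(0,4560),(39,590)])], .leaf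 0 [(116,[(14,41568),(25,6716),(2,292),(39,10392)])], .leaf 1 [(2,[(27,384),(9,384),(8,2304),(6,6656),(3,384),(0,1024),(40,3072)])], .leaf 4 [(0,[(13,128),(17,960),(38,1024),(9,896),(4,864),(40,32)]),(82,[(17,169984),(19,48),(24,83888),(27,3776),(9,5936),(4,28016),(2,48)]),(0,[(17,608),(31,64),(38,64)]),(0,[(17,1024),(37,768),(38,256)]),(14,[(17,15296),(19,64),(27,12544),(38,15360),(9,14208),(4,19808),(1,128)])], .leaf 0 [(0,[(27,128),(6,512)])], .leaf 0 [(0,[(25,4),(32,58),(8,110),(6,226),(0,22)])], .leaf 0 [(18821,[(13,6819408),(20,272105),(24,3279537),(27,8180157),(5,606444),(2,58191),(0,1539310),(40,3881692)])]]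
noncomputable def a8 : TT := .leaf ⟨false,1,1,0,2,2,511,[[2,16,9,17,59,3,0,-6,-11,-12],[0,-2,-2,2,294,-20,0,0,-56,2],[],[-4,-16,-9,-8,-9,-90,0,6,145,12],[],[],[0,13,0,27,5,0,0,-6],[],[],[],[]]⟩ [.leaf 0 [(6,[(12,68),(27,36),(6,119),(4,7),(1,6),(37,17)])], .leaf 0 [(6,[(12,8),(25,10),(34,4),(6,398),(4,140),(37,2)])], .leaf 0 [(0,[])], .leaf 0 [(4,[(12,2112),(17,462),(29,56),(36,396),(7,1020),(2,1074),(1,56),(37,528)])], .leaf 0 [(8,[(12,16),(22,56),(25,28),(2,756),(1,8),(37,4)])], .leaf 0 [(0,[])], .leaf 0 [(12,[(11,4096),(22,18944),(25,30208),(4,146432),(2,169600),(1,1280),(38,1024)])], .leaf 0 [(0,[])], .leaf 0 [(0,[(12,1024),(25,1280),(34,512),(6,50944),(4,17920),(37,256)])], .leaf 0 [(0,[])], .leaf 0 [(0,[])], .leaf 0 [(0,[(12,8704),(27,4608),(6,15232),(4,896),(1,768),(37,2176)])], .leaf 0 [(0,[])], .leaf 0 [(18,[(12,30976),(16,7424),(23,8320),(7,7168),(6,2048),(1,896),(37,7744)])], .leaf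 0 [(6,[(12,48640),(27,38400),(6,112000),(4,896),(1,4608),(37,12160)])], .leaf 0 [(8,[(12,28672),(17,14656),(22,50496),(25,66624),(36,320),(6,574976),(4,155008),(1,6272),(37,7168)])], .leaf 0 [(208,[(11,1945600),(17,2724416),(22,1414912),(28,3293248),(36,6800960),(7,2992384),(0,8192),(38,486400)])], .leaf 0 [(8,[(12,2560),(17,1792),(22,8448),(25,13056),(36,512),(2,320256),(1,1280),(37,640)])], .leaf 0 [(2,[(11,5632),(25,10240),(34,11712),(7,140992),(3,2048),(38,1408)])], .leaf 0 [(0,[(12,8704),(30,512),(4,18816),(37,2176)])], .leaf 0 [(0,[(12,512),(27,256),(4,8832),(37,128)])], .leaf 0 [(48,[(12,89600),(19,63488),(22,31232),(36,24320),(1,7936),(37,22400)])], .leaf 1 [(6,[(12,12800),(25,7936),(7,6400),(6,297216),(4,221312),(37,3200)])], .leaf 1 [(0,[(16,14416),(20,36),(7,16384),(3,348),(2,6192),(38,288)]),(0,[(16,11808),(17,1120),(34,5536),(7,3392),(3,928)]),(14,[(35,4256),(7,51072),(3,1984),(1,608)]),(0,[(16,14336),(34,18432),(6,37440),(4,12128)]),(12,[(12,120736),(36,30544),(7,201424),(6,157728),(3,41456),(1,17200),(37,30184)])],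 .leaf 0 [(8,[(12,54784),(17,12544),(22,59136),(25,54528),(36,3584),(4,105088),(1,8960),(37,13696)])], .leaf 0 [(6,[(17,20),(19,268),(22,252),(6,16808),(1,36)])], .leaf 0 [(12,[(12,25056),(17,4652),(19,16468),(22,14324),(25,24688),(36,2280),(1,2372),(37,6264)])], .leaf 0 [(40,[(12,625408),(16,188544),(29,24960),(36,61504),(7,6848),(6,115712),(4,586304),(1,43840),(37,156352)])], .leaf 2 [(98,[(15,693168),(17,1525920),(22,896976),(36,386288),(7,1438384),(0,2272)]),(0,[(17,18592),(22,1568),(36,11424),(7,19808)]),(0,[(22,320),(29,14208),(7,30784),(2,4128)]),(6,[(12,137472),(22,33856),(6,172512),(38,80320)]),(0,[(16,1536),(17,14080),(34,15552),(35,15040),(6,53856)])], .leaf 1 [(0,[(12,6144),(17,1792),(25,1280),(4,17792),(37,1536)])], .leaf 0 [(4,[(12,176816),(36,38736),(7,72520),(2,64952),(1,5568),(37,44204)])], .leaf 0 [(0,[(12,9200),(4,20684),(37,2300)])], .leaf 2 [(0,[(12,9216),(27,2560),(6,55424),(4,32768),(1,768),(37,2304)])],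 .leaf 1 [(222,[(15,4183424),(16,3456),(22,2091520),(36,3456),(2,1632),(0,11520)]),(126,[(24,296384),(28,83680),(0,912)]),(0,[(15,15552),(17,1472),(36,13056)]),(352,[(12,18869376),(22,11140960),(25,13165664),(28,2911744),(36,3318496),(6,49752992),(4,2183648),(1,2097536),(38,1066208)]),(236,[(11,18304),(16,11168),(22,11040),(36,8032),(2,5536),(0,28592),(38,4576)])], .leaf 0 [(0,[(22,1536),(25,2816),(4,14464)])], .leaf 0 [(0,[(12,4096),(17,8),(23,2040),(30,8),(6,2800),(4,1772),(37,1024)])], .leaf 1 [(6,[(12,432),(27,344),(6,17528),(1,48),(37,108)])]]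
noncomputable def a9 : TT := .leaf ⟨false,0,1,0,1,1,127,[[],[0,0,1,0,96,32,0,0,-34],[],[0,0,-1,0,-64,47,0,0,64,2],[],[],[],[],[],[],[]]⟩ [.leaf 0 [(0,[])], .leaf 0 [(0,[(6,34)])], .leaf 0 [(0,[])], .leaf 0 [(0,[])], .leaf 0 [(1348,[(12,44),(23,737),(25,1247),(36,1357),(4,43712),(2,1836),(0,5),(37,11)])], .leaf 0 [(0,[])], .leaf 0 [(0,[(25,128),(7,128),(2,8064)])], .leaf 0 [(0,[])], .leaf 0 [(0,[(6,30464)])], .leaf 0 [(0,[])], .leaf 0 [(0,[])], .leaf 0 [(0,[])], .leaf 0 [(0,[])], .leaf 0 [(0,[])], .leaf 0 [(0,[])], .leaf 0 [(0,[(6,30464)])], .leaf 0 [(2,[(11,6656),(15,12608),(22,14272),(25,1664),(28,1664),(36,31552),(7,27456),(4,31104),(38,1664)])], .leaf 0 [(198,[(17,24896),(27,26560),(36,26048),(4,350848),(1,320),(0,192)])], .leaf 0 [(0,[(7,16128),(4,10368)])], .leaf 0 [(266,[(23,73216),(0,512)])], .leaf 0 [(0,[(25,256),(2,4096)])], .leaf 0 [(1348,[(12,11264),(23,188672),(27,26112),(36,347392),(0,1280),(37,2816)])],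 .leaf 0 [(1950,[(12,6593024),(23,3549568),(25,9121408),(36,16629120),(6,79828224),(0,113536),(38,6343040)])], .leaf 0 [(0,[(16,4096),(7,3904),(4,4704)]),(0,[(16,4064),(7,3904),(4,8832)]),(0,[(26,3392),(6,3008)]),(736,[(12,2519040),(28,1874000),(6,29601672),(3,307676),(0,18156),(38,2388992)]),(474,[(16,740344),(29,22216),(36,2531308),(7,5513796),(6,915992),(4,3262556),(1,181836),(0,10328)])], .leaf 0 [(1348,[(12,22528),(23,377344),(25,293120),(36,694784),(2,6877696),(0,2560),(37,5632)])], .leaf 0 [(5526,[(12,3872),(23,21296),(36,44216),(6,3536240),(1,440),(0,160),(37,968)])], .leaf 0 [(1356,[(12,11616),(23,194568),(25,665744),(36,358248),(0,1320),(37,2904)])], .leaf 2 [(64,[(12,1607680),(15,7819136),(36,8700544),(7,8619136),(2,461568),(1,157056),(0,61568),(37,135680)])], .leaf 4 [(82,[(11,588032),(17,99232),(25,400416),(36,731808),(7,820416),(4,299008),(1,24800),(0,1760),(38,147008)]),(1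156,[(11,18621440),(22,1003264),(25,4547072),(35,5645760),(36,1326912),(7,1475008),(1,52736),(0,27904),(38,4655360)]),(49946,[(18,1523776),(20,22691072),(22,25324800),(25,177256832),(36,317035008),(7,313523584),(6,133844224),(0,1111104),(38,193718784)]),(702,[(12,164736),(25,2587808),(28,120160),(36,5080608),(7,4750304),(6,1695744),(4,840800),(0,18720),(38,2838304)]),(33434,[(20,19766784),(22,35563968),(25,579694976),(36,1119036928),(7,1094990464),(6,1274062336),(1,65303360),(0,4520384),(38,158134272)])], .leaf 0 [(240,[(22,185024),(25,275456),(3,3456),(1,33856),(0,576)])], .leaf 0 [(4,[(12,41216),(29,9016),(7,16720),(2,14832),(1,1288),(37,10304)])], .leaf 0 [(0,[(12,1024),(37,256)])], .leaf 1 [(1950,[(12,6593024),(23,3549568),(25,9121408),(36,16629120),(6,79828224),(0,113536),(38,6343040)])], .leaf 4 [(0,[(15,4000),(17,96),(35,416),(36,3680),(7,3552),(4,2016)]),(0,[(15,6960),(22,2864),(25,32),(36,1232),(7,1328),(2,5024)]),(0,[(35,4208),(6,1248),(1,16)]),(0,[(15,4096),(35,3968),(36,128),(6,31936)]),(0,[(15,3984),(17,112),(25,400),(35,3568),(36,528),(6,2272)])],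 .leaf 0 [(0,[])], .leaf 0 [(867,[(12,291396),(23,272170),(6,771924),(1,4058),(0,1160),(37,72849)])], .leaf 0 [(918,[(22,1058600),(25,1119500),(28,124628),(36,21344),(2,5520360),(1,130772),(0,2332)])]]
noncomputable def t0 : TT := (.split [-8,-16,-8,8,-8,1,0,7,-1,8] (.split [24,55,33,0,-320,318,0,-23,-18,-19] (.split [-2120,-4261,-2147,2048,-1088,-954,0,1861,-138,2105] a0 a1) (.split [0,-1,0,0,61,-64,0,0,3,-1] (.split [-8,-16,-8,0,11,-7,0,8,-4,7] (.split [0,0,0,-32,-32,-32,0,1,0,32] a2 a3) (.split [-253,-503,-251,0,422,-418,0,251,-2,236] a4 a5)) (.split [3,0,4,-6,-16,-11,0,3,-3,3] a6 a7))) (.split [143,165,16,-256,-254,167,0,124,-134,-22] a8 a9))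
theorem c0 : chkT (([0,0,0,0,-1,0,0,0,1,0] : Fm) :: ([-1,4,4,0,0,0,0,0,0,0] : Fm) :: fsm (-1) ([0,0,0,0,-1,1,0,0,0,0] : Fm) :: ([0,0,0,0,0,0,0,0,-1,1] : Fm) :: fsm (-1) ([0,0,0,0,-2,0,0,0,1,0] : Fm) :: ([0,0,0,0,-1,-1,0,0,-1,1] : Fm) :: K2O12.C0) t0 = true := by decide +kernel
end K2O12M01010

namespace K2O12M01010
noncomputable def a10 : TT := .leaf ⟨false,0,1,0,1,1,3,[[],[-1,-2,-1,0,4,0,0,1,-2,1],[],[-1,-2,-1,0,0,0,0,1,2,1],[],[],[],[],[],[],[]]⟩ [.leaf 0 [(0,[])], .leaf 0 [(0,[(28,1),(31,1),(8,4)])], .leaf 0 [(0,[])], .leaf 0 [(0,[])], .leaf 0 [(0,[(29,1),(33,1)])], .leaf 0 [(0,[])], .leaf 0 [(0,[(28,128),(31,128)])], .leaf 0 [(0,[])], .leaf 0 [(0,[(28,896),(31,896),(8,3584)])], .leaf 0 [(0,[])], .leaf 0 [(0,[])], .leaf 0 [(0,[])], .leaf 0 [(0,[])], .leaf 0 [(0,[])], .leaf 0 [(0,[])], .leaf 0 [(0,[(28,896),(31,896),(8,3584)])], .leaf 0 [(0,[(21,256),(22,256),(42,256)])], .leaf 0 [(0,[])],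 .leaf 0 [(0,[(22,256),(29,256),(13,256)])], .leaf 0 [(64,[(28,7680),(31,256),(13,7936),(10,512),(0,528)])], .leaf 0 [(0,[])], .leaf 0 [(2,[(17,1440),(23,16),(42,32),(0,47),(44,360)])], .leaf 0 [(0,[(28,896),(31,896),(8,3584),(0,16),(44,128)])], .leaf 3 [(0,[(22,160),(29,32),(13,96)]),(6,[(41,417),(13,1296),(12,527),(3,128),(0,17)]),(0,[(22,32),(28,96),(13,224)]),(16,[(17,24192),(23,864),(28,2176),(42,1728),(13,6944),(8,31136),(0,864),(44,6048)]),(0,[(18,32),(22,32),(28,96),(40,48),(13,176),(12,192),(10,16),(43,8)])], .leaf 1 [(34,[(26,526),(28,992),(42,48),(13,560),(8,992),(0,528),(44,4208)])], .leaf 0 [(0,[(29,8),(33,8),(8,32)])], .leaf 0 [(26,[(26,388),(31,496),(42,672),(13,432),(8,496),(0,416),(44,3104)])], .leaf 2 [(0,[(0,16),(44,128)])], .split 4 4 (.leaf 4 [(0,[(18,512),(45,128)]),(16663,[(24,502528),(29,1033280),(32,1478912),(42,603392),(43,64640),(14,54016),(2,13504),(0,1977)]),(0,[(27,16),(45,128)]),(0,[(45,128)]),(0,[(0,1)])])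 (.leaf 2 [(13,[(18,7680),(9,1792),(0,1),(45,1920)]),(111,[(18,58368),(36,896),(9,16128),(0,9),(45,14592)]),(111,[(23,28288),(24,1792),(30,896),(14,896),(9,16128),(0,9)]),(11,[(24,64),(37,64),(14,64),(11,128),(9,1728),(0,1),(45,1536)]),(0,[(24,128),(29,704),(32,704),(42,128),(14,128),(9,3456)])]), .leaf 0 [(0,[(23,16),(26,16),(0,16),(44,128)])], .leaf 1 [(1012,[(26,15504),(28,6200),(31,6200),(41,11664),(42,2240),(13,736),(3,736),(0,15408),(44,124032)])], .leaf 0 [(0,[(28,104),(31,8),(13,112),(10,32),(0,8)])], .leaf 1 [(0,[(17,1792),(42,56),(13,56),(8,1736),(0,72),(44,576)])], .leaf 4 [(0,[(21,160),(22,32),(42,96),(13,64)]),(0,[(21,184),(28,152),(31,96),(42,72),(13,72)]),(2,[(42,597),(13,805),(12,155),(7,128),(0,5)]),(4,[(17,5888),(28,1248),(31,1760),(42,1472),(13,1600),(8,11968),(0,192),(44,1472)]),(0,[(21,32),(31,112),(41,136),(42,88),(13,72),(8,224)])], .leaf 0 [(478,[(13,41152),(10,40528),(4,208),(0,4000)])],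 .leaf 0 [(0,[(18,32),(29,16),(12,32),(10,16),(43,8)])], .leaf 1 [(0,[(29,8),(33,8),(8,32)])]]
noncomputable def a11 : TT := .leaf ⟨false,0,1,0,1,1,255,[[],[-3,-23,-9,-9,256,0,0,13,-94,7],[],[-3,-23,-9,-9,0,0,0,16,64,7],[],[],[],[],[],[],[]]⟩ [.leaf 0 [(0,[])], .leaf 0 [(89,[(23,611),(24,6),(28,295),(31,841),(42,547),(12,10240),(10,180),(4,4),(44,48)])], .leaf 0 [(0,[])], .leaf 0 [(0,[])], .leaf 0 [(127,[(22,272),(29,1120),(33,400),(10,496),(6,79),(3,464),(0,31)])], .leaf 0 [(0,[])], .leaf 0 [(688,[(23,306624),(28,925568),(31,1100800),(42,482688),(10,176384),(4,1088),(0,5760)])], .leaf 0 [(0,[])], .leaf 0 [(44,[(23,273728),(24,2688),(28,132160),(31,376768),(42,245056),(12,4587520),(10,80640),(4,1792),(44,21504)])], .leaf 0 [(0,[])], .leaf 0 [(0,[])], .leaf 0 [(0,[])], .leaf 0 [(0,[])], .leaf 0 [(0,[])], .leaf 0 [(0,[])], .leaf 0 [(44,[(23,273728),(24,2688),(28,132160),(31,376768),(42,245056),(12,4587520),(10,80640),(4,1792),(44,21504)])],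 .leaf 0 [(124,[(21,2054912),(28,2084864),(42,1683456),(13,1604864),(3,164864),(0,9088)])], .leaf 0 [(0,[(17,12288),(6,384),(44,3072)])], .leaf 0 [(0,[(22,512),(36,1472),(13,31648),(10,2144),(6,230),(3,1312),(0,134)])], .leaf 0 [(86,[(28,102656),(13,21504),(12,672832),(10,114496),(4,1600)])], .leaf 0 [(0,[])], .leaf 0 [(44,[(23,84416),(31,84736),(42,109312),(8,370880),(4,704)])], .leaf 0 [(960,[(23,7451247),(31,6642432),(42,6663180),(12,121358254),(10,2214144),(6,471530),(4,92503),(2,104375),(44,7872512)])], .leaf 0 [(3,[(22,28928),(36,1056),(13,33968),(10,4944),(6,453),(3,2544),(0,309)]),(3,[(22,36096),(36,5536),(13,27888),(10,6928),(6,769),(3,4400),(0,433)]),(38,[(40,290848),(41,7392),(12,91136),(9,8864),(0,160)]),(86,[(23,84912),(28,165280),(40,488928),(12,9384560),(10,224480),(4,9392),(44,712704)]),(13254,[(22,20006224),(28,19561552),(13,160560800),(10,55474288),(4,352224),(3,25419376),(2,2852464),(0,6396656)])],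 .leaf 0 [(696,[(23,143360),(35,48896),(42,433408),(10,1427456),(6,40128),(4,13056),(0,83008)])], .leaf 0 [(1,[(24,41),(29,185),(33,112),(12,3609),(6,47),(44,328)])], .leaf 0 [(8,[(23,17086),(31,25856),(42,21656),(8,88966),(4,142)])], .leaf 2 [(254,[(23,382592),(29,391680),(42,275584),(10,130560),(8,14589696),(6,91560),(4,63488),(2,67328),(0,287528),(44,2088960)])], .leaf 2 [(30,[(23,131808),(28,153376),(31,89120),(42,132832),(13,382464),(0,7904)]),(0,[(23,4064),(28,6048),(31,3360),(42,3680),(13,10752),(0,288)]),(0,[(23,1024),(28,8704),(31,704),(13,10752),(0,288)]),(24,[(23,60999),(28,28800),(13,370164),(8,12846512),(4,82255),(2,16821),(0,444274),(44,204800)]),(0,[(23,12048),(28,6000),(31,10192),(40,2928),(41,10672),(10,1408),(8,104160)])], .leaf 0 [(570,[(23,1390464),(26,459264),(29,877056),(42,891520),(8,18711808),(6,358728),(4,25856),(0,16072),(44,3674112)])], .leaf 0 [(30,[(18,184048),(35,26944),(13,26040),(0,2036),(43,46012)])],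 .leaf 0 [(1,[(28,4896),(31,3472),(12,15903),(10,5088),(2,95)])], .leaf 1 [(84,[(31,1924992),(42,1271808),(10,1533312),(8,12715264),(6,101344),(4,384),(44,696320)])], .leaf 4 [(2096,[(21,26094848),(22,78076),(28,9238528),(42,7038848),(13,6965492),(3,288372),(1,68),(0,25092)]),(2208,[(21,32147724),(28,17034964),(31,3260688),(42,4374100),(13,2595148),(10,419832),(1,4296),(0,19968)]),(0,[(40,672),(10,192),(8,10272),(7,864)]),(0,[(23,5056),(28,640),(31,13984),(41,13216),(42,7040),(10,1984),(8,96576)]),(0,[(17,1536),(21,6848),(31,2656),(41,7264),(42,1984),(8,6336),(44,384)])], .leaf 0 [(168,[(28,405248),(13,109312),(12,1488896),(10,86528),(4,2304)])], .leaf 0 [(7,[(29,8288),(10,8288),(8,13603),(2,259)])], .leaf 0 [(3455,[(24,519328),(36,5859408),(10,10498560),(8,652086944),(6,1289381),(4,4230656),(3,4350464),(0,22589253),(44,4154624)])]]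
noncomputable def a12 : TT := .leaf ⟨false,0,1,0,1,1,3,[[],[-1,-2,-1,0,4,0,0,1,-2,1],[],[-1,-2,-1,0,0,0,0,1,2,1],[],[],[],[],[],[],[]]⟩ [.leaf 0 [(0,[])], .leaf 0 [(0,[(27,1),(30,1),(7,4)])], .leaf 0 [(0,[])], .leaf 0 [(0,[])], .leaf 0 [(0,[(28,1),(32,1)])], .leaf 0 [(0,[])], .leaf 0 [(0,[(27,128),(30,128)])], .leaf 0 [(0,[])], .leaf 0 [(0,[(27,896),(30,896),(7,3584)])], .leaf 0 [(0,[])], .leaf 0 [(0,[])], .leaf 0 [(0,[])], .leaf 0 [(0,[])], .leaf 0 [(0,[])], .leaf 0 [(0,[])], .leaf 0 [(0,[(27,896),(30,896),(7,3584)])], .leaf 0 [(0,[(20,256),(21,256),(41,256)])], .leaf 0 [(0,[])], .leaf 0 [(0,[(21,256),(28,256),(12,256)])], .leaf 0 [(0,[(22,82),(12,88),(7,234),(3,2)])], .leaf 0 [(0,[])], .leaf 0 [(3,[(25,41),(27,368),(30,288),(7,1944),(3,8),(43,328)])], .leaf 0 [(40,[(27,36080),(30,36144),(12,336),(11,976),(9,48),(7,164992),(3,128),(2,16),(43,5248)])], .leaf 3 [(0,[(21,160),(28,32),(12,96)]),(0,[(27,80),(33,16),(39,136),(12,72),(7,192)]),(0,[(21,32),(27,96),(12,224)]),(76,[(16,60416),(27,42976),(30,31840),(41,1920),(12,24064),(7,275200),(3,384),(43,15104)]),(1438,[(27,72656),(40,89200),(12,367936),(9,147584),(2,7648),(0,608)])],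 .leaf 1 [(18,[(25,164),(27,2240),(30,1920),(12,256),(7,9360),(3,32),(43,1312)])], .leaf 0 [(0,[(28,8),(32,8),(7,32)])], .leaf 0 [(42,[(25,646),(27,272),(41,240),(12,496),(7,21072),(3,128),(43,5168)])], .leaf 2 [(56082,[(35,112336),(12,472848),(11,1069712),(9,296112),(7,24924096),(3,167296),(2,55856),(0,3744),(43,7178624)])], .leaf 4 [(0,[(16,512),(43,128)]),(40,[(16,40672),(30,224),(12,192),(9,168),(7,19352),(3,120),(2,56),(43,10168)]),(0,[(25,16),(43,128)]),(0,[(43,128)]),(6052,[(16,90672768),(35,1086656),(12,3553856),(9,6837280),(7,11942624),(3,159264),(2,1045856),(0,167936),(43,22668192)])], .leaf 0 [(4330,[(23,1200),(25,64294),(30,89776),(41,22640),(7,2086176),(3,12400),(43,523952)])], .leaf 0 [(72,[(16,223520),(22,18872),(41,23256),(12,59904),(5,3872),(0,512),(43,55880)])], .leaf 0 [(168,[(27,16240),(39,17428),(12,2308),(9,5408),(7,39008),(3,264)])], .leaf 1 [(40,[(27,36080),(30,36144),(39,336),(9,48),(7,165968),(3,128),(2,16),(43,5248)])],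 .leaf 4 [(0,[(20,160),(21,32),(41,96),(12,64)]),(0,[(20,184),(27,152),(30,96),(41,72),(12,72)]),(82,[(27,2080),(12,11568),(11,11072),(9,48),(0,48)]),(76,[(16,60416),(27,33120),(30,41696),(41,21632),(12,24064),(7,275200),(3,384),(43,15104)]),(0,[(20,32),(30,112),(40,136),(41,88),(12,72),(7,224)])], .leaf 0 [(47856,[(27,6178520),(40,307248),(12,6397576),(11,11487272),(9,1496),(3,71024),(0,1496)])], .leaf 0 [(42,[(28,380),(35,152),(12,148),(11,420),(9,820),(0,4)])], .leaf 1 [(0,[(28,8),(32,8),(11,32)])]]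
noncomputable def a13 : TT := .leaf ⟨false,1,1,0,2,1,7,[[0,0,0,0,-1,0,0,0,2],[0,0,0,0,5,0,0,0,-2],[],[0,0,0,0,-1,0,0,0,2],[],[],[0,0,0,0,-4,0,0,0,7],[],[],[],[]]⟩ [.leaf 0 [(31,[(4,2),(0,1)])], .leaf 0 [(0,[(10,2)])], .leaf 0 [(0,[])], .leaf 0 [(32,[(16,128),(6,130),(0,2),(41,32)])], .leaf 0 [(16,[(19,2),(26,2),(4,2),(0,1)])], .leaf 0 [(0,[])], .leaf 0 [(12036,[(16,109824),(40,43008),(4,84992),(2,512),(0,46916),(41,27456)])], .leaf 0 [(0,[])], .leaf 0 [(0,[(10,1792)])], .leaf 0 [(0,[])], .leaf 0 [(0,[])], .leaf 0 [(0,[(4,56),(0,28)])], .leaf 0 [(0,[])], .leaf 0 [(34,[(16,1024),(40,1024),(11,1024),(4,1024),(0,528),(41,256)])], .leaf 0 [(0,[(4,24),(0,12)])], .leaf 0 [(0,[(6,2688)])], .leaf 0 [(0,[(19,640),(26,640),(39,192),(40,192),(11,192)])], .leaf 0 [(12036,[(16,109824),(40,43008),(4,84992),(2,512),(0,46916),(41,27456)])], .leaf 0 [(0,[(38,320),(11,704)])], .leaf 0 [(0,[(16,64),(27,32),(10,288),(8,32),(41,16)])],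 .leaf 0 [(0,[])], .leaf 0 [(464,[(21,3440),(22,2816),(27,6256),(31,5264),(40,9616),(4,3360),(42,22528)])], .leaf 0 [(0,[(6,2560),(4,32),(42,256)])], .leaf 0 [(0,[(20,256),(11,256)]),(0,[(11,256),(8,256)]),(0,[(10,160),(9,224)]),(0,[(11,256),(10,1856),(8,256),(6,1088),(4,32),(42,256)]),(48,[(20,13248),(26,2112),(11,12544),(4,2112),(1,704),(0,1056)])], .leaf 0 [(5,[(21,64),(22,15),(27,79),(31,64),(40,128),(8,384),(4,49),(0,13),(42,120)])], .leaf 0 [(0,[(6,40)])], .leaf 0 [(448,[(21,4656),(22,2152),(27,6808),(29,9552),(40,9552),(4,2744),(42,17216)])], .leaf 2 [(184,[(40,2688),(4,11232),(2,32),(1,928),(0,2854),(42,47360)])], .leaf 2 [(4,[(21,1062),(26,550),(29,550),(39,346),(11,730),(0,24)]),(1,[(19,673),(21,255),(26,512),(29,225),(11,223),(0,2)]),(0,[(21,256),(11,256)]),(338,[(4,13992),(2,1024),(1,768),(0,9716),(42,86784)]),(0,[(21,256),(39,256),(11,256),(6,1792)])], .leaf 1 [(0,[(16,64),(31,32),(8,64),(6,288),(41,16)])],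 .leaf 0 [(32,[(16,6976),(31,1056),(6,716),(0,76),(41,1744)])], .leaf 0 [(0,[(16,64),(8,64),(6,264),(41,16)])], .leaf 1 [(0,[(10,768),(4,32),(42,256)])], .leaf 4 [(0,[(19,384),(26,128),(40,128),(11,128)]),(0,[(19,256),(40,256),(11,256),(4,8),(0,4)]),(0,[(28,224),(40,32),(11,32),(10,32),(6,224)]),(0,[(19,256),(39,256)]),(114,[(19,53120),(26,21472),(40,4032),(2,48),(1,656),(0,159)])], .leaf 0 [(0,[(10,288)])], .leaf 0 [(0,[(16,64),(27,32),(10,56),(8,32),(41,16)])], .leaf 0 [(260438,[(22,366752),(40,6604416),(8,5687200),(6,221628564),(4,13051584),(2,78624),(1,2280096),(0,6579924),(42,2934016)])]]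
noncomputable def a14 : TT := .leaf ⟨false,0,1,0,1,3,15,[[],[0,0,0,0,16,0,0,0,-5],[],[0,0,0,0,0,0,0,0,5],[],[],[],[],[],[],[]]⟩ [.leaf 0 [(0,[])], .leaf 0 [(0,[(10,5)])], .leaf 0 [(0,[])], .leaf 0 [(0,[])], .leaf 0 [(0,[])], .leaf 0 [(0,[])], .leaf 0 [(0,[])], .leaf 0 [(0,[])], .leaf 0 [(0,[(10,4480)])], .leaf 0 [(0,[])], .leaf 0 [(0,[])], .leaf 0 [(0,[])], .leaf 0 [(0,[])], .leaf 0 [(0,[])], .leaf 0 [(0,[])], .leaf 0 [(0,[(10,4480)])], .leaf 0 [(0,[(40,2048),(11,2048)])], .leaf 0 [(0,[])], .leaf 0 [(0,[(11,2048)])], .leaf 0 [(0,[(16,128),(27,64),(10,64),(8,64),(41,32)])], .leaf 0 [(0,[])], .leaf 0 [(4,[(22,92),(27,92),(31,128),(40,192),(6,3420),(4,100),(42,736)])], .leaf 0 [(0,[(10,6528),(4,64),(42,512)])], .leaf 0 [(0,[(20,512),(11,512)]),(0,[(20,512),(11,512)]),(0,[(30,448),(10,160)]),(256,[(16,16640),(27,64960),(34,1920),(38,104448),(8,168640),(7,44352),(6,1205088),(3,12608),(42,127424)]),(0,[(20,192),(27,64),(38,512),(8,320),(7,64),(6,160)])],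 .leaf 1 [(0,[(6,64)])], .leaf 0 [(0,[(10,64)])], .leaf 0 [(135278,[(22,3876008),(27,7144424),(40,8084160),(6,147254016),(4,4020312),(2,37568),(42,31008064)])], .leaf 2 [(0,[(6,2048),(4,64),(42,512)])], .split 4 4 (.leaf 4 [(0,[(16,2048),(1,32),(43,512)]),(8119,[(16,350208),(23,507392),(30,507392),(35,6144),(9,12288),(7,239616),(1,227456),(0,9),(43,4146688)]),(32,[(25,2112),(27,512),(30,512),(1,1024),(43,16896)]),(0,[(1,32),(43,512)]),(0,[(0,1)])]) (.leaf 2 [(27,[(16,10240),(22,12288),(41,12288),(12,24576),(1,160),(0,1),(43,2560)]),(223,[(16,92160),(20,69648),(22,96256),(27,69648),(41,26608),(12,108528),(1,1440),(0,9),(43,23040)]),(223,[(22,14336),(34,104960),(12,224256),(0,9)]),(615,[(17,153600),(41,35840),(12,111104),(9,25088),(2,25088),(1,15744),(0,23),(43,276992)]),(0,[(22,512),(40,512),(12,512),(11,3520)])]), .leaf 0 [(276086,[(22,790336),(24,17157696),(27,790336),(40,166656),(6,551784192),(4,17208576),(2,1984),(1,5661696),(42,143584256)])],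 .leaf 0 [(0,[(16,768),(19,288),(20,224),(31,64),(6,64),(1,96),(41,192)])], .leaf 0 [(0,[(16,128),(8,128),(41,32)])], .leaf 1 [(0,[(10,6528),(4,64),(42,512)])], .leaf 1 [(0,[(19,784),(26,272),(40,240),(11,240)]),(0,[(28,448),(6,160)]),(0,[(19,1024),(26,512)]),(4,[(29,1424),(40,1696),(10,26184),(5,432),(3,136),(42,2560)]),(0,[(19,512),(39,448),(40,64),(10,160)])], .leaf 0 [(0,[(6,64)])], .leaf 0 [(0,[(16,128),(27,64),(10,104),(8,64),(41,32)])], .leaf 1 [(0,[(10,64)])]]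
noncomputable def a15 : TT := .leaf ⟨true,1,8,0,9,3,31,[[0,0,0,0,0,0,0,0,3],[0,0,0,0,32,0,0,0,-24],[],[0,0,0,0,0,0,0,0,3],[],[],[0,0,0,0,0,0,0,0,9],[0,0,0,0,0,0,0,0,3],[0,0,0,0,4,0,0,0,-3],[],[0,0,0,0,4]]⟩ [.leaf 0 [(0,[])], .leaf 0 [(0,[(11,1),(7,2)])], .leaf 0 [(0,[])], .leaf 0 [(0,[])], .leaf 0 [(535,[(17,12544),(41,4560),(12,9120),(9,1472),(2,1520),(1,291),(0,48),(42,3136)])], .leaf 0 [(0,[])], .leaf 0 [(0,[])], .leaf 0 [(0,[]),(0,[]),(0,[]),(0,[]),(0,[]),(0,[])], .leaf 0 [(0,[])], .leaf 0 [(0,[])], .leaf 0 [(0,[(11,7168),(7,14336)])], .leaf 0 [(0,[])], .leaf 0 [(0,[])], .leaf 0 [(0,[])], .leaf 0 [(0,[])], .leaf 0 [(0,[])], .leaf 0 [(0,[])], .leaf 0 [(0,[(11,6016),(7,16640)])], .leaf 0 [(0,[(41,4096),(12,4096)])], .leaf 0 [(0,[])], .leaf 0 [(0,[(12,4096)])], .leaf 0 [(0,[(17,256),(35,64),(9,128),(7,3076),(1,4),(42,64)])], .leaf 0 [(0,[])], .leaf 0 [(2,[(23,56),(28,312),(41,384),(11,712),(7,8816),(5,72),(43,448)])],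 .leaf 0 [(0,[(7,27904),(5,128),(43,1024)])], .leaf 0 [(0,[(21,1024),(12,1024)]),(0,[(21,1024),(12,1024)]),(0,[(12,896),(11,1216),(7,512)]),(354,[(17,98304),(35,3584),(39,363520),(9,297984),(8,72704),(7,9426848),(5,38272),(1,224),(43,338944)]),(0,[(28,128),(39,1024),(9,1024),(8,128)])], .leaf 0 [(39086,[(16,127417344),(41,4656768),(9,8922752),(5,4310400),(2,115456),(1,171520),(0,1198976),(43,31854336)])], .leaf 0 [(0,[(7,56)])], .leaf 0 [(5920,[(23,125704),(28,353800),(30,500352),(41,500352),(7,19896320),(5,146552),(2,76032),(43,1005632)])], .leaf 2 [(0,[(11,384),(7,3328),(5,128),(43,1024)])], .leaf 2 [(10,[(20,9216),(22,9216),(27,9216),(12,8192),(0,1024)]),(10,[(20,17408),(27,8816),(30,7344),(2,624),(0,1024)]),(6,[(22,4096),(12,5120),(0,1024)]),(390,[(27,84544),(30,84544),(12,45312),(3,2368),(2,12736),(0,35808),(43,400384)]),(0,[(22,1024),(40,1024),(12,1024),(7,17184)])], .leaf 1 [(0,[(17,256),(41,64),(9,320),(7,3076),(1,4),(42,64)])],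 .leaf 0 [(0,[(17,1024),(41,384),(12,640),(2,128),(1,24),(42,256)])], .leaf 0 [(0,[(17,256),(9,256),(7,3000),(42,64)])], .leaf 1 [(0,[(7,25216),(5,128),(43,1024)])], .leaf 1 [(0,[(20,1024),(41,1024),(12,1024)]),(0,[(29,896),(7,1824)]),(36,[(16,16384),(20,34816),(30,5120),(33,9216),(41,18432),(0,2048),(43,4096)]),(4,[(30,2848),(41,3392),(11,40240),(7,65088),(6,864),(4,272),(43,5120)]),(0,[(20,1024),(40,800),(41,224)])], .leaf 0 [(0,[(7,3200)])], .leaf 0 [(0,[(17,256),(35,64),(9,128),(7,124),(1,4),(42,64)])], .leaf 1 [(0,[(7,32)])]]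
noncomputable def a16 : TT := .leaf ⟨false,0,1,0,1,1,3,[[],[-1,-2,-1,0,4,0,0,1,-2,1],[],[-1,-2,-1,0,0,0,0,1,2,1],[],[],[],[],[],[],[]]⟩ [.leaf 0 [(0,[])], .leaf 0 [(0,[(27,1),(30,1),(7,4)])], .leaf 0 [(0,[])], .leaf 0 [(0,[])], .leaf 0 [(0,[(28,1),(32,1)])], .leaf 0 [(0,[])], .leaf 0 [(0,[(27,128),(30,128)])], .leaf 0 [(0,[])], .leaf 0 [(0,[(27,896),(30,896),(7,3584)])], .leaf 0 [(0,[])], .leaf 0 [(0,[])], .leaf 0 [(0,[])], .leaf 0 [(0,[])], .leaf 0 [(0,[])], .leaf 0 [(0,[])], .leaf 0 [(0,[(27,896),(30,896),(7,3584)])], .leaf 0 [(0,[(20,256),(21,256),(41,256)])], .leaf 0 [(0,[])], .leaf 0 [(0,[(21,256),(28,256),(12,256)])], .leaf 0 [(0,[(12,88),(9,82),(7,234),(3,2)])], .leaf 0 [(0,[])], .leaf 0 [(96,[(25,984),(27,9088),(30,7152),(7,47152),(3,192),(2,8),(43,7872)])], .leaf 0 [(40,[(27,36080),(30,36176),(12,304),(11,848),(9,80),(8,16),(7,165184),(3,128),(43,5248)])], .leaf 3 [(0,[(21,160),(28,32),(12,96)]),(0,[(27,80),(33,16),(39,136),(12,72),(7,192)]),(0,[(21,32),(27,96),(12,224)]),(76,[(16,60416),(27,42976),(30,31840),(41,1920),(12,24064),(7,275200),(3,384),(43,15104)]),(0,[(17,224),(39,64),(12,160),(9,144),(7,96),(42,56)])],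 .leaf 1 [(230,[(25,1968),(27,27648),(30,23776),(12,3104),(7,113840),(3,384),(2,16),(43,15744)])], .leaf 0 [(1,[(11,33),(1,1)])], .leaf 0 [(5280,[(25,79252),(27,64184),(41,11832),(12,56728),(7,2597112),(3,15560),(2,4428),(43,634016)])], .leaf 2 [(378,[(12,3792),(11,3448),(9,1224),(7,164696),(3,1136),(2,128),(0,1096),(43,48512)])], .split 4 4 (.leaf 4 [(0,[(17,512),(44,128)]),(9567,[(17,1539584),(23,380928),(24,41984),(28,1165440),(31,1207424),(42,269824),(13,650752),(0,961),(44,720768)]),(0,[(26,16),(44,128)]),(0,[(44,128)]),(0,[(0,1)])]) (.leaf 2 [(867,[(17,342016),(23,29568),(42,29568),(13,59136),(2,3584),(0,31),(44,85504)]),(6943,[(26,75360),(42,321664),(13,532224),(2,32256),(0,279),(44,602880)]),(6943,[(22,1205760),(23,111104),(35,210560),(13,532224),(2,32256),(0,279)]),(11,[(13,192),(10,380),(8,1604),(3,64),(2,4),(0,1),(44,1536)]),(0,[(23,128),(28,704),(31,704),(41,128),(13,128),(8,3456)])]),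 .leaf 0 [(3812,[(23,1974),(25,57763),(30,21400),(7,1818160),(3,11160),(2,13857),(43,477896)])], .leaf 0 [(30,[(17,3968),(20,1224),(21,1224),(41,264),(12,32),(2,496),(1,32),(42,992)])], .leaf 0 [(6,[(27,1304),(30,312),(12,1296),(9,160),(4,64)])], .leaf 1 [(40,[(27,36080),(30,36176),(39,304),(11,240),(9,80),(8,16),(7,165792),(3,128),(43,5248)])], .leaf 4 [(0,[(20,160),(21,32),(41,96),(12,64)]),(0,[(20,32),(30,96),(41,224),(12,224)]),(6,[(17,1024),(30,112),(12,560),(7,1792),(6,48),(42,256)]),(76,[(16,60416),(27,33120),(30,41696),(41,21632),(12,24064),(7,275200),(3,384),(43,15104)]),(0,[(20,32),(30,112),(40,136),(41,88),(12,72),(7,224)])], .leaf 0 [(5682,[(27,1118608),(12,1032016),(9,200736),(4,56112),(3,640)])], .leaf 0 [(26,[(17,512),(35,216),(9,476),(1,8),(0,44),(42,128)])], .leaf 1 [(1,[(11,33),(1,1)])]]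
noncomputable def a17 : TT := .leaf ⟨false,0,1,0,1,1,3,[[],[-1,-2,-1,0,4,0,0,1,-2,1],[],[-1,-2,-1,0,0,0,0,1,2,1],[],[],[],[],[],[],[]]⟩ [.leaf 0 [(0,[])], .leaf 0 [(0,[(26,1),(29,1),(6,4)])], .leaf 0 [(0,[])], .leaf 0 [(0,[])], .leaf 0 [(0,[(27,1),(31,1)])], .leaf 0 [(0,[])], .leaf 0 [(0,[(26,128),(29,128)])], .leaf 0 [(0,[])], .leaf 0 [(0,[(26,896),(29,896),(6,3584)])], .leaf 0 [(0,[])], .leaf 0 [(0,[])], .leaf 0 [(0,[])], .leaf 0 [(0,[])], .leaf 0 [(0,[])], .leaf 0 [(0,[])], .leaf 0 [(0,[(26,896),(29,896),(6,3584)])], .leaf 0 [(0,[(19,256),(20,256),(40,256)])], .leaf 0 [(0,[])], .leaf 0 [(0,[(20,256),(27,256),(11,256)])], .leaf 0 [(4,[(29,256),(11,256),(8,512),(0,48)])], .leaf 0 [(0,[])], .leaf 0 [(36,[(21,1452),(24,132),(26,4588),(29,4588),(39,1320),(11,1916),(1,1188),(42,1056)])], .leaf 0 [(9150,[(21,1366896),(22,144864),(24,2576),(29,2122016),(39,3339920),(11,3421328),(1,2351872),(42,2350848)])],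 .leaf 3 [(0,[(20,160),(27,32),(11,96)]),(38,[(22,8),(39,2268),(11,7752),(7,420),(1,492),(42,64)]),(0,[(20,32),(26,96),(11,224)]),(6,[(15,2560),(26,5792),(29,4640),(11,2432),(6,20864),(1,384),(42,640)]),(0,[(26,40),(32,44),(38,48),(11,124),(8,100),(6,168),(1,4)])], .leaf 1 [(19,[(24,165),(26,2744),(29,2216),(11,1320),(1,792),(42,1320)])], .leaf 0 [(0,[(27,8),(31,8),(10,32)])], .leaf 0 [(3,[(24,35),(26,520),(29,472),(11,216),(1,168),(42,280)])], .leaf 2 [(0,[(0,16),(42,128)])], .split 4 4 (.leaf 4 [(0,[(16,512),(43,128)]),(9567,[(16,1539584),(22,380928),(23,41984),(27,1165440),(30,1207424),(41,269824),(12,650752),(0,961),(43,720768)]),(0,[(25,16),(43,128)]),(0,[(43,128)]),(0,[(0,1)])]) (.leaf 2 [(2281,[(16,1044992),(22,4480),(12,1792),(3,896),(0,81),(43,261248)]),(75,[(22,6176),(41,5696),(12,10368),(3,96),(0,3)]),(325,[(21,60160),(22,6096),(12,5568),(3,176),(0,13)]),(11,[(22,64),(35,64),(12,64),(9,128),(7,1728),(0,1),(43,1536)]),(4,[(16,6400),(22,1088),(40,1088),(12,2112),(11,3200),(2,1024),(43,1600)])]),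 .leaf 0 [(19,[(24,185),(26,2328),(29,2632),(11,840),(1,824),(42,1480)])], .leaf 1 [(74,[(24,620),(26,9464),(29,9136),(39,580),(11,3760),(1,2852),(42,4960)])], .leaf 0 [(0,[(26,104),(29,8),(11,112),(8,32),(0,8)])], .leaf 1 [(0,[(21,16),(26,920),(29,920),(38,52),(11,36),(6,3184),(1,72),(42,128)])], .leaf 4 [(0,[(19,160),(20,32),(40,96),(11,64)]),(0,[(19,184),(26,152),(29,96),(40,72),(11,72)]),(2,[(39,525),(40,72),(11,280),(6,155),(5,128),(0,5)]),(124,[(15,76032),(21,28512),(24,864),(29,16000),(39,59648),(11,54432),(10,2080),(6,29920),(1,26784),(42,25920)]),(0,[(19,32),(29,112),(39,136),(40,88),(11,72),(6,224)])], .leaf 0 [(1,[(26,208),(11,240),(8,32),(0,17)])], .leaf 0 [(0,[(16,32),(27,16),(8,16),(6,32),(41,8)])], .leaf 1 [(0,[(27,8),(31,8),(10,32)])]]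
noncomputable def a18 : TT := .leaf ⟨true,1,8,0,9,3,31,[[0,0,0,0,0,0,0,0,3],[0,0,0,0,32,0,0,0,-24],[],[0,0,0,0,0,0,0,0,3],[],[],[0,0,0,0,0,0,0,0,9],[0,0,0,0,0,0,0,0,3],[0,0,0,0,4,0,0,0,-3],[],[0,0,0,0,4]]⟩ [.leaf 0 [(0,[])], .leaf 0 [(0,[(6,3)])], .leaf 0 [(0,[])], .leaf 0 [(0,[])], .leaf 0 [(3,[(16,96),(21,16),(11,16),(0,1),(41,24)])], .leaf 0 [(0,[])], .leaf 0 [(0,[])], .leaf 0 [(0,[]),(0,[]),(0,[]),(0,[]),(0,[]),(0,[])], .leaf 0 [(0,[])], .leaf 0 [(0,[])], .leaf 0 [(0,[(6,21504)])], .leaf 0 [(0,[])], .leaf 0 [(0,[])], .leaf 0 [(0,[])], .leaf 0 [(0,[])], .leaf 0 [(0,[])], .leaf 0 [(0,[])], .leaf 0 [(0,[(6,22656)])], .leaf 0 [(0,[(40,4096),(11,4096)])], .leaf 0 [(0,[])], .leaf 0 [(0,[(11,4096)])], .leaf 0 [(82,[(16,32768),(21,192),(34,5376),(10,74048),(8,10752),(6,170624),(2,64),(41,8192)])], .leaf 0 [(0,[])], .leaf 0 [(44,[(21,1984),(27,3328),(31,3328),(40,1664),(6,88512),(2,64),(1,2304)])],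 .leaf 0 [(0,[(6,27904),(4,128),(42,1024)])], .leaf 0 [(0,[(20,1024),(11,1024)]),(0,[(20,1024),(11,1024)]),(0,[(11,896),(6,1728)]),(354,[(16,98304),(27,7168),(11,363520),(10,1602880),(8,297984),(7,72704),(6,7830912),(4,38272),(42,338944)]),(0,[(20,384),(27,128),(38,1024),(8,640),(7,128)])], .leaf 0 [(8,[(21,384),(26,2848),(29,2848),(40,320),(8,1856),(4,222),(1,448),(0,286)])], .leaf 0 [(0,[(6,56)])], .leaf 0 [(884,[(21,38208),(22,2432),(27,115712),(40,38400),(6,1998744),(2,448),(1,38016),(42,19456)])], .leaf 2 [(0,[(10,384),(6,3328),(4,128),(42,1024)])], .leaf 4 [(92,[(15,247168),(21,13376),(24,608),(26,132928),(29,132928),(40,6080),(11,37696),(1,18848),(0,6688),(42,66656)]),(586,[(15,2559744),(22,22864),(24,2970),(26,84016),(29,113216),(11,193248),(1,147312),(42,846608)]),(616,[(21,19712),(24,68672),(26,769120),(29,769120),(40,7840),(11,100352),(1,62496),(0,22176),(42,549376)]),(0,[(26,1024),(29,1024),(42,1024)]),(420346,[(15,5702359168),(24,2948256),(29,1608005760),(34,147305728),(11,33795008),(7,321601152),(2,9220992),(1,1672412000),(0,245558240),(42,1449175840)])],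 .leaf 0 [(7742,[(22,185152),(27,2068672),(34,541056),(7,376704),(6,770112),(2,55232),(1,2049216),(42,1481216)])], .leaf 0 [(30,[(16,24576),(33,3840),(11,3968),(0,256),(41,6144)])], .leaf 0 [(0,[(16,256),(10,584),(8,256),(6,2416),(41,64)])], .leaf 1 [(0,[(10,7552),(6,17664),(4,128),(42,1024)])], .leaf 1 [(0,[(19,1904),(26,880),(40,144),(11,144)]),(0,[(28,896),(6,1824)]),(0,[(19,2048),(26,1024)]),(46,[(40,17920),(10,401312),(6,536384),(5,22912),(3,1152),(1,6528),(42,48128)]),(0,[(19,1024),(39,800),(40,224)])], .leaf 0 [(0,[(10,768),(6,2432)])], .leaf 0 [(0,[(16,256),(27,128),(10,248),(8,128),(41,64)])], .leaf 0 [(178,[(15,298624),(26,161152),(29,207488),(8,14912),(7,9056),(4,17572),(1,45280),(0,18628),(42,74656)])]]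
noncomputable def a19 : TT := .leaf ⟨true,1,8,0,9,3,31,[[0,0,0,0,0,0,0,0,3],[0,0,0,0,32,0,0,0,-24],[],[0,0,0,0,0,0,0,0,3],[],[],[0,0,0,0,0,0,0,0,9],[0,0,0,0,0,0,0,0,3],[0,0,0,0,4,0,0,0,-3],[],[0,0,0,0,4]]⟩ [.leaf 0 [(0,[])], .leaf 0 [(0,[(9,1),(5,2)])], .leaf 0 [(0,[])], .leaf 0 [(0,[])], .leaf 0 [(4,[(15,40),(32,6),(10,10),(7,2),(0,2),(40,10)])], .leaf 0 [(0,[])], .leaf 0 [(0,[])], .leaf 0 [(0,[]),(0,[]),(0,[]),(0,[]),(0,[]),(0,[])], .leaf 0 [(0,[])], .leaf 0 [(0,[])], .leaf 0 [(0,[(9,7168),(5,14336)])], .leaf 0 [(0,[])], .leaf 0 [(0,[])], .leaf 0 [(0,[])], .leaf 0 [(0,[])], .leaf 0 [(0,[])], .leaf 0 [(0,[])], .leaf 0 [(0,[(9,6016),(5,16640)])], .leaf 0 [(0,[(39,4096),(10,4096)])], .leaf 0 [(0,[])], .leaf 0 [(0,[(10,4096)])], .leaf 0 [(0,[(15,256),(26,128),(9,640),(7,128),(5,2560),(40,64)])], .leaf 0 [(0,[])], .leaf 0 [(2,[(21,56),(26,312),(39,384),(5,9528),(3,72),(41,448)])], .leaf 0 [(0,[(5,27904),(3,128),(41,1024)])],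 .leaf 0 [(0,[(19,1024),(10,1024)]),(0,[(19,1024),(10,1024)]),(0,[(10,896),(5,1728)]),(354,[(15,98304),(26,7168),(10,363520),(9,1602880),(7,297984),(6,72704),(5,7830912),(3,38272),(41,338944)]),(0,[(19,384),(26,128),(37,1024),(7,640),(6,128)])], .leaf 0 [(4,[(14,15060),(20,151),(25,455),(28,455),(39,691),(7,1482),(3,540),(0,202),(41,3765)])], .leaf 0 [(0,[(5,56)])], .leaf 0 [(960,[(20,38016),(21,19208),(26,57224),(28,81408),(39,81408),(5,3241984),(3,24184),(41,153664)])], .leaf 2 [(0,[(9,384),(5,3328),(3,128),(41,1024)])], .leaf 2 [(4,[(14,10080),(20,1576),(25,5080),(28,5080),(39,1576),(10,2640),(7,512),(0,512),(41,2520)]),(10,[(18,12240),(20,5680),(25,14720),(28,9040),(10,3120),(0,1152)]),(4,[(19,448),(20,640),(25,6208),(10,6272),(7,576),(0,576)]),(174,[(20,15360),(25,222208),(28,218112),(7,19456),(3,7040),(0,19456),(41,179200)]),(0,[(20,1024),(38,1024),(10,1024),(5,17184)])], .leaf 1 [(82,[(15,32768),(20,320),(32,5248),(9,63552),(7,21248),(5,181120),(1,64),(40,8192)])],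 .leaf 0 [(8442,[(15,22214656),(32,3519232),(10,5839744),(1,35968),(0,189952),(40,5553664)])], .leaf 0 [(0,[(15,256),(7,256),(5,3000),(40,64)])], .leaf 1 [(0,[(5,25216),(3,128),(41,1024)])], .leaf 1 [(0,[(18,1024),(39,1024),(10,1024)]),(0,[(27,896),(9,224),(5,1600)]),(0,[(18,2048),(25,1024)]),(4,[(28,2848),(39,3392),(9,40240),(5,65088),(4,864),(2,272),(41,5120)]),(0,[(18,1024),(38,800),(39,224)])], .leaf 0 [(0,[(9,768),(5,2432)])], .leaf 0 [(0,[(15,256),(26,128),(7,128),(5,248),(40,64)])], .leaf 1 [(0,[(9,32)])]]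
noncomputable def a20 : TT := .leaf ⟨true,1,8,0,9,3,31,[[0,0,0,0,0,0,0,0,3],[0,0,0,0,32,0,0,0,-24],[],[0,0,0,0,0,0,0,0,3],[],[],[0,0,0,0,0,0,0,0,9],[0,0,0,0,0,0,0,0,3],[0,0,0,0,4,0,0,0,-3],[],[0,0,0,0,4]]⟩ [.leaf 0 [(0,[])], .leaf 0 [(0,[(3,3)])], .leaf 0 [(0,[])], .leaf 0 [(0,[])], .leaf 0 [(19,[(13,116),(18,2),(30,8),(8,12),(5,2),(0,2),(38,29)])], .leaf 0 [(0,[])], .leaf 0 [(0,[])], .leaf 0 [(0,[]),(0,[]),(0,[]),(0,[]),(0,[]),(0,[])], .leaf 0 [(0,[])], .leaf 0 [(0,[])], .leaf 0 [(0,[(3,21504)])], .leaf 0 [(0,[])], .leaf 0 [(0,[])], .leaf 0 [(0,[])], .leaf 0 [(0,[])], .leaf 0 [(0,[])], .leaf 0 [(0,[])], .leaf 0 [(0,[(7,6016),(3,16640)])], .leaf 0 [(0,[(37,4096),(8,4096)])], .leaf 0 [(0,[])], .leaf 0 [(0,[(8,4096)])], .leaf 0 [(0,[(13,256),(24,128),(7,640),(5,128),(3,2560),(38,64)])], .leaf 0 [(0,[])], .leaf 0 [(2,[(19,56),(24,312),(37,384),(7,712),(3,8816),(1,72),(39,448)])], .leaf 0 [(0,[(7,4864),(3,23040),(1,128),(39,1024)])],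 .leaf 0 [(0,[(17,1024),(8,1024)]),(0,[(17,1024),(8,1024)]),(0,[(27,896),(3,1728)]),(354,[(13,98304),(24,7168),(35,363520),(7,875840),(5,297984),(4,72704),(3,8557952),(1,38272),(39,338944)]),(0,[(24,128),(35,1024),(5,1024),(4,128)])], .leaf 0 [(442,[(18,44096),(19,6464),(26,26688),(37,63168),(5,123520),(1,22720),(0,10112),(39,51712)])], .leaf 0 [(0,[(7,56)])], .leaf 0 [(64,[(18,3772),(21,2744),(24,1028),(26,4100),(37,4100),(3,260992),(1,3072),(39,21952)])], .leaf 2 [(0,[(3,3712),(1,128),(39,1024)])], .leaf 2 [(4,[(18,3328),(23,2432),(26,1280),(37,3200),(8,7296),(5,128),(0,128)]),(0,[(23,560),(26,832),(37,656),(0,48)]),(4,[(18,784),(23,4176),(30,880),(8,6288),(5,144),(0,144)]),(2860,[(13,2412544),(18,387072),(23,2947072),(26,3091456),(5,80896),(1,60032),(0,80896),(39,2326528)]),(0,[(18,1024),(36,1024),(8,1024),(7,12512),(3,4672)])], .leaf 1 [(0,[(13,256),(28,128),(5,256),(3,3200),(38,64)])],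 .leaf 0 [(70,[(13,188032),(30,5824),(3,1344),(0,1632),(38,47008)])], .leaf 0 [(0,[(13,256),(7,584),(5,256),(3,2416),(38,64)])], .leaf 1 [(0,[(3,25216),(1,128),(39,1024)])], .leaf 1 [(0,[(16,1904),(23,880),(37,144),(8,144)]),(0,[(36,560),(37,336),(8,336),(3,1824)]),(0,[(16,2048),(23,1024)]),(32,[(26,31744),(37,31744),(7,258784),(3,527936),(2,1024),(1,2176),(39,33792)]),(0,[(16,1024),(36,800),(37,224)])], .leaf 0 [(0,[(3,3200)])], .leaf 0 [(0,[(13,256),(24,128),(7,248),(5,128),(38,64)])], .leaf 0 [(426,[(18,188320),(19,7200),(23,223616),(26,321952),(37,176160),(5,72896),(3,2691520),(1,108192),(0,72896),(39,57600)])]]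
noncomputable def a21 : TT := .leaf ⟨false,0,1,0,1,1,7,[[],[0,0,0,0,8,0,0,0,-1],[],[0,0,0,0,0,0,0,0,2],[],[],[],[],[],[],[]]⟩ [.leaf 0 [(0,[])], .leaf 0 [(0,[(5,1)])], .leaf 0 [(0,[])], .leaf 0 [(0,[])], .leaf 0 [(0,[])], .leaf 0 [(0,[])], .leaf 0 [(0,[])], .leaf 0 [(0,[])], .leaf 0 [(0,[(5,896)])], .leaf 0 [(0,[])], .leaf 0 [(0,[])], .leaf 0 [(0,[])], .leaf 0 [(0,[])], .leaf 0 [(0,[])], .leaf 0 [(0,[])], .leaf 0 [(0,[(5,896)])], .leaf 0 [(0,[(39,1024),(10,1024)])], .leaf 0 [(0,[])], .leaf 0 [(0,[(10,1024)])], .leaf 0 [(0,[(15,64),(26,32),(7,32),(40,16)])], .leaf 0 [(0,[])], .leaf 0 [(0,[(22,32),(30,32)])], .leaf 1 [(0,[(5,800)])], .leaf 1 [(0,[(19,256),(10,256)]),(0,[(19,256),(10,256)]),(0,[(29,64)]),(0,[(10,256),(7,256),(5,736)]),(0,[(19,256),(10,256)])], .leaf 1 [(0,[])], .leaf 0 [(0,[(5,36)])], .leaf 0 [(0,[(22,32)])], .leaf 0 [(0,[])], .leaf 0 [(12,[(18,2000),(20,2624),(25,2000),(38,272),(10,2624),(0,352)]),(6,[(28,1440),(39,384),(3,80),(0,256)]),(6,[(20,1280),(10,1280),(0,256)]),(6,[(20,256),(10,256),(0,768)]),(0,[(20,256),(37,256),(38,256),(9,864)])],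 .leaf 1 [(0,[(15,64),(30,32),(7,64),(40,16)])], .leaf 0 [(368,[(15,60992),(26,4664),(30,15848),(3,624),(0,2020),(40,15248)])], .leaf 0 [(0,[(15,64),(7,64),(40,16)])], .leaf 2 [(0,[(9,800)])], .leaf 4 [(0,[(18,256),(39,256),(10,256)]),(0,[(18,512),(25,256)]),(0,[(9,32)]),(0,[(18,256),(38,256),(5,672)]),(0,[(18,256),(28,32),(38,224),(39,32)])], .leaf 0 [(0,[])], .leaf 0 [(0,[(15,64),(26,32),(7,32),(5,44),(40,16)])], .leaf 1 [(0,[(9,36)])]]
noncomputable def a22 : TT := .leaf ⟨true,1,8,0,9,3,31,[[0,0,0,0,0,0,0,0,3],[0,0,0,0,32,0,0,0,-24],[],[0,0,0,0,0,0,0,0,3],[],[],[0,0,0,0,0,0,0,0,9],[0,0,0,0,0,0,0,0,3],[0,0,0,0,4,0,0,0,-3],[],[0,0,0,0,4]]⟩ [.leaf 0 [(0,[])], .leaf 0 [(0,[(5,3)])], .leaf 0 [(0,[])], .leaf 0 [(0,[])], .leaf 0 [(28,[(15,288),(19,8),(20,8),(26,8),(3,8),(2,124),(40,72)])], .leaf 0 [(0,[])], .leaf 0 [(0,[])], .leaf 0 [(0,[]),(0,[]),(0,[]),(0,[]),(0,[]),(0,[])], .leaf 0 [(0,[])],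 .leaf 0 [(0,[])], .leaf 0 [(0,[(5,21504)])], .leaf 0 [(0,[])], .leaf 0 [(0,[])], .leaf 0 [(0,[])], .leaf 0 [(0,[])], .leaf 0 [(0,[])], .leaf 0 [(0,[])], .leaf 0 [(0,[(9,6016),(5,16640)])], .leaf 0 [(0,[(39,4096),(10,4096)])], .leaf 0 [(0,[])], .leaf 0 [(0,[(10,4096)])], .leaf 0 [(0,[(15,256),(26,128),(7,128),(5,3200),(40,64)])], .leaf 0 [(0,[])], .leaf 0 [(20,[(20,384),(21,128),(28,1920),(39,2304),(5,51456),(0,1152),(41,1024)])], .leaf 0 [(8,[(15,2816),(25,7936),(28,9088),(7,1152),(5,235840),(0,4544),(41,8512)])], .leaf 0 [(0,[(19,1024),(10,1024)]),(0,[(19,1024),(10,1024)]),(76,[(33,512),(10,68480),(9,117184),(6,8704),(3,512)]),(18,[(15,6016),(25,16704),(10,38592),(7,2688),(6,64),(5,446112),(0,9568),(41,17952)]),(0,[(19,384),(26,128),(10,1024),(7,640),(6,128)])], .leaf 0 [(20,[(20,1280),(21,128),(25,896),(28,1024),(39,1408),(7,5376),(2,28544),(0,1152),(41,1024)])], .leaf 0 [(0,[(9,56)])],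 .leaf 0 [(20,[(20,1280),(21,128),(25,896),(28,3712),(39,1408),(5,56664),(0,1152),(41,1024)])], .leaf 0 [(0,[])], .leaf 2 [(0,[(20,1024),(39,1024),(10,2048),(2,1024)]),(0,[(18,1008),(20,16),(28,1008),(39,1024),(10,912),(2,1152)]),(0,[(20,128),(32,896),(10,1920),(2,1152)]),(6,[(15,4096),(25,6272),(28,6016),(7,2048),(2,11264),(41,6144)]),(0,[(20,1024),(38,1024),(10,1024),(5,17184)])], .leaf 1 [(0,[(15,256),(30,128),(9,512),(7,256),(5,2688),(40,64)])], .leaf 0 [(28,[(15,25920),(26,544),(30,3712),(3,544),(2,7968),(40,6480)])], .leaf 0 [(0,[(15,256),(9,584),(7,256),(5,2416),(40,64)])], .leaf 1 [(8,[(15,2816),(25,7936),(28,9088),(7,1152),(5,211648),(0,4544),(41,8512)])], .leaf 1 [(0,[(18,1904),(25,880),(39,144),(10,144)]),(0,[(27,896),(5,1824)]),(0,[(18,2048),(25,1024)]),(2,[(15,1664),(28,3072),(31,1024),(39,2880),(5,65984),(0,608),(41,2656)]),(0,[(18,1024),(38,800),(39,224)])], .leaf 0 [(0,[(9,768),(5,2432)])],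 .leaf 0 [(0,[(15,256),(26,128),(9,248),(7,128),(40,64)])], .leaf 1 [(0,[(9,32)])]]
noncomputable def a23 : TT := .leaf ⟨false,0,1,0,1,1,7,[[],[0,0,0,0,8,0,0,0,-1],[],[0,0,0,0,0,0,0,0,2],[],[],[],[],[],[],[]]⟩ [.leaf 0 [(0,[])], .leaf 0 [(0,[(8,1)])], .leaf 0 [(0,[])], .leaf 0 [(0,[])], .leaf 0 [(0,[])], .leaf 0 [(0,[])], .leaf 0 [(0,[])], .leaf 0 [(0,[])], .leaf 0 [(0,[(8,896)])], .leaf 0 [(0,[])], .leaf 0 [(0,[])], .leaf 0 [(0,[])], .leaf 0 [(0,[])], .leaf 0 [(0,[])], .leaf 0 [(0,[])], .leaf 0 [(0,[(8,896)])], .leaf 0 [(0,[(38,1024),(9,1024)])], .leaf 0 [(0,[])], .leaf 0 [(0,[(9,1024)])], .leaf 0 [(0,[(14,64),(25,32),(6,32),(39,16)])], .leaf 0 [(0,[])], .leaf 0 [(0,[(21,32),(29,32)])], .leaf 1 [(0,[(4,800)])], .leaf 1 [(0,[(18,256),(9,256)]),(0,[(18,256),(9,256)]),(0,[(28,64)]),(0,[(36,256),(8,736),(6,256)]),(0,[(18,256),(9,256)])], .leaf 1 [(0,[])], .leaf 0 [(0,[(4,36)])], .leaf 0 [(0,[(21,32)])],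 .leaf 0 [(0,[])], .leaf 2 [(2,[(17,256),(19,1280),(30,512),(0,128)]),(2,[(17,256),(19,768),(38,512),(0,128)]),(16,[(18,1024),(19,2816),(9,3840),(0,512)]),(48,[(14,8064),(19,1568),(24,8304),(27,10080),(9,1128),(4,5928),(0,1336),(40,10528)]),(16,[(19,1472),(27,2304),(32,576),(37,2336),(9,320),(2,288),(0,1152)])], .leaf 1 [(0,[(14,64),(29,32),(6,64),(39,16)])], .leaf 0 [(14,[(14,1088),(25,128),(29,544),(0,64),(39,272)])], .leaf 0 [(0,[(14,64),(6,64),(39,16)])], .leaf 2 [(0,[(8,800)])], .leaf 4 [(0,[(17,256),(38,256),(9,256)]),(0,[(17,512),(24,256)]),(0,[(4,32)]),(0,[(17,256),(37,256),(4,672)]),(0,[(17,256),(27,32),(37,224),(38,32)])], .leaf 0 [(0,[])], .leaf 0 [(0,[(14,64),(25,32),(6,32),(4,44),(39,16)])], .leaf 1 [(0,[(8,36)])]]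
noncomputable def a24 : TT := .leaf ⟨false,0,1,0,1,0,15,[[],[0,0,0,0,16,0,0,0,-3],[],[0,0,0,0,0,0,0,0,4],[],[],[],[],[],[],[]]⟩ [.leaf 0 [(0,[])], .leaf 0 [(0,[(4,3)])], .leaf 0 [(0,[])], .leaf 0 [(0,[])], .leaf 0 [(0,[])], .leaf 0 [(0,[])], .leaf 0 [(0,[])], .leaf 0 [(0,[])], .leaf 0 [(0,[(4,2688)])], .leaf 0 [(0,[])], .leaf 0 [(0,[])], .leaf 0 [(0,[])], .leaf 0 [(0,[])], .leaf 0 [(0,[])], .leaf 0 [(0,[])], .leaf 0 [(0,[(4,2688)])], .leaf 0 [(0,[(38,2048),(9,2048)])], .leaf 0 [(0,[])], .leaf 0 [(0,[(9,2048)])], .leaf 0 [(0,[(14,128),(25,64),(6,64),(39,32)])], .leaf 0 [(0,[])], .leaf 0 [(0,[(21,64),(29,64)])], .leaf 1 [(0,[(1,1312)])], .leaf 1 [(0,[(18,512),(9,512)]),(0,[(18,512),(9,512)]),(0,[(7,256)]),(0,[(36,512),(6,512),(1,1248)]),(0,[(18,512),(9,512)])], .leaf 1 [(0,[])], .leaf 0 [(0,[(4,68)])], .leaf 0 [(0,[(21,64)])], .leaf 0 [(0,[])], .leaf 2 [(0,[(13,2048),(0,64),(40,512)]),(0,[(13,2048),(38,64),(0,64),(40,512)]),(0,[(18,1024),(0,64)]),(0,[(0,64),(40,512)]),(0,[(19,512),(37,512),(9,512),(4,2656)])],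 .leaf 1 [(0,[(14,128),(29,64),(6,128),(39,32)])], .leaf 0 [(266,[(14,99136),(25,32288),(29,47488),(38,1888),(2,2148),(0,4036),(39,24784)])], .leaf 0 [(0,[(14,128),(6,128),(39,32)])], .leaf 2 [(0,[(1,1312)])], .leaf 4 [(0,[(17,848),(24,336),(38,176),(9,176)]),(0,[(17,512),(38,512),(9,512)]),(0,[(1,112)]),(0,[(17,512),(37,512),(8,2400)]),(0,[(17,512),(38,512),(9,512)])], .leaf 0 [(0,[])], .leaf 0 [(0,[(14,128),(25,64),(6,64),(4,92),(39,32)])], .leaf 1 [(0,[(1,34)])]]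
noncomputable def a25 : TT := .leaf ⟨true,1,8,0,9,3,31,[[0,0,0,0,0,0,0,0,3],[0,0,0,0,32,0,0,0,-24],[],[0,0,0,0,0,0,0,0,3],[],[],[0,0,0,0,0,0,0,0,9],[0,0,0,0,0,0,0,0,3],[0,0,0,0,4,0,0,0,-3],[],[0,0,0,0,4]]⟩ [.leaf 0 [(0,[])], .leaf 0 [(0,[(6,3)])], .leaf 0 [(0,[])], .leaf 0 [(0,[])], .leaf 0 [(4740,[(16,47408),(20,876),(21,876),(27,4844),(31,3968),(4,876),(0,124),(41,11852)])], .leaf 0 [(0,[])], .leaf 0 [(0,[])], .leaf 0 [(0,[]),(0,[]),(0,[]),(0,[]),(0,[]),(0,[])], .leaf 0 [(0,[])], .leaf 0 [(0,[])], .leaf 0 [(0,[(6,21504)])], .leaf 0 [(0,[])], .leaf 0 [(0,[])], .leaf 0 [(0,[])], .leaf 0 [(0,[])], .leaf 0 [(0,[])], .leaf 0 [(0,[])], .leaf 0 [(0,[(6,22656)])], .leaf 0 [(6,[(21,6144),(32,10240),(40,14336),(0,128)])], .leaf 0 [(0,[])], .leaf 0 [(0,[(11,4096)])], .leaf 0 [(44,[(16,12288),(34,3072),(10,66176),(8,6144),(3,36608),(2,384),(41,3072)])], .leaf 0 [(0,[])], .leaf 0 [(8,[(16,3584),(21,896),(26,4224),(29,4224),(40,256),(6,28800),(3,1152),(2,640),(41,896)])],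 .leaf 0 [(8,[(16,57344),(26,62464),(29,72704),(8,10240),(6,26752),(3,174976),(2,9088),(41,5120)])], .leaf 0 [(0,[(20,1024),(11,1024)]),(0,[(20,1024),(11,1024)]),(0,[(30,896),(6,1728)]),(4,[(16,24576),(26,23552),(29,32768),(8,12288),(7,2048),(6,35904),(3,75712),(2,3456),(41,1024)]),(0,[(27,128),(38,1024),(8,1024),(7,128)])], .leaf 1 [(0,[(6,2432)])], .leaf 0 [(0,[(10,56)])], .leaf 0 [(8,[(16,3584),(21,896),(26,4224),(29,5376),(40,256),(10,8856),(3,12240),(2,640),(41,896)])], .leaf 0 [(0,[])], .leaf 4 [(6,[(21,1024),(26,8192),(29,8192),(11,1024),(4,672),(2,352),(0,24)]),(6,[(26,8192),(29,10240),(8,2048),(4,768),(3,1872),(2,384)]),(5370,[(15,10001408),(26,6714112),(29,6714112),(32,80384),(11,526720),(4,220656),(2,306064),(0,19600),(42,2500352)]),(0,[(26,1024),(29,1024),(42,1024)]),(20,[(26,115200),(29,130560),(10,93344),(8,15360),(4,1728),(3,275648),(2,13632)])], .leaf 0 [(0,[(16,512),(26,768),(29,1024),(6,1152),(3,1664),(2,128),(41,128)])],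 .leaf 0 [(4740,[(16,4313856),(27,316160),(31,861824),(4,61184),(0,7968),(41,1078464)])], .leaf 0 [(0,[(16,256),(8,256),(6,3000),(41,64)])], .leaf 1 [(8,[(16,57344),(26,62464),(29,72704),(8,10240),(6,50944),(3,150784),(2,9088),(41,5120)])], .leaf 1 [(0,[(19,1904),(26,880),(40,144),(11,144)]),(2,[(28,2688),(10,2272),(3,1600)]),(6,[(19,7168),(21,1536),(32,2560),(40,3584),(0,32)]),(22,[(16,57344),(26,53248),(29,76800),(40,18432),(6,629600),(2,7296),(42,9216)]),(0,[(19,1024),(39,800),(40,224)])], .leaf 0 [(0,[(6,3200)])], .leaf 0 [(0,[(16,256),(27,128),(8,128),(3,124),(41,64)])], .leaf 1 [(0,[(10,32)])]]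
noncomputable def a26 : TT := .leaf ⟨false,0,1,0,1,1,3,[[],[-1,-2,-1,0,4,0,0,1,-2,1],[],[-1,-2,-1,0,0,0,0,1,2,1],[],[],[],[],[],[],[]]⟩ [.leaf 0 [(0,[])], .leaf 0 [(15,[(5,1),(0,1)])], .leaf 0 [(0,[])], .leaf 0 [(0,[])], .leaf 0 [(0,[(28,1),(32,1)])], .leaf 0 [(0,[])], .leaf 0 [(0,[(27,128),(30,128)])], .leaf 0 [(0,[])], .leaf 0 [(0,[(5,56),(0,56)])], .leaf 0 [(0,[])], .leaf 0 [(0,[])], .leaf 0 [(0,[])], .leaf 0 [(0,[])], .leaf 0 [(0,[])], .leaf 0 [(0,[])], .leaf 0 [(0,[(5,56),(0,56)])], .leaf 0 [(0,[(20,256),(21,256),(41,256)])], .leaf 0 [(0,[])], .leaf 0 [(0,[(21,256),(28,256),(12,256)])], .leaf 0 [(2864,[(27,392960),(9,8448),(4,397184),(2,4096),(0,528)])], .leaf 0 [(0,[])], .leaf 0 [(27,[(27,6064),(30,5680),(7,9440),(5,81),(3,96),(0,113)])], .leaf 0 [(0,[(27,896),(30,896),(7,3584),(0,16),(43,128)])], .leaf 3 [(0,[(21,160),(28,32),(12,96)]),(0,[(27,96),(11,32),(4,192)]),(0,[(21,32),(27,96),(12,224)]),(0,[(27,928),(30,800),(12,256),(7,3456),(5,4),(0,4)]),(100,[(27,8976),(12,21856),(9,4768),(8,800),(7,19440),(0,48)])],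 .leaf 1 [(3,[(27,496),(30,496),(5,33),(0,33)])], .leaf 0 [(67,[(28,64),(7,1189),(3,64),(1,1)])], .leaf 0 [(874,[(22,3152),(27,254640),(30,257792),(7,261888),(5,3152),(1,1056)])], .leaf 2 [(0,[(0,16),(43,128)])], .leaf 4 [(0,[(16,512),(43,128)]),(119,[(23,1052),(27,20244),(30,23280),(9,1984),(5,1395),(3,372),(0,651),(43,8416)]),(0,[(25,16),(43,128)]),(0,[(43,128)]),(2064,[(27,3001920),(30,3190720),(9,1655872),(5,152984),(3,35816),(1,32936)])], .leaf 0 [(13,[(27,3664),(30,3952),(4,3931),(3,82),(0,18)])], .leaf 0 [(2196,[(17,516448),(28,102920),(32,233976),(5,13664),(2,1024),(42,129112)])], .leaf 0 [(470,[(27,21952),(34,18184),(39,43904),(9,15072),(2,224),(0,3215)])], .leaf 1 [(0,[(27,896),(30,896),(7,3584),(0,16),(43,128)])], .leaf 4 [(0,[(20,160),(21,32),(41,96),(12,64)]),(0,[(20,32),(30,96),(41,224),(12,224)]),(2,[(12,208),(6,128),(4,376),(0,5)]),(0,[(27,864),(30,992),(40,256),(7,2432),(4,640)]),(0,[(20,32),(30,112),(40,192),(41,32),(12,16),(4,112)])],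 .leaf 0 [(3,[(27,464),(34,32),(12,528),(0,33)])], .leaf 0 [(218,[(17,2912),(28,1456),(35,1024),(9,3504),(1,32),(42,728)])], .leaf 1 [(31,[(22,32),(12,32),(7,421),(3,32),(1,1)])]]
noncomputable def a27 : TT := .leaf ⟨true,1,8,0,9,3,31,[[0,0,0,0,0,0,0,0,3],[0,0,0,0,32,0,0,0,-24],[],[0,0,0,0,0,0,0,0,3],[],[],[0,0,0,0,0,0,0,0,9],[0,0,0,0,0,0,0,0,3],[0,0,0,0,4,0,0,0,-3],[],[0,0,0,0,4]]⟩ [.leaf 0 [(0,[])], .leaf 0 [(0,[(7,3)])], .leaf 0 [(0,[])], .leaf 0 [(0,[])], .leaf 0 [(53995,[(17,293760),(22,4192),(27,48608),(12,4192),(5,2907),(2,496),(0,5749),(42,73440)])], .leaf 0 [(0,[])], .leaf 0 [(0,[])], .leaf 0 [(0,[]),(0,[]),(0,[]),(0,[]),(0,[]),(0,[])], .leaf 0 [(0,[])], .leaf 0 [(0,[])], .leaf 0 [(0,[(7,21504)])], .leaf 0 [(0,[])], .leaf 0 [(0,[])], .leaf 0 [(0,[])], .leaf 0 [(0,[])], .leaf 0 [(0,[])], .leaf 0 [(0,[])], .leaf 0 [(0,[(11,6016),(7,16640)])], .leaf 0 [(0,[(20,3584),(27,3584),(41,512),(12,512)])],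 .leaf 0 [(0,[])], .leaf 0 [(0,[(12,4096)])], .leaf 0 [(0,[(22,128),(12,128),(7,2324),(1,4)])], .leaf 0 [(0,[])], .leaf 0 [(0,[(22,64),(41,64),(7,1994),(1,2)])], .leaf 0 [(362,[(27,186368),(11,2897772),(9,26880),(7,4278568),(2,2176),(1,12036),(43,371712)])], .leaf 0 [(0,[(21,1024),(12,1024)]),(0,[(21,1024),(12,1024)]),(2,[(11,2368),(10,2688),(4,1408)]),(42,[(17,31744),(27,32768),(12,82304),(9,10112),(8,1152),(4,401294),(1,1196),(43,36096)]),(0,[(21,384),(28,128),(39,1024),(9,640),(8,128)])], .leaf 1 [(0,[(4,1216)])], .leaf 0 [(0,[(11,56)])], .leaf 0 [(0,[(22,64),(30,128),(41,64),(4,1121),(1,2)])], .leaf 0 [(0,[])], .leaf 4 [(64,[(16,198144),(22,2432),(27,72640),(30,72640),(12,2432),(5,1596),(3,608),(0,228),(43,49536)]),(6,[(27,8192),(30,10240),(11,3744),(9,2048),(5,768),(3,384)]),(91,[(25,10208),(27,101264),(30,101712),(12,1568),(5,1113),(3,672),(0,231),(43,81664)]),(0,[(27,1024),(30,1024),(43,1024)]),(1168,[(27,6412800),(30,7267840),(9,855040),(7,17958400),(5,339264),(3,515776),(1,60768)])],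 .leaf 0 [(6,[(27,1472),(30,2624),(4,9101),(3,256),(1,18)])], .leaf 0 [(7128,[(17,4498688),(34,631680),(2,3840),(0,60032),(42,1124672)])], .leaf 0 [(0,[(17,256),(9,256),(7,3000),(42,64)])], .leaf 1 [(1686,[(17,743936),(27,756480),(9,134144),(7,29485004),(2,9088),(1,50268),(43,1541504)])], .leaf 4 [(0,[(20,1024),(41,1024),(12,1024)]),(0,[(20,1648),(27,624),(41,400),(12,400)]),(0,[(29,896),(41,128),(12,128),(7,1888),(4,288)]),(0,[(20,1024),(40,1024),(7,20512)]),(118708,[(20,5296640),(30,35126784),(33,78848),(41,237543424),(12,237385728),(2,827904),(1,1889888),(0,7569408)])], .leaf 0 [(0,[(7,3200)])], .leaf 0 [(218,[(17,24320),(28,12160),(35,7936),(9,28032),(1,248),(42,6080)])], .leaf 1 [(0,[(11,32)])]]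
noncomputable def a28 : TT := .leaf ⟨false,0,1,0,1,2,63,[[],[-2,-11,-9,0,64,0,0,2,-11,9],[],[-10,-13,-3,0,0,0,0,10,13,3],[],[],[],[],[],[],[]]⟩ [.leaf 0 [(0,[])], .leaf 0 [(1,[(30,14),(7,35),(0,1)])], .leaf 0 [(0,[])], .leaf 0 [(0,[])], .leaf 0 [(0,[(28,2),(32,9)])], .leaf 0 [(0,[])], .leaf 0 [(0,[(27,896),(0,96)])], .leaf 0 [(0,[])], .leaf 0 [(0,[(30,6272),(7,15680),(0,448)])], .leaf 0 [(0,[])], .leaf 0 [(0,[])], .leaf 0 [(0,[])], .leaf 0 [(0,[])], .leaf 0 [(0,[])], .leaf 0 [(0,[])], .leaf 0 [(0,[(30,6272),(7,15680),(0,448)])], .leaf 0 [(0,[(20,1536),(21,1536),(41,6656),(12,5120)])], .leaf 0 [(0,[(28,1024),(30,768)])], .leaf 0 [(0,[(21,1536),(28,1536),(12,6656)])], .leaf 0 [(62,[(17,294912),(27,19456),(9,147456),(0,3328),(42,73728)])], .leaf 0 [(0,[(27,1024),(32,768)])], .leaf 0 [(8,[(17,7168),(22,1792),(41,512),(3,1280),(0,5568),(42,1792)])], .leaf 0 [(8,[(17,114688),(30,56448),(35,10240),(9,20480),(7,156096),(3,18176),(0,41280),(42,10240)])],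 .leaf 3 [(0,[(21,1952),(28,576),(12,2144)]),(0,[(35,320),(7,544)]),(0,[(21,1568),(27,704),(12,2528)]),(0,[(30,5792),(39,4096),(11,11728),(0,368)]),(0,[(21,800),(28,320),(12,3296)])], .leaf 1 [(0,[(0,384)])], .leaf 0 [(4,[(17,64),(35,16),(11,1416),(3,32),(42,16)])], .leaf 0 [(8,[(17,7168),(22,1792),(30,2808),(41,512),(3,1280),(0,5496),(42,1792)])], .leaf 0 [(0,[(0,384)])], .leaf 4 [(2,[(16,24576),(27,256),(30,256),(0,896),(43,6144)]),(34,[(30,62464),(40,65408),(5,1152),(3,10368),(1,7808),(0,18048)]),(2,[(25,768),(27,256),(30,256),(0,896),(43,6144)]),(2,[(27,256),(30,256),(0,896),(43,6144)]),(6,[(30,43904),(35,5120),(9,10240),(5,1152),(4,40960),(3,9088),(0,22272)])], .leaf 0 [(8,[(17,9216),(30,2560),(35,1024),(3,2304),(0,7168),(42,2304)])], .leaf 0 [(9,[(17,58288),(28,7534),(32,15214),(5,967),(1,2029),(42,14572)])], .leaf 0 [(78,[(17,126464),(27,15648),(33,1648),(1,5216),(0,16920),(42,31616)])],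 .leaf 1 [(8,[(17,114688),(30,56448),(35,10240),(11,156096),(9,20480),(3,18176),(0,41280),(42,10240)])], .leaf 4 [(0,[(20,3852),(27,1132),(41,244),(12,244),(0,24)]),(0,[(20,4096),(27,2272),(0,120)]),(0,[(33,704),(39,544),(6,544)]),(0,[(20,576),(30,9312),(40,3520),(11,16192)]),(0,[(20,3740),(27,124),(41,356),(12,356),(0,312)])], .leaf 0 [(0,[(0,384)])], .leaf 0 [(344,[(17,180384),(28,39704),(35,45096),(9,90192),(4,26220),(2,208),(42,45096)])], .leaf 1 [(58,[(17,288),(28,1712),(11,15720),(9,144),(2,16),(42,72)])]]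
noncomputable def a29 : TT := .leaf ⟨true,1,8,0,9,3,31,[[0,0,0,0,0,0,0,0,3],[0,0,0,0,32,0,0,0,-24],[],[0,0,0,0,0,0,0,0,3],[],[],[0,0,0,0,0,0,0,0,9],[0,0,0,0,0,0,0,0,3],[0,0,0,0,4,0,0,0,-3],[],[0,0,0,0,4]]⟩ [.leaf 0 [(0,[])], .leaf 0 [(1,[(4,3)])], .leaf 0 [(0,[])], .leaf 0 [(0,[])], .leaf 0 [(180,[(17,4668),(21,362),(41,362),(5,41),(1,255),(0,292),(42,1167)])], .leaf 0 [(0,[])], .leaf 0 [(0,[])], .leaf 0 [(0,[]),(0,[]),(0,[]),(0,[]),(0,[]),(0,[])], .leaf 0 [(0,[])], .leaf 0 [(0,[])], .leaf 0 [(0,[(4,10752)])], .leaf 0 [(0,[])], .leaf 0 [(0,[])], .leaf 0 [(0,[])], .leaf 0 [(0,[])], .leaf 0 [(0,[])], .leaf 0 [(0,[])], .leaf 0 [(0,[(11,6016),(7,16640)])], .leaf 0 [(0,[(41,4096),(12,4096)])], .leaf 0 [(0,[])], .leaf 0 [(0,[(12,4096)])], .leaf 0 [(2,[(17,768),(28,384),(11,4480),(9,384),(4,2560),(42,192)])], .leaf 0 [(0,[])], .leaf 0 [(8,[(17,3584),(22,896),(27,4224),(30,4224),(41,256),(7,28800),(4,1152),(3,640),(42,896)])],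 .leaf 0 [(8,[(17,57344),(27,62464),(30,72704),(9,10240),(4,188352),(3,9088),(42,5120)])], .leaf 0 [(0,[(21,1024),(12,1024)]),(0,[(21,1024),(12,1024)]),(0,[(39,608),(12,288),(7,1728)]),(4,[(17,24576),(27,23552),(30,32768),(9,12288),(8,2048),(7,35904),(4,75712),(3,3456),(42,1024)]),(0,[(28,128),(12,1024),(9,1024),(8,128)])], .leaf 1 [(0,[(4,1216)])], .leaf 0 [(0,[(11,56)])], .leaf 0 [(8,[(17,3584),(27,3328),(30,6272),(41,1152),(7,26568),(4,3384),(3,640),(42,896)])], .leaf 0 [(0,[])], .leaf 3 [(10,[(16,16384),(22,4096),(27,4096),(41,1024),(12,6144),(1,1024),(43,4096)]),(2,[(20,1024),(21,1024),(1,512)]),(0,[(22,1024),(40,1024),(12,512),(9,1536)]),(6,[(16,3072),(28,512),(32,8192),(9,7680),(1,2560),(43,768)]),(0,[(22,1024),(40,1024),(12,1024),(9,5120),(7,19744)])], .leaf 0 [(0,[(17,512),(27,768),(30,1024),(11,384),(4,2048),(3,128),(42,128)])], .leaf 0 [(180,[(17,304000),(21,11584),(41,34752),(5,2144),(1,16160),(0,21344),(42,76000)])],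 .leaf 0 [(0,[(17,256),(9,256),(7,3000),(42,64)])], .leaf 1 [(8,[(17,57344),(27,62464),(30,72704),(9,10240),(7,50944),(4,150784),(3,9088),(42,5120)])], .leaf 1 [(0,[(20,1904),(27,880),(41,144),(12,144)]),(0,[(29,896),(11,224),(7,1600)]),(0,[(20,2048),(27,1024)]),(22,[(17,57344),(27,53248),(30,76800),(41,18432),(4,314800),(3,7296),(43,9216)]),(0,[(20,1024),(40,800),(41,224)])], .leaf 0 [(0,[(7,3200)])], .leaf 0 [(0,[(17,256),(28,128),(11,248),(9,128),(42,64)])], .leaf 1 [(0,[(11,32)])]]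
noncomputable def a30 : TT := .leaf ⟨false,0,1,0,1,1,3,[[],[-1,-2,-1,0,4,0,0,1,-2,1],[],[-1,-2,-1,0,0,0,0,1,2,1],[],[],[],[],[],[],[]]⟩ [.leaf 0 [(0,[])], .leaf 0 [(31,[(39,2),(4,31),(0,2)])], .leaf 0 [(0,[])], .leaf 0 [(0,[])], .leaf 0 [(0,[(28,1),(32,1)])], .leaf 0 [(0,[])], .leaf 0 [(0,[(27,128),(30,128)])], .leaf 0 [(0,[])], .leaf 0 [(0,[(39,56),(4,868),(0,56)])], .leaf 0 [(0,[])], .leaf 0 [(0,[])], .leaf 0 [(0,[])], .leaf 0 [(0,[])], .leaf 0 [(0,[])], .leaf 0 [(0,[])], .leaf 0 [(0,[(39,56),(4,868),(0,56)])], .leaf 0 [(0,[(20,256),(21,256),(41,256)])], .leaf 0 [(0,[])], .leaf 0 [(0,[(21,256),(28,256),(12,256)])], .leaf 0 [(6,[(17,2048),(0,80),(42,512)])], .leaf 0 [(0,[])], .leaf 0 [(0,[(0,16)])], .leaf 0 [(4,[(30,2184),(7,2680),(4,3464),(1,384),(0,392),(43,640)])], .leaf 3 [(0,[(21,160),(28,32),(12,96)]),(0,[(27,96),(12,224),(11,192)]),(0,[(21,32),(27,96),(12,224)]),(0,[(27,128),(12,310),(7,1890),(4,20),(0,54)]),(7,[(39,529),(12,603),(8,192),(4,714),(0,44)])],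 .leaf 1 [(0,[(12,16),(0,16)])], .leaf 0 [(938,[(28,4496),(4,7656),(2,40),(1,72)])], .leaf 0 [(8,[(27,156),(30,316),(41,10),(4,304),(1,2),(0,134)])], .leaf 1 [(0,[(0,16)])], .leaf 4 [(0,[(16,512),(43,128)]),(0,[(25,16),(35,16),(0,16),(43,128)]),(0,[(25,16),(43,128)]),(0,[(43,128)]),(230,[(27,325568),(30,346688),(12,640),(5,2376),(4,532884),(3,18744),(0,640)])], .leaf 0 [(34,[(27,9952),(30,11104),(4,10480),(3,160),(1,144)])], .leaf 1 [(34,[(27,10032),(30,10464),(33,200),(12,160),(4,10120),(3,160),(1,144)])], .leaf 0 [(13,[(17,4096),(0,153),(42,1024)])], .leaf 1 [(14,[(30,6552),(11,2680),(4,13072),(1,1152),(0,1176),(43,1920)])], .leaf 4 [(0,[(20,160),(21,32),(41,96),(12,64)]),(0,[(20,32),(30,96),(41,224),(12,224)]),(5,[(12,351),(11,191),(6,336),(4,689),(0,15)]),(0,[(30,128),(40,256),(4,992),(0,54)]),(0,[(30,144),(33,32),(40,108),(41,80),(7,196),(5,4),(4,16)])], .leaf 0 [(0,[(12,16),(0,16)])],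 .leaf 0 [(0,[(17,32),(28,16),(9,16),(7,32),(42,8)])], .leaf 1 [(176,[(17,144),(28,856),(11,2904),(9,72),(2,8),(42,36)])]]
noncomputable def a31 : TT := .leaf ⟨true,0,8,1,9,2,511,[[],[0,0,0,0,512,0,0,0,-360],[0,0,0,0,0,0,0,0,40],[0,0,0,0,0,0,0,0,88],[0,0,0,0,0,0,0,0,104],[],[],[],[0,0,0,0,64,0,0,0,-45],[0,0,0,0,0,0,0,0,40],[0,0,0,0,64]]⟩ [.leaf 0 [(0,[])], .leaf 0 [(1,[(5,45)])], .leaf 0 [(0,[])], .leaf 0 [(0,[])], .leaf 0 [(0,[])], .leaf 0 [(0,[])], .leaf 0 [(8,[(28,624),(31,688),(42,40),(5,640),(2,8),(1,40)])], .leaf 0 [(0,[]),(0,[]),(0,[]),(0,[]),(0,[]),(0,[])], .leaf 0 [(0,[])], .leaf 0 [(0,[])], .leaf 0 [(2,[(12,581632),(5,212992)])], .leaf 0 [(0,[])], .leaf 0 [(0,[])], .leaf 0 [(0,[])], .leaf 0 [(0,[])], .leaf 0 [(0,[])], .leaf 0 [(0,[])], .leaf 0 [(0,[(5,161280)])], .leaf 0 [(0,[(42,65536),(13,65536)])], .leaf 0 [(0,[])], .leaf 0 [(0,[(13,65536)])], .leaf 0 [(0,[(18,4096),(29,2048),(10,2048),(5,15872),(43,1024)])],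 .leaf 0 [(0,[])], .leaf 0 [(14,[(23,15360),(28,3072),(31,21504),(42,15360),(12,422912),(5,88064),(2,6144)])], .leaf 0 [(24,[(18,286720),(28,385024),(31,872448),(10,1650688),(8,8586240),(2,145408),(44,337920)])], .leaf 0 [(0,[(22,16384),(13,16384)]),(0,[(22,16384),(13,16384)]),(0,[(32,14336),(5,14464)]),(24,[(18,286720),(28,385024),(31,462848),(13,819200),(10,1650688),(8,7440640),(2,145408),(44,337920)]),(0,[(22,16384),(13,16384)])], .leaf 1 [(0,[(8,41984)])], .leaf 0 [(0,[(5,400)])], .leaf 0 [(4,[(23,5120),(28,1024),(31,17408),(42,5120),(12,91616),(8,128064),(2,2048)])], .leaf 0 [(0,[])], .leaf 2 [(924,[(17,24117248),(22,524288),(23,786432),(42,1572864),(13,2359296),(6,1009664),(0,449024),(44,6029312)]),(30,[(21,497408),(23,507904),(28,792320),(31,294912),(42,10496),(13,436480),(1,18432)]),(184,[(22,1703936),(23,229376),(29,458752),(33,229376),(6,258048),(0,101888)]),(0,[(0,512),(44,16384)]),(0,[(23,16384),(40,16384),(41,16384),(5,160512)])],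 .leaf 0 [(34,[(28,126976),(31,274432),(12,726016),(5,530432),(4,20480),(2,18432)])], .leaf 0 [(30,[(18,172128),(28,63488),(35,1523),(6,1085),(1,4131),(43,43032)])], .leaf 0 [(0,[(18,4096),(10,4096),(5,14224),(43,1024)])], .leaf 1 [(74,[(18,860160),(28,1155072),(31,2617344),(12,12455936),(10,4952064),(5,7995392),(2,436224),(44,1013760)])], .leaf 4 [(0,[(21,22912),(28,6528),(42,9856),(13,9856)]),(0,[(21,30080),(28,13696),(42,2688),(13,2688)]),(0,[(5,24704)]),(0,[(21,16384),(41,16384),(5,177792)]),(0,[(21,16384),(42,16384),(13,16384)])], .leaf 0 [(0,[(5,15872)])], .leaf 0 [(0,[(18,4096),(29,2048),(10,2048),(5,2000),(43,1024)])], .leaf 1 [(0,[(8,1120)])]]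
noncomputable def a32 : TT := .leaf ⟨false,0,1,0,1,1,3,[[],[-1,-2,-1,0,4,0,0,1,-2,1],[],[-1,-2,-1,0,0,0,0,1,2,1],[],[],[],[],[],[],[]]⟩ [.leaf 0 [(0,[])], .leaf 0 [(15,[(7,1),(0,1)])], .leaf 0 [(0,[])], .leaf 0 [(0,[])], .leaf 0 [(0,[(30,1),(34,1)])], .leaf 0 [(0,[])], .leaf 0 [(0,[(29,128),(32,128)])], .leaf 0 [(0,[])], .leaf 0 [(0,[(7,56),(0,56)])], .leaf 0 [(0,[])], .leaf 0 [(0,[])], .leaf 0 [(0,[])], .leaf 0 [(0,[])], .leaf 0 [(0,[])], .leaf 0 [(0,[])], .leaf 0 [(0,[(7,56),(0,56)])], .leaf 0 [(0,[(22,256),(23,256),(43,256)])], .leaf 0 [(0,[])], .leaf 0 [(0,[(23,256),(30,256),(14,256)])], .leaf 0 [(64,[(24,512),(29,7680),(32,256),(41,7936),(0,528)])], .leaf 0 [(0,[])], .leaf 0 [(55,[(29,7408),(32,6640),(7,457),(5,192),(0,521)])], .leaf 0 [(0,[(29,896),(32,896),(9,3584),(0,16),(45,128)])], .leaf 3 [(0,[(23,160),(30,32),(14,96)]),(57,[(42,2688),(12,10000),(10,784),(9,3472),(7,75),(0,187)]),(0,[(23,32),(29,96),(14,224)]),(3250,[(29,399744),(14,832256),(11,16384),(7,183234),(1,4352),(0,184258)]),(0,[(19,224),(14,224),(11,144),(9,96),(44,56)])],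 .leaf 1 [(130,[(29,37760),(32,29312),(1,528),(0,704)])], .leaf 0 [(1018,[(30,2488),(3,768),(1,120)])], .leaf 0 [(63,[(24,512),(29,7120),(32,8144),(43,512),(7,515),(5,64),(0,579)])], .leaf 2 [(0,[(0,16),(45,128)])], .leaf 4 [(0,[(18,512),(45,128)]),(1000,[(29,274560),(32,311168),(11,36608),(7,13728),(5,2192),(1,1168)]),(0,[(27,16),(45,128)]),(0,[(45,128)]),(55,[(29,15536),(32,20656),(11,5120),(7,4693),(5,4544),(0,4117)])], .leaf 0 [(447,[(29,54352),(32,63568),(7,3931),(5,2624),(0,4507)])], .leaf 0 [(30,[(19,1056),(36,264),(2,32),(44,264)])], .leaf 0 [(0,[(29,104),(32,8),(14,112),(11,32),(0,8)])], .leaf 1 [(0,[(7,56),(0,72),(45,128)])], .leaf 4 [(0,[(22,160),(23,32),(43,96),(14,64)]),(0,[(22,184),(29,152),(32,96),(43,72),(14,72)]),(2,[(14,208),(9,464),(8,128),(6,144),(0,5)]),(190,[(32,24448),(42,47872),(7,10826),(1,256),(0,10826)]),(36,[(22,224),(32,4208),(35,512),(42,6544),(43,1168),(8,448),(7,64),(6,3728)])],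 .leaf 0 [(0,[(29,128),(41,116),(14,12),(6,8),(0,8)])], .leaf 0 [(48,[(19,4096),(37,224),(11,2048),(4,8),(44,1024)])], .leaf 1 [(176,[(19,144),(30,856),(13,2904),(11,72),(4,8),(44,36)])]]
noncomputable def a33 : TT := .leaf ⟨true,0,8,1,9,2,511,[[],[0,0,0,0,512,0,0,0,-360],[0,0,0,0,0,0,0,0,40],[0,0,0,0,0,0,0,0,88],[0,0,0,0,0,0,0,0,104],[],[],[],[0,0,0,0,64,0,0,0,-45],[0,0,0,0,0,0,0,0,40],[0,0,0,0,64]]⟩ [.leaf 0 [(0,[])], .leaf 0 [(2,[(13,83),(6,26)])], .leaf 0 [(0,[])], .leaf 0 [(0,[])], .leaf 0 [(0,[])], .leaf 0 [(0,[])], .leaf 0 [(8,[(29,624),(32,688),(43,40),(6,640),(3,8),(2,40)])], .leaf 0 [(0,[]),(0,[]),(0,[]),(0,[]),(0,[]),(0,[])], .leaf 0 [(0,[])], .leaf 0 [(0,[])], .leaf 0 [(0,[(9,335872)])], .leaf 0 [(0,[])], .leaf 0 [(0,[])], .leaf 0 [(0,[])], .leaf 0 [(0,[])], .leaf 0 [(0,[])], .leaf 0 [(0,[])], .leaf 0 [(2,[(13,594944),(6,186368)])], .leaf 0 [(0,[(43,65536),(14,65536)])], .leaf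 0 [(0,[])], .leaf 0 [(0,[(14,65536)])], .leaf 0 [(14,[(19,65536),(37,16384),(11,32768),(9,378368),(1,512),(44,16384)])], .leaf 0 [(0,[])], .leaf 0 [(4,[(24,5120),(29,1024),(32,7168),(43,5120),(9,199680),(3,2048)])], .leaf 0 [(24,[(19,286720),(29,385024),(32,872448),(11,1650688),(9,8586240),(3,145408),(45,337920)])], .leaf 0 [(0,[(23,16384),(14,16384)]),(0,[(23,16384),(14,16384)]),(58,[(42,50176),(14,903168),(13,1364480),(10,57344),(1,1792)]),(24,[(19,286720),(29,385024),(32,462848),(14,819200),(13,4832512),(11,1650688),(6,1304064),(3,145408),(45,337920)]),(0,[(23,16384),(14,16384)])], .leaf 1 [(0,[(9,41984)])], .leaf 0 [(0,[(9,800)])], .leaf 0 [(4,[(24,4096),(32,18432),(43,6144),(13,134304),(6,42688),(3,2048)])], .leaf 0 [(0,[])], .leaf 4 [(30,[(18,1458176),(24,20480),(29,559104),(32,559104),(14,20480),(7,13440),(1,1280),(0,1920),(45,364544)]),(1000,[(29,18743296),(32,23429120),(11,4685824),(7,1757184),(5,674816),(1,50944)]),(796,[(27,1022976),(29,15799808),(32,15973888),(14,609280),(7,432480),(1,65280),(0,89760),(45,8183808)]),(0,[(29,16384),(32,16384),(45,16384)]),(6,[(29,614400),(32,696320),(13,908800),(11,81920),(7,9216),(1,18176)])],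 .leaf 0 [(34,[(29,126976),(32,274432),(6,527360),(3,18432),(1,5120)])], .leaf 0 [(30,[(19,262144),(43,65536),(14,63488),(2,4096),(44,65536)])], .leaf 0 [(0,[(19,4096),(11,4096),(6,14224),(44,1024)])], .leaf 1 [(24,[(19,286720),(29,385024),(32,872448),(13,1486848),(11,1650688),(9,7995392),(3,145408),(45,337920)])], .leaf 4 [(0,[(22,16384),(43,16384),(14,16384)]),(0,[(22,16384),(43,16384),(14,16384)]),(0,[(6,24704)]),(14,[(32,131072),(42,360448),(13,1084672),(9,3728896),(1,4096)]),(0,[(22,17792),(29,1408),(43,14976),(14,14976)])], .leaf 0 [(0,[(13,31744)])], .leaf 0 [(190,[(19,814336),(30,151168),(37,128000),(11,407168),(1,4000),(44,203584)])], .leaf 1 [(0,[(6,560)])]]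
noncomputable def a34 : TT := .leaf ⟨true,1,8,0,9,3,65535,[[208,232,16,8,1784,216,0,-208,1304,-64],[-1488,-1840,-288,-56,47784,-1232,0,1496,-9784,624],[],[1976,1032,-1000,24,0,-16,0,-1968,8152,1168],[],[],[16,0,-16,0,-224,0,0,-8,3856,-16],[208,232,16,8,1784,216,0,-208,1304,-64],[-186,-230,-36,-7,5973,-154,0,187,-1223,78],[],[0,0,0,0,8192]]⟩ [.leaf 0 [(0,[(11,80),(16,16),(22,324),(24,52),(35,116),(0,92),(36,20)])], .leaf 0 [(0,[(16,4),(21,184),(24,46),(34,3),(6,32),(5,1418),(3,112),(0,6)])], .leaf 0 [(0,[])], .leaf 0 [(6,[(11,80),(34,49),(35,98),(5,518),(3,458),(0,114),(36,20)])], .leaf 0 [(0,[(11,16384),(14,8192),(0,8192),(36,4096)])], .leaf 0 [(0,[])], .leaf 0 [(0,[])], .leaf 0 [(0,[]),(0,[]),(0,[]),(0,[]),(0,[]),(0,[])], .leaf 0 [(0,[(22,251904),(24,128000),(33,1024),(6,1024)])], .leaf 0 [(0,[])], .leaf 0 [(0,[(16,28672),(21,1318912),(24,329728),(34,21504),(6,229376),(5,10164224),(3,802816),(0,43008)])],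 .leaf 0 [(0,[])], .leaf 0 [(0,[])], .leaf 0 [(0,[(11,71680),(16,14336),(22,290304),(24,46592),(35,103936),(0,82432),(36,17920)])], .leaf 0 [(0,[])], .leaf 0 [(0,[(11,6144),(22,37888),(24,34816),(35,36864),(3,4096),(0,35840),(36,1536)])], .leaf 0 [(0,[(11,65536),(16,12800),(22,280064),(24,39424),(35,94720),(0,75776),(36,16384)])], .leaf 0 [(0,[(16,28672),(21,1319936),(24,328704),(33,232448),(34,21504),(5,10654720),(3,798720),(0,44032)])], .leaf 0 [(2,[(10,9232384),(24,4216832),(27,2486272),(35,18226176),(6,10810368),(0,2237440),(37,2308096)])], .leaf 0 [(0,[(14,11264),(22,2180096),(24,2588672),(35,2650112),(3,172032),(0,2661376)])], .leaf 0 [(0,[(6,8167424),(0,89088)])], .leaf 0 [(0,[(11,858112),(22,295936),(33,237568),(5,434176),(3,378880),(36,214528)])], .leaf 0 [(0,[(11,27648),(22,507136),(24,98560),(35,37120),(0,23296),(36,6912)])], .leaf 0 [(0,[(11,403456),(16,100864),(22,695296),(24,567296),(35,608256),(1,1304576),(0,505344),(36,100864)])],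 .leaf 0 [(0,[(11,8290304),(16,4096),(22,7274496),(24,9046016),(35,8265728),(5,25128960),(3,876544),(0,8571904),(37,24576)])], .leaf 0 [(0,[(14,225792),(15,1750016),(6,1991168),(3,36864),(0,435456)]),(0,[(6,1911296),(0,2144512)]),(0,[(34,62976),(2,400128)]),(0,[(11,4116480),(24,3097088),(27,505856),(35,972800),(3,948224),(1,11926528),(0,3363584),(37,1068032)]),(0,[(15,1900032),(22,48128),(6,2013696),(3,2048),(0,261888)])], .leaf 0 [(0,[(11,546816),(16,128512),(22,1287168),(24,616448),(35,817152),(3,368640),(0,672256),(36,136704)])], .leaf 0 [(0,[(11,3776),(16,944),(22,2848),(26,1344),(35,5568),(1,265024),(0,4688),(36,944)])], .leaf 0 [(0,[(11,402752),(16,100944),(22,679648),(24,826560),(35,607296),(5,1625152),(0,504816),(36,100688)])], .split 1 0 (.leaf 1 [(0,[(0,1)])]) (.split 0 0 (.leaf 0 [(0,[(0,1)])]) (.leaf 2 [(3344,[(13,28936503296),(18,148504576),(24,35631005696),(26,32548454400),(37,29364715520),(3,50220498944),(2,29911416832),(1,175),(0,16192),(38,219152384)])])),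 .leaf 4 [(0,[(14,2156288),(16,2096768),(21,84608),(24,2012544),(34,1601024),(35,435072),(6,349952),(0,2095872)]),(0,[(14,2397824),(16,2097280),(24,2442112),(34,1565824),(35,232320),(3,42240),(1,939008),(0,2360064)]),(0,[(16,776256),(19,142408),(24,2189696),(34,1228860),(35,865220),(6,647748),(0,1075320),(37,1139264)]),(0,[(11,600064),(16,145536),(21,1013632),(24,2583936),(35,894080),(5,1344512),(1,771584),(0,740608),(37,1947136)]),(0,[(14,421776),(17,265616),(22,4495856),(24,10461680),(35,7930352),(3,728320),(1,23410912),(0,8135920),(37,2124928)])], .leaf 0 [(0,[(11,403456),(16,100864),(22,1219584),(24,1091584),(35,870400),(1,2353152),(0,1029632),(36,100864)])], .leaf 0 [(0,[(11,1399808),(14,435552),(22,268512),(35,269568),(1,256768),(0,705120),(36,349952)])], .leaf 0 [(0,[(11,847936),(22,31072),(33,230656),(3,638720),(1,174912),(36,211984)])], .leaf 1 [(0,[(11,8361984),(16,18432),(22,7564800),(24,9092608),(35,8369664),(5,24297472),(3,726016),(0,8654336),(37,6656)])],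 .leaf 1 [(0,[(14,3055488),(24,1057408),(35,1169536),(3,14592),(0,1153408)]),(0,[(15,33024),(23,104704),(28,24064),(3,150784)]),(0,[(14,2263296),(27,62720),(34,1153920),(35,771200),(6,508288),(0,76032)]),(0,[(11,4170240),(22,1909376),(24,5713536),(35,5252224),(5,14991872),(3,760064),(0,3421824),(37,1054592)]),(0,[(14,1752832),(34,2145280),(35,304640),(2,7168)])], .leaf 0 [(0,[(22,33792),(24,166912),(33,70656),(5,768000),(3,116736)])], .leaf 0 [(0,[(11,524288),(22,247456),(26,1920),(3,267872),(1,326336),(36,131072)])], .leaf 0 [(0,[(11,551232),(16,129584),(22,1554752),(24,1139808),(35,1085792),(5,220096),(0,1201968),(36,137808)])]]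
noncomputable def t1 : TT := (.split [1,0,-1,0,1,1,0,0,0,0] (.split [-16,-16,-16,24,16,16,0,-1,32,0] (.split [-22,-29,-24,29,64,21,0,4,-5,2] (.split [-169,-256,-169,123,92,85,0,82,161,84] (.split [-1,2,-1,0,0,0,0,0,0,0] (.split [-32,-32,-32,48,64,32,0,0,1,0] (.split [133,95,166,-256,-212,-242,0,39,125,75] (.split [-32,-48,-32,24,48,16,0,15,0,16] a10 a11) a12) a13) (.split [-16,-32,-16,0,0,0,0,16,-1,16] a14 (.split [2,0,2,-5,-16,-5,0,2,10,2] a15 a16))) (.split [-7,-10,-7,5,16,4,0,3,-5,2] (.split [-32,-48,-32,24,48,16,0,15,0,16] a17 a18) a19)) a20) (.split [0,0,0,0,-1,0,0,0,2,0] (.split [2,2,0,0,16,2,0,-2,12,-1] (.split [2,0,2,-5,-16,-4,0,2,-1,2] a21 a22) a23) (.split [-8,-16,-8,8,-8,0,0,7,-3,8] a24 (.split [-79,-256,-177,73,-73,0,0,70,98,177] (.split [32,0,32,-64,-224,-64,0,32,155,32] a25 (.split [-32,-48,-32,24,48,16,0,15,0,16] a26 a27)) (.split [2,-4,-1,-5,-8,-16,0,3,4,6] (.split [-4,-8,-4,0,0,0,0,4,-1,4]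 a28 a29) (.split [-16,-32,-16,0,32,-32,0,16,0,15] a30 (.split [-32,-64,-32,32,-32,0,0,28,131,32] a31 (.split [-32,-48,-32,24,48,16,0,15,0,16] a32 a33)))))))) a34)
theorem c1 : chkT (fsm (-1) ([0,0,0,0,-1,0,0,0,1,0] : Fm) :: ([-1,4,4,0,0,0,0,0,0,0] : Fm) :: fsm (-1) ([0,0,0,0,-1,1,0,0,0,0] : Fm) :: ([0,0,0,0,0,0,0,0,-1,1] : Fm) :: fsm (-1) ([0,0,0,0,-2,0,0,0,1,0] : Fm) :: ([0,0,0,0,-1,-1,0,0,-1,1] : Fm) :: K2O12.C0) t1 = true := by decide +kernel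
end K2O12M01010

namespace K2O12M01011
noncomputable def a0 : TT := .leaf ⟨true,31,33,0,64,2,32735,[[0,0,0,0,0,0,0,0,7161],[0,0,0,0,32736,0,0,0,-9207],[],[0,0,0,0,0,0,0,0,8184],[],[],[0,0,0,0,0,0,0,0,45012],[0,0,0,0,0,0,0,0,231],[0,0,0,0,992,0,0,0,-279],[],[0,0,0,0,992]]⟩ [.leaf 0 [(0,[])], .leaf 0 [(0,[(3,279)])], .leaf 0 [(0,[])], .leaf 0 [(0,[])], .leaf 0 [(0,[(9,15376),(13,38440),(0,7688),(34,3844)])], .leaf 0 [(0,[])], .leaf 0 [(0,[])], .leaf 0 [(0,[]),(0,[]),(0,[]),(0,[]),(0,[]),(0,[])], .leaf 0 [(0,[])], .leaf 0 [(0,[])], .leaf 0 [(0,[(3,8249472)])], .leaf 0 [(0,[])], .leaf 0 [(0,[])], .leaf 0 [(0,[])], .leaf 0 [(0,[])], .leaf 0 [(0,[])], .leaf 0 [(0,[])], .leaf 0 [(0,[(3,14011008)])], .leaf 0 [(0,[(33,4190208),(4,4190208)])], .leaf 0 [(0,[])], .leaf 0 [(0,[(4,4190208)])], .leaf 0 [(0,[(9,261888),(20,130944),(3,1178496),(1,130944),(34,65472)])], .leaf 0 [(0,[])], .leaf 0 [(0,[(16,130944),(24,130944)])],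 .leaf 1 [(0,[(3,7594752)])], .leaf 1 [(0,[(13,1047552),(4,1047552)]),(0,[(13,1047552),(4,1047552)]),(0,[(23,916608),(3,687456)]),(0,[(13,1047552),(4,1047552),(3,8936928)]),(0,[(13,1047552),(4,1047552)])], .leaf 1 [(0,[])], .leaf 0 [(0,[(3,155496)])], .leaf 0 [(0,[(16,130944)])], .leaf 0 [(0,[])], .leaf 1 [(0,[(8,3617328),(13,384648),(19,1047552),(4,949344),(0,286440),(35,904332)]),(0,[(12,261888),(13,392832),(17,32736),(33,1047552),(4,1964160),(0,294624),(35,261888)]),(0,[(12,523776),(13,1571328),(4,1047552),(0,523776)]),(0,[(8,2815296),(13,2389728),(19,1047552),(4,916608),(1,1571328),(0,687456),(35,703824)]),(0,[(14,1047552),(31,1047552),(32,1047552),(3,8282208)])], .leaf 1 [(0,[(9,261888),(24,130944),(3,1178496),(1,261888),(34,65472)])], .leaf 0 [(0,[(9,229152),(13,441936),(24,130944),(3,98208),(0,114576),(34,57288)])], .leaf 0 [(0,[(9,261888),(3,1072104),(1,261888),(34,65472)])], .leaf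 2 [(0,[(3,1178496)])], .leaf 2 [(0,[(12,1702272),(19,654720),(33,392832),(4,392832)]),(0,[(21,916608),(3,916608)]),(0,[(12,1047552),(33,1047552),(4,1047552)]),(0,[(12,1047552),(32,1047552),(3,916608)]),(0,[(12,1178496),(19,130944),(33,916608),(4,916608)])], .leaf 0 [(0,[(3,1178496)])], .leaf 0 [(0,[(9,261888),(20,130944),(3,229152),(1,130944),(34,65472)])], .leaf 1 [(0,[(3,98208)])]]
noncomputable def t0 : TT := a0
theorem c0 : chkT (fsm (-1) ([-1,4,4,0,0,0,0,0,0,0] : Fm) :: fsm (-1) ([0,0,0,0,-1,1,0,0,0,0] : Fm) :: ([0,0,0,0,0,0,0,0,-1,1] : Fm) :: fsm (-1) ([0,0,0,0,-2,0,0,0,1,0] : Fm) :: ([0,0,0,0,-1,-1,0,0,-1,1] : Fm) :: K2O12.C0) t0 = true := by decide +kernel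
end K2O12M01011

namespace K2O12M01010
theorem top : ∃ t, chkT (([-1,4,4,0,0,0,0,0,0,0] : Fm) :: fsm (-1) ([0,0,0,0,-1,1,0,0,0,0] : Fm) :: ([0,0,0,0,0,0,0,0,-1,1] : Fm) :: fsm (-1) ([0,0,0,0,-2,0,0,0,1,0] : Fm) :: ([0,0,0,0,-1,-1,0,0,-1,1] : Fm) :: K2O12.C0) t = true := ⟨_, (spl c0 c1)⟩
end K2O12M01010
namespace K2O12M01011
theorem top : ∃ t, chkT (fsm (-1) ([-1,4,4,0,0,0,0,0,0,0] : Fm) :: fsm (-1) ([0,0,0,0,-1,1,0,0,0,0] : Fm) :: ([0,0,0,0,0,0,0,0,-1,1] : Fm) :: fsm (-1) ([0,0,0,0,-2,0,0,0,1,0] : Fm) :: ([0,0,0,0,-1,-1,0,0,-1,1] : Fm) :: K2O12.C0) t = true := ⟨_, c0⟩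
end K2O12M01011
def K2O12P0101 := (splE K2O12M01010.top K2O12M01011.top)

end Vale.Agent.P235
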