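import Vale.Agent.P235.T.K2O12C

namespace Vale.Agent.P235

set_option maxRecDepth 100000

namespace K2O12M10000
noncomputable def a0 : TT := .leaf ⟨true,0,33,31,64,0,32735,[[],[0,0,0,0,10230],[0,0,0,0,10230],[0,2046,2046,0,-3069,-3069,0,0,1023,1023],[0,0,0,0,17391],[],[],[],[0,0,0,0,310],[0,0,0,0,330],[0,0,0,0,992]]⟩ [.leaf 0 [(0,[])], .leaf 0 [(0,[])], .leaf 0 [(0,[])], .leaf 0 [(0,[])], .leaf 0 [(0,[])], .leaf 0 [(0,[])], .leaf 0 [(0,[(1,30752)])], .leaf 0 [(0,[]),(0,[]),(0,[]),(0,[]),(0,[]),(0,[])], .leaf 0 [(0,[(13,392832),(22,130944)])], .leaf 0 [(0,[])], .leaf 0 [(0,[])], .leaf 0 [(0,[])], .leaf 0 [(0,[])], .leaf 0 [(0,[])], .leaf 0 [(0,[])], .leaf 0 [(0,[])], .leaf 0 [(0,[])], .leaf 0 [(0,[])], .leaf 0 [(6,[(8,3142656),(19,785664),(22,2618880),(25,785664),(32,22653312),(33,4321152),(3,18332160),(35,785664)])], .leaf 0 [(0,[(22,261888),(4,392832),(3,2095104)])],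 .leaf 0 [(0,[(13,1702272),(22,1964160),(31,2095104)])], .leaf 0 [(0,[(9,523776),(13,392832),(14,130944),(20,130944),(31,130944),(34,130944)])], .leaf 0 [(0,[(13,261888),(31,130944)])], .leaf 0 [(0,[(3,130944),(1,130944)])], .leaf 1 [(0,[(13,261888),(31,130944)])], .leaf 1 [(0,[(13,1800480),(22,949344)]),(0,[(13,851136),(31,949344)]),(0,[(3,900240)]),(0,[(13,851136),(31,949344)]),(0,[(13,1407648),(22,818400)])], .leaf 1 [(0,[(13,130944),(23,130944),(3,130944),(1,130944)])], .split 0 0 (.leaf 0 [(0,[(0,1)])]) (.leaf 1 [(198,[(0,25)])]), .leaf 0 [(0,[(13,122760),(3,194370),(2,67518)])], .leaf 0 [(0,[(13,261888),(31,130944)])], .leaf 0 [(0,[(14,1309440),(22,196416),(25,261888),(31,491040),(32,785664),(3,982080)]),(0,[(14,1047552),(22,196416),(32,1047552),(3,1374912),(2,621984),(1,294624)]),(0,[(14,1047552),(22,196416),(31,752928),(3,65472)]),(0,[(14,1735008),(22,196416),(25,687456),(31,65472),(32,360096)]),(0,[(14,1407648),(22,458304),(25,360096),(32,687456)])],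 .split 1 0 (.leaf 1 [(0,[(0,1)])]) (.leaf 0 [(70,[(10,38759424),(21,9297024),(4,2487936),(0,19),(35,9689856)])]), .split 0 0 (.leaf 0 [(0,[(0,1)])]) (.leaf 1 [(4952,[(10,796139520),(4,626239680),(2,1470828480),(1,250495872),(0,503),(35,199034880)])]), .split 0 0 (.leaf 0 [(0,[(0,1)])]) (.leaf 1 [(154,[(10,59448576),(21,20296320),(1,12177792),(0,165),(35,14862144)])]), .leaf 2 [(0,[(13,261888),(31,130944)])], .leaf 4 [(0,[(12,1047552),(14,163680),(22,130944),(25,163680),(32,523776),(33,360096),(3,1374912)]),(0,[(8,523776),(12,916608),(25,130944),(32,720192),(33,65472),(3,949344),(35,130944)]),(0,[(25,130944),(33,196416),(3,982080)]),(0,[(12,1047552),(22,130944),(32,851136),(33,196416)]),(0,[(12,1047552),(22,130944),(32,851136),(33,196416)])], .leaf 0 [(0,[(13,261888),(31,130944)])], .leaf 1 [(0,[(9,523776),(13,384648),(14,130944),(31,126852),(34,130944)])], .split 1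 0 (.leaf 1 [(0,[(0,1)])]) (.leaf 0 [(30,[(10,16237056),(14,11866800),(15,4059264),(32,3903768),(0,7),(35,4059264)])])]
noncomputable def t0 : TT := a0
theorem c0 : chkT (([-1,4,4,0,0,0,0,0,0,0] : Fm) :: ([0,0,0,0,-1,1,0,0,0,0] : Fm) :: ([0,0,0,0,0,0,0,0,-1,1] : Fm) :: ([0,0,0,0,-2,0,0,0,1,0] : Fm) :: fsm (-1) ([0,0,0,0,-1,-1,0,0,-1,1] : Fm) :: K2O12.C0) t0 = true := by decide +kernel
end K2O12M10000

namespace K2O12M10001
noncomputable def a0 : TT := .leaf ⟨true,0,33,31,64,3,8183,[[],[0,0,0,0,3069],[0,0,0,0,3069],[0,1023,1023,0,-2046,-2046,0,0,1023,1023],[0,0,0,0,4092],[],[],[],[0,0,0,0,93],[0,0,0,0,99],[0,0,0,0,248]]⟩ [.leaf 0 [(0,[])], .leaf 0 [(0,[])], .leaf 0 [(0,[])], .leaf 0 [(0,[])], .leaf 0 [(0,[])], .leaf 0 [(0,[])], .leaf 0 [(0,[(1,7688)])], .leaf 0 [(0,[]),(0,[]),(0,[]),(0,[]),(0,[]),(0,[])], .leaf 0 [(0,[(13,130944),(31,130944),(3,130944)])], .leaf 0 [(0,[])],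 .leaf 0 [(0,[])], .leaf 0 [(0,[])], .leaf 0 [(0,[])], .leaf 0 [(0,[])], .leaf 0 [(0,[])], .leaf 0 [(0,[])], .leaf 0 [(0,[])], .leaf 0 [(0,[])], .leaf 0 [(6,[(8,1047552),(19,392832),(25,392832),(32,4713984),(33,1833216),(3,3928320),(2,523776),(0,261888),(35,261888)])], .leaf 0 [(0,[(22,130944),(4,261888),(3,523776)])], .leaf 0 [(0,[(22,130944),(31,785664),(3,261888)])], .leaf 0 [(0,[(9,81840),(13,171864),(20,32736),(31,130944),(0,8184),(34,20460)])], .leaf 0 [(0,[(13,130944),(31,130944)])], .leaf 0 [(0,[(3,130944)])], .leaf 1 [(0,[(13,130944),(31,130944)])], .leaf 1 [(0,[(13,163680),(31,163680),(3,163680)]),(0,[(13,163680),(31,163680)]),(0,[(3,163680)]),(0,[(13,163680),(31,163680)]),(0,[(9,81840),(13,204600),(20,32736),(31,163680),(0,8184),(34,20460)])], .leaf 1 [(0,[(3,98208),(1,98208)])], .split 0 0 (.leaf 0 [(0,[(0,1)])]) (.leaf 1 [(30,[(14,2909412),(32,3924228),(0,2)])]),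 .leaf 0 [(0,[(13,94116),(3,96162)])], .leaf 0 [(0,[(13,130944),(31,130944)])], .leaf 0 [(0,[(8,392832),(14,130944),(25,139128),(32,98208),(0,73656),(35,98208)]),(0,[(17,10912),(32,261888),(3,289168),(2,125488),(0,68200),(35,87296)]),(0,[(14,229152),(31,98208),(0,24552)]),(0,[(8,174592),(13,42284),(14,197780),(19,64108),(32,195052),(0,40920),(35,43648)]),(6,[(14,1047552),(15,32736),(31,720192),(32,1833216),(0,294624),(35,261888)])], .leaf 1 [(0,[(9,32736),(13,212784),(31,98208),(0,16368),(34,8184)])], .split 0 0 (.leaf 0 [(0,[(0,1)])]) (.leaf 1 [(61,[(10,4059264),(4,7827996),(2,3772824),(0,9),(35,1014816)])]), .leaf 0 [(0,[(9,98208),(13,208692),(31,126852),(0,16368),(34,24552)])], .leaf 2 [(0,[(13,130944),(31,130944)])], .leaf 4 [(6,[(8,523776),(12,1636800),(25,196416),(32,982080),(33,654720),(3,2176944),(0,130944),(35,130944)]),(0,[(8,261888),(12,392832),(19,196416),(25,65472),(3,49104),(35,65472)]),(0,[(24,16368),(33,49104),(3,180048),(0,20460)]),(64,[(12,15385920),(17,130944),(25,1505856),(32,9755328),(33,5761536),(0,1178496),(35,1047552)]),(64,[(12,15385920),(17,130944),(25,1505856),(32,9755328),(33,5761536),(0,1178496),(35,1047552)])],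 .leaf 0 [(0,[(13,130944),(31,130944)])], .leaf 1 [(0,[(9,81840),(13,167772),(31,126852),(0,8184),(34,20460)])], .split 1 0 (.leaf 1 [(0,[(0,1)])]) (.leaf 0 [(247,[(10,20296320),(14,41431500),(32,31283340),(1,2029632),(0,43),(35,5074080)])])]
noncomputable def t0 : TT := a0
theorem c0 : chkT (fsm (-1) ([-1,4,4,0,0,0,0,0,0,0] : Fm) :: ([0,0,0,0,-1,1,0,0,0,0] : Fm) :: ([0,0,0,0,0,0,0,0,-1,1] : Fm) :: ([0,0,0,0,-2,0,0,0,1,0] : Fm) :: fsm (-1) ([0,0,0,0,-1,-1,0,0,-1,1] : Fm) :: K2O12.C0) t0 = true := by decide +kernel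
end K2O12M10001

namespace K2O12M10010
noncomputable def a0 : TT := .leaf ⟨false,0,1,1,2,0,31,[[],[0,0,0,0,8],[0,0,0,0,0,8],[0,2,2,0,-4,-4,0,0,2,2],[0,0,0,0,0,11],[],[],[],[],[],[]]⟩ [.leaf 0 [(0,[])], .leaf 0 [(0,[])], .leaf 0 [(0,[])], .leaf 0 [(0,[])], .leaf 0 [(0,[])], .leaf 0 [(0,[])], .leaf 0 [(0,[(13,256),(31,256),(3,256)])], .leaf 0 [(0,[])], .leaf 0 [(0,[(1,1408)])], .leaf 0 [(0,[])], .leaf 0 [(0,[])], .leaf 0 [(0,[])], .leaf 0 [(0,[])], .leaf 0 [(0,[])], .leaf 0 [(0,[])], .leaf 0 [(0,[])], .leaf 0 [(0,[(14,512),(22,256),(25,512),(32,2560),(33,1024),(3,2048),(1,1024)])], .leaf 0 [(0,[(22,256),(4,512),(3,2048),(1,1024)])], .leaf 0 [(0,[(13,512),(22,768),(31,2048),(3,1024)])], .leaf 0 [(0,[(9,256),(20,128),(34,64)])], .leaf 0 [(0,[])], .leaf 0 [(0,[])], .leaf 1 [(0,[])], .leaf 1 [(0,[(13,832),(31,832),(3,832)]),(0,[(13,640)]),(0,[(3,320)]),(0,[]),(0,[(13,1152),(22,576)])],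 .leaf 0 [(0,[])], .leaf 1 [(0,[])], .leaf 0 [(0,[])], .leaf 1 [(0,[])], .leaf 1 [(0,[(14,1280),(22,192),(25,256),(31,384),(32,768),(3,768)]),(0,[(14,1024),(22,192),(32,1024),(3,704),(2,64)]),(0,[(14,640),(22,192),(3,192),(2,576)]),(0,[(14,1024),(22,192),(33,1024),(3,192),(2,576)]),(0,[(14,1024),(22,448),(31,128),(32,1024)])], .leaf 1 [(0,[])], .split 1 0 (.leaf 1 [(0,[(0,1)])]) (.leaf 0 [(30,[(10,3968),(5,1984),(0,9),(35,992)])]), .leaf 0 [(0,[(9,256),(34,64)])], .leaf 2 [(0,[])], .leaf 2 [(0,[(12,1280),(19,256),(22,192),(32,384),(33,384),(3,768),(1,768)]),(0,[(22,128),(25,64),(33,384),(3,704),(1,768)]),(0,[(12,1024),(22,192),(32,640),(33,384),(1,768)]),(0,[(12,1024),(22,192),(32,640),(33,384),(1,768)]),(0,[(12,1024),(22,512),(33,1024),(3,64)])], .leaf 0 [(0,[])], .leaf 1 [(0,[(9,256),(34,64)])], .split 1 0 (.leaf 1 [(0,[(0,1)])]) (.leaf 0 [(4952,[(10,778240),(1,244864),(0,503),(35,194560)])])]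
noncomputable def t0 : TT := a0
theorem c0 : chkT (([-1,4,4,0,0,0,0,0,0,0] : Fm) :: fsm (-1) ([0,0,0,0,-1,1,0,0,0,0] : Fm) :: ([0,0,0,0,0,0,0,0,-1,1] : Fm) :: ([0,0,0,0,-2,0,0,0,1,0] : Fm) :: fsm (-1) ([0,0,0,0,-1,-1,0,0,-1,1] : Fm) :: K2O12.C0) t0 = true := by decide +kernel
end K2O12M10010

namespace K2O12M10011
noncomputable def a0 : TT := .leaf ⟨true,31,33,0,64,0,32735,[[0,0,0,0,12276],[0,0,0,0,8184],[],[0,3069,3069,0,-10230,-6138,0,0,3069,3069],[],[],[0,0,0,0,11253],[0,0,0,0,396],[0,0,0,0,248],[],[0,0,0,0,992]]⟩ [.leaf 0 [(0,[])], .leaf 0 [(0,[])], .leaf 0 [(0,[])], .leaf 0 [(0,[])], .leaf 0 [(0,[(9,15376),(13,38440),(0,7688),(34,3844)])], .leaf 0 [(0,[])], .leaf 0 [(0,[])], .leaf 0 [(0,[]),(0,[]),(0,[]),(0,[]),(0,[]),(0,[])], .leaf 0 [(0,[(13,392832),(31,392832),(3,654720)])], .leaf 0 [(0,[])], .leaf 0 [(0,[])], .leaf 0 [(0,[])], .leaf 0 [(0,[])], .leaf 0 [(0,[])],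 .leaf 0 [(0,[])], .leaf 0 [(0,[])], .leaf 0 [(0,[])], .leaf 0 [(0,[])], .leaf 0 [(4,[(17,71424),(19,892800),(25,821376),(32,16451328),(33,2785536),(3,13594368),(0,553536),(35,571392)])], .leaf 0 [(0,[(22,392832),(4,785664),(3,2095104)])], .leaf 0 [(0,[(22,392832),(31,3404544),(3,2356992)])], .leaf 0 [(0,[(9,523776),(13,1047552),(27,130944),(3,523776),(2,130944),(0,130944),(34,130944)])], .leaf 0 [(0,[(13,392832),(1,392832)])], .leaf 0 [(0,[])], .leaf 1 [(0,[(31,392832),(1,392832)])], .leaf 1 [(0,[(13,1113024),(22,360096),(31,392832),(3,785664)]),(0,[(13,752928),(31,752928)]),(0,[(3,621984)]),(0,[(1,1505856)]),(0,[(13,360096),(31,360096)])], .leaf 0 [(0,[(1,916608)])], .leaf 1 [(0,[(31,380556),(1,511500)])], .leaf 0 [(0,[])], .leaf 0 [(0,[(13,392832),(31,392832)])], .leaf 0 [(0,[(8,523776),(13,32736),(14,1211232),(19,196416),(25,360096),(32,491040),(0,98208),(35,130944)]),(6,[(14,4975872),(15,98208),(32,7332864),(0,883872),(35,785664)]),(0,[(13,1440384),(31,65472),(2,229152),(0,433752)]),(64,[(14,98633568),(15,589248),(19,6776352),(25,37908288),(31,11032032),(32,23406240),(0,5303232),(35,4713984)]),(6,[(8,8118528),(14,1996896),(19,752928),(32,5565120),(33,1014816),(0,2029632),(35,2029632)])],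 .leaf 1 [(0,[(9,261888),(13,1047552),(3,458304),(2,65472),(0,130944),(34,65472)])], .split 2 0 (.leaf 2 [(0,[(0,1)])]) (.leaf 0 [(287,[(10,21998592),(33,10999296),(34,48711168),(0,19),(35,5499648)])]), .leaf 0 [(1,[(9,896148),(13,1692042),(31,540144),(3,1522224),(2,220968),(0,186186),(34,224037)])], .leaf 2 [(0,[(13,392832),(31,392832)])], .leaf 2 [(0,[(12,1505856),(19,458304),(22,294624),(33,589248)]),(0,[(12,605616),(26,294624),(3,515592),(0,147312)]),(6,[(8,2356992),(12,6448992),(25,883872),(32,3502752),(33,2946240),(0,589248),(35,589248)]),(6,[(12,4975872),(17,98208),(32,5270496),(33,2062368),(0,883872),(35,785664)]),(4,[(12,3093552),(15,126852),(25,900240),(33,4337520),(0,1141668),(35,1014816)])], .leaf 0 [(0,[(9,163680),(13,802032),(31,65472),(3,654720),(2,327360),(0,81840),(34,40920)])], .leaf 1 [(1,[(9,863412),(13,1610202),(31,343728),(3,1522224),(2,417384),(0,169818),(34,215853)])],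 .split 2 0 (.leaf 2 [(0,[(0,1)])]) (.leaf 1 [(287,[(10,21998592),(33,48711168),(34,10999296),(0,19),(35,5499648)])])]
noncomputable def t0 : TT := a0
theorem c0 : chkT (fsm (-1) ([-1,4,4,0,0,0,0,0,0,0] : Fm) :: fsm (-1) ([0,0,0,0,-1,1,0,0,0,0] : Fm) :: ([0,0,0,0,0,0,0,0,-1,1] : Fm) :: ([0,0,0,0,-2,0,0,0,1,0] : Fm) :: fsm (-1) ([0,0,0,0,-1,-1,0,0,-1,1] : Fm) :: K2O12.C0) t0 = true := by decide +kernel
end K2O12M10011

namespace K2O12M10100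
noncomputable def a0 : TT := .leaf ⟨true,0,31,33,64,2,8183,[[],[0,0,0,0,0,3069],[0,0,0,0,0,3069],[0,0,0,0,0,-4092,0,0,0,3069],[0,0,0,0,0,9207],[],[],[],[0,0,0,0,0,99],[0,0,0,0,0,93],[0,0,0,0,0,248]]⟩ [.leaf 0 [(0,[])], .leaf 0 [(0,[])], .leaf 0 [(0,[])], .leaf 0 [(0,[])], .leaf 0 [(0,[])], .leaf 0 [(0,[(31,7688),(2,7688)])], .leaf 0 [(0,[])], .leaf 0 [(0,[]),(0,[]),(0,[]),(0,[]),(0,[]),(0,[])], .leaf 0 [(0,[(13,130944),(22,130944),(31,392832),(3,130944),(2,130944)])], .leaf 0 [(0,[])], .leaf 0 [(0,[])], .leaf 0 [(0,[])], .leaf 0 [(0,[])], .leaf 0 [(0,[])], .leaf 0 [(0,[])], .leaf 0 [(0,[])], .leaf 0 [(0,[])], .leaf 0 [(0,[])], .leaf 0 [(0,[(31,261888),(32,1047552),(3,654720),(2,654720)])], .leaf 0 [(0,[(3,523776),(2,392832)])], .leaf 0 [(0,[(13,261888),(22,261888),(31,261888)])], .leaf 0 [(0,[(9,65472),(27,32736),(1,32736),(34,16368)])], .leaf 0 [(0,[(31,523776),(2,130944)])],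 .leaf 0 [(0,[])], .leaf 1 [(0,[(31,32736),(1,1080288)])], .leaf 4 [(0,[(13,261888),(31,261888),(3,261888),(2,196416)]),(0,[(13,261888),(31,785664),(3,523776),(2,360096)]),(0,[(13,229152),(31,294624),(2,229152)]),(0,[(3,261888)]),(0,[(3,261888),(0,32736)])], .leaf 0 [(0,[(31,556512),(2,196416)])], .leaf 1 [(0,[(22,32736),(31,540144),(2,192324)])], .leaf 0 [(0,[(22,32736),(31,32736),(1,65472)])], .leaf 0 [(0,[(31,32736),(1,1080288)])], .leaf 3 [(0,[(14,278256),(25,16368),(31,343728),(32,245520),(3,294624),(2,294624)]),(0,[(14,229152)]),(0,[(13,49104),(14,523776),(22,49104),(25,261888),(31,180048),(3,65472),(2,65472)]),(0,[(14,261888),(33,261888)]),(0,[(14,261888),(22,32736),(32,261888)])], .leaf 1 [(0,[])], .split 0 0 (.leaf 0 [(0,[(0,1)])]) (.leaf 1 [(61,[(10,4059264),(2,2029632),(0,9),(35,1014816)])]), .leaf 0 [(0,[(9,65472),(1,32736),(34,16368)])], .leaf 2 [(0,[(31,32736),(1,1080288)])],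 .leaf 4 [(0,[(12,278256),(19,16368),(32,81840),(33,163680),(3,294624),(2,32736)]),(0,[(12,261888),(32,261888),(3,392832)]),(0,[(33,196416),(3,261888),(1,261888)]),(0,[(12,261888),(32,65472),(33,196416),(3,327360),(1,982080)]),(0,[(12,261888),(33,261888),(3,261888),(1,1047552)])], .leaf 0 [(0,[(31,32736),(1,65472)])], .leaf 1 [(0,[(9,65472),(1,65472),(34,16368)])], .split 1 0 (.leaf 1 [(0,[(0,1)])]) (.leaf 0 [(61,[(10,4059264),(32,35084808),(3,11600820),(0,9),(35,1014816)])])]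
noncomputable def t0 : TT := a0
theorem c0 : chkT (([-1,4,4,0,0,0,0,0,0,0] : Fm) :: ([0,0,0,0,-1,1,0,0,0,0] : Fm) :: fsm (-1) ([0,0,0,0,0,0,0,0,-1,1] : Fm) :: ([0,0,0,0,-2,0,0,0,1,0] : Fm) :: fsm (-1) ([0,0,0,0,-1,-1,0,0,-1,1] : Fm) :: K2O12.C0) t0 = true := by decide +kernel
end K2O12M10100

namespace K2O12M10101
noncomputable def a0 : TT := .leaf ⟨false,0,1,1,2,2,7,[[],[0,0,0,0,2],[0,0,0,0,0,2],[0,0,0,0,-3,-1,0,0,3],[0,0,0,0,0,7],[],[],[],[],[],[]]⟩ [.leaf 0 [(0,[])], .leaf 0 [(0,[])], .leaf 0 [(0,[])], .leaf 0 [(0,[])], .leaf 0 [(0,[])], .leaf 0 [(0,[])], .leaf 0 [(0,[(13,128),(22,128),(3,128),(2,128)])], .leaf 0 [(0,[])], .leaf 0 [(0,[(31,896),(2,896)])], .leaf 0 [(0,[])], .leaf 0 [(0,[])], .leaf 0 [(0,[])], .leaf 0 [(0,[])], .leaf 0 [(0,[])], .leaf 0 [(0,[])], .leaf 0 [(0,[])], .leaf 0 [(0,[(8,256),(19,160),(32,832),(3,288),(0,32),(35,64)])], .leaf 0 [(0,[(13,128),(22,128),(3,128),(2,128)])],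 .leaf 0 [(0,[(31,640),(3,256)])], .leaf 0 [(0,[(9,64),(20,32),(3,80),(34,16)])], .leaf 0 [(0,[])], .leaf 0 [(0,[(3,64),(2,32)])], .leaf 1 [(0,[])], .leaf 4 [(0,[(13,320),(22,64),(31,320),(3,192),(2,128)]),(0,[(13,256),(31,512),(3,512),(2,288)]),(0,[(13,224),(31,160)]),(0,[]),(0,[(9,64),(13,160),(34,16)])], .leaf 0 [(0,[(2,32)])], .leaf 1 [(0,[(22,32),(4,32)])], .leaf 0 [(0,[(22,32),(3,70),(2,32)])], .leaf 0 [(0,[(3,352),(1,448)])], .leaf 3 [(2,[(8,1280),(13,112),(14,400),(19,368),(31,768),(32,176),(0,96),(35,320)]),(0,[(13,160),(31,224),(0,40)]),(0,[(8,288),(13,252),(14,296),(19,108),(25,148),(31,76),(0,72),(35,72)]),(0,[(8,256),(14,96),(32,192),(33,32),(0,32),(35,64)]),(22,[(14,1888),(15,320),(19,3680),(31,5888),(32,2208),(0,464),(35,2560)])], .leaf 1 [(0,[(3,64),(2,32)])], .split 2 0 (.leaf 2 [(0,[(0,1)])]) (.leaf 0 [(95,[(33,5376),(34,3072),(2,3584),(0,11)])]),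 .leaf 0 [(0,[(9,64),(3,78),(34,16)])], .leaf 2 [(0,[])], .leaf 4 [(96,[(12,27488),(13,4160),(15,128),(19,4128),(25,1600),(32,19104),(3,19584),(2,1600),(0,1152),(35,1024)]),(0,[(12,448),(19,192),(33,64),(3,224)]),(0,[(13,64),(21,32),(3,96),(0,16)]),(0,[(12,180),(15,4),(32,236),(0,16),(35,32)]),(0,[(12,256),(32,256),(3,320),(1,640)])], .leaf 0 [(0,[(3,80)])], .leaf 1 [(0,[(9,64),(3,86),(34,16)])], .split 2 0 (.leaf 2 [(0,[(0,1)])]) (.leaf 1 [(95,[(10,896),(14,2240),(33,8448),(1,448),(0,11),(35,224)])])]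
noncomputable def t0 : TT := a0
theorem c0 : chkT (fsm (-1) ([-1,4,4,0,0,0,0,0,0,0] : Fm) :: ([0,0,0,0,-1,1,0,0,0,0] : Fm) :: fsm (-1) ([0,0,0,0,0,0,0,0,-1,1] : Fm) :: ([0,0,0,0,-2,0,0,0,1,0] : Fm) :: fsm (-1) ([0,0,0,0,-1,-1,0,0,-1,1] : Fm) :: K2O12.C0) t0 = true := by decide +kernel
end K2O12M10101

namespace K2O12M10110
noncomputable def a0 : TT := .leaf ⟨false,0,1,1,2,1,31,[[],[0,0,0,0,8],[0,0,0,0,0,8],[0,3,3,0,-6,-6,0,0,3,3],[0,0,0,0,0,28],[],[],[],[],[],[]]⟩ [.leaf 0 [(0,[])], .leaf 0 [(0,[])], .leaf 0 [(0,[])], .leaf 0 [(0,[])], .leaf 0 [(0,[])], .leaf 0 [(0,[])], .leaf 0 [(0,[(13,768),(22,384)])], .leaf 0 [(0,[])], .leaf 0 [(0,[(1,3584)])], .leaf 0 [(0,[])], .leaf 0 [(0,[])], .leaf 0 [(0,[])], .leaf 0 [(0,[])], .leaf 0 [(0,[])], .leaf 0 [(0,[])], .leaf 0 [(0,[])], .leaf 0 [(0,[(14,256),(22,384),(25,256),(32,2816),(33,1024),(3,2048),(1,1024)])], .leaf 0 [(0,[(22,384),(3,1280),(2,768),(1,256)])],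 .leaf 0 [(0,[(22,384),(31,2304),(3,1280)])], .leaf 0 [(0,[(9,256),(20,128),(34,64)])], .leaf 0 [(0,[])], .leaf 0 [(0,[])], .leaf 1 [(0,[])], .leaf 1 [(0,[(13,1472),(22,736)]),(0,[(13,448)]),(0,[(3,224)]),(0,[]),(0,[(13,352),(3,352),(1,352)])], .leaf 0 [(0,[])], .leaf 1 [(0,[])], .leaf 0 [(0,[])], .leaf 1 [(0,[])], .leaf 3 [(0,[(14,1024),(22,192),(31,640),(32,1024),(3,1280),(1,768)]),(0,[(14,704),(19,192),(31,704),(32,192),(3,512)]),(0,[(13,192),(14,1984),(25,960),(31,128),(32,64),(3,384),(1,896)]),(0,[(14,1024),(22,192),(32,896),(33,128),(3,512)]),(0,[(14,1664),(22,192),(25,640),(32,384),(1,3840)])], .leaf 1 [(0,[])], .split 1 0 (.leaf 1 [(0,[(0,1)])]) (.leaf 0 [(92,[(10,4864),(25,5952),(0,19),(35,1216)])]), .leaf 0 [(0,[(9,256),(34,64)])], .leaf 2 [(0,[])], .leaf 4 [(0,[(12,1024),(22,192),(32,1024),(3,1280),(2,384),(1,128)]),(0,[(8,768),(12,832),(25,192),(32,640),(3,1312),(35,192)]),(0,[(21,320),(25,192),(3,768),(2,384),(1,128)]),(0,[(12,1024),(22,192),(32,1024),(2,384),(1,128)]),(0,[(12,1024),(22,320),(33,1024),(3,192)])],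 .leaf 0 [(0,[])], .leaf 1 [(0,[(9,256),(34,64)])], .split 0 0 (.leaf 0 [(0,[(0,1)])]) (.leaf 1 [(92,[(10,4864),(24,5952),(0,19),(35,1216)])])]
noncomputable def t0 : TT := a0
theorem c0 : chkT (([-1,4,4,0,0,0,0,0,0,0] : Fm) :: fsm (-1) ([0,0,0,0,-1,1,0,0,0,0] : Fm) :: fsm (-1) ([0,0,0,0,0,0,0,0,-1,1] : Fm) :: ([0,0,0,0,-2,0,0,0,1,0] : Fm) :: fsm (-1) ([0,0,0,0,-1,-1,0,0,-1,1] : Fm) :: K2O12.C0) t0 = true := by decide +kernel
end K2O12M10110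

namespace K2O12M10111
noncomputable def a0 : TT := .leaf ⟨true,31,33,0,64,2,32735,[[0,0,0,0,10230],[0,0,0,0,10230],[],[0,0,0,0,-16368,0,0,0,11253],[],[],[0,0,0,0,37851],[0,0,0,0,330],[0,0,0,0,310],[],[0,0,0,0,992]]⟩ [.leaf 0 [(0,[])], .leaf 0 [(0,[])], .leaf 0 [(0,[])], .leaf 0 [(0,[])], .leaf 0 [(0,[(9,15376),(13,38440),(0,7688),(34,3844)])], .leaf 0 [(0,[])], .leaf 0 [(0,[])], .leaf 0 [(0,[]),(0,[]),(0,[]),(0,[]),(0,[]),(0,[])], .leaf 0 [(0,[(3,1047552)])], .leaf 0 [(0,[])], .leaf 0 [(0,[])], .leaf 0 [(0,[])], .leaf 0 [(0,[])], .leaf 0 [(0,[])], .leaf 0 [(0,[])], .leaf 0 [(0,[])], .leaf 0 [(0,[])], .leaf 0 [(0,[])], .leaf 0 [(20,[(8,25141248),(19,6983680),(25,6983680),(32,56567808),(33,12570624),(0,1396736),(35,6285312)])], .leaf 0 [(0,[(3,1047552)])], .leaf 0 [(0,[(31,4190208),(3,2356992)])], .leaf 0 [(0,[(9,261888),(20,130944),(3,1178496),(1,130944),(34,65472)])],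 .leaf 0 [(0,[])], .leaf 0 [(0,[(4,130944)])], .leaf 1 [(0,[])], .leaf 3 [(0,[(13,1047552),(31,1047552),(3,1211232)]),(0,[(13,916608),(3,98208)]),(0,[(13,1047552),(3,1604064),(1,1047552)]),(0,[(13,1047552),(31,1047552)]),(0,[(31,1047552),(1,1047552)])], .leaf 0 [(0,[(2,130944),(1,130944)])], .leaf 1 [(0,[(22,130944),(2,130944),(1,130944)])], .leaf 0 [(0,[(22,130944),(2,130944)])], .leaf 0 [(0,[])], .leaf 3 [(0,[(8,2954424),(13,241428),(19,687456),(31,1047552),(32,360096),(1,376464),(0,257796),(35,738606)]),(6,[(13,13880064),(14,2946240),(31,5172288),(0,3470016)]),(0,[(8,2356992),(13,589248),(14,327360),(19,720192),(31,916608),(1,130944),(0,261888),(35,589248)]),(0,[(14,1047552),(31,1047552),(32,1047552),(1,5237760)]),(64,[(14,106490208),(15,261888),(19,3011712),(25,41672928),(31,26417952),(32,23406240),(1,67174272),(0,2356992),(35,2095104)])], .leaf 1 [(0,[(9,65472),(13,163680),(3,982080),(2,130944),(0,32736),(34,16368)])],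 .split 2 0 (.leaf 2 [(0,[(0,1)])]) (.leaf 0 [(415,[(33,80661504),(34,54472704),(0,43)])]), .leaf 0 [(0,[(9,261888),(3,1252152),(1,261888),(34,65472)])], .leaf 2 [(0,[])], .split 4 4 (.leaf 4 [(0,[(9,872960),(13,780208),(14,223696),(26,267344),(34,660176),(4,327360),(1,98208),(36,218240)]),(34,[(9,37711872),(13,26188800),(26,10475520),(34,18855936),(4,50806272),(1,2095104),(36,9427968)]),(0,[(22,720192),(4,1047552)]),(4,[(16,261888),(34,4190208),(1,1047552),(36,2095104)]),(0,[(0,1)])]) (.leaf 1 [(0,[(13,1047552),(15,261888),(26,261888),(33,523776),(34,261888)]),(0,[(22,294624),(4,261888)]),(0,[(13,1047552),(33,1047552)]),(733,[(10,369785856),(26,510681600),(34,445995264),(5,64686336),(1,210557952),(0,271),(36,676456704)]),(545,[(13,371880960),(14,329978880),(18,15713280),(33,748999680),(1,141419520),(0,169),(36,125706240)])]), .leaf 0 [(0,[(3,1113024)])], .leaf 1 [(0,[(9,327360),(13,163680),(3,1080288),(0,32736),(34,81840)])],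 .split 1 0 (.leaf 1 [(0,[(0,1)])]) (.leaf 0 [(61,[(10,16237056),(2,8118528),(0,9),(35,4059264)])])]
noncomputable def t0 : TT := a0
theorem c0 : chkT (fsm (-1) ([-1,4,4,0,0,0,0,0,0,0] : Fm) :: fsm (-1) ([0,0,0,0,-1,1,0,0,0,0] : Fm) :: fsm (-1) ([0,0,0,0,0,0,0,0,-1,1] : Fm) :: ([0,0,0,0,-2,0,0,0,1,0] : Fm) :: fsm (-1) ([0,0,0,0,-1,-1,0,0,-1,1] : Fm) :: K2O12.C0) t0 = true := by decide +kernel
end K2O12M10111

namespace K2O12M10000
theorem top : ∃ t, chkT (([-1,4,4,0,0,0,0,0,0,0] : Fm) :: ([0,0,0,0,-1,1,0,0,0,0] : Fm) :: ([0,0,0,0,0,0,0,0,-1,1] : Fm) :: ([0,0,0,0,-2,0,0,0,1,0] : Fm) :: fsm (-1) ([0,0,0,0,-1,-1,0,0,-1,1] : Fm) :: K2O12.C0) t = true := ⟨_, c0⟩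
end K2O12M10000
namespace K2O12M10001
theorem top : ∃ t, chkT (fsm (-1) ([-1,4,4,0,0,0,0,0,0,0] : Fm) :: ([0,0,0,0,-1,1,0,0,0,0] : Fm) :: ([0,0,0,0,0,0,0,0,-1,1] : Fm) :: ([0,0,0,0,-2,0,0,0,1,0] : Fm) :: fsm (-1) ([0,0,0,0,-1,-1,0,0,-1,1] : Fm) :: K2O12.C0) t = true := ⟨_, c0⟩
end K2O12M10001
namespace K2O12M10010
theorem top : ∃ t, chkT (([-1,4,4,0,0,0,0,0,0,0] : Fm) :: fsm (-1) ([0,0,0,0,-1,1,0,0,0,0] : Fm) :: ([0,0,0,0,0,0,0,0,-1,1] : Fm) :: ([0,0,0,0,-2,0,0,0,1,0] : Fm) :: fsm (-1) ([0,0,0,0,-1,-1,0,0,-1,1] : Fm) :: K2O12.C0) t = true := ⟨_, c0⟩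
end K2O12M10010
namespace K2O12M10011
theorem top : ∃ t, chkT (fsm (-1) ([-1,4,4,0,0,0,0,0,0,0] : Fm) :: fsm (-1) ([0,0,0,0,-1,1,0,0,0,0] : Fm) :: ([0,0,0,0,0,0,0,0,-1,1] : Fm) :: ([0,0,0,0,-2,0,0,0,1,0] : Fm) :: fsm (-1) ([0,0,0,0,-1,-1,0,0,-1,1] : Fm) :: K2O12.C0) t = true := ⟨_, c0⟩
end K2O12M10011
namespace K2O12M10100
theorem top : ∃ t, chkT (([-1,4,4,0,0,0,0,0,0,0] : Fm) :: ([0,0,0,0,-1,1,0,0,0,0] : Fm) :: fsm (-1) ([0,0,0,0,0,0,0,0,-1,1] : Fm) :: ([0,0,0,0,-2,0,0,0,1,0] : Fm) :: fsm (-1) ([0,0,0,0,-1,-1,0,0,-1,1] : Fm) :: K2O12.C0) t = true := ⟨_, c0⟩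
end K2O12M10100
namespace K2O12M10101
theorem top : ∃ t, chkT (fsm (-1) ([-1,4,4,0,0,0,0,0,0,0] : Fm) :: ([0,0,0,0,-1,1,0,0,0,0] : Fm) :: fsm (-1) ([0,0,0,0,0,0,0,0,-1,1] : Fm) :: ([0,0,0,0,-2,0,0,0,1,0] : Fm) :: fsm (-1) ([0,0,0,0,-1,-1,0,0,-1,1] : Fm) :: K2O12.C0) t = true := ⟨_, c0⟩
end K2O12M10101
namespace K2O12M10110
theorem top : ∃ t, chkT (([-1,4,4,0,0,0,0,0,0,0] : Fm) :: fsm (-1) ([0,0,0,0,-1,1,0,0,0,0] : Fm) :: fsm (-1) ([0,0,0,0,0,0,0,0,-1,1] : Fm) :: ([0,0,0,0,-2,0,0,0,1,0] : Fm) :: fsm (-1) ([0,0,0,0,-1,-1,0,0,-1,1] : Fm) :: K2O12.C0) t = true := ⟨_, c0⟩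
end K2O12M10110
namespace K2O12M10111
theorem top : ∃ t, chkT (fsm (-1) ([-1,4,4,0,0,0,0,0,0,0] : Fm) :: fsm (-1) ([0,0,0,0,-1,1,0,0,0,0] : Fm) :: fsm (-1) ([0,0,0,0,0,0,0,0,-1,1] : Fm) :: ([0,0,0,0,-2,0,0,0,1,0] : Fm) :: fsm (-1) ([0,0,0,0,-1,-1,0,0,-1,1] : Fm) :: K2O12.C0) t = true := ⟨_, c0⟩
end K2O12M10111
def K2O12P10 := (splE (splE (splE K2O12M10000.top K2O12M10001.top) (splE K2O12M10010.top K2O12M10011.top)) (splE (splE K2O12M10100.top K2O12M10101.top) (splE K2O12M10110.top K2O12M10111.top)))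

end Vale.Agent.P235
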